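import Mathlib

/-!
Row 264 (S0402), PART B (Theorem B: fat wedges by Bishop discs), INTERFACE (helper747).

The Bishop equation is solved on the finite cycle `ZMod (2*M+1)` (polynomial discs), see the
interface note of helper747 on row 264.

* `nd M j`       : the node `exp (2 π i j / (2M+1))`.
* `cf f n`       : Fourier coefficient `(1/(2M+1)) ∑ j, f j * conj (nd j) ^ n`.
* `pd f ζ`       : polynomial `cf f 0 + 2 ∑_{n=1}^M cf f n ζ^n` (real part at the nodes = `f`).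
* `cj f j`       : discrete conjugate function `= Im (pd f (nd j))`.
* `l2 f`         : normalised `ℓ²` norm of a vector valued function.
* `BisT`, `BisE` : what the two modules deliver;  `ThmB` : Theorem B.
-/

set_option autoImplicit false

open Topology Filter Set

namespace Crest.Agent.R264.Bsh

/-- node `exp (2 π i j / (2 M + 1))` -/
noncomputable def nd (M : ℕ) (j : ZMod (2 * M + 1)) : ℂ := ZMod.stdAddChar j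

/-- Fourier coefficient -/
noncomputable def cf {M : ℕ} (f : ZMod (2 * M + 1) → ℝ) (n : ℕ) : ℂ :=
  (∑ j, (f j : ℂ) * (starRingEnd ℂ) (nd M j) ^ n) / (2 * M + 1)

/-- the polynomial with real part `f` at the nodes -/
noncomputable def pd {M : ℕ} (f : ZMod (2 * M + 1) → ℝ) (ζ : ℂ) : ℂ :=
  cf f 0 + 2 * ∑ n ∈ Finset.Icc 1 M, cf f n * ζ ^ n

/-- discrete conjugate function -/
noncomputable def cj {M : ℕ} (f : ZMod (2 * M + 1) → ℝ) (j : ZMod (2 * M + 1)) : ℝ :=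
  (pd f (nd M j)).im

/-- normalised `ℓ²` norm of a scalar function on the nodes -/
noncomputable def l2s {M : ℕ} (f : ZMod (2 * M + 1) → ℝ) : ℝ :=
  Real.sqrt ((∑ j, f j ^ 2) / (2 * M + 1))

/-- normalised `ℓ²` norm of a vector valued function on the nodes -/
noncomputable def l2 {M k : ℕ} (f : ZMod (2 * M + 1) → Fin k → ℝ) : ℝ :=
  Real.sqrt ((∑ j, ∑ i, f j i ^ 2) / (2 * M + 1))

/-- Euclidean norm on `Fin k → ℝ` -/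
noncomputable def eu {k : ℕ} (v : Fin k → ℝ) : ℝ := Real.sqrt (∑ i, v i ^ 2)

/-- coordinatewise conjugate function -/
noncomputable def cjv {M k : ℕ} (V : ZMod (2 * M + 1) → Fin k → ℝ) (j : ZMod (2 * M + 1)) :
    Fin k → ℝ := fun i => cj (fun j' => V j' i) j

/-- coordinatewise polynomial -/
noncomputable def pdv {M k : ℕ} (V : ZMod (2 * M + 1) → Fin k → ℝ) (ζ : ℂ) : Fin k → ℂ :=
  fun i => pd (fun j' => V j' i) ζ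

/-- MODULE BIS-T (scalar, helper464). -/
structure BisT : Prop where
  /-- additivity (real scalars: `smul`) -/
  pd_add : ∀ {M : ℕ} (f g : ZMod (2 * M + 1) → ℝ) (ζ : ℂ), pd (f + g) ζ = pd f ζ + pd g ζ
  pd_smul : ∀ {M : ℕ} (c : ℝ) (f : ZMod (2 * M + 1) → ℝ) (ζ : ℂ), pd (c • f) ζ = c * pd f ζ
  /-- constants -/
  pd_const : ∀ {M : ℕ} (c : ℝ) (ζ : ℂ), pd (fun _ : ZMod (2 * M + 1) => c) ζ = c
  /-- mean value -/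
  pd_zero : ∀ {M : ℕ} (f : ZMod (2 * M + 1) → ℝ),
    pd f 0 = ((∑ j, f j) / (2 * M + 1) : ℝ)
  /-- inversion -/
  re_pd : ∀ {M : ℕ} (f : ZMod (2 * M + 1) → ℝ) (j : ZMod (2 * M + 1)), (pd f (nd M j)).re = f j
  /-- contraction -/
  cj_l2 : ∀ {M : ℕ} (f : ZMod (2 * M + 1) → ℝ), ∑ j, cj f j ^ 2 ≤ ∑ j, f j ^ 2
  /-- translation -/
  cj_shift : ∀ {M : ℕ} (f : ZMod (2 * M + 1) → ℝ) (a j : ZMod (2 * M + 1)),
    cj (fun j' : ZMod (2 * M + 1) => f (j' + a)) j = cj f (j + a)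
  /-- Hölder 1/2 bound on the closed disc -/
  holder : ∃ C : ℝ, 0 < C ∧ ∀ {M : ℕ} (f : ZMod (2 * M + 1) → ℝ) (ζ ζ' : ℂ), ‖ζ‖ ≤ 1 → ‖ζ'‖ ≤ 1 →
    ‖pd f ζ - pd f ζ'‖ ≤
      C * ((2 * M + 1) * l2s (fun j : ZMod (2 * M + 1) => f (j + 1) - f j)) * Real.sqrt ‖ζ - ζ'‖
  /-- Agmon bound -/
  agmon : ∃ C : ℝ, 0 < C ∧ ∀ {M : ℕ} (f : ZMod (2 * M + 1) → ℝ) (ζ : ℂ) (τ : ℝ), ‖ζ‖ ≤ 1 →
    0 < τ → τ ≤ 1 → ‖pd f ζ - pd f 0‖ ≤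
      C * (l2s f / Real.sqrt τ +
        (2 * M + 1) * l2s (fun j : ZMod (2 * M + 1) => f (j + 1) - f j) * Real.sqrt τ)

/-- MODULE BIS-E (helper127): the Bishop equation as a contraction. -/
structure BisE : Prop where
  exists_sol : ∀ {M k : ℕ} (Φ : ZMod (2 * M + 1) → (Fin k → ℝ) → (Fin k → ℝ)) (q : ℝ)
    (u0 : Fin k → ℝ), 0 ≤ q → q < 1 → (∀ j u u', eu (Φ j u - Φ j u') ≤ q * eu (u - u')) →
    ∃ V : ZMod (2 * M + 1) → Fin k → ℝ, ∀ j, V j = Φ j (u0 - cjv V j)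
  /-- difference estimate; `V = V'` (uniqueness) is the case `δ = 0`. -/
  diff : ∀ {M k : ℕ} (Φ Φ' : ZMod (2 * M + 1) → (Fin k → ℝ) → (Fin k → ℝ)) (q : ℝ)
    (u0 u0' : Fin k → ℝ) (V V' : ZMod (2 * M + 1) → Fin k → ℝ) (δ : ZMod (2 * M + 1) → ℝ),
    0 ≤ q → q < 1 → (∀ j u u', eu (Φ j u - Φ j u') ≤ q * eu (u - u')) →
    (∀ j, V j = Φ j (u0 - cjv V j)) → (∀ j, V' j = Φ' j (u0' - cjv V' j)) →
    (∀ j, eu (Φ j (u0' - cjv V' j) - Φ' j (u0' - cjv V' j)) ≤ δ j) →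
    l2 (V - V') ≤ (q * eu (u0 - u0') + l2s δ) / (1 - q)
  /-- `ℓ²` size of `u - u0 = - cjv V`, differences, triangle inequalities -/
  cjv_le : ∀ {M k : ℕ} (V : ZMod (2 * M + 1) → Fin k → ℝ), l2 (cjv V) ≤ l2 V
  cjv_sub : ∀ {M k : ℕ} (V W : ZMod (2 * M + 1) → Fin k → ℝ), cjv (V - W) = cjv V - cjv W
  /-- shift difference (regularity): if `Φ_j` is `q`-Lipschitz and varies by `δ j` from `j` to
  `j+1` along the solution, then `l2 (V(·+1) - V) ≤ l2s δ / (1 - q)`. -/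
  shift : ∀ {M k : ℕ} (Φ : ZMod (2 * M + 1) → (Fin k → ℝ) → (Fin k → ℝ)) (q : ℝ)
    (u0 : Fin k → ℝ) (V : ZMod (2 * M + 1) → Fin k → ℝ) (δ : ZMod (2 * M + 1) → ℝ),
    0 ≤ q → q < 1 → (∀ j u u', eu (Φ j u - Φ j u') ≤ q * eu (u - u')) →
    (∀ j, V j = Φ j (u0 - cjv V j)) →
    (∀ j, eu (Φ (j + 1) (u0 - cjv V j) - Φ j (u0 - cjv V j)) ≤ δ j) →
    l2 (fun j : ZMod (2 * M + 1) => V (j + 1) - V j) ≤ l2s δ / (1 - q)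

/-- The Kontinuitätssatz hypothesis of Theorem B for `UU` in the polydisc of radius `ρ₁`
(only families of entire discs, jointly continuous, with constant `z`-component are used). -/
def KSHyp {Z : Type*} [NormedAddCommGroup Z] [NormedSpace ℂ Z] {k : ℕ}
    (UU : Set (Z × (Fin k → ℂ))) (ρ₁ : ℝ) : Prop :=
  ∀ (z₀ : Z) (A : ℝ → ℂ → (Fin k → ℂ)), ‖z₀‖ < ρ₁ →
    Continuous (fun p : ℝ × ℂ => A p.1 p.2) → (∀ l, Differentiable ℂ (A l)) →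
    (∀ l ∈ Icc (0 : ℝ) 1, ∀ ζ ∈ Metric.closedBall (0 : ℂ) 1, ‖A l ζ‖ < ρ₁) →
    ∀ Q : Set (Z × (Fin k → ℂ)), IsCompact Q → Q ⊆ UU →
    (∀ l ∈ Icc (0 : ℝ) 1, ∀ ζ ∈ Metric.sphere (0 : ℂ) 1, (z₀, A l ζ) ∈ Q) →
    (∀ ζ ∈ Metric.closedBall (0 : ℂ) 1, (z₀, A 0 ζ) ∈ UU) →
    ∀ ζ ∈ Metric.closedBall (0 : ℂ) 1, (z₀, A 1 ζ) ∈ UU

/-- THEOREM B (note 11285).  Sup norms everywhere; `Z = ℂ^m` or any finite-dimensional space;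
`w = u + i v ∈ ℂ^k`. -/
def ThmB : Prop :=
  ∀ {Z : Type} [NormedAddCommGroup Z] [NormedSpace ℂ Z] [ProperSpace Z] {k : ℕ}
    (UU : Set (Z × (Fin k → ℂ))) (H : Z → (Fin k → ℝ) → (Fin k → ℝ))
    (vv : Z → (Fin k → ℝ) → ℝ → (Fin k → ℝ)) (om : ℝ → ℝ) (ρ s₀ C₀ ρ₁ : ℝ),
    IsOpen UU → 0 < ρ → 0 < s₀ → 0 < ρ₁ → 0 ≤ C₀ →
    H 0 0 = 0 →
    (∀ z z' u u', ‖z‖ < ρ → ‖z'‖ < ρ → ‖u‖ < ρ → ‖u'‖ < ρ →
      ‖H z u - H z' u'‖ ≤ C₀ * (‖z‖ + ‖z'‖ + ‖u‖ + ‖u'‖) * (‖z - z'‖ + ‖u - u'‖)) →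
    (∀ z u, ‖z‖ < ρ → ‖u‖ < ρ → vv z u 0 = 0) →
    (∀ z z' u u' s, ‖z‖ < ρ → ‖z'‖ < ρ → ‖u‖ < ρ → ‖u'‖ < ρ → 0 ≤ s → s ≤ s₀ →
      ‖vv z u s - vv z' u' s‖ ≤ om s * (‖z - z'‖ + ‖u - u'‖)) →
    (∀ s s', 0 ≤ s → s ≤ s' → s' ≤ s₀ → om s ≤ om s') → Tendsto om (𝓝[>] 0) (𝓝 0) →
    (∀ z u s s', ‖z‖ < ρ → ‖u‖ < ρ → 0 ≤ s → s ≤ s₀ → 0 ≤ s' → s' ≤ s₀ →
      ‖vv z u s - vv z u s'‖ ≤ C₀ * |s - s'|) →
    (∀ z u s, ‖z‖ < ρ → ‖u‖ < ρ → 0 < s → s ≤ s₀ →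
      (z, fun i => (u i : ℂ) + Complex.I * ((H z u i + vv z u s i : ℝ) : ℂ)) ∈ UU) →
    KSHyp UU ρ₁ →
    ∃ c C t₀ : ℝ, 0 < c ∧ 0 < t₀ ∧ ∀ t, 0 < t → t < t₀ → ∃ e : Fin k → ℝ, ‖e‖ ≤ C ∧
      ∀ (z : Z) (w : Fin k → ℂ), ‖z‖ < c * Real.sqrt t →
        ‖w - (fun i => Complex.I * (t * (e i : ℂ)))‖ < c * t → (z, w) ∈ UU

end Crest.Agent.R264.Bsh
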