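import Mathlib

/-!
Row 264, Part A (note 11386), nodes A6 + A7 (helper550): definitions for the JOINT LIMIT and the
INVARIANCE of the limit domain `OM*`.

* `E m k = ℂ^m × ℂ^k` (sup norm), `P m k = ℂ^m × ℝ^k` (parameters of the graph of `Ht`).
* `sig Ht a = (z_a, u_a + i Ht(a))`, `Amap Ht a` = the affine normalisation `A_a` of note 11386 A4
  (written with the derivative `fderiv ℝ Ht a` through `alpha` and `beta`).
* `dil s (z,w) = (s z, s² w)`, `Tmap Ht a ε = dil ε⁻¹ ∘ Amap Ht a`.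
* `Far UU Ht a ε x r` : no point outside `UU` is mapped by `T^a_ε` into `ball x r`
  (for `ε > 0`, `a` small this says `ball x r ⊆ T^a_ε(UU)`), see `far_iff`.
* `OMs UU'` : the limit domain of `UU' = Amap Ht a0 '' UU`.
* `Lmap DD b t` : the affine maps `L_{b,t}`.
-/

set_option autoImplicit false

open Topology Filter Set Metric Complex

namespace Crest.Agent.R264.JL

variable {m k : ℕ}

/-- complex coordinates `(z,w)` -/
abbrev E (m k : ℕ) := (Fin m → ℂ) × (Fin k → ℂ)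

/-- parameters `(z,u)` of the graph `w = u + i Ht(z,u)` -/
abbrev P (m k : ℕ) := (Fin m → ℂ) × (Fin k → ℝ)

/-- `ℝ^k → ℂ^k` -/
noncomputable def ofR : (Fin k → ℝ) →L[ℝ] (Fin k → ℂ) :=
  ContinuousLinearMap.pi fun i => Complex.ofRealCLM ∘L ContinuousLinearMap.proj i

/-- real part `ℂ^k → ℝ^k` -/
noncomputable def reV : (Fin k → ℂ) →L[ℝ] (Fin k → ℝ) :=
  ContinuousLinearMap.pi fun i => Complex.reCLM ∘L ContinuousLinearMap.proj i

/-- imaginary part `ℂ^k → ℝ^k` -/
noncomputable def imV : (Fin k → ℂ) →L[ℝ] (Fin k → ℝ) :=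
  ContinuousLinearMap.pi fun i => Complex.imCLM ∘L ContinuousLinearMap.proj i

@[simp] lemma ofR_apply (u : Fin k → ℝ) (i : Fin k) : ofR u i = (u i : ℂ) := rfl
@[simp] lemma reV_apply (w : Fin k → ℂ) (i : Fin k) : reV w i = (w i).re := rfl
@[simp] lemma imV_apply (w : Fin k → ℂ) (i : Fin k) : imV w i = (w i).im := rfl

/-- the `∂_z`-part: `D(ζ,0) = 2 Re (alpha D ζ)`. -/
noncomputable def alphaL (D : P m k →L[ℝ] (Fin k → ℝ)) : (Fin m → ℂ) →ₗ[ℂ] (Fin k → ℂ) where
  toFun ζ := (1 / 2 : ℂ) • (ofR (D (ζ, 0)) - I • ofR (D (I • ζ, 0)))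
  map_add' x y := by
    have h1 : ((x + y, 0) : P m k) = (x, 0) + (y, 0) := by simp
    have h2 : ((I • (x + y), 0) : P m k) = (I • x, 0) + (I • y, 0) := by simp
    rw [h1, h2, map_add, map_add, map_add, map_add]
    module
  map_smul' c x := by
    have h1 : ((c • x, 0) : P m k) = c.re • ((x, 0) : P m k) + c.im • ((I • x, 0) : P m k) := by
      refine Prod.ext ?_ (by simp)
      funext i
      simp only [Prod.fst_add, Prod.smul_fst, Pi.add_apply, Pi.smul_apply, smul_eq_mul,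
        Complex.real_smul]
      conv_lhs => rw [← Complex.re_add_im c]
      ring
    have h2 : ((I • c • x, 0) : P m k) = c.re • ((I • x, 0) : P m k) - c.im • ((x, 0) : P m k) := by
      refine Prod.ext ?_ (by simp)
      funext i
      simp only [Prod.fst_sub, Prod.smul_fst, Pi.sub_apply, Pi.smul_apply, smul_eq_mul,
        Complex.real_smul]
      conv_lhs => rw [← Complex.re_add_im c]
      linear_combination (c.im * x i) * Complex.I_sq
    rw [h1, h2]
    funext i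
    simp only [map_add, map_sub, map_smul, Pi.smul_apply, Pi.sub_apply, Pi.add_apply, ofR_apply,
      smul_eq_mul, Complex.real_smul, RingHom.id_apply]
    conv_rhs => rw [← Complex.re_add_im c]
    linear_combination ((c.im : ℂ) * (D (I • x, 0) i : ℂ) / 2) * Complex.I_sq

/-- the `∂_z`-part as a continuous linear map. -/
noncomputable def alpha (D : P m k →L[ℝ] (Fin k → ℝ)) : (Fin m → ℂ) →L[ℂ] (Fin k → ℂ) :=
  LinearMap.toContinuousLinearMap (alphaL D)

lemma alpha_apply (D : P m k →L[ℝ] (Fin k → ℝ)) (ζ : Fin m → ℂ) :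
    alpha D ζ = (1 / 2 : ℂ) • (ofR (D (ζ, 0)) - I • ofR (D (I • ζ, 0))) := rfl

/-- the complexification of the `∂_u`-part. -/
noncomputable def betaL (D : P m k →L[ℝ] (Fin k → ℝ)) : (Fin k → ℂ) →ₗ[ℂ] (Fin k → ℂ) where
  toFun w := ofR (D (0, reV w)) + I • ofR (D (0, imV w))
  map_add' x y := by
    have h1 : ((0, reV (x + y)) : P m k) = (0, reV x) + (0, reV y) := by simp
    have h2 : ((0, imV (x + y)) : P m k) = (0, imV x) + (0, imV y) := by simp
    rw [h1, h2, map_add, map_add, map_add, map_add]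
    module
  map_smul' c x := by
    have h1 : ((0, reV (c • x)) : P m k)
        = c.re • ((0, reV x) : P m k) - c.im • ((0, imV x) : P m k) := by
      refine Prod.ext (by simp) ?_
      funext i
      simp
    have h2 : ((0, imV (c • x)) : P m k)
        = c.re • ((0, imV x) : P m k) + c.im • ((0, reV x) : P m k) := by
      refine Prod.ext (by simp) ?_
      funext i
      simp
    rw [h1, h2]
    funext i
    simp only [map_add, map_sub, map_smul, Pi.smul_apply, Pi.sub_apply, Pi.add_apply, ofR_apply,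
      smul_eq_mul, Complex.real_smul, RingHom.id_apply]
    conv_rhs => rw [← Complex.re_add_im c]
    linear_combination (-(c.im : ℂ) * (D (0, imV x) i : ℂ)) * Complex.I_sq

/-- the complexification of the `∂_u`-part as a continuous linear map. -/
noncomputable def beta (D : P m k →L[ℝ] (Fin k → ℝ)) : (Fin k → ℂ) →L[ℂ] (Fin k → ℂ) :=
  LinearMap.toContinuousLinearMap (betaL D)

lemma beta_apply (D : P m k →L[ℝ] (Fin k → ℝ)) (w : Fin k → ℂ) :
    beta D w = ofR (D (0, reV w)) + I • ofR (D (0, imV w)) := rfl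

/-- the point of the graph over `a` -/
noncomputable def sig (Ht : P m k → (Fin k → ℝ)) (a : P m k) : E m k :=
  (a.1, ofR a.2 + I • ofR (Ht a))

/-- the affine normalisation `A_a` -/
noncomputable def Amap (Ht : P m k → (Fin k → ℝ)) (a : P m k) (p : E m k) : E m k :=
  (p.1 - a.1,
    (p.2 - (sig Ht a).2) - I • beta (fderiv ℝ Ht a) (p.2 - (sig Ht a).2)
      - (2 * I) • alpha (fderiv ℝ Ht a) (p.1 - a.1))

/-- the parabolic dilation `(z,w) ↦ (s z, s² w)` -/
noncomputable def dil (s : ℝ) (p : E m k) : E m k := (s • p.1, (s ^ 2) • p.2)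

/-- `T^a_ε = Dil_{1/ε} ∘ A_a` -/
noncomputable def Tmap (Ht : P m k → (Fin k → ℝ)) (a : P m k) (ε : ℝ) (p : E m k) : E m k :=
  dil ε⁻¹ (Amap Ht a p)

/-- `ball x r ⊆ T^a_ε(UU)`, in the form "no point outside `UU` is mapped into the ball" -/
def Far (UU : Set (E m k)) (Ht : P m k → (Fin k → ℝ)) (a : P m k) (ε : ℝ) (x : E m k) (r : ℝ) :
    Prop := ∀ p, p ∉ UU → r ≤ dist (Tmap Ht a ε p) x

/-- the limit domain `OM*` of `UU'` under the dilations `T_ε = Dil_{1/ε}`;
note `{y | dil ε y ∈ UU'} = T_ε(UU')`. -/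
def OMs (UU' : Set (E m k)) : Set (E m k) :=
  {x | ∃ r > 0, ∀ᶠ ε in 𝓝[>] (0 : ℝ), ball x r ⊆ {y | dil ε y ∈ UU'}}

/-- the affine maps `L_{b,t}` -/
noncomputable def Lmap (DD : (Fin m → ℂ) →L[ℝ] ((Fin m → ℂ) →L[ℂ] (Fin k → ℂ)))
    (b : Fin m → ℂ) (t : Fin k → ℝ) (p : E m k) : E m k :=
  (p.1 - b, p.2 - ofR t - I • ofR (reV (DD b b)) - (2 * I) • DD b (p.1 - b))

/-- THEOREM A6 + A7 (statement; proof in `R264/JLMain.lean`). -/
def Main : Prop :=
  ∀ (m k : ℕ) (Ht : P m k → (Fin k → ℝ)) (O : Set (P m k)) (UU : Set (E m k)),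
    IsOpen O → O.Nonempty → ContDiffOn ℝ 2 Ht O → (∀ a ∈ O, ‖fderiv ℝ Ht a‖ ≤ 1 / 4) →
    IsOpen UU →
    (∀ a ∈ O, ∀ (x : E m k) (r : ℝ), 0 < r →
      (∀ᶠ ε in 𝓝[>] (0 : ℝ), Far UU Ht a ε x r) ∨ (∀ᶠ ε in 𝓝[>] (0 : ℝ), ¬ Far UU Ht a ε x r)) →
    ∃ a0 ∈ O, ∃ DD : (Fin m → ℂ) →L[ℝ] ((Fin m → ℂ) →L[ℂ] (Fin k → ℂ)),
      (∀ b t, Lmap DD b t '' OMs (Amap Ht a0 '' UU) = OMs (Amap Ht a0 '' UU)) ∧
      (∀ (x : E m k) (r : ℝ), 0 < r →
        (∃ᶠ ε in 𝓝[>] (0 : ℝ), ball x r ⊆ {y | dil ε y ∈ Amap Ht a0 '' UU}) →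
        x ∈ OMs (Amap Ht a0 '' UU))

end Crest.Agent.R264.JL
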