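import Mathlib

/-!
# Row 264, module PK (helper318), part 1: peak points

`K ⊆ ℂ^N` compact, `g` a continuous function; `QP N` = coefficients of complex polynomials of
degree `≤ 2`; `Fg g q x = Re (g x * q x)`, `Mg g K q = max over K`.  If `Mg g K` is differentiable
at `q` and `Mg g K q > 0` then the maximum point is unique, equal to `peak g K q`, and the
derivative of `Mg g K` at `q` is `q' ↦ Fg g q' (peak g K q)`.
-/

set_option autoImplicit false

open Set Filter Topology

noncomputable section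

namespace Crest.Agent.R264.Pk

/-- coefficients of complex polynomials of degree `≤ 2` on `ℂ^N` -/
abbrev QP (N : ℕ) := ℂ × (Fin N → ℂ) × (Fin N → Fin N → ℂ)

variable {N : ℕ}

/-- evaluation of a quadratic polynomial -/
def qev (q : QP N) (x : Fin N → ℂ) : ℂ :=
  q.1 + ∑ i, q.2.1 i * x i + ∑ i, ∑ j, q.2.2 i j * (x i * x j)

/-- the function `Re (g q)` -/
def Fg (g : (Fin N → ℂ) → ℂ) (q : QP N) (x : Fin N → ℂ) : ℝ := (g x * qev q x).re

/-- the maximum of `Re (g q)` over `K` -/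
def Mg (g : (Fin N → ℂ) → ℂ) (K : Set (Fin N → ℂ)) (q : QP N) : ℝ := sSup (Fg g q '' K)

/-! ### linearity in `q` -/

lemma qev_add (q q' : QP N) (x : Fin N → ℂ) : qev (q + q') x = qev q x + qev q' x := by
  simp only [qev, Prod.fst_add, Prod.snd_add, Pi.add_apply, add_mul, Finset.sum_add_distrib]
  ring

lemma qev_smul (c : ℂ) (q : QP N) (x : Fin N → ℂ) : qev (c • q) x = c * qev q x := by
  simp only [qev, Prod.smul_fst, Prod.smul_snd, Pi.smul_apply, smul_eq_mul, mul_add,
    Finset.mul_sum, mul_assoc]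

lemma qev_rsmul (c : ℝ) (q : QP N) (x : Fin N → ℂ) : qev (c • q) x = c * qev q x := by
  have : c • q = (c : ℂ) • q := rfl
  rw [this, qev_smul]

lemma Fg_add (g : (Fin N → ℂ) → ℂ) (q q' : QP N) (x : Fin N → ℂ) :
    Fg g (q + q') x = Fg g q x + Fg g q' x := by
  simp only [Fg, qev_add, mul_add, Complex.add_re]

lemma Fg_rsmul (g : (Fin N → ℂ) → ℂ) (c : ℝ) (q : QP N) (x : Fin N → ℂ) :
    Fg g (c • q) x = c * Fg g q x := by
  simp only [Fg, qev_rsmul]
  rw [← mul_assoc, mul_comm (g x), mul_assoc, Complex.re_ofReal_mul]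

/-- the constant polynomial -/
def qc (c : ℂ) : QP N := (c, 0, 0)
/-- the coordinate `z_j` -/
def qz (j : Fin N) : QP N := (0, Pi.single j 1, 0)

@[simp] lemma qev_qc (c : ℂ) (x : Fin N → ℂ) : qev (qc c : QP N) x = c := by simp [qev, qc]
@[simp] lemma qev_qz (j : Fin N) (x : Fin N → ℂ) : qev (qz j) x = x j := by
  simp [qev, qz, Pi.single_apply]

lemma continuous_qev : Continuous (fun p : QP N × (Fin N → ℂ) => qev p.1 p.2) := by
  unfold qev; fun_prop

lemma continuous_Fg {g : (Fin N → ℂ) → ℂ} (hg : Continuous g) :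
    Continuous (fun p : QP N × (Fin N → ℂ) => Fg g p.1 p.2) := by
  unfold Fg
  exact Complex.continuous_re.comp ((hg.comp continuous_snd).mul continuous_qev)

lemma continuous_Fg_right {g : (Fin N → ℂ) → ℂ} (hg : Continuous g) (q : QP N) :
    Continuous (Fg g q) := (continuous_Fg hg).comp (by fun_prop : Continuous fun x => (q, x))

section max

variable {g : (Fin N → ℂ) → ℂ} {K : Set (Fin N → ℂ)} (hg : Continuous g) (hK : IsCompact K)

include hg hK

lemma bddAbove_Fg (q : QP N) : BddAbove (Fg g q '' K) :=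
  (hK.image (continuous_Fg_right hg q)).bddAbove

lemma Fg_le_Mg (q : QP N) {x : Fin N → ℂ} (hx : x ∈ K) : Fg g q x ≤ Mg g K q :=
  le_csSup (bddAbove_Fg hg hK q) (mem_image_of_mem _ hx)

lemma exists_Mg (hne : K.Nonempty) (q : QP N) : ∃ x ∈ K, Fg g q x = Mg g K q := by
  obtain ⟨x, hx, h⟩ := (hK.image (continuous_Fg_right hg q)).sSup_mem (hne.image _)
  exact ⟨x, hx, h⟩

/-- `M` is Lipschitz on bounded sets, in particular continuous -/
lemma continuous_Mg (hne : K.Nonempty) : Continuous (Mg g K) := by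
  exact hK.continuous_sSup (f := fun q x => Fg g q x) (γ := QP N) (continuous_Fg hg)

/-- derivative of the maximum -/
lemma fderiv_Mg {q : QP N} (hd : DifferentiableAt ℝ (Mg g K) q) {x : Fin N → ℂ} (hx : x ∈ K)
    (hmax : Fg g q x = Mg g K q) (q' : QP N) : fderiv ℝ (Mg g K) q q' = Fg g q' x := by
  -- `t ↦ M (q + t q') - F (q + t q') x` has a minimum at `0`
  have h1 : HasDerivAt (fun t : ℝ => Mg g K (q + t • q')) (fderiv ℝ (Mg g K) q q') 0 := by
    have h2 : HasFDerivAt (Mg g K) (fderiv ℝ (Mg g K) q) (q + (0 : ℝ) • q') := by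
      rw [zero_smul, add_zero]; exact hd.hasFDerivAt
    have h3 : HasDerivAt (fun t : ℝ => q + t • q') q' 0 := by
      simpa using ((hasDerivAt_id (0 : ℝ)).smul_const q').const_add q
    exact h2.comp_hasDerivAt 0 h3
  have h4 : HasDerivAt (fun t : ℝ => Fg g q x + t * Fg g q' x) (Fg g q' x) 0 := by
    simpa using ((hasDerivAt_id (0 : ℝ)).mul_const (Fg g q' x)).const_add (Fg g q x)
  have h5 := h1.sub h4
  have hmin : IsLocalMin (fun t : ℝ => Mg g K (q + t • q') - (Fg g q x + t * Fg g q' x)) 0 := by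
    refine Eventually.of_forall fun t => ?_
    have h6 := Fg_le_Mg hg hK (q + t • q') hx
    rw [Fg_add, Fg_rsmul] at h6
    simp only [zero_smul, add_zero, zero_mul]
    rw [hmax] at h6 ⊢
    linarith
  have := hmin.hasDerivAt_eq_zero h5
  linarith

end max

/-- the complexified derivative of `M` -/
def dM (g : (Fin N → ℂ) → ℂ) (K : Set (Fin N → ℂ)) (q q' : QP N) : ℂ :=
  (fderiv ℝ (Mg g K) q q' : ℂ) - Complex.I * (fderiv ℝ (Mg g K) q (Complex.I • q') : ℂ)

/-- the peak point -/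
def peak (g : (Fin N → ℂ) → ℂ) (K : Set (Fin N → ℂ)) (q : QP N) : Fin N → ℂ :=
  fun j => dM g K q (qz j) / dM g K q (qc 1)

section peaks

variable {g : (Fin N → ℂ) → ℂ} {K : Set (Fin N → ℂ)} (hg : Continuous g) (hK : IsCompact K)

include hg hK

lemma dM_eq {q : QP N} (hd : DifferentiableAt ℝ (Mg g K) q) {x : Fin N → ℂ} (hx : x ∈ K)
    (hmax : Fg g q x = Mg g K q) (q' : QP N) : dM g K q q' = g x * qev q' x := by
  unfold dM
  rw [fderiv_Mg hg hK hd hx hmax, fderiv_Mg hg hK hd hx hmax]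
  unfold Fg
  rw [qev_smul]
  apply Complex.ext
  · simp
  · simp
    ring

omit hg hK in
lemma g_ne_zero {q : QP N} {x : Fin N → ℂ} (h : 0 < Fg g q x) : g x ≠ 0 := by
  intro h0
  unfold Fg at h
  rw [h0] at h
  simp at h

lemma eq_peak {q : QP N} (hd : DifferentiableAt ℝ (Mg g K) q) (hpos : 0 < Mg g K q)
    {x : Fin N → ℂ} (hx : x ∈ K) (hmax : Fg g q x = Mg g K q) : x = peak g K q := by
  have hgx : g x ≠ 0 := g_ne_zero (q := q) (by rw [hmax]; exact hpos)
  funext j
  unfold peak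
  rw [dM_eq hg hK hd hx hmax, dM_eq hg hK hd hx hmax, qev_qz, qev_qc, mul_one]
  field_simp

lemma peak_spec (hne : K.Nonempty) {q : QP N} (hd : DifferentiableAt ℝ (Mg g K) q)
    (hpos : 0 < Mg g K q) : peak g K q ∈ K ∧ Fg g q (peak g K q) = Mg g K q := by
  obtain ⟨x, hx, hmax⟩ := exists_Mg hg hK hne q
  rw [← eq_peak hg hK hd hpos hx hmax]
  exact ⟨hx, hmax⟩

lemma lt_peak {q : QP N} (hd : DifferentiableAt ℝ (Mg g K) q)
    (hpos : 0 < Mg g K q) {x : Fin N → ℂ} (hx : x ∈ K) (hxp : x ≠ peak g K q) :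
    Fg g q x < Mg g K q := by
  refine lt_of_le_of_ne (Fg_le_Mg hg hK q hx) fun h => hxp ?_
  exact eq_peak hg hK hd hpos hx h

lemma g_peak_ne_zero (hne : K.Nonempty) {q : QP N} (hd : DifferentiableAt ℝ (Mg g K) q)
    (hpos : 0 < Mg g K q) : g (peak g K q) ≠ 0 := by
  have h := peak_spec hg hK hne hd hpos
  exact g_ne_zero (q := q) (by rw [h.2]; exact hpos)

/-- smoothness of the peak -/
theorem contDiffOn_peak (hne : K.Nonempty) {W : Set (QP N)} (hW : IsOpen W) {n : ℕ∞}
    (hM : ContDiffOn ℝ (n + 1) (Mg g K) W) (hpos : ∀ q ∈ W, 0 < Mg g K q) :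
    ContDiffOn ℝ n (peak g K) W := by
  have hd : ContDiffOn ℝ n (fderiv ℝ (Mg g K)) W := hM.fderiv_of_isOpen hW le_rfl
  have hdiff : ∀ q ∈ W, DifferentiableAt ℝ (Mg g K) q := fun q hq =>
    (hM.differentiableOn (by simp)).differentiableAt (hW.mem_nhds hq)
  have h1 : ∀ q' : QP N, ContDiffOn ℝ n (fun q => dM g K q q') W := by
    intro q'
    unfold dM
    have h2 : ∀ v : QP N, ContDiffOn ℝ n (fun q => (fderiv ℝ (Mg g K) q v : ℂ)) W := fun v =>
      Complex.ofRealCLM.contDiff.comp_contDiffOn (hd.clm_apply contDiffOn_const)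
    exact (h2 q').sub (contDiffOn_const.mul (h2 _))
  rw [contDiffOn_pi]
  intro j
  unfold peak
  refine (h1 _).mul ((h1 _).inv fun q hq => ?_)
  have h3 := peak_spec hg hK hne (hdiff q hq) (hpos q hq)
  rw [dM_eq hg hK (hdiff q hq) h3.1 h3.2, qev_qc, mul_one]
  exact g_peak_ne_zero hg hK hne (hdiff q hq) (hpos q hq)

end peaks

end Crest.Agent.R264.Pk
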