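import Crest.Agent.R264.TSDefs

/-!
Row 264 (S0402), Part A: semialgebraic subsets of an arbitrary finite-dimensional real vector
space (definition only; calculus in `R264/SAV.lean`, helper369).
-/

set_option autoImplicit false

open Set

namespace Crest.Agent.R264

/-- semialgebraic subsets of a finite-dimensional real vector space -/
def SAV {V : Type*} [AddCommGroup V] [Module ℝ V] (s : Set V) : Prop :=
  ∃ n : ℕ, ∃ e : V ≃ₗ[ℝ] (Fin n → ℝ), TS.SA (e.symm ⁻¹' s)

end Crest.Agent.R264
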