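import Crest.Agent.R264.TopAlg
import Crest.Agent.R264.CPDefs
import Crest.Agent.R264.JLDefs
import Crest.Agent.R264.SAVDefs
import Crest.Agent.R264.BshIface
import Crest.Agent.R264.Pk1

/-!
Row 264 (S0402), PART A, INTERNAL INTERFACE (helper541, captain of Part A; blueprint note 11386).

Coordinates: `EE m k = JL.E m k = ℂ^m × ℂ^k`, `P m k = ℂ^m × ℝ^k` (sup norms), `sig`, `Amap`,
`Far`, `OMs` as in `JLDefs` (helper550); `SAV` = semialgebraic subset of a finite-dimensional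
real vector space.

Nodes (each is a frozen `Prop`):
* `LemJ`       (A4, first half)  generic C-rank of algebraic functions          [914]
* `MSmooth`    (A2)  the support function is smooth on an open dense set         [219]
* `PKCalc`     (A2 + A3) calculus with maxima on strata ⟹ peaks                 [318 + 57]
* `StrataStmt` (RS + OV + A1) strata adapted to a semialgebraic set              [707, 541]
* `PKStmt`     = output of A1 + A2 + A3 (`PKData`)                                [541]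
* `CoordStmt`  (A4, second half) `PKData` + generic point ⟹ `GraphData`         [633]
* `ArcStmt`    (A5)                                                               [264]
* `FarStmt`    (A6, semialgebraic input of `JL.Main`)                             [369]
* `JL.Main`    (A6 + A7)                                                          [550]
* `CtrlStmt`   (A8)                                                               [654/868]
* `BoxStmt`    (A9, with Theorem B inside)                                        [456]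
* `ASM`        (assembly)                                                         [541 + 369]
-/

set_option autoImplicit false

open Topology Filter Set Metric Complex
open scoped ContDiff

namespace Crest.Agent.R264.AI

open Crest.AlgGeometry.Semialg
open Crest.Agent.R264.JL (P sig Amap ofR Far OMs)

/-! ### quadratic polynomials, peaks -/

/-- coefficients `(c, b, a)` of the polynomials of degree `≤ 2` on `ℂ^N` (a finite-dimensional
normed space): helper318's `Pk.QP N = ℂ × (Fin N → ℂ) × (Fin N → Fin N → ℂ)`. -/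
abbrev QV (N : ℕ) : Type := Pk.QP N

/-- value at `x` of the quadratic polynomial with coefficients `c` -/
noncomputable abbrev qev {N : ℕ} (c : QV N) (x : Fin N → ℂ) : ℂ := Pk.qev c x

/-- the function `g · q_c` -/
noncomputable def gq {N : ℕ} (g : MvPolynomial (Fin N) ℂ) (c : QV N) (x : Fin N → ℂ) : ℂ :=
  MvPolynomial.eval x g * Pk.qev c x

/-- the support function `M(c) = max_K Re (g q_c)` -/
noncomputable def Mfun {N : ℕ} (K : Set (Fin N → ℂ)) (g : MvPolynomial (Fin N) ℂ) (c : QV N) : ℝ :=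
  sSup ((fun x => (gq g c x).re) '' K)

/-- PEAK PACKAGE at `p ∈ K` with tangent vectors `T ⊆ ℂ^N`: there is a base polynomial `c₀` with
`Re d(g q_{c₀})(p) = 0` on `T`, and every `c` near `c₀` with `Re d(g q_c)(p) = 0` on `T` peaks
strictly at `p`. -/
def PeakAt {N : ℕ} (K : Set (Fin N → ℂ)) (g : MvPolynomial (Fin N) ℂ) (p : Fin N → ℂ)
    (T : Set (Fin N → ℂ)) : Prop :=
  ∃ (c₀ : QV N) (δ : ℝ), 0 < δ ∧ (∀ v ∈ T, (fderiv ℂ (gq g c₀) p v).re = 0) ∧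
    ∀ c : QV N, ‖c - c₀‖ < δ → (∀ v ∈ T, (fderiv ℂ (gq g c) p v).re = 0) →
      ∀ x ∈ K, x ≠ p → (gq g c x).re < (gq g c p).re

/-! ### strata -/

/-- `ε : T → S ∩ B` is a chart of `S` with inverse (the restriction of) `tS`. -/
structure IsRChart {N r : ℕ} (S : Set (Fin N → ℂ)) (tS : (Fin N → ℂ) → (Fin r → ℝ))
    (B : Set (Fin N → ℂ)) (T : Set (Fin r → ℝ)) (ε : (Fin r → ℝ) → (Fin N → ℂ)) : Prop where
  hB : IsOpen B
  hT : IsOpen T
  hε : AnalyticOnNhd ℝ ε T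
  maps : ∀ τ ∈ T, ε τ ∈ B ∧ ε τ ∈ S ∧ tS (ε τ) = τ
  back : ∀ x ∈ B, x ∈ S → tS x ∈ T ∧ ε (tS x) = x

/-- a locally closed real analytic submanifold with polynomial local coordinates (real stratum) -/
structure RStrat (N : ℕ) where
  /-- the stratum -/
  S : Set (Fin N → ℂ)
  r : ℕ
  /-- polynomial coordinates -/
  t : Fin r → MvPolynomial (Fin N ⊕ Fin N) ℝ
  lc : IsLocallyClosed S
  sa : SAV S
  /-- local charts -/
  chart : ∀ x₀ ∈ S, ∃ B T ε, x₀ ∈ B ∧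
    IsRChart S (fun x i => MvPolynomial.eval (realCoords x) (t i)) B T ε
  /-- (OV) a complex polynomial vanishing on a nonempty relatively open subset vanishes on `S` -/
  ov : ∀ f : MvPolynomial (Fin N) ℂ, ∀ O : Set (Fin N → ℂ), IsOpen O → (O ∩ S).Nonempty →
    (∀ x ∈ O ∩ S, MvPolynomial.eval x f = 0) → ∀ x ∈ S, MvPolynomial.eval x f = 0
  /-- every complex polynomial is integral over `ℂ[t]` on `S` -/
  int : ∀ f : MvPolynomial (Fin N) ℂ, ∃ q : Polynomial (MvPolynomial (Fin r) ℂ), q.Monic ∧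
    ∀ x ∈ S, q.eval₂ (MvPolynomial.eval fun i =>
      ((MvPolynomial.eval (realCoords x) (t i) : ℝ) : ℂ)) (MvPolynomial.eval x f) = 0

/-- the coordinates of a stratum -/
noncomputable def RStrat.tS {N : ℕ} (S : RStrat N) (x : Fin N → ℂ) (i : Fin S.r) : ℝ :=
  MvPolynomial.eval (realCoords x) (S.t i)

/-- RS: strata adapted to a semialgebraic set `K`: finitely many, they cover `ℂ^N`, and `K ∩ S_a`
is relatively open in `S_a`. -/
def StrataStmt : Prop :=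
  ∀ (N : ℕ) (K : Set (Fin N → ℂ)), SAV K → ∃ (ν : ℕ) (S : Fin ν → RStrat N),
    (∀ x, ∃ a, x ∈ (S a).S) ∧
    ∀ a, ∃ O : Set (Fin N → ℂ), IsOpen O ∧ K ∩ (S a).S = O ∩ (S a).S

/-- A2, semialgebraic part: the support function of a compact semialgebraic set is smooth on a
nonempty open subset of `{M > 0}` (if this is nonempty). -/
def MSmooth : Prop :=
  ∀ (N : ℕ) (K : Set (Fin N → ℂ)) (g : MvPolynomial (Fin N) ℂ), IsCompact K → K.Nonempty → SAV K →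
    (∃ c, 0 < Mfun K g c) →
    ∃ W : Set (QV N), IsOpen W ∧ W.Nonempty ∧ (∀ c ∈ W, 0 < Mfun K g c) ∧
      ContDiffOn ℝ ∞ (Mfun K g) W

/-- A2 + A3, analytic part. -/
def PKCalc : Prop :=
  ∀ (N : ℕ) (K : Set (Fin N → ℂ)) (g : MvPolynomial (Fin N) ℂ) (ν : ℕ) (S : Fin ν → RStrat N)
    (W : Set (QV N)), IsCompact K → K.Nonempty → IsOpen W → W.Nonempty →
    (∀ c ∈ W, 0 < Mfun K g c) → ContDiffOn ℝ ∞ (Mfun K g) W →
    (∀ x, ∃ a, x ∈ (S a).S) →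
    (∀ a, ∃ O : Set (Fin N → ℂ), IsOpen O ∧ K ∩ (S a).S = O ∩ (S a).S) →
    ∃ (a : Fin ν) (x₀ : Fin N → ℂ) (O : Set (Fin N → ℂ)), x₀ ∈ (S a).S ∧ IsOpen O ∧ x₀ ∈ O ∧
      ∀ x ∈ (S a).S, x ∈ O → x ∈ K ∧ MvPolynomial.eval x g ≠ 0 ∧
        ∀ B T ε, IsRChart (S a).S (S a).tS B T ε → x ∈ B →
          PeakAt K g x (range (fderiv ℝ ε ((S a).tS x)))

/-- OUTPUT OF A1 + A2 + A3: a piece of a stratum in the boundary of `U`, all of whose points are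
peak points. -/
structure PKData {N : ℕ} (U : Set (Fin N → ℂ)) (I0 : Ideal (MvPolynomial (Fin N) ℂ))
    (D : MvPolynomial (Fin N) ℂ) where
  r : ℕ
  /-- parameter domain, an open ball -/
  T : Set (Fin r → ℝ)
  /-- the parametrisation -/
  ε : (Fin r → ℝ) → (Fin N → ℂ)
  /-- polynomial coordinates -/
  t : Fin r → MvPolynomial (Fin N ⊕ Fin N) ℝ
  hT : IsOpen T
  hTne : T.Nonempty
  hTconv : Convex ℝ T
  hTsa : SAV T
  hε : AnalyticOnNhd ℝ ε T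
  t_ε : ∀ τ ∈ T, ∀ i, MvPolynomial.eval (realCoords (ε τ)) (t i) = τ i
  /-- the graph of `ε` is semialgebraic -/
  sa : SAV {p : (Fin r → ℝ) × (Fin N → ℂ) | p.1 ∈ T ∧ p.2 = ε p.1}
  mem : ∀ τ ∈ T, ε τ ∈ closure U
  nmem : ∀ τ ∈ T, ε τ ∉ U
  D_ne : ∀ τ ∈ T, MvPolynomial.eval (ε τ) D ≠ 0
  g : MvPolynomial (Fin N) ℂ
  g_ne : ∀ τ ∈ T, MvPolynomial.eval (ε τ) g ≠ 0
  peak : ∀ τ ∈ T, PeakAt (closure U) g (ε τ) (range (fderiv ℝ ε τ))
  /-- density: a complex polynomial vanishing on the piece vanishes on `U` -/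
  gen : ∀ f : MvPolynomial (Fin N) ℂ, (∀ τ ∈ T, MvPolynomial.eval (ε τ) f = 0) → f ∈ I0
  /-- complex polynomials restricted to the piece are integral over `ℂ[τ]` -/
  alg : ∀ f : MvPolynomial (Fin N) ℂ, ∃ q : Polynomial (MvPolynomial (Fin r) ℂ), q.Monic ∧
    ∀ τ ∈ T, q.eval₂ (MvPolynomial.eval fun i => (τ i : ℂ)) (MvPolynomial.eval (ε τ) f) = 0

/-- OUTPUT OF A1 + A2 + A3. -/
def PKStmt : Prop :=
  ∀ (N : ℕ) (U : Set (Fin N → ℂ)) (Γ : Subgroup (Equiv.Perm U)), Setup N U Γ →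
    ∀ V O : Set (Fin N → ℂ), IsAlgebraicSet V → IsOpen O → U = O ∩ V →
    ∀ n : ℕ, 0 < n → IsSubmfd n U → ∀ A : AlgData n V U, Nonempty (PKData U A.I0 A.D)

/-! ### generic points (LEMMA J) -/

/-- LEMMA J (A4, first half): analytic functions `f_1, …, f_n` on an open convex `T ⊆ ℝ^r`,
algebraic over `ℂ(τ)` and algebraically independent over `ℂ`, have a point where the real
derivative of `f` spans `ℂ^n` over `ℂ`. -/
def LemJ : Prop :=
  ∀ (r n : ℕ) (T : Set (Fin r → ℝ)) (f : (Fin r → ℝ) → (Fin n → ℂ)),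
    IsOpen T → T.Nonempty → Convex ℝ T → AnalyticOnNhd ℝ f T →
    (∀ R : MvPolynomial (Fin n) ℂ, (∀ τ ∈ T, MvPolynomial.eval (f τ) R = 0) → R = 0) →
    (∀ i, ∃ q : Polynomial (MvPolynomial (Fin r) ℂ), q.Monic ∧
      ∀ τ ∈ T, q.eval₂ (MvPolynomial.eval fun i => (τ i : ℂ)) (f τ i) = 0) →
    ∃ τ ∈ T, Submodule.span ℂ (range (fderiv ℝ f τ)) = ⊤

/-! ### graph coordinates -/

/-- OUTPUT OF A1 - A4: chart `κ` of the ambient variety near a boundary point (with inverse `e`),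
the generic CR manifold `Σ = {w = u + i Ht(z,u)}` in the boundary of `UU = κ(U)`, peaks at every
point of `Σ`. -/
structure GraphData {N : ℕ} (m k : ℕ) (U : Set (Fin N → ℂ)) where
  /-- ambient neighbourhood -/
  B : Set (Fin N → ℂ)
  /-- chart domain -/
  W : Set (EE m k)
  κ : (Fin N → ℂ) → EE m k
  e : EE m k → (Fin N → ℂ)
  hB : IsOpen B
  hW : IsOpen W
  hκ : Differentiable ℂ κ
  he : DifferentiableOn ℂ e W
  e_mem : ∀ y ∈ W, e y ∈ B
  κ_e : ∀ y ∈ W, κ (e y) = y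
  κ_mem : ∀ x ∈ closure U, x ∈ B → κ x ∈ W
  e_κ : ∀ x ∈ closure U, x ∈ B → e (κ x) = x
  /-- `U` in the chart -/
  UU : Set (EE m k)
  UU_iff : ∀ y, y ∈ UU ↔ y ∈ W ∧ e y ∈ U
  UUopen : IsOpen UU
  UUsa : SAV UU
  /-- parameters of the graph -/
  O : Set (P m k)
  Ht : P m k → (Fin k → ℝ)
  hO : IsOpen O
  hOne : O.Nonempty
  Hsm : ContDiffOn ℝ ∞ Ht O
  Hsa : SAV {p : P m k × (Fin k → ℝ) | p.1 ∈ O ∧ p.2 = Ht p.1}
  Hsmall : ∀ a ∈ O, ‖fderiv ℝ Ht a‖ ≤ 1 / 4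
  sig_W : ∀ a ∈ O, sig Ht a ∈ W
  sig_cl : ∀ a ∈ O, e (sig Ht a) ∈ closure U
  sig_nU : ∀ a ∈ O, e (sig Ht a) ∉ U
  g : MvPolynomial (Fin N) ℂ
  g_ne : ∀ a ∈ O, MvPolynomial.eval (e (sig Ht a)) g ≠ 0
  /-- the tangent space of `Σ` at `sig Ht a` consists of the `(ζ, μ + i dHt(a)(ζ,μ))` -/
  peak : ∀ a ∈ O, PeakAt (closure U) g (e (sig Ht a)) (range fun ξ : P m k =>
    fderiv ℂ e (sig Ht a) (ξ.1, ofR ξ.2 + I • ofR (fderiv ℝ Ht a ξ)))

/-- A4, second half. -/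
def CoordStmt : Prop :=
  ∀ (N n : ℕ) (V U O : Set (Fin N → ℂ)), IsAlgebraicSet V → IsOpen O → U = O ∩ V →
    IsSemialgebraic U → Bornology.IsBounded U →
    ∀ (A : AlgData n V U) (K : PKData U A.I0 A.D), ∀ τ₁ ∈ K.T,
      Submodule.span ℂ (range (fderiv ℝ (fun τ => polyMap A.t (K.ε τ)) τ₁)) = ⊤ →
      ∃ m k : ℕ, m + k = n ∧ Nonempty (GraphData m k U)

/-- OUTPUT OF A5 (note: `P m k` has the sup norm). -/
structure ArcData {m k : ℕ} (O : Set (P m k)) (Ht : P m k → (Fin k → ℝ)) (UU : Set (EE m k)) where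
  O' : Set (P m k)
  s₀ : ℝ
  C₀ : ℝ
  vv : P m k → ℝ → (Fin k → ℝ)
  om : ℝ → ℝ
  hO' : IsOpen O'
  hne : O'.Nonempty
  sub : O' ⊆ O
  hs₀ : 0 < s₀
  hC₀ : 0 ≤ C₀
  om_mono : ∀ s s', 0 ≤ s → s ≤ s' → s' ≤ s₀ → om s ≤ om s'
  om_lim : Tendsto om (𝓝[>] 0) (𝓝 0)
  zero : ∀ a ∈ O', vv a 0 = 0
  lipa : ∀ a ∈ O', ∀ a' ∈ O', ∀ s, 0 ≤ s → s ≤ s₀ → ‖vv a s - vv a' s‖ ≤ om s * ‖a - a'‖
  lips : ∀ a ∈ O', ∀ s s', 0 ≤ s → s ≤ s₀ → 0 ≤ s' → s' ≤ s₀ →
    ‖vv a s - vv a s'‖ ≤ C₀ * |s - s'|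
  mem : ∀ a ∈ O', ∀ s, 0 < s → s ≤ s₀ → (a.1, ofR a.2 + I • ofR (Ht a + vv a s)) ∈ UU

/-- A5 (arcs). -/
def ArcStmt : Prop :=
  ∀ (m k : ℕ) (O : Set (P m k)) (Ht : P m k → (Fin k → ℝ)) (UU : Set (EE m k)),
    IsOpen O → O.Nonempty → ContDiffOn ℝ ∞ Ht O →
    SAV {p : P m k × (Fin k → ℝ) | p.1 ∈ O ∧ p.2 = Ht p.1} → IsOpen UU → SAV UU →
    (∀ a ∈ O, sig Ht a ∈ closure UU) → (∀ a ∈ O, sig Ht a ∉ UU) →
    Nonempty (ArcData O Ht UU)

/-- A6, semialgebraic input of `JL.Main`. -/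
def FarStmt : Prop :=
  ∀ (m k : ℕ) (Ht : P m k → (Fin k → ℝ)) (UU : Set (EE m k)), SAV UU →
    ∀ (a : P m k) (x : EE m k) (r : ℝ), 0 < r →
      (∀ᶠ ε in 𝓝[>] (0 : ℝ), Far UU Ht a ε x r) ∨ (∀ᶠ ε in 𝓝[>] (0 : ℝ), ¬ Far UU Ht a ε x r)

/-- A8: the peak functions at `p₀ = e 0` in a chart in which the tangent space of the stratum is
`ℂ^m × ℝ^k`. -/
def CtrlStmt : Prop :=
  ∀ (N m k : ℕ) (U : Set (Fin N → ℂ)) (g : MvPolynomial (Fin N) ℂ) (W : Set (EE m k))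
    (e : EE m k → (Fin N → ℂ)) (B : Set (Fin N → ℂ)) (κ : (Fin N → ℂ) → EE m k),
    IsOpen W → (0 : EE m k) ∈ W → DifferentiableOn ℂ e W → IsOpen B → DifferentiableOn ℂ κ B →
    (∀ y ∈ W, e y ∈ B) → (∀ y ∈ W, κ (e y) = y) →
    MvPolynomial.eval (e 0) g ≠ 0 →
    PeakAt (closure U) g (e 0) (range fun ξ : P m k => fderiv ℂ e 0 (ξ.1, ofR ξ.2)) →
    ∃ (h : Fin k → (Fin N → ℂ) → ℂ) (M : Fin k → ℝ) (ν : Fin k → Fin k → ℝ)
      (Q : Fin k → (Fin m → ℂ) →L[ℂ] (Fin m → ℂ) →L[ℂ] ℂ) (C ρ : ℝ), 0 < ρ ∧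
      ball (0 : EE m k) ρ ⊆ W ∧ (∀ i, Differentiable ℂ (h i)) ∧ (∀ i, h i (e 0) = (M i : ℂ)) ∧
      (∀ i, ∀ x ∈ closure U, x ≠ e 0 → (h i x).re < M i) ∧ LinearIndependent ℝ ν ∧
      (∀ i, ∀ y ∈ ball (0 : EE m k) ρ, ‖(M i : ℂ) - h i (e y) - tauF (ν i) (Q i) y‖
        ≤ C * (‖y.1‖ ^ 3 + ‖y.1‖ * ‖y.2‖ + ‖y.2‖ ^ 2)) ∧
      (∀ i, ∀ y ∈ ball (0 : EE m k) ρ, e y ∈ U →
        ‖y.1‖ ^ 2 + ‖y.2‖ ^ 2 ≤ C * (M i - (h i (e y)).re))

/-- A9 with Theorem B inside: boxes in the final coordinates at `a₀`.  (`Bsh.ThmB` is a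
hypothesis: prove `boxStmt_of : Bsh.ThmB → BoxStmt`.) -/
def BoxStmt : Prop :=
  ∀ (m k : ℕ) (O : Set (P m k)) (Ht : P m k → (Fin k → ℝ)) (UU : Set (EE m k)),
    IsOpen O → ContDiffOn ℝ ∞ Ht O → (∀ a ∈ O, ‖fderiv ℝ Ht a‖ ≤ 1 / 4) → IsOpen UU →
    ∀ (A : ArcData O Ht UU), ∀ a₀ ∈ A.O', ∀ ρ₁ : ℝ, 0 < ρ₁ →
    Bsh.KSHyp (Amap Ht a₀ '' UU) ρ₁ →
    ∃ c C t₀ : ℝ, 0 < c ∧ 0 < t₀ ∧ ∀ t, 0 < t → t < t₀ → ∃ e : Fin k → ℝ, ‖e‖ ≤ C ∧
      ∀ y : EE m k, ‖y.1‖ < c * Real.sqrt t →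
        ‖y.2 - (fun i => Complex.I * (t * (e i : ℂ)))‖ < c * t → y ∈ Amap Ht a₀ '' UU

/-- THEOREM A (target of Part A): with the algebraic data of Part 0. -/
def ThmAT : Prop :=
  ∀ (N : ℕ) (U : Set (Fin N → ℂ)) (Γ : Subgroup (Equiv.Perm U)), Setup N U Γ →
    ∀ V O : Set (Fin N → ℂ), IsAlgebraicSet V → IsOpen O → U = O ∩ V →
    ∀ n : ℕ, 0 < n → IsSubmfd n U → AlgData n V U → Nonempty (PeakData U n)

end Crest.Agent.R264.AI
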