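import Crest.Agent.R264.JLDefs

set_option autoImplicit false

open Topology Filter Set Metric Complex

namespace Crest.Agent.R264.JL

variable {m k : ℕ}

/-! ### Linear algebra of `alpha`, `beta` -/

/-- `alpha` as a real linear continuous map of `D`. -/
noncomputable def alphaC :
    (P m k →L[ℝ] (Fin k → ℝ)) →L[ℝ] ((Fin m → ℂ) →L[ℂ] (Fin k → ℂ)) :=
  LinearMap.toContinuousLinearMap
    { toFun := alpha
      map_add' := fun D D' => by
        ext ζ i
        simp only [alpha_apply, ContinuousLinearMap.add_apply, map_add, Pi.smul_apply,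
          Pi.add_apply, Pi.sub_apply, smul_eq_mul]
        ring
      map_smul' := fun c D => by
        ext ζ i
        simp only [alpha_apply, ContinuousLinearMap.smul_apply, map_smul, Pi.smul_apply,
          Pi.sub_apply, smul_eq_mul, RingHom.id_apply, Complex.real_smul]
        ring }

/-- `beta` as a real linear continuous map of `D`. -/
noncomputable def betaC :
    (P m k →L[ℝ] (Fin k → ℝ)) →L[ℝ] ((Fin k → ℂ) →L[ℂ] (Fin k → ℂ)) :=
  LinearMap.toContinuousLinearMap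
    { toFun := beta
      map_add' := fun D D' => by
        ext ζ i
        simp only [beta_apply, ContinuousLinearMap.add_apply, map_add,
          Pi.add_apply, Pi.smul_apply, smul_eq_mul]
        ring
      map_smul' := fun c D => by
        ext ζ i
        simp only [beta_apply, ContinuousLinearMap.smul_apply, map_smul, Pi.smul_apply,
          Pi.add_apply, smul_eq_mul, RingHom.id_apply, Complex.real_smul]
        ring }

lemma alphaC_apply (D : P m k →L[ℝ] (Fin k → ℝ)) : alphaC D = alpha D := rfl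
lemma betaC_apply (D : P m k →L[ℝ] (Fin k → ℝ)) : betaC D = beta D := rfl

lemma norm_ofR (u : Fin k → ℝ) : ‖ofR u‖ = ‖u‖ := by
  apply le_antisymm
  · rw [pi_norm_le_iff_of_nonneg (norm_nonneg _)]
    intro i
    simpa using norm_le_pi_norm u i
  · rw [pi_norm_le_iff_of_nonneg (norm_nonneg _)]
    intro i
    simpa using norm_le_pi_norm (ofR u) i

lemma norm_reV_le (w : Fin k → ℂ) : ‖reV w‖ ≤ ‖w‖ := by
  rw [pi_norm_le_iff_of_nonneg (norm_nonneg _)]
  intro i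
  exact (Complex.abs_re_le_norm (w i)).trans (norm_le_pi_norm w i)

lemma norm_imV_le (w : Fin k → ℂ) : ‖imV w‖ ≤ ‖w‖ := by
  rw [pi_norm_le_iff_of_nonneg (norm_nonneg _)]
  intro i
  exact (Complex.abs_im_le_norm (w i)).trans (norm_le_pi_norm w i)

lemma norm_beta_le (D : P m k →L[ℝ] (Fin k → ℝ)) : ‖beta D‖ ≤ 2 * ‖D‖ := by
  refine ContinuousLinearMap.opNorm_le_bound _ (by positivity) fun w => ?_
  rw [beta_apply]
  refine (norm_add_le _ _).trans ?_
  rw [norm_smul, Complex.norm_I, one_mul, norm_ofR, norm_ofR]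
  have h1 : ‖D (0, reV w)‖ ≤ ‖D‖ * ‖w‖ := by
    refine (D.le_opNorm _).trans ?_
    gcongr
    rw [Prod.norm_mk, norm_zero]
    exact max_le (norm_nonneg _) (norm_reV_le w)
  have h2 : ‖D (0, imV w)‖ ≤ ‖D‖ * ‖w‖ := by
    refine (D.le_opNorm _).trans ?_
    gcongr
    rw [Prod.norm_mk, norm_zero]
    exact max_le (norm_nonneg _) (norm_imV_le w)
  linarith

/-- `X D = 1 - i β`. -/
noncomputable def XD (D : P m k →L[ℝ] (Fin k → ℝ)) : (Fin k → ℂ) →L[ℂ] (Fin k → ℂ) :=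
  1 - I • beta D

lemma XD_apply (D : P m k →L[ℝ] (Fin k → ℝ)) (w : Fin k → ℂ) :
    XD D w = w - I • beta D w := rfl

lemma isUnit_XD {D : P m k →L[ℝ] (Fin k → ℝ)} (hD : ‖D‖ ≤ 1 / 4) : IsUnit (XD D) := by
  apply isUnit_one_sub_of_norm_lt_one
  have h := norm_beta_le D
  calc ‖I • beta D‖ = ‖beta D‖ := by rw [norm_smul, Complex.norm_I, one_mul]
    _ < 1 := by linarith

/-- inverse of `XD`. -/
noncomputable def XI (D : P m k →L[ℝ] (Fin k → ℝ)) : (Fin k → ℂ) →L[ℂ] (Fin k → ℂ) :=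
  Ring.inverse (XD D)

lemma XI_XD {D : P m k →L[ℝ] (Fin k → ℝ)} (hD : ‖D‖ ≤ 1 / 4) (w : Fin k → ℂ) :
    XI D (XD D w) = w := by
  have := Ring.inverse_mul_cancel _ (isUnit_XD hD)
  calc XI D (XD D w) = (XI D * XD D) w := rfl
    _ = w := by rw [XI, this]; rfl

lemma XD_XI {D : P m k →L[ℝ] (Fin k → ℝ)} (hD : ‖D‖ ≤ 1 / 4) (w : Fin k → ℂ) :
    XD D (XI D w) = w := by
  have := Ring.mul_inverse_cancel _ (isUnit_XD hD)
  calc XD D (XI D w) = (XD D * XI D) w := rfl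
    _ = w := by rw [XI, this]; rfl

lemma continuous_XD : Continuous (fun D : P m k →L[ℝ] (Fin k → ℝ) => XD D) := by
  have : Continuous (fun D : P m k →L[ℝ] (Fin k → ℝ) => (1 : (Fin k → ℂ) →L[ℂ] (Fin k → ℂ))
    - I • betaC D) := by
    exact continuous_const.sub (betaC.continuous.const_smul I)
  exact this

lemma continuousAt_XI {D : P m k →L[ℝ] (Fin k → ℝ)} (hD : ‖D‖ ≤ 1 / 4) :
    ContinuousAt (fun D : P m k →L[ℝ] (Fin k → ℝ) => XI D) D := by
  obtain ⟨u, hu⟩ := isUnit_XD hD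
  have h := NormedRing.inverse_continuousAt u
  rw [hu] at h
  exact ContinuousAt.comp (f := fun D : P m k →L[ℝ] (Fin k → ℝ) => XD D)
    (g := Ring.inverse) h continuous_XD.continuousAt

lemma Amap_eq (Ht : P m k → (Fin k → ℝ)) (a : P m k) (p : E m k) :
    Amap Ht a p = (p.1 - a.1, XD (fderiv ℝ Ht a) (p.2 - (sig Ht a).2)
      - (2 * I) • alpha (fderiv ℝ Ht a) (p.1 - a.1)) := rfl

/-- the inverse of `Amap`. -/
noncomputable def Ainv (Ht : P m k → (Fin k → ℝ)) (a : P m k) (y : E m k) : E m k :=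
  (a.1 + y.1, (sig Ht a).2 + XI (fderiv ℝ Ht a) (y.2 + (2 * I) • alpha (fderiv ℝ Ht a) y.1))

lemma Amap_Ainv {Ht : P m k → (Fin k → ℝ)} {a : P m k} (ha : ‖fderiv ℝ Ht a‖ ≤ 1 / 4)
    (y : E m k) : Amap Ht a (Ainv Ht a y) = y := by
  rw [Amap_eq]
  refine Prod.ext ?_ ?_
  · simp [Ainv]
  · simp only [Ainv, add_sub_cancel_left]
    rw [XD_XI ha]
    module

lemma Ainv_Amap {Ht : P m k → (Fin k → ℝ)} {a : P m k} (ha : ‖fderiv ℝ Ht a‖ ≤ 1 / 4)
    (p : E m k) : Ainv Ht a (Amap Ht a p) = p := by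
  rw [Amap_eq]
  refine Prod.ext ?_ ?_
  · simp [Ainv]
  · simp only [Ainv, sub_add_cancel]
    rw [XI_XD ha]
    module

lemma Amap_injective {Ht : P m k → (Fin k → ℝ)} {a : P m k} (ha : ‖fderiv ℝ Ht a‖ ≤ 1 / 4) :
    Function.Injective (Amap Ht a) := fun p q h => by
  rw [← Ainv_Amap ha p, h, Ainv_Amap ha q]

lemma dil_dil (s t : ℝ) (p : E m k) : dil s (dil t p) = dil (s * t) p := by
  refine Prod.ext ?_ ?_
  · simp [dil, smul_smul]
  · simp [dil, smul_smul, mul_pow]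

@[simp] lemma dil_one (p : E m k) : dil 1 p = p := by
  simp [dil]

/-- for `ε > 0` and `a` small, `Far` is `ball ⊆ T_ε(UU')`. -/
lemma far_iff {Ht : P m k → (Fin k → ℝ)} {a : P m k} (ha : ‖fderiv ℝ Ht a‖ ≤ 1 / 4)
    (UU : Set (E m k)) {ε : ℝ} (hε : 0 < ε) (x : E m k) (r : ℝ) :
    Far UU Ht a ε x r ↔ ball x r ⊆ {y | dil ε y ∈ Amap Ht a '' UU} := by
  constructor
  · intro h y hy
    by_contra hcon
    have hp : Ainv Ht a (dil ε y) ∉ UU := by
      intro hmem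
      exact hcon ⟨_, hmem, Amap_Ainv ha _⟩
    have := h _ hp
    rw [Tmap, Amap_Ainv ha, dil_dil, inv_mul_cancel₀ hε.ne', dil_one] at this
    exact absurd (mem_ball.1 hy) (not_lt.2 this)
  · intro h p hp
    by_contra hcon
    push Not at hcon
    have := h (mem_ball.2 hcon)
    simp only [mem_setOf_eq, Tmap] at this
    rw [dil_dil, mul_inv_cancel₀ hε.ne', dil_one] at this
    obtain ⟨q, hq, hqp⟩ := this
    exact hp (Amap_injective ha hqp ▸ hq)

/-! ### The transition maps -/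

/-- parameters of affine maps -/
abbrev Th (m k : ℕ) := (Fin m → ℂ) × ((Fin k → ℂ) →L[ℂ] (Fin k → ℂ)) ×
  ((Fin m → ℂ) →L[ℂ] (Fin k → ℂ)) × (Fin k → ℂ)

/-- the affine map with parameters `θ`. -/
noncomputable def Aff (θ : Th m k) (p : E m k) : E m k :=
  (p.1 + θ.1, θ.2.1 p.2 + θ.2.2.1 p.1 + θ.2.2.2)

/-- parameters of `T^a_ε ∘ (T^{a'}_ε)⁻¹`. -/
noncomputable def trans (Ht : P m k → (Fin k → ℝ)) (a a' : P m k) (ε : ℝ) : Th m k :=
  (ε⁻¹ • (a'.1 - a.1), XD (fderiv ℝ Ht a) ∘L XI (fderiv ℝ Ht a'),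
    (2 * I) • (ε⁻¹ • (XD (fderiv ℝ Ht a) ∘L XI (fderiv ℝ Ht a') ∘L alpha (fderiv ℝ Ht a')
      - alpha (fderiv ℝ Ht a))),
    (ε⁻¹ ^ 2) • (XD (fderiv ℝ Ht a) ((sig Ht a').2 - (sig Ht a).2)
      - (2 * I) • alpha (fderiv ℝ Ht a) (a'.1 - a.1)))

lemma Tmap_trans {Ht : P m k → (Fin k → ℝ)} {a a' : P m k} (ha' : ‖fderiv ℝ Ht a'‖ ≤ 1 / 4)
    (ε : ℝ) (p : E m k) :
    Tmap Ht a ε p = Aff (trans Ht a a' ε) (Tmap Ht a' ε p) := by
  simp only [Tmap, Amap_eq, dil, Aff, trans]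
  refine Prod.ext ?_ ?_
  · simp only
    rw [← smul_add]
    congr 1
    abel
  · simp only [ContinuousLinearMap.comp_apply, ContinuousLinearMap.smul_apply,
      ContinuousLinearMap.sub_apply]
    set X := XD (fderiv ℝ Ht a) with hX
    set X' := XD (fderiv ℝ Ht a') with hX'
    set Y' := XI (fderiv ℝ Ht a') with hY'
    set α := alpha (fderiv ℝ Ht a)
    set α' := alpha (fderiv ℝ Ht a')
    have hYX : ∀ w, Y' (X' w) = w := fun w => XI_XD ha' w
    have hrY : ∀ (c : ℝ) (w : Fin k → ℂ), Y' (c • w) = c • Y' w := fun c w => by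
      rw [← Complex.coe_smul, map_smul, Complex.coe_smul]
    have hrX : ∀ (c : ℝ) (w : Fin k → ℂ), X (c • w) = c • X w := fun c w => by
      rw [← Complex.coe_smul, map_smul, Complex.coe_smul]
    have hrα : ∀ (c : ℝ) (w : Fin m → ℂ), α (c • w) = c • α w := fun c w => by
      rw [← Complex.coe_smul, map_smul, Complex.coe_smul]
    have hrα' : ∀ (c : ℝ) (w : Fin m → ℂ), α' (c • w) = c • α' w := fun c w => by
      rw [← Complex.coe_smul, map_smul, Complex.coe_smul]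
    simp only [map_sub, hrY, hrX, hrα, hrα', map_smul, hYX]
    module

/-- uniform convergence of affine maps on bounded sets. -/
lemma Aff_tendsto {ι : Type*} {l : Filter ι} {θ : ι → Th m k} {θ0 : Th m k}
    (h : Tendsto θ l (𝓝 θ0)) (R : ℝ) {δ : ℝ} (hδ : 0 < δ) :
    ∀ᶠ j in l, ∀ y : E m k, ‖y‖ ≤ R → dist (Aff (θ j) y) (Aff θ0 y) ≤ δ := by
  have h1 : Tendsto (fun j => ‖(θ j).1 - θ0.1‖) l (𝓝 0) := by
    have := ((continuous_fst.tendsto θ0).comp h)
    simpa using (this.sub_const θ0.1).norm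
  have h2 : Tendsto (fun j => ‖(θ j).2.1 - θ0.2.1‖ * |R| + ‖(θ j).2.2.1 - θ0.2.2.1‖ * |R|
      + ‖(θ j).2.2.2 - θ0.2.2.2‖) l (𝓝 0) := by
    have e1 : Tendsto (fun j => (θ j).2.1) l (𝓝 θ0.2.1) :=
      (((continuous_fst.comp continuous_snd).tendsto θ0).comp h)
    have e2 : Tendsto (fun j => (θ j).2.2.1) l (𝓝 θ0.2.2.1) :=
      (((continuous_fst.comp (continuous_snd.comp continuous_snd)).tendsto θ0).comp h)
    have e3 : Tendsto (fun j => (θ j).2.2.2) l (𝓝 θ0.2.2.2) :=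
      (((continuous_snd.comp (continuous_snd.comp continuous_snd)).tendsto θ0).comp h)
    have := (((e1.sub_const θ0.2.1).norm.mul_const |R|).add
      ((e2.sub_const θ0.2.2.1).norm.mul_const |R|)).add ((e3.sub_const θ0.2.2.2).norm)
    simpa using this
  filter_upwards [h1.eventually (gt_mem_nhds hδ), h2.eventually (gt_mem_nhds hδ)] with j hj1 hj2 y hy
  have hyR : ‖y‖ ≤ |R| := hy.trans (le_abs_self R)
  have hy1 : ‖y.1‖ ≤ |R| := (norm_fst_le y).trans hyR
  have hy2 : ‖y.2‖ ≤ |R| := (norm_snd_le y).trans hyR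
  rw [dist_eq_norm, Prod.norm_def]
  refine max_le ?_ ?_
  · have : (Aff (θ j) y - Aff θ0 y).1 = (θ j).1 - θ0.1 := by
      simp [Aff]
    rw [this]
    exact hj1.le
  · have : (Aff (θ j) y - Aff θ0 y).2 = ((θ j).2.1 - θ0.2.1) y.2 + ((θ j).2.2.1 - θ0.2.2.1) y.1
        + ((θ j).2.2.2 - θ0.2.2.2) := by
      simp only [Aff, Prod.snd_sub, ContinuousLinearMap.sub_apply]
      abel
    rw [this]
    refine le_trans ((norm_add_le _ _).trans (add_le_add_left (norm_add_le _ _) _)) ?_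
    have g1 : ‖((θ j).2.1 - θ0.2.1) y.2‖ ≤ ‖(θ j).2.1 - θ0.2.1‖ * |R| :=
      (ContinuousLinearMap.le_opNorm _ _).trans (by gcongr)
    have g2 : ‖((θ j).2.2.1 - θ0.2.2.1) y.1‖ ≤ ‖(θ j).2.2.1 - θ0.2.2.1‖ * |R| :=
      (ContinuousLinearMap.le_opNorm _ _).trans (by gcongr)
    linarith

end Crest.Agent.R264.JL
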