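import Crest.Agent.R264.A9Main
import Crest.Agent.R264.AIface
import Crest.Agent.R264.JLAlg

/-!
Row 264, Part A, node A9 (helper456): `boxStmt_of : Bsh.ThmB → AI.BoxStmt`.
-/

set_option autoImplicit false

open Topology Filter Set Metric Complex

namespace Crest.Agent.R264.A9

open JL

variable {m k : ℕ}

theorem continuous_Ainv (Ht : P m k → (Fin k → ℝ)) (a : P m k) : Continuous (Ainv Ht a) := by
  have h0 : Continuous fun y : E m k => alpha (fderiv ℝ Ht a) y.1 :=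
    (alpha (fderiv ℝ Ht a)).continuous.comp continuous_fst
  have h1 : Continuous fun y : E m k => (2 * I) • alpha (fderiv ℝ Ht a) y.1 :=
    (continuous_const_smul (2 * I)).comp h0
  have h2 : Continuous fun y : E m k =>
      XI (fderiv ℝ Ht a) (y.2 + (2 * I) • alpha (fderiv ℝ Ht a) y.1) :=
    (XI (fderiv ℝ Ht a)).continuous.comp (continuous_snd.add h1)
  exact (continuous_const.add continuous_fst).prodMk (continuous_const.add h2)

theorem Amap_image_eq {Ht : P m k → (Fin k → ℝ)} {a : P m k} (ha : ‖fderiv ℝ Ht a‖ ≤ 1 / 4)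
    (UU : Set (E m k)) : Amap Ht a '' UU = Ainv Ht a ⁻¹' UU := by
  ext y
  constructor
  · rintro ⟨p, hp, rfl⟩
    rwa [mem_preimage, Ainv_Amap ha]
  · intro hy
    exact ⟨_, hy, Amap_Ainv ha y⟩

theorem isOpen_Amap_image {Ht : P m k → (Fin k → ℝ)} {a : P m k} (ha : ‖fderiv ℝ Ht a‖ ≤ 1 / 4)
    {UU : Set (E m k)} (hUU : IsOpen UU) : IsOpen (Amap Ht a '' UU) := by
  rw [Amap_image_eq ha]
  exact hUU.preimage (continuous_Ainv Ht a)

/-- **A9** -/
theorem boxStmt_of (hB : Bsh.ThmB) : AI.BoxStmt := by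
  intro m k O Ht UU hO hC hsmall hUU A a₀ ha₀ ρ₁ hρ₁ hKS
  obtain ⟨R, hR, hRO⟩ := Metric.isOpen_iff.1 A.hO' a₀ ha₀
  have hsub : ∀ a ∈ ball a₀ R, a ∈ O := fun a ha => A.sub (hRO ha)
  have hA : ArcAt Ht a₀ (Amap Ht a₀ '' UU) R A.s₀ A.C₀ A.om A.vv :=
    { R_pos := hR
      s0_pos := A.hs₀
      C_nn := A.hC₀
      c2 := (hC.mono hsub).of_le (by norm_cast)
      small := fun a ha => hsmall a (hsub a ha)
      vv0 := fun a ha => A.zero a (hRO ha)
      om_lim := A.om_lim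
      lip := fun s hs a ha a' ha' => A.lipa a (hRO ha) a' (hRO ha') s hs.1.le hs.2
      lips := fun a ha s hs s' hs' => A.lips a (hRO ha) s s' hs.1 hs.2 hs'.1 hs'.2
      mem := fun a ha s hs => ⟨_, A.mem a (hRO ha) s hs.1 hs.2, rfl⟩ }
  obtain ⟨c, C, t₀, hc, ht₀, h⟩ := boxes hB hA
    (isOpen_Amap_image (hsmall a₀ (A.sub ha₀)) hUU) hρ₁ hKS
  refine ⟨c, C, t₀, hc, ht₀, fun t ht htt => ?_⟩
  obtain ⟨e, he, h'⟩ := h t ht htt
  exact ⟨e, he, fun y h1 h2 => h' y.1 y.2 h1 h2⟩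

end Crest.Agent.R264.A9
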