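import Crest.Agent.R264.A9Core
import Crest.Agent.R264.JLDefs
import Crest.Agent.R264.BshIface

/-!
Row 264, Part A, node A9 (helper456): boxes at `a0`.

`boxes` : Theorem B (as hypothesis `Bsh.ThmB`) + arc data near `a0` in the OLD graph coordinates
(`Ht`, `vv`) + the Kontinuitaetssatz in the FINAL coordinates (`UU`, the image of the old `UU1`
under `JL.Amap Ht a0`) give the boxes of Theorem A.
-/

set_option autoImplicit false

open Topology Filter Set Metric Complex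

namespace Crest.Agent.R264.A9

open JL

/-- a modulus tending to `0` at `0+` is bounded near `0` by a monotone one -/
theorem exists_mono {om : ℝ → ℝ} (h : Tendsto om (𝓝[>] 0) (𝓝 0)) :
    ∃ om2 : ℝ → ℝ, Monotone om2 ∧ Tendsto om2 (𝓝[>] 0) (𝓝 0) ∧ (∀ s, 0 ≤ om2 s) ∧
      (∀ s, om2 s ≤ 1) ∧ ∃ s2 > 0, ∀ s ∈ Ioc 0 s2, om s ≤ om2 s := by
  set S : ℝ → Set ℝ := fun s => insert 0 ((fun s' => min |om s'| 1) '' Ioc 0 s) with hS
  have hbdd : ∀ s, BddAbove (S s) := by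
    intro s
    refine ⟨1, ?_⟩
    rintro x (rfl | ⟨s', -, rfl⟩)
    · exact zero_le_one
    · exact min_le_right _ _
  have hne : ∀ s, (S s).Nonempty := fun s => ⟨0, mem_insert _ _⟩
  have hmem : ∀ s, 0 < s → min |om s| 1 ∈ S s := fun s hs =>
    mem_insert_of_mem _ ⟨s, ⟨hs, le_refl _⟩, rfl⟩
  have hle : ∀ s, ∀ ε : ℝ, 0 ≤ ε → (∀ s' ∈ Ioc 0 s, |om s'| ≤ ε) → sSup (S s) ≤ ε := by
    intro s ε hε hs
    refine csSup_le (hne s) ?_
    rintro x (rfl | ⟨s', hs', rfl⟩)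
    · exact hε
    · exact (min_le_left _ _).trans (hs s' hs')
  have h0 : ∀ s, 0 ≤ sSup (S s) := fun s => le_csSup (hbdd s) (mem_insert _ _)
  refine ⟨fun s => sSup (S s), ?_, ?_, h0, ?_, ?_⟩
  · intro s s' hss
    refine csSup_le_csSup (hbdd s') (hne s) ?_
    exact insert_subset_insert (image_mono (Ioc_subset_Ioc_right hss))
  · rw [Metric.tendsto_nhdsWithin_nhds] at h ⊢
    intro ε hε
    obtain ⟨δ, hδ, hδ'⟩ := h (ε / 2) (by positivity)
    refine ⟨δ, hδ, ?_⟩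
    intro s hs hsδ
    have h1 : sSup (S s) ≤ ε / 2 := by
      refine hle s (ε / 2) (by positivity) ?_
      intro s' hs'
      have h2 : dist s' 0 < δ := by
        rw [Real.dist_eq, sub_zero] at hsδ ⊢
        rw [abs_of_pos hs'.1]
        rw [abs_of_pos (show (0:ℝ) < s from hs)] at hsδ
        exact hs'.2.trans_lt hsδ
      have := hδ' (show s' ∈ Ioi (0:ℝ) from hs'.1) h2
      rw [Real.dist_eq, sub_zero] at this
      exact this.le
    rw [Real.dist_eq, sub_zero, abs_of_nonneg (h0 s)]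
    linarith
  · intro s
    refine csSup_le (hne s) ?_
    rintro x (rfl | ⟨s', -, rfl⟩)
    · exact zero_le_one
    · exact min_le_right _ _
  · rw [Metric.tendsto_nhdsWithin_nhds] at h
    obtain ⟨δ, hδ, hδ'⟩ := h 1 one_pos
    refine ⟨δ / 2, by positivity, ?_⟩
    intro s hs
    have h2 : dist s 0 < δ := by
      rw [Real.dist_eq, sub_zero, abs_of_pos hs.1]
      linarith [hs.2]
    have h3 := hδ' (show s ∈ Ioi (0:ℝ) from hs.1) h2
    rw [Real.dist_eq, sub_zero] at h3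
    have h4 := le_csSup (hbdd s) (hmem s hs.1)
    rw [min_eq_left h3.le] at h4
    exact (le_abs_self _).trans h4

variable {m k : ℕ}

/-- `a₂ z = -D(iz, 0) = 2 Im (α z)` -/
noncomputable def a2 (D : P m k →L[ℝ] (Fin k → ℝ)) : (Fin m → ℂ) →L[ℝ] (Fin k → ℝ) :=
  -(D.comp ((ContinuousLinearMap.inl ℝ (Fin m → ℂ) (Fin k → ℝ)).comp
    (I • ContinuousLinearMap.id ℝ (Fin m → ℂ))))

theorem a2_apply (D : P m k →L[ℝ] (Fin k → ℝ)) (z : Fin m → ℂ) : a2 D z = - D (I • z, 0) := rfl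

/-- the wedge point over `a` at time `s` -/
noncomputable def wpt (Ht : P m k → (Fin k → ℝ)) (a : P m k) (v : Fin k → ℝ) : E m k :=
  (a.1, ofR a.2 + I • ofR (Ht a + v))

/-- computation of `A_{a0}` at a wedge point -/
theorem Amap_wpt (Ht : P m k → (Fin k → ℝ)) (a0 p : P m k) (v : Fin k → ℝ) :
    Amap Ht a0 (wpt Ht (a0 + p) v) =
      (p.1, fun i => (((p.2 + Core.β (fun _ => fderiv ℝ Ht a0) (Ht (a0 + p) - Ht a0 + v) +
          a2 (fderiv ℝ Ht a0) p.1) i : ℝ) : ℂ) +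
        I * (((Ht (a0 + p) - Ht a0 + v - Core.β (fun _ => fderiv ℝ Ht a0) p.2 -
          Core.a1 (fun _ => fderiv ℝ Ht a0) p.1) i : ℝ) : ℂ)) := by
  set D := fderiv ℝ Ht a0 with hD
  set y := Ht (a0 + p) - Ht a0 + v with hy
  have e1 : (wpt Ht (a0 + p) v).2 - (sig Ht a0).2 = ofR p.2 + I • ofR y := by
    simp only [wpt, sig, Prod.snd_add, map_add, hy, map_sub, smul_add, smul_sub]
    abel
  have e2 : (wpt Ht (a0 + p) v).1 - a0.1 = p.1 := by
    simp [wpt]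
  have e3 : reV (ofR p.2 + I • ofR y) = p.2 := by
    funext i
    simp
  have e4 : imV (ofR p.2 + I • ofR y) = y := by
    funext i
    simp
  unfold Amap
  rw [e1, e2]
  refine Prod.ext rfl ?_
  funext i
  simp only [beta_apply, e3, e4, alpha_apply, ← hD, a2_apply, Core.β, Core.a1,
    ContinuousLinearMap.comp_apply, ContinuousLinearMap.inr_apply,
    ContinuousLinearMap.inl_apply, Pi.add_apply, Pi.sub_apply, Pi.smul_apply, smul_eq_mul,
    ofR_apply, Complex.ofReal_add, Complex.ofReal_sub, Pi.neg_apply, Complex.ofReal_neg]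
  linear_combination (-((D (0, y) i : ℝ) : ℂ) + ((D (I • p.1, 0) i : ℝ) : ℂ)) * Complex.I_sq

/-- Arc data near `a0` in the old graph coordinates; `UU` = final coordinates. -/
structure ArcAt (Ht : P m k → (Fin k → ℝ)) (a0 : P m k) (UU : Set (E m k)) (R s0 C : ℝ)
    (om : ℝ → ℝ) (vv : P m k → ℝ → (Fin k → ℝ)) : Prop where
  R_pos : 0 < R
  s0_pos : 0 < s0
  C_nn : 0 ≤ C
  c2 : ContDiffOn ℝ 2 Ht (ball a0 R)
  small : ∀ a ∈ ball a0 R, ‖fderiv ℝ Ht a‖ ≤ 1 / 4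
  vv0 : ∀ a ∈ ball a0 R, vv a 0 = 0
  om_lim : Tendsto om (𝓝[>] 0) (𝓝 0)
  lip : ∀ s ∈ Ioc 0 s0, ∀ a ∈ ball a0 R, ∀ a' ∈ ball a0 R, ‖vv a s - vv a' s‖ ≤ om s * ‖a - a'‖
  lips : ∀ a ∈ ball a0 R, ∀ s ∈ Icc 0 s0, ∀ s' ∈ Icc 0 s0, ‖vv a s - vv a s'‖ ≤ C * |s - s'|
  mem : ∀ a ∈ ball a0 R, ∀ s ∈ Ioc 0 s0, Amap Ht a0 (wpt Ht a (vv a s)) ∈ UU

theorem ball_add {a0 p : P m k} {r : ℝ} : a0 + p ∈ ball a0 r ↔ p ∈ ball (0 : P m k) r := by
  rw [mem_ball_iff_norm, mem_ball_zero_iff, add_sub_cancel_left]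

/-- the core data from arc data -/
theorem exists_core {Ht : P m k → (Fin k → ℝ)} {a0 : P m k} {UU : Set (E m k)} {R s0 C : ℝ}
    {om : ℝ → ℝ} {vv : P m k → ℝ → (Fin k → ℝ)} (h : ArcAt Ht a0 UU R s0 C om vv) :
    ∃ (r L s1 : ℝ) (om2 : ℝ → ℝ), Monotone om2 ∧ Tendsto om2 (𝓝[>] 0) (𝓝 0) ∧ r ≤ R ∧ s1 ≤ s0 ∧
      Core (fun p => Ht (a0 + p) - Ht a0) (fun p => fderiv ℝ Ht (a0 + p))
        (fun p s => vv (a0 + p) s) (a2 (fderiv ℝ Ht a0)) r L C s1 om2 := by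
  obtain ⟨om2, hmono, hlim, hnn, hle1, s2, hs2, hom2⟩ := exists_mono h.om_lim
  -- Lipschitz derivative near `a0`
  have hmem : a0 ∈ ball a0 R := mem_ball_self h.R_pos
  have hcd : ContDiffAt ℝ 2 Ht a0 := h.c2.contDiffAt (isOpen_ball.mem_nhds hmem)
  have hcd1 : ContDiffAt ℝ 1 (fderiv ℝ Ht) a0 := hcd.fderiv_right (by norm_num)
  obtain ⟨L, t, ht, hLip⟩ := hcd1.exists_lipschitzOnWith
  obtain ⟨r', hr', hrt⟩ := Metric.mem_nhds_iff.1 ht
  refine ⟨min r' R, L, min s2 s0, om2, hmono, hlim, min_le_right _ _, min_le_right _ _, ?_⟩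
  have hsubR : ∀ p ∈ ball (0 : P m k) (min r' R), a0 + p ∈ ball a0 R := fun p hp =>
    ball_add.2 (ball_subset_ball (min_le_right _ _) hp)
  have hsubt : ∀ p ∈ ball (0 : P m k) (min r' R), a0 + p ∈ t := fun p hp =>
    hrt (ball_add.2 (ball_subset_ball (min_le_left _ _) hp))
  refine ⟨lt_min hr' h.R_pos, L.2, h.C_nn, lt_min hs2 h.s0_pos, ?_, ?_, ?_, ?_, ?_, ?_, ?_,
    ?_, ?_⟩
  · intro p hp
    have h1 : DifferentiableAt ℝ Ht (a0 + p) :=
      (h.c2.contDiffAt (isOpen_ball.mem_nhds (hsubR p hp))).differentiableAt (by norm_num)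
    have h2 : HasFDerivAt (fun p : P m k => a0 + p) (ContinuousLinearMap.id ℝ (P m k)) p :=
      (hasFDerivAt_id p).const_add a0
    have h3 := (h1.hasFDerivAt.comp p h2).sub_const (Ht a0)
    simpa using h3
  · intro p hp q hq
    have := hLip.dist_le_mul _ (hsubt p hp) _ (hsubt q hq)
    rw [dist_eq_norm, dist_eq_norm] at this
    simpa using this
  · intro p hp
    exact h.small _ (hsubR p hp)
  · simp
  · intro p hp
    exact h.vv0 _ (hsubR p hp)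
  · exact fun s _ => hnn s
  · exact fun s _ => hle1 s
  · intro s hs p hp q hq
    rcases eq_or_lt_of_le hs.1 with h0 | h0
    · rw [← h0]
      simp only [h.vv0 _ (hsubR p hp), h.vv0 _ (hsubR q hq), sub_self, norm_zero]
      exact mul_nonneg (hnn _) (norm_nonneg _)
    · have h1 := h.lip s ⟨h0, hs.2.trans (min_le_right _ _)⟩ _ (hsubR p hp) _ (hsubR q hq)
      have h2 : (a0 + p) - (a0 + q) = p - q := by abel
      rw [h2] at h1
      exact h1.trans (mul_le_mul_of_nonneg_right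
        (hom2 s ⟨h0, hs.2.trans (min_le_left _ _)⟩) (norm_nonneg _))
  · intro p hp s hs s' hs'
    exact h.lips _ (hsubR p hp) s ⟨hs.1, hs.2.trans (min_le_right _ _)⟩ s'
      ⟨hs'.1, hs'.2.trans (min_le_right _ _)⟩

/-- **A9**: the boxes of Theorem B at `a0`. -/
theorem boxes (hB : Bsh.ThmB) {Ht : P m k → (Fin k → ℝ)} {a0 : P m k} {UU : Set (E m k)}
    {R s0 C : ℝ} {om : ℝ → ℝ} {vv : P m k → ℝ → (Fin k → ℝ)} (h : ArcAt Ht a0 UU R s0 C om vv)
    (hUU : IsOpen UU) {ρ₁ : ℝ} (hρ₁ : 0 < ρ₁) (hKS : Bsh.KSHyp UU ρ₁) :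
    ∃ c C' t₀ : ℝ, 0 < c ∧ 0 < t₀ ∧ ∀ t, 0 < t → t < t₀ → ∃ e : Fin k → ℝ, ‖e‖ ≤ C' ∧
      ∀ (z : Fin m → ℂ) (w : Fin k → ℂ), ‖z‖ < c * Real.sqrt t →
        ‖w - (fun i => Complex.I * (t * (e i : ℂ)))‖ < c * t → (z, w) ∈ UU := by
  obtain ⟨r, L, s1, om2, hmono, hlim, hr, hs1, H⟩ := exists_core h
  set a : (Fin m → ℂ) →L[ℝ] (Fin k → ℝ) := a2 (fderiv ℝ Ht a0) with ha
  set D : P m k → (P m k →L[ℝ] (Fin k → ℝ)) := fun p => fderiv ℝ Ht (a0 + p) with hD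
  set hh : P m k → (Fin k → ℝ) := fun p => Ht (a0 + p) - Ht a0 with hhh
  set w : P m k → ℝ → (Fin k → ℝ) := fun p s => vv (a0 + p) s with hw
  have hK : 0 ≤ Core.K a := le_trans (by norm_num) (Core.K_ge a)
  have hL := H.L_nn
  have hC := H.C_nn
  set C₀ : ℝ := max (L * Core.K a * Core.K a * 4) (3 * C) with hC₀
  have hC₀nn : 0 ≤ C₀ := le_max_of_le_left (by positivity)
  refine hB UU (fun z u => Core.HH hh D w a r z u) (fun z u s => Core.ww hh D w a r z u s)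
    (fun s => 8 * L * Core.K a * C * s + 4 * Core.K a * om2 s) (Core.ρ a r)
    (Core.s1 r C s1) C₀ ρ₁ hUU H.ρ_pos H.s1_pos hρ₁ hC₀nn ?_ ?_ ?_ ?_ ?_ ?_ ?_ ?_ hKS
  · exact H.HH_zero
  · intro z z' u u' hz hz' hu hu'
    refine (H.HH_lip hz hu hz' hu').trans ?_
    have h1 : 0 ≤ ‖z‖ + ‖z'‖ + ‖u‖ + ‖u'‖ := by positivity
    have h2 : 0 ≤ ‖z - z'‖ + ‖u - u'‖ := by positivity
    have h3 : L * Core.K a * Core.K a * 4 ≤ C₀ := le_max_left _ _
    exact mul_le_mul_of_nonneg_right (mul_le_mul_of_nonneg_right h3 h1) h2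
  · intro z u hz hu
    exact H.ww_zero hz hu
  · intro z z' u u' s hz hz' hu hu' h0 hs
    exact H.ww_lip hz hu hz' hu' ⟨h0, hs⟩
  · intro s s' _ hss _
    have h1 : 0 ≤ 8 * L * Core.K a * C := by positivity
    have h2 : 8 * L * Core.K a * C * s ≤ 8 * L * Core.K a * C * s' :=
      mul_le_mul_of_nonneg_left hss h1
    have h3 : 4 * Core.K a * om2 s ≤ 4 * Core.K a * om2 s' :=
      mul_le_mul_of_nonneg_left (hmono hss) (by positivity)
    linarith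
  · have h1 : Tendsto (fun s : ℝ => 8 * L * Core.K a * C * s) (𝓝[>] 0) (𝓝 0) := by
      have : Tendsto (fun s : ℝ => 8 * L * Core.K a * C * s) (𝓝 0)
          (𝓝 (8 * L * Core.K a * C * 0)) := (continuous_const.mul continuous_id).tendsto 0
      rw [mul_zero] at this
      exact this.mono_left nhdsWithin_le_nhds
    have h2 := hlim.const_mul (4 * Core.K a)
    rw [mul_zero] at h2
    simpa using h1.add h2
  · intro z u s s' hz hu h0 hs h0' hs'
    exact (H.ww_s hz hu ⟨h0, hs⟩ ⟨h0', hs'⟩).trans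
      (mul_le_mul_of_nonneg_right (le_max_right _ _) (abs_nonneg _))
  · intro z u s hz hu h0 hs
    obtain ⟨x, hx, e1, e2⟩ := H.wedge hz hu ⟨h0.le, hs⟩
    have h1 : a0 + (z, x) ∈ ball a0 R := ball_add.2 (ball_subset_ball hr hx)
    have h2 := h.mem _ h1 s ⟨h0, hs.trans (Core.s1_le.trans hs1)⟩
    rw [Amap_wpt] at h2
    have hD0 : D 0 = fderiv ℝ Ht a0 := by simp [hD]
    have e3 : Core.β D = Core.β (fun _ => fderiv ℝ Ht a0) := by
      unfold Core.β; rw [hD0]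
    have e4 : Core.a1 D = Core.a1 (fun _ => fderiv ℝ Ht a0) := by
      unfold Core.a1; rw [hD0]
    rw [e3] at e1 e2
    rw [e4] at e2
    have e5 : u = x + Core.β (fun _ => fderiv ℝ Ht a0)
      (Ht (a0 + (z, x)) - Ht a0 + vv (a0 + (z, x)) s) + a z := e1
    have e6 : Core.HH hh D w a r z u + Core.ww hh D w a r z u s =
      Ht (a0 + (z, x)) - Ht a0 + vv (a0 + (z, x)) s -
        Core.β (fun _ => fderiv ℝ Ht a0) x - Core.a1 (fun _ => fderiv ℝ Ht a0) z := e2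
    simp only at h2
    rw [← e5, ← e6] at h2
    exact h2

end Crest.Agent.R264.A9
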