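import Crest.Agent.R264.AIface

/-!
Row 264 (S0402), Part A, assembly: the inverse of the affine normalisation `Amap Ht a`
(helper868, node asked by helper541).
-/

set_option autoImplicit false

open Topology Filter Set Metric Complex
open scoped ContDiff

namespace Crest.Agent.R264.AI

open Crest.Agent.R264.JL (P sig Amap ofR reV imV alpha beta)

section Inv

variable {m k : ℕ}

lemma norm_ofR (u : Fin k → ℝ) : ‖ofR u‖ = ‖u‖ := by
  apply le_antisymm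
  · refine (pi_norm_le_iff_of_nonneg (norm_nonneg u)).2 fun i => ?_
    rw [JL.ofR_apply, Complex.norm_real]; exact norm_le_pi_norm u i
  · refine (pi_norm_le_iff_of_nonneg (norm_nonneg _)).2 fun i => ?_
    have := norm_le_pi_norm (ofR u) i
    rwa [JL.ofR_apply, Complex.norm_real] at this

lemma norm_reV_le (w : Fin k → ℂ) : ‖reV w‖ ≤ ‖w‖ := by
  refine (pi_norm_le_iff_of_nonneg (norm_nonneg w)).2 fun i => ?_
  rw [JL.reV_apply, Real.norm_eq_abs]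
  exact (Complex.abs_re_le_norm _).trans (norm_le_pi_norm w i)

lemma norm_imV_le (w : Fin k → ℂ) : ‖imV w‖ ≤ ‖w‖ := by
  refine (pi_norm_le_iff_of_nonneg (norm_nonneg w)).2 fun i => ?_
  rw [JL.imV_apply, Real.norm_eq_abs]
  exact (Complex.abs_im_le_norm _).trans (norm_le_pi_norm w i)

lemma norm_D_zero_le (D : P m k →L[ℝ] (Fin k → ℝ)) (h : ‖D‖ ≤ 1 / 4) (u : Fin k → ℝ) :
    ‖D (0, u)‖ ≤ (1 / 4) * ‖u‖ := by
  refine (D.le_opNorm _).trans ?_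
  have : ‖((0, u) : P m k)‖ = ‖u‖ := by simp [Prod.norm_def]
  rw [this]
  exact mul_le_mul_of_nonneg_right h (norm_nonneg _)

lemma norm_beta_le (D : P m k →L[ℝ] (Fin k → ℝ)) (h : ‖D‖ ≤ 1 / 4) (w : Fin k → ℂ) :
    ‖beta D w‖ ≤ (1 / 2) * ‖w‖ := by
  rw [JL.beta_apply]
  refine (norm_add_le _ _).trans ?_
  rw [norm_smul, Complex.norm_I, one_mul, norm_ofR, norm_ofR]
  have h1 := norm_D_zero_le D h (reV w)
  have h2 := norm_D_zero_le D h (imV w)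
  have h3 := norm_reV_le w
  have h4 := norm_imV_le w
  linarith

/-- `w ↦ w - i β w` -/
noncomputable def Jlin (D : P m k →L[ℝ] (Fin k → ℝ)) : (Fin k → ℂ) →ₗ[ℂ] (Fin k → ℂ) :=
  LinearMap.id - I • (beta D : (Fin k → ℂ) →ₗ[ℂ] (Fin k → ℂ))

lemma Jlin_apply (D : P m k →L[ℝ] (Fin k → ℝ)) (w : Fin k → ℂ) :
    Jlin D w = w - I • beta D w := rfl

lemma Jlin_inj (D : P m k →L[ℝ] (Fin k → ℝ)) (h : ‖D‖ ≤ 1 / 4) :
    Function.Injective (Jlin D) := by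
  rw [injective_iff_map_eq_zero]
  intro w hw
  rw [Jlin_apply, sub_eq_zero] at hw
  have h1 : ‖w‖ ≤ (1 / 2) * ‖w‖ := by
    calc ‖w‖ = ‖I • beta D w‖ := by rw [← hw]
      _ = ‖beta D w‖ := by rw [norm_smul, Complex.norm_I, one_mul]
      _ ≤ _ := norm_beta_le D h w
  have h2 : ‖w‖ ≤ 0 := by linarith
  simpa using h2

/-- the inverse of `w ↦ w - i β w` -/
noncomputable def Jinv (D : P m k →L[ℝ] (Fin k → ℝ)) (h : ‖D‖ ≤ 1 / 4) :
    (Fin k → ℂ) →L[ℂ] (Fin k → ℂ) :=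
  LinearMap.toContinuousLinearMap
    ((LinearEquiv.ofInjectiveEndo (Jlin D) (Jlin_inj D h)).symm :
      (Fin k → ℂ) →ₗ[ℂ] (Fin k → ℂ))

lemma J_Jinv (D : P m k →L[ℝ] (Fin k → ℝ)) (h : ‖D‖ ≤ 1 / 4) (w : Fin k → ℂ) :
    Jinv D h w - I • beta D (Jinv D h w) = w := by
  rw [← Jlin_apply]
  exact (LinearEquiv.ofInjectiveEndo (Jlin D) (Jlin_inj D h)).apply_symm_apply w

lemma Jinv_J (D : P m k →L[ℝ] (Fin k → ℝ)) (h : ‖D‖ ≤ 1 / 4) (w : Fin k → ℂ) :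
    Jinv D h (w - I • beta D w) = w := by
  rw [← Jlin_apply]
  exact (LinearEquiv.ofInjectiveEndo (Jlin D) (Jlin_inj D h)).symm_apply_apply w

/-- the inverse of `Amap Ht a` -/
noncomputable def Ainv (Ht : P m k → (Fin k → ℝ)) (a : P m k) (h : ‖fderiv ℝ Ht a‖ ≤ 1 / 4)
    (y : EE m k) : EE m k :=
  (y.1 + a.1, (sig Ht a).2 + Jinv (fderiv ℝ Ht a) h (y.2 + (2 * I) • alpha (fderiv ℝ Ht a) y.1))

variable (Ht : P m k → (Fin k → ℝ)) (a : P m k) (h : ‖fderiv ℝ Ht a‖ ≤ 1 / 4)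

lemma Ainv_Amap (p : EE m k) : Ainv Ht a h (Amap Ht a p) = p := by
  refine Prod.ext ?_ ?_
  · simp [Ainv, Amap]
  · simp only [Ainv, Amap]
    rw [sub_add_cancel, Jinv_J]
    abel

lemma Amap_Ainv (p : EE m k) : Amap Ht a (Ainv Ht a h p) = p := by
  refine Prod.ext ?_ ?_
  · simp [Ainv, Amap]
  · simp only [Ainv, Amap]
    rw [add_sub_cancel_left, J_Jinv, add_sub_cancel_right]
    abel

lemma Ainv_zero : Ainv Ht a h 0 = sig Ht a := by
  refine Prod.ext ?_ ?_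
  · simp [Ainv, sig]
  · simp [Ainv]

/-- the linear part of `Ainv` -/
noncomputable def Alin : EE m k →L[ℂ] EE m k :=
  (ContinuousLinearMap.fst ℂ _ _).prod
    ((Jinv (fderiv ℝ Ht a) h).comp ((ContinuousLinearMap.snd ℂ _ _) +
      (2 * I) • (alpha (fderiv ℝ Ht a)).comp (ContinuousLinearMap.fst ℂ _ _)))

lemma Alin_apply (y : EE m k) : Alin Ht a h y =
    (y.1, Jinv (fderiv ℝ Ht a) h (y.2 + (2 * I) • alpha (fderiv ℝ Ht a) y.1)) := rfl

lemma Ainv_eq (y : EE m k) : Ainv Ht a h y = Alin Ht a h y + sig Ht a := by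
  refine Prod.ext ?_ ?_
  · simp [Ainv, Alin_apply, sig]
  · simp only [Ainv, Alin_apply, Prod.snd_add]
    abel

lemma hasFDerivAt_Ainv (y : EE m k) : HasFDerivAt (Ainv Ht a h) (Alin Ht a h) y := by
  have : Ainv Ht a h = fun y => Alin Ht a h y + sig Ht a := funext (Ainv_eq Ht a h)
  rw [this]
  exact (Alin Ht a h).hasFDerivAt.add_const _

lemma differentiable_Ainv : Differentiable ℂ (Ainv Ht a h) :=
  fun y => (hasFDerivAt_Ainv Ht a h y).differentiableAt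

lemma fderiv_Ainv (y : EE m k) : fderiv ℂ (Ainv Ht a h) y = Alin Ht a h :=
  (hasFDerivAt_Ainv Ht a h y).fderiv

lemma differentiable_Amap : Differentiable ℂ (Amap Ht a) := by
  unfold Amap
  fun_prop

lemma two_alpha (D : P m k →L[ℝ] (Fin k → ℝ)) (ζ : Fin m → ℂ) :
    (2 * I) • alpha D ζ = I • ofR (D (ζ, 0)) + ofR (D (I • ζ, 0)) := by
  rw [JL.alpha_apply, smul_smul, smul_sub, smul_smul]
  have e1 : 2 * I * (1 / 2) = I := by ring
  have e2 : 2 * I * (1 / 2) * I = -1 := by rw [e1, I_mul_I]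
  rw [e1, I_mul_I]
  simp

lemma beta_ofR (D : P m k →L[ℝ] (Fin k → ℝ)) (u : Fin k → ℝ) :
    beta D (ofR u) = ofR (D (0, u)) := by
  have h1 : reV (ofR u) = u := by ext i; simp
  have h2 : imV (ofR u) = 0 := by ext i; simp
  have h3 : D (0, (0 : Fin k → ℝ)) = 0 := D.map_zero
  rw [JL.beta_apply, h1, h2, h3, map_zero, smul_zero, add_zero]

/-- the key identity: `J (μ + i D(ζ,μ)) = u + 2 i α ζ` with
`u = μ + D(0, D(ζ,μ)) - D(iζ,0)`. -/
lemma J_tangent (D : P m k →L[ℝ] (Fin k → ℝ)) (ζ : Fin m → ℂ) (μ : Fin k → ℝ) :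
    (ofR μ + I • ofR (D (ζ, μ))) - I • beta D (ofR μ + I • ofR (D (ζ, μ)))
      = ofR (μ + D (0, D (ζ, μ)) - D (I • ζ, 0)) + (2 * I) • alpha D ζ := by
  rw [two_alpha, map_add, map_smul, beta_ofR, beta_ofR, smul_add, smul_smul, I_mul_I]
  have e : D (ζ, μ) = D (ζ, 0) + D (0, μ) := by rw [← map_add]; simp
  have e2 : ofR (D (ζ, μ)) = ofR (D (ζ, 0)) + ofR (D (0, μ)) := by rw [e, map_add]
  rw [map_sub, map_add]
  have e3 : I • ofR (D (ζ, μ)) = I • ofR (D (ζ, 0)) + I • ofR (D (0, μ)) := by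
    rw [e2, smul_add]
  rw [e3]
  simp only [neg_smul, one_smul]
  abel

lemma Alin_tangent (ζ : Fin m → ℂ) (μ : Fin k → ℝ) :
    Alin Ht a h (ζ, ofR (μ + fderiv ℝ Ht a (0, fderiv ℝ Ht a (ζ, μ)) - fderiv ℝ Ht a (I • ζ, 0)))
      = (ζ, ofR μ + I • ofR (fderiv ℝ Ht a (ζ, μ))) := by
  rw [Alin_apply]
  refine Prod.ext rfl ?_
  simp only
  rw [← J_tangent, Jinv_J]

lemma exists_mu (D : P m k →L[ℝ] (Fin k → ℝ)) (h : ‖D‖ ≤ 1 / 4) (ζ : Fin m → ℂ)
    (u : Fin k → ℝ) : ∃ μ : Fin k → ℝ, μ + D (0, D (ζ, μ)) - D (I • ζ, 0) = u := by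
  let K : (Fin k → ℝ) →ₗ[ℝ] (Fin k → ℝ) :=
    { toFun := fun μ => μ + D (0, D (0, μ))
      map_add' := fun x y => by
        have e1 : ((0, x + y) : P m k) = (0, x) + (0, y) := by simp
        have e2 : ∀ x y : Fin k → ℝ, ((0, x + y) : P m k) = (0, x) + (0, y) := by
          intro x y; simp
        rw [e1, map_add, e2, map_add]; abel
      map_smul' := fun c x => by
        have e2 : ∀ x : Fin k → ℝ, ((0, c • x) : P m k) = c • (0, x) := by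
          intro x; simp
        rw [e2, map_smul, e2, map_smul, RingHom.id_apply, smul_add] }
  have hK : ∀ μ, K μ = μ + D (0, D (0, μ)) := fun _ => rfl
  have hinj : Function.Injective K := by
    rw [injective_iff_map_eq_zero]
    intro μ hμ
    rw [hK] at hμ
    have h1 := norm_D_zero_le D h μ
    have h2 := norm_D_zero_le D h (D (0, μ))
    have h3 : ‖μ‖ = ‖D (0, D (0, μ))‖ := by
      rw [← norm_neg (D (0, D (0, μ)))]
      congr 1
      exact eq_neg_of_add_eq_zero_left hμ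
    have h4 : ‖μ‖ ≤ 0 := by linarith
    simpa using h4
  have hsurj := (LinearMap.injective_iff_surjective (f := K)).1 hinj
  obtain ⟨μ, hμ⟩ := hsurj (u + D (I • ζ, 0) - D (0, D (ζ, 0)))
  refine ⟨μ, ?_⟩
  rw [hK] at hμ
  have e : D (ζ, μ) = D (ζ, 0) + D (0, μ) := by rw [← map_add]; simp
  have e2 : ((0, D (ζ, 0) + D (0, μ)) : P m k) = (0, D (ζ, 0)) + (0, D (0, μ)) := by simp
  rw [e, e2, map_add]
  have : μ + (D (0, D (ζ, 0)) + D (0, D (0, μ))) - D (I • ζ, 0)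
      = (μ + D (0, D (0, μ))) + D (0, D (ζ, 0)) - D (I • ζ, 0) := by abel
  rw [this, hμ]
  abel

/-- the tangent spaces correspond -/
lemma range_Alin :
    (range fun ξ : P m k => (Alin Ht a h (ξ.1, ofR ξ.2) : EE m k))
      = range fun ξ : P m k => ((ξ.1, ofR ξ.2 + I • ofR (fderiv ℝ Ht a ξ)) : EE m k) := by
  ext y
  constructor
  · rintro ⟨ξ, rfl⟩
    obtain ⟨μ, hμ⟩ := exists_mu (fderiv ℝ Ht a) h ξ.1 ξ.2
    refine ⟨(ξ.1, μ), ?_⟩
    have := Alin_tangent Ht a h ξ.1 μ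
    rw [hμ] at this
    exact this.symm
  · rintro ⟨ξ, rfl⟩
    exact ⟨(ξ.1, ξ.2 + fderiv ℝ Ht a (0, fderiv ℝ Ht a (ξ.1, ξ.2)) - fderiv ℝ Ht a (I • ξ.1, 0)),
      Alin_tangent Ht a h ξ.1 ξ.2⟩

end Inv

/-- The inverse of `Amap Ht a`. -/
theorem amap_inv {m k : ℕ} (Ht : P m k → (Fin k → ℝ)) (a : P m k)
    (h : ‖fderiv ℝ Ht a‖ ≤ 1 / 4) :
    ∃ Ai : EE m k → EE m k, Differentiable ℂ Ai ∧ Differentiable ℂ (Amap Ht a) ∧
      (∀ y, Ai (Amap Ht a y) = y) ∧ (∀ y, Amap Ht a (Ai y) = y) ∧ Ai 0 = sig Ht a ∧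
      (range fun ξ : P m k => (fderiv ℂ Ai 0 (ξ.1, ofR ξ.2) : EE m k))
        = range fun ξ : P m k => ((ξ.1, ofR ξ.2 + I • ofR (fderiv ℝ Ht a ξ)) : EE m k) := by
  refine ⟨Ainv Ht a h, differentiable_Ainv Ht a h, differentiable_Amap Ht a, Ainv_Amap Ht a h,
    Amap_Ainv Ht a h, Ainv_zero Ht a h, ?_⟩
  rw [fderiv_Ainv]
  exact range_Alin Ht a h

/-- Transport of the peak package to the normalised chart. -/
theorem peak_transport {N m k : ℕ} {K : Set (Fin N → ℂ)} {g : MvPolynomial (Fin N) ℂ}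
    (Ht : P m k → (Fin k → ℝ)) (a : P m k) (e : EE m k → (Fin N → ℂ))
    (he : DifferentiableAt ℂ e (sig Ht a)) {Ai : EE m k → EE m k} (hAi : DifferentiableAt ℂ Ai 0)
    (h0 : Ai 0 = sig Ht a)
    (hr : (range fun ξ : P m k => (fderiv ℂ Ai 0 (ξ.1, ofR ξ.2) : EE m k))
        = range fun ξ : P m k => ((ξ.1, ofR ξ.2 + I • ofR (fderiv ℝ Ht a ξ)) : EE m k))
    (hp : PeakAt K g (e (sig Ht a)) (range fun ξ : P m k =>
      fderiv ℂ e (sig Ht a) (ξ.1, ofR ξ.2 + I • ofR (fderiv ℝ Ht a ξ)))) :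
    PeakAt K g ((e ∘ Ai) 0) (range fun ξ : P m k =>
      fderiv ℂ (e ∘ Ai) 0 (ξ.1, ofR ξ.2)) := by
  have h1 : fderiv ℂ (e ∘ Ai) 0 = (fderiv ℂ e (sig Ht a)).comp (fderiv ℂ Ai 0) := by
    rw [fderiv_comp (0 : EE m k) (by rw [h0]; exact he) hAi, h0]
  have h2 : (range fun ξ : P m k => fderiv ℂ (e ∘ Ai) 0 (ξ.1, ofR ξ.2))
      = range fun ξ : P m k =>
        fderiv ℂ e (sig Ht a) (ξ.1, ofR ξ.2 + I • ofR (fderiv ℝ Ht a ξ)) := by
    have h3 := congrArg (fun s => (fderiv ℂ e (sig Ht a)) '' s) hr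
    simp only [← range_comp] at h3
    rw [h1]
    exact h3
  rw [h2]
  have h4 : (e ∘ Ai) 0 = e (sig Ht a) := by simp [h0]
  rw [h4]
  exact hp

end Crest.Agent.R264.AI
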