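import Crest.Agent.R264.AIface

/-!
Row 264 (S0402), PART A, ASSEMBLY, node ASM0 (helper369): the generic point (LEMMA J applied to
the coordinates of the ambient variety restricted to the peak stratum), and
`PKStmt → LemJ → CoordStmt → Asm1Stmt → ThmAT`.
-/

set_option autoImplicit false

open Topology Filter Set Metric Complex
open scoped ContDiff

namespace Crest.Agent.R264.AI

open Crest.AlgGeometry.Semialg

/-- statement of `asm1` (node ASM1): `GraphData ⟹ PeakData`. -/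
def Asm1Stmt : Prop :=
  ∀ (N : ℕ) (U : Set (Fin N → ℂ)) (Γ : Subgroup (Equiv.Perm U)), Setup N U Γ →
    ∀ n : ℕ, 0 < n → IsSubmfd n U → ∀ m k : ℕ, m + k = n → GraphData m k U →
      Nonempty (PeakData U n)

/-- evaluation of a substituted polynomial -/
theorem eval_bind₁_poly {N n : ℕ} (t : Fin n → MvPolynomial (Fin N) ℂ)
    (R : MvPolynomial (Fin n) ℂ) (x : Fin N → ℂ) :
    MvPolynomial.eval x (MvPolynomial.bind₁ t R) = MvPolynomial.eval (polyMap t x) R := by
  have := MvPolynomial.aeval_bind₁ (S := ℂ) x t R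
  rw [show polyMap t x = fun i => MvPolynomial.eval x (t i) from rfl]
  simpa [MvPolynomial.aeval_eq_eval] using this

/-- LEMMA J gives the generic point on the peak stratum. -/
theorem exists_tau1 (hJ : LemJ) {N n : ℕ} {V U : Set (Fin N → ℂ)} (A : AlgData n V U)
    (K : PKData U A.I0 A.D) :
    ∃ τ₁ ∈ K.T,
      Submodule.span ℂ (range (fderiv ℝ (fun τ => polyMap A.t (K.ε τ)) τ₁)) = ⊤ := by
  refine hJ K.r n K.T (fun τ => polyMap A.t (K.ε τ)) K.hT K.hTne K.hTconv ?_ ?_ ?_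
  · intro τ hτ
    refine analyticAt_pi_iff.2 fun i => ?_
    have h1 : AnalyticAt ℝ K.ε τ := K.hε τ hτ
    have h2 : ∀ j, AnalyticAt ℝ (fun τ => K.ε τ j) τ := fun j => (analyticAt_pi_iff.1 h1) j
    have h3 := AnalyticAt.aeval_mvPolynomial (A := ℂ) (B := ℂ) h2 (A.t i)
    simpa [polyMap, MvPolynomial.aeval_eq_eval] using h3
  · intro R hR
    apply A.indep
    apply K.gen
    intro τ hτ
    rw [eval_bind₁_poly]
    exact hR τ hτ
  · intro i
    exact K.alg (A.t i)

/-- `PKStmt → LemJ → CoordStmt → Asm1Stmt → ThmAT`. -/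
theorem thmAT_of0 (hPK : PKStmt) (hJ : LemJ) (hC : CoordStmt) (h1 : Asm1Stmt) : ThmAT := by
  intro N U Γ S V O hV hO hUO n hn hU A
  obtain ⟨K⟩ := hPK N U Γ S V O hV hO hUO n hn hU A
  obtain ⟨τ₁, hτ₁, hsp⟩ := exists_tau1 hJ A K
  obtain ⟨m, k, hmk, ⟨G⟩⟩ := hC N n V U O hV hO hUO S.sa S.bdd A K τ₁ hτ₁ hsp
  exact h1 N U Γ S n hn hU m k hmk G

end Crest.Agent.R264.AI
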