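import Crest.Agent.R264.AIface

/-!
Row 264 (S0402), PART A, ASSEMBLY: the final chart at `a ∈ G.O` (interface between
`AChg.lean` (helper163) and `ASM.lean` (helper369)).
-/

set_option autoImplicit false

open Topology Filter Set Metric Complex
open scoped ContDiff

namespace Crest.Agent.R264.AI

open Crest.AlgGeometry.Semialg
open Crest.Agent.R264.JL (P sig Amap ofR Far OMs)

/-- the final chart at `a`: `W = Amap '' G.W`, `κ = Amap ∘ G.κ`, `e = G.e ∘ Amap⁻¹`. -/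
structure FChart {N m k : ℕ} {U : Set (Fin N → ℂ)} (G : GraphData m k U) (a : P m k) where
  W : Set (EE m k)
  κ : (Fin N → ℂ) → EE m k
  e : EE m k → (Fin N → ℂ)
  hW : IsOpen W
  W0 : (0 : EE m k) ∈ W
  hκ : Differentiable ℂ κ
  he : DifferentiableOn ℂ e W
  e_mem : ∀ y ∈ W, e y ∈ G.B
  κ_e : ∀ y ∈ W, κ (e y) = y
  κ_mem : ∀ x ∈ closure U, x ∈ G.B → κ x ∈ W
  e_κ : ∀ x ∈ closure U, x ∈ G.B → e (κ x) = x
  e0 : e 0 = G.e (sig G.Ht a)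
  UU_iff : ∀ y, y ∈ Amap G.Ht a '' G.UU ↔ y ∈ W ∧ e y ∈ U
  UUo : IsOpen (Amap G.Ht a '' G.UU)
  peak : PeakAt (closure U) G.g (e 0) (range fun ξ : P m k => fderiv ℂ e 0 (ξ.1, ofR ξ.2))
  ks : ∃ ρ₁ : ℝ, 0 < ρ₁ ∧ Bsh.KSHyp (Amap G.Ht a '' G.UU) ρ₁

/-- output of `AChg.lean` -/
def FChartStmt : Prop :=
  ∀ (N : ℕ) (U : Set (Fin N → ℂ)) (Γ : Subgroup (Equiv.Perm U)), Setup N U Γ →
    ∀ n : ℕ, IsSubmfd n U → ∀ m k : ℕ, m + k = n → ∀ (G : GraphData m k U) (a : P m k),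
      a ∈ G.O → Nonempty (FChart G a)

end Crest.Agent.R264.AI
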