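import Mathlib

/-!
Row 264, LEMMA KS (note 11285), abstract part: a family of holomorphic functions on an open set
`UU`, locally bounded on `UU` and blowing up at the boundary points of `UU` inside `P`, gives the
Kontinuitaetssatz for `UU` inside `P`. (helper163)
-/

set_option autoImplicit false

open Set Filter Topology Metric

namespace Crest.Agent.R264.KS

/-- The abstract Kontinuitaetssatz. -/
theorem konti {E : Type*} [NormedAddCommGroup E] [NormedSpace ℂ E] {UU P : Set E}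
    (hUU : IsOpen UU) {Hf : Set (E → ℂ)} (hd : ∀ h ∈ Hf, DifferentiableOn ℂ h UU)
    (hb : ∀ Q : Set E, IsCompact Q → Q ⊆ UU → ∃ C : ℝ, ∀ h ∈ Hf, ∀ x ∈ Q, ‖h x‖ ≤ C)
    (hblow : ∀ y ∈ P, y ∉ UU → ∀ C : ℝ, ∀ᶠ x in 𝓝[UU] y, ∃ h ∈ Hf, C < ‖h x‖)
    {A : ℝ → ℂ → E}
    (hA : ContinuousOn (fun q : ℝ × ℂ => A q.1 q.2) (Icc (0 : ℝ) 1 ×ˢ closedBall (0 : ℂ) 1))
    (hAh : ∀ s ∈ Icc (0 : ℝ) 1, DifferentiableOn ℂ (A s) (ball (0 : ℂ) 1))
    (hAP : ∀ s ∈ Icc (0 : ℝ) 1, ∀ z ∈ closedBall (0 : ℂ) 1, A s z ∈ P)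
    {Q : Set E} (hQ : IsCompact Q) (hQU : Q ⊆ UU)
    (hbd : ∀ s ∈ Icc (0 : ℝ) 1, ∀ z ∈ sphere (0 : ℂ) 1, A s z ∈ Q)
    (h0 : ∀ z ∈ closedBall (0 : ℂ) 1, A 0 z ∈ UU) :
    ∀ s ∈ Icc (0 : ℝ) 1, ∀ z ∈ closedBall (0 : ℂ) 1, A s z ∈ UU := by
  obtain ⟨C, hC⟩ := hb Q hQ hQU
  -- continuity of each `A s` on the closed disc
  have hAc : ∀ s ∈ Icc (0 : ℝ) 1, ContinuousOn (A s) (closedBall (0 : ℂ) 1) := by
    intro s hs
    have : ContinuousOn (fun z : ℂ => (s, z)) (closedBall (0 : ℂ) 1) := by fun_prop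
    exact hA.comp this (fun z hz => ⟨hs, hz⟩)
  -- maximum principle
  have hmax : ∀ s ∈ Icc (0 : ℝ) 1, (∀ z ∈ closedBall (0 : ℂ) 1, A s z ∈ UU) →
      ∀ h ∈ Hf, ∀ z ∈ closedBall (0 : ℂ) 1, ‖h (A s z)‖ ≤ C := by
    intro s hs hsU h hh z hz
    have hdc : DiffContOnCl ℂ (fun z => h (A s z)) (ball (0 : ℂ) 1) := by
      refine ⟨?_, ?_⟩
      · exact (hd h hh).comp (hAh s hs) (fun z hz => hsU z (ball_subset_closedBall hz))
      · rw [closure_ball (0 : ℂ) one_ne_zero]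
        exact (hd h hh).continuousOn.comp (hAc s hs) hsU
    refine Complex.norm_le_of_forall_mem_frontier_norm_le isBounded_ball hdc (fun w hw => ?_) ?_
    · rw [frontier_ball (0 : ℂ) one_ne_zero] at hw
      exact hC h hh _ (hbd s hs w hw)
    · rw [closure_ball (0 : ℂ) one_ne_zero]
      exact hz
  set S : Set ℝ := {s | ∀ z ∈ closedBall (0 : ℂ) 1, A s z ∈ UU} with hS
  have hclosed : IsClosed (S ∩ Icc (0 : ℝ) 1) := by
    refine isClosed_of_closure_subset (fun s hs => ?_)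
    obtain ⟨u, hu, hus⟩ := mem_closure_iff_seq_limit.1 hs
    have hsI : s ∈ Icc (0 : ℝ) 1 :=
      isClosed_Icc.mem_of_tendsto hus (Eventually.of_forall (fun k => (hu k).2))
    refine ⟨fun z hz => ?_, hsI⟩
    by_contra hzU
    have ht : Tendsto (fun k => A (u k) z) atTop (𝓝 (A s z)) := by
      have h1 : ContinuousWithinAt (fun q : ℝ × ℂ => A q.1 q.2)
          (Icc (0 : ℝ) 1 ×ˢ closedBall (0 : ℂ) 1) (s, z) := hA (s, z) ⟨hsI, hz⟩
      have h2 : Tendsto (fun k => (u k, z)) atTop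
          (𝓝[Icc (0 : ℝ) 1 ×ˢ closedBall (0 : ℂ) 1] (s, z)) := by
        refine tendsto_nhdsWithin_iff.2 ⟨hus.prodMk_nhds tendsto_const_nhds,
          Eventually.of_forall (fun k => ⟨(hu k).2, hz⟩)⟩
      exact h1.tendsto.comp h2
    have ht' : Tendsto (fun k => A (u k) z) atTop (𝓝[UU] (A s z)) :=
      tendsto_nhdsWithin_iff.2 ⟨ht, Eventually.of_forall (fun k => (hu k).1 z hz)⟩
    obtain ⟨k, h, hh, hk⟩ := (ht'.eventually (hblow _ (hAP s hsI z hz) hzU C)).exists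
    exact absurd (hmax (u k) (hu k).2 (hu k).1 h hh z hz) (not_le.2 hk)
  have hsub : Icc (0 : ℝ) 1 ⊆ S := by
    refine hclosed.Icc_subset_of_forall_mem_nhdsWithin (fun z hz => h0 z hz) ?_
    rintro s ⟨hsS, hsI⟩
    have hev : ∀ᶠ s' in 𝓝 s, ∀ z ∈ closedBall (0 : ℂ) 1,
        (s' ∈ Icc (0 : ℝ) 1 → z ∈ closedBall (0 : ℂ) 1 → A s' z ∈ UU) := by
      refine IsCompact.eventually_forall_of_forall_eventually
        (isCompact_closedBall (0 : ℂ) 1) (fun z hz => ?_)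
      have h1 : ContinuousWithinAt (fun q : ℝ × ℂ => A q.1 q.2)
          (Icc (0 : ℝ) 1 ×ˢ closedBall (0 : ℂ) 1) (s, z) :=
        hA (s, z) ⟨⟨hsI.1, hsI.2.le⟩, hz⟩
      have h2 := h1.eventually (hUU.mem_nhds (hsS z hz))
      rw [eventually_nhdsWithin_iff] at h2
      filter_upwards [h2] with q hq hq1 hq2
      exact hq ⟨hq1, hq2⟩
    have hI : Icc (0 : ℝ) 1 ∈ 𝓝[>] s := by
      have : Ioc s 1 ∈ 𝓝[>] s := Ioc_mem_nhdsGT hsI.2
      exact mem_of_superset this (fun t ht => ⟨hsI.1.trans ht.1.le, ht.2⟩)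
    filter_upwards [nhdsWithin_le_nhds hev, hI] with s' h1 h2
    exact fun z hz => h1 z hz h2 hz
  exact fun s hs => hsub hs

end Crest.Agent.R264.KS
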