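import Mathlib
import Crest.Agent.R266.SCV

/-!
Row 264, LEMMA KS: the determinant of the derivative; functions holomorphic on a subset; charts;
quantitative surjectivity. (helper163)
-/

set_option autoImplicit false

open Set Filter Topology Metric

namespace Crest.Agent.R264.KS

section Det

variable {E : Type*} [NormedAddCommGroup E] [NormedSpace ℂ E] [FiniteDimensional ℂ E]

theorem differentiable_det : Differentiable ℂ (fun A : E →L[ℂ] E => A.det) := by
  classical
  set b := Module.finBasis ℂ E with hb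
  have h1 : (fun A : E →L[ℂ] E => A.det) = fun A : E →L[ℂ] E =>
      ∑ σ : Equiv.Perm (Fin (Module.finrank ℂ E)), ((Equiv.Perm.sign σ : ℤ) : ℂ) *
        ∏ i, (LinearMap.toContinuousLinearMap (b.coord (σ i))) (A (b i)) := by
    funext A
    rw [ContinuousLinearMap.det, ← LinearMap.det_toMatrix b, Matrix.det_apply']
    refine Finset.sum_congr rfl (fun σ _ => ?_)
    congr 1
    refine Finset.prod_congr rfl (fun i _ => ?_)
    rw [LinearMap.toMatrix_apply]
    simp
  rw [h1]
  refine Differentiable.fun_sum (fun σ _ => ?_)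
  refine Differentiable.const_mul ?_ _
  intro A
  refine (HasFDerivAt.finsetProd (fun i _ => DifferentiableAt.hasFDerivAt ?_)).differentiableAt
  fun_prop

theorem det_comp (A B : E →L[ℂ] E) : (A.comp B).det = A.det * B.det := by
  simp only [ContinuousLinearMap.det, ContinuousLinearMap.coe_comp]
  exact LinearMap.det_comp _ _

theorem range_eq_top_of_det_ne_zero {A : E →L[ℂ] E} (h : A.det ≠ 0) : A.range = ⊤ := by
  have h1 : LinearMap.det (A : E →ₗ[ℂ] E) ≠ 0 := h
  have h2 : IsUnit (A : E →ₗ[ℂ] E) := (LinearMap.isUnit_iff_isUnit_det _).2 (isUnit_iff_ne_zero.2 h1)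
  have h3 := (Module.End.isUnit_iff _).1 h2
  exact LinearMap.range_eq_top.2 h3.2

end Det

section Hol

variable {H : Type*} [NormedAddCommGroup H] [NormedSpace ℂ H]
variable {E : Type*} [NormedAddCommGroup E] [NormedSpace ℂ E]
variable {F : Type*} [NormedAddCommGroup F] [NormedSpace ℂ F]
variable {G : Type*} [NormedAddCommGroup G] [NormedSpace ℂ G]

/-- `f` is holomorphic on the subset `U`: locally the restriction of a holomorphic map of the
ambient space (same notion as `Crest.AlgGeometry.Semialg.IsHolomorphicMap`, for total maps) -/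
def HolOn (U : Set H) (f : H → F) : Prop :=
  ∀ x ∈ U, ∃ O : Set H, IsOpen O ∧ x ∈ O ∧ ∃ g : H → F, DifferentiableOn ℂ g O ∧
    ∀ y ∈ U, y ∈ O → f y = g y

theorem HolOn.of_differentiable {U : Set H} {f : H → F} (hf : Differentiable ℂ f) : HolOn U f :=
  fun _ _ => ⟨univ, isOpen_univ, mem_univ _, f, hf.differentiableOn, fun _ _ _ => rfl⟩

theorem HolOn.comp {U : Set H} {U' : Set F} {f : F → G} {t : H → F} (hf : HolOn U' f)
    (ht : HolOn U t) (hm : MapsTo t U U') : HolOn U (f ∘ t) := by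
  intro x hx
  obtain ⟨O, hO, hxO, g, hg, hgt⟩ := ht x hx
  obtain ⟨O', hO', hxO', g', hg', hgf⟩ := hf (t x) (hm hx)
  refine ⟨O ∩ g ⁻¹' O', hg.continuousOn.isOpen_inter_preimage hO hO', ⟨hxO, ?_⟩, g' ∘ g, ?_, ?_⟩
  · rw [mem_preimage, ← hgt x hx hxO]; exact hxO'
  · exact hg'.comp (hg.mono inter_subset_left) (fun y hy => hy.2)
  · intro y hy hyO
    have h1 := hgt y hy hyO.1
    have h2 : t y ∈ O' := by rw [h1]; exact hyO.2
    rw [Function.comp_apply, hgf (t y) (hm hy) h2, h1]
    rfl

/-- composition with a holomorphic parametrisation -/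
theorem HolOn.comp_param {U : Set H} {f : H → F} (hf : HolOn U f) {B : Set E} {φ : E → H}
    (hφ : DifferentiableOn ℂ φ B) (hB : IsOpen B) (hm : MapsTo φ B U) :
    DifferentiableOn ℂ (f ∘ φ) B := by
  intro b hb
  obtain ⟨O, hO, hxO, g, hg, hgf⟩ := hf (φ b) (hm hb)
  have hφb : DifferentiableAt ℂ φ b := hφ.differentiableAt (hB.mem_nhds hb)
  have h1 : (f ∘ φ) =ᶠ[𝓝 b] (g ∘ φ) := by
    filter_upwards [hB.mem_nhds hb, hφb.continuousAt (hO.mem_nhds hxO)] with c hc hcO
    exact hgf _ (hm hc) hcO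
  have h2 : DifferentiableAt ℂ (g ∘ φ) b :=
    (hg.differentiableAt (hO.mem_nhds hxO)).comp b hφb
  exact (h2.congr_of_eventuallyEq h1).differentiableWithinAt

/-- a holomorphic chart `φ : B → W` of an ambient manifold containing `U ∩ W`, with holomorphic
retraction `ξ` -/
structure IsChart (U : Set H) (B : Set E) (W : Set H) (φ : E → H) (ξ : H → E) : Prop where
  openB : IsOpen B
  openW : IsOpen W
  dphi : DifferentiableOn ℂ φ B
  dxi : DifferentiableOn ℂ ξ W
  mphi : MapsTo φ B W
  left : ∀ b ∈ B, ξ (φ b) = b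
  mxi : ∀ x ∈ U, x ∈ W → ξ x ∈ B
  right : ∀ x ∈ U, x ∈ W → φ (ξ x) = x

end Hol

section Surj

variable {E : Type*} [NormedAddCommGroup E] [NormedSpace ℂ E] [FiniteDimensional ℂ E]

/-- a uniform estimate on the second derivative -/
theorem norm_fderiv_sub_le {g : E → E} {a : E} {r M : ℝ} (hr : 0 < r)
    (hg : DifferentiableOn ℂ g (ball a (4 * r))) (hM : ∀ z ∈ ball a (4 * r), ‖g z‖ ≤ M) :
    (∀ z ∈ ball a (2 * r), ‖fderiv ℂ g z‖ ≤ M / r) ∧
    ∀ z ∈ ball a r, ∀ w ∈ ball a r, ‖fderiv ℂ g z - fderiv ℂ g w‖ ≤ M / r / r * ‖z - w‖ := by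
  have hA : AnalyticOnNhd ℂ g (ball a (4 * r)) :=
    R266.SCV.analyticOnNhd_of_differentiableOn isOpen_ball hg
  have hA' : AnalyticOnNhd ℂ (fderiv ℂ g) (ball a (4 * r)) := hA.fderiv
  have h1 : ∀ z ∈ ball a (2 * r), ‖fderiv ℂ g z‖ ≤ M / r := by
    intro z hz
    have hsub : ball z r ⊆ ball a (4 * r) := by
      intro w hw
      rw [mem_ball] at *
      linarith [dist_triangle w z a]
    exact R266.SCV.norm_fderiv_le_of_ball hr (hg.mono hsub) (fun w hw => hM w (hsub hw))
  refine ⟨h1, fun z hz w hw => ?_⟩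
  have hd : ∀ z ∈ ball a r, DifferentiableAt ℂ (fderiv ℂ g) z := by
    intro z hz
    exact (hA' z (ball_subset_ball (by linarith) hz)).differentiableAt
  have h2 : ∀ z ∈ ball a r, ‖fderiv ℂ (fderiv ℂ g) z‖ ≤ M / r / r := by
    intro z hz
    have hsub : ball z r ⊆ ball a (2 * r) := by
      intro w hw
      rw [mem_ball] at *
      linarith [dist_triangle w z a]
    exact R266.SCV.norm_fderiv_le_of_ball hr
      (fun w hw => (hA' w (ball_subset_ball (by linarith) (hsub hw))).differentiableAt.differentiableWithinAt)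
      (fun w hw => h1 w (hsub hw))
  exact (convex_ball a r).norm_image_sub_le_of_norm_fderiv_le hd h2 hw hz

end Surj

end Crest.Agent.R264.KS
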