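import Mathlib
import Crest.Agent.R264.KSDet
import Crest.Agent.R264.KSAbs

/-!
Row 264, LEMMA KS: blow-up of the Caratheodory determinants at the boundary points of `UU` lying
in a chart, and the Kontinuitaetssatz. (helper163)
-/

set_option autoImplicit false

open Set Filter Topology Metric

namespace Crest.Agent.R264.KS

variable {E : Type*} [NormedAddCommGroup E] [NormedSpace ℂ E] [FiniteDimensional ℂ E]
variable {H : Type*} [NormedAddCommGroup H] [NormedSpace ℂ H] [FiniteDimensional ℂ H]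

/-- Caratheodory determinants in the parametrisation `φ` -/
def Hfam (U : Set H) (φ : E → H) : Set (E → ℂ) :=
  {h | ∃ F : H → E, HolOn U F ∧ (∀ x ∈ U, ‖F x‖ ≤ 1) ∧ h = fun x => (fderiv ℂ (F ∘ φ) x).det}

theorem hfam_differentiableOn {U : Set H} {φ : E → H} {UU : Set E} (hUU : IsOpen UU)
    (hφ : DifferentiableOn ℂ φ UU) (hm : MapsTo φ UU U) :
    ∀ h ∈ Hfam U φ, DifferentiableOn ℂ h UU := by
  rintro h ⟨F, hF, -, rfl⟩
  have h1 : DifferentiableOn ℂ (F ∘ φ) UU := hF.comp_param hφ hUU hm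
  have h2 : AnalyticOnNhd ℂ (F ∘ φ) UU := R266.SCV.analyticOnNhd_of_differentiableOn hUU h1
  intro x hx
  have h3 : DifferentiableAt ℂ (fderiv ℂ (F ∘ φ)) x := (h2.fderiv x hx).differentiableAt
  exact ((differentiable_det _).comp x h3).differentiableWithinAt

theorem hfam_bdd {U : Set H} {φ : E → H} {UU : Set E} (hUU : IsOpen UU)
    (hφ : DifferentiableOn ℂ φ UU) (hm : MapsTo φ UU U) :
    ∀ Q : Set E, IsCompact Q → Q ⊆ UU → ∃ C : ℝ, ∀ h ∈ Hfam U φ, ∀ x ∈ Q, ‖h x‖ ≤ C := by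
  intro Q hQ hQU
  obtain ⟨δ, hδ, hδU⟩ := hQ.exists_thickening_subset_open hUU hQU
  haveI : ProperSpace (E →L[ℂ] E) := FiniteDimensional.proper ℂ _
  obtain ⟨C, hC⟩ := (isCompact_closedBall (0 : E →L[ℂ] E) (1 / δ)).exists_bound_of_continuousOn
    (f := fun A : E →L[ℂ] E => A.det) differentiable_det.continuous.continuousOn
  refine ⟨C, ?_⟩
  rintro h ⟨F, hF, hF1, rfl⟩ x hx
  have hsub : ball x δ ⊆ UU := by
    refine Subset.trans (fun y hy => ?_) hδU
    rw [mem_thickening_iff]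
    exact ⟨x, hx, hy⟩
  have h1 : DifferentiableOn ℂ (F ∘ φ) UU := hF.comp_param hφ hUU hm
  have h2 : ‖fderiv ℂ (F ∘ φ) x‖ ≤ 1 / δ :=
    R266.SCV.norm_fderiv_le_of_ball hδ (h1.mono hsub) (fun y hy => hF1 _ (hm (hsub hy)))
  exact hC _ (by simpa using h2)

/-- quantitative surjectivity: if `g` is holomorphic and bounded by `M` on `ball a (4r)` and its
derivative at `b` is close to an invertible map -/
theorem surj_small {A : E →L[ℂ] E} (hA : A.det ≠ 0) {M r : ℝ} (hr : 0 < r) (hM : 0 ≤ M) (a : E) :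
    ∃ δ > 0, ∃ ε > 0, ∃ κ > 0, δ ≤ r / 2 ∧ ∀ (g : E → E), DifferentiableOn ℂ g (ball a (4 * r)) →
      (∀ z ∈ ball a (4 * r), ‖g z‖ ≤ M) → ∀ b ∈ ball a (r / 2), ‖fderiv ℂ g b - A‖ ≤ ε →
        closedBall (g b) κ ⊆ g '' closedBall b δ := by
  obtain ⟨fs, hfs⟩ := ContinuousLinearMap.exists_nonlinearRightInverse_of_surjective A
    (range_eq_top_of_det_ne_zero hA)
  set N : ℝ := (fs.nnnorm : ℝ) with hN
  have hN0 : 0 < N := hfs
  set c : ℝ := N⁻¹ / 2 with hc
  have hc0 : 0 < c := by positivity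
  set L : ℝ := M / r / r with hL
  have hL0 : 0 ≤ L := by positivity
  set δ : ℝ := min (r / 4) (c / (2 * (L + 1))) with hδ
  have hδ0 : 0 < δ := by positivity
  have hδr : δ ≤ r / 4 := min_le_left _ _
  have hδL : L * δ ≤ c / 2 := by
    have h1 : δ ≤ c / (2 * (L + 1)) := min_le_right _ _
    calc L * δ ≤ L * (c / (2 * (L + 1))) := by gcongr
      _ = (L / (L + 1)) * (c / 2) := by field_simp
      _ ≤ 1 * (c / 2) := by
          gcongr
          rw [div_le_one (by positivity)]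
          linarith
      _ = c / 2 := one_mul _
  refine ⟨δ, hδ0, c / 2, by positivity, c * δ, by positivity, by linarith, ?_⟩
  intro g hg hgM b hb hbA
  obtain ⟨h1, h2⟩ := norm_fderiv_sub_le hr hg hgM
  have hsub : closedBall b δ ⊆ ball a r := by
    intro w hw
    rw [mem_closedBall] at hw
    rw [mem_ball] at *
    linarith [dist_triangle w b a]
  have hbr : b ∈ ball a r := hsub (mem_closedBall_self hδ0.le)
  have happ : ApproximatesLinearOn g A (closedBall b δ) ⟨c, hc0.le⟩ := by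
    intro z hz w hw
    have hdiff : ∀ x ∈ closedBall b δ, DifferentiableAt ℂ g x := fun x hx =>
      hg.differentiableAt (isOpen_ball.mem_nhds (ball_subset_ball (by linarith) (hsub hx)))
    have hbound : ∀ x ∈ closedBall b δ, ‖fderiv ℂ g x - A‖ ≤ c := by
      intro x hx
      calc ‖fderiv ℂ g x - A‖ = ‖(fderiv ℂ g x - fderiv ℂ g b) + (fderiv ℂ g b - A)‖ := by
            congr 1; abel
        _ ≤ ‖fderiv ℂ g x - fderiv ℂ g b‖ + ‖fderiv ℂ g b - A‖ := norm_add_le _ _
        _ ≤ L * ‖x - b‖ + c / 2 := add_le_add (h2 x (hsub hx) b hbr) hbA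
        _ ≤ L * δ + c / 2 := by
            gcongr
            rw [← dist_eq_norm]
            exact hx
        _ ≤ c / 2 + c / 2 := by linarith
        _ = c := by ring
    have := (convex_closedBall b δ).norm_image_sub_le_of_norm_fderiv_le' hdiff hbound hw hz
    exact this
  have hsurj := happ.surjOn_closedBall_of_nonlinearRightInverse fs hδ0.le (subset_refl _)
  have hrad : ((fs.nnnorm : ℝ)⁻¹ - ((⟨c, hc0.le⟩ : NNReal) : ℝ)) * δ = c * δ := by
    have h3 : ((⟨c, hc0.le⟩ : NNReal) : ℝ) = c := rfl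
    rw [h3, ← hN]
    have h4 : N⁻¹ - c = c := by rw [hc]; ring
    rw [h4]
  intro y hy
  refine hsurj ?_
  rw [mem_closedBall] at hy ⊢
  exact hy.trans (le_of_eq hrad.symm)

end Crest.Agent.R264.KS
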