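import Mathlib
import Crest.Agent.R264.KSBlow

/-!
Row 264, LEMMA KS: blow-up of the Caratheodory determinants at the boundary points of `UU` lying
in a chart, and the Kontinuitaetssatz. (helper163)
-/

set_option autoImplicit false

open Set Filter Topology Metric

namespace Crest.Agent.R264.KS

variable {E : Type*} [NormedAddCommGroup E] [NormedSpace ℂ E] [FiniteDimensional ℂ E]
variable {H : Type*} [NormedAddCommGroup H] [NormedSpace ℂ H] [FiniteDimensional ℂ H]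

/-- derivative of the retraction composed with the derivative of the parametrisation -/
theorem chart_fderiv_comp {U : Set H} {B : Set E} {W : Set H} {φ : E → H} {ξ : H → E}
    (hc : IsChart U B W φ ξ) {b : E} (hb : b ∈ B) :
    (fderiv ℂ ξ (φ b)).comp (fderiv ℂ φ b) = ContinuousLinearMap.id ℂ E := by
  have h1 : DifferentiableAt ℂ φ b := hc.dphi.differentiableAt (hc.openB.mem_nhds hb)
  have h2 : DifferentiableAt ℂ ξ (φ b) := hc.dxi.differentiableAt (hc.openW.mem_nhds (hc.mphi hb))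
  have h3 : (ξ ∘ φ) =ᶠ[𝓝 b] id := by
    filter_upwards [hc.openB.mem_nhds hb] with c hcB
    exact hc.left c hcB
  have h4 : HasFDerivAt (ξ ∘ φ) ((fderiv ℂ ξ (φ b)).comp (fderiv ℂ φ b)) b :=
    h2.hasFDerivAt.comp b h1.hasFDerivAt
  have h5 : HasFDerivAt (ξ ∘ φ) (ContinuousLinearMap.id ℂ E) b :=
    (hasFDerivAt_id b).congr_of_eventuallyEq h3
  exact h4.unique h5

/-- the data of a cocompact family of automorphisms of the bounded set `U` with charts at the points of `K0` -/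
structure Cocpt (E : Type*) [NormedAddCommGroup E] [NormedSpace ℂ E] (U : Set H)
    (Θ : Set (H → H)) (K0 : Set H) : Prop where
  bdd : Bornology.IsBounded U
  hol : ∀ θ ∈ Θ, HolOn U θ ∧ MapsTo θ U U ∧
    ∃ θ' : H → H, HolOn U θ' ∧ MapsTo θ' U U ∧ ∀ x ∈ U, θ' (θ x) = x
  cpt : IsCompact K0
  sub : K0 ⊆ U
  cov : ∀ x ∈ U, ∃ θ ∈ Θ, ∃ κ ∈ K0, θ κ = x
  chart : ∀ κ ∈ K0, ∃ (B : Set E) (W : Set H) (φ : E → H) (ξ : H → E),
    IsChart U B W φ ξ ∧ MapsTo φ B U ∧ κ ∈ W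

theorem blowup {U : Set H} {Θ : Set (H → H)} {K0 : Set H} (hU : Cocpt E U Θ K0)
    {B : Set E} {W : Set H} {φ : E → H} {ξ : H → E} (hc : IsChart U B W φ ξ) {UU : Set E}
    (hUU : UU = B ∩ φ ⁻¹' U) (hUUo : IsOpen UU) {y : E} (hy : y ∈ B) (hyU : y ∉ UU) (C : ℝ) :
    ∀ᶠ x in 𝓝[UU] y, ∃ h ∈ Hfam U φ, C < ‖h x‖ := by
  classical
  by_contra hcon
  rw [not_eventually] at hcon
  -- ultrafilter
  have hne : (𝓝[UU] y ⊓ 𝓟 {x | ¬ ∃ h ∈ Hfam U φ, C < ‖h x‖}).NeBot :=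
    frequently_iff_neBot.1 hcon
  obtain ⟨u, hu⟩ : ∃ u : Ultrafilter E, (u : Filter E) ≤ 𝓝[UU] y ⊓ 𝓟 {x | ¬ ∃ h ∈ Hfam U φ, C < ‖h x‖} :=
    Ultrafilter.exists_le _
  have hux : Tendsto (fun x : E => x) u (𝓝 y) := by
    refine (hu.trans ?_)
    exact inf_le_left.trans nhdsWithin_le_nhds
  have huU : ∀ᶠ x in (u : Filter E), x ∈ UU :=
    (hu.trans (inf_le_left.trans inf_le_right)) (mem_principal_self _)
  have huh : ∀ᶠ x in (u : Filter E), ∀ h ∈ Hfam U φ, ‖h x‖ ≤ C := by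
    have h1 : ∀ᶠ x in (u : Filter E), ¬ ∃ h ∈ Hfam U φ, C < ‖h x‖ :=
      (hu.trans inf_le_right) (mem_principal_self _)
    filter_upwards [h1] with x hx h hh
    by_contra h2
    exact hx ⟨h, hh, not_le.1 h2⟩
  have hφU : ∀ x ∈ UU, φ x ∈ U := by
    intro x hx; rw [hUU] at hx; exact hx.2
  have hUUB : ∀ x ∈ UU, x ∈ B := by
    intro x hx; rw [hUU] at hx; exact hx.1
  -- choose automorphisms
  have hch : ∀ x : E, ∃ (θ θ' : H → H) (κ : H), x ∈ UU → (HolOn U θ ∧ MapsTo θ U U ∧ HolOn U θ' ∧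
      MapsTo θ' U U ∧ (∀ z ∈ U, θ' (θ z) = z) ∧ κ ∈ K0 ∧ θ κ = φ x) := by
    intro x
    by_cases hx : x ∈ UU
    · obtain ⟨θ, hθ, κ, hκ, hθκ⟩ := hU.cov _ (hφU x hx)
      obtain ⟨h1, h2, θ', h3, h4, h5⟩ := hU.hol θ hθ
      exact ⟨θ, θ', κ, fun _ => ⟨h1, h2, h3, h4, h5, hκ, hθκ⟩⟩
    · exact ⟨id, id, 0, fun h => (hx h).elim⟩
  choose θ θ' κ hθκ using hch
  -- limit of κ
  obtain ⟨k, hkK, hk⟩ : ∃ k ∈ K0, Tendsto κ (u : Filter E) (𝓝 k) := by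
    have h1 : ((u.map κ : Ultrafilter H) : Filter H) ≤ 𝓟 K0 := by
      rw [le_principal_iff]
      change ∀ᶠ x in (u : Filter E), κ x ∈ K0
      filter_upwards [huU] with x hx using (hθκ x hx).2.2.2.2.2.1
    obtain ⟨k, hk, hk2⟩ := isCompact_iff_ultrafilter_le_nhds.1 hU.cpt (u.map κ) h1
    exact ⟨k, hk, hk2⟩
  obtain ⟨B', W', ψ, π, hc', hψU, hkW⟩ := hU.chart k hkK
  have hkU : k ∈ U := hU.sub hkK
  set ζ : E → E := fun x => π (κ x) with hζ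
  set ζ0 : E := π k with hζ0
  have hζ0B : ζ0 ∈ B' := hc'.mxi k hkU hkW
  have hζt : Tendsto ζ (u : Filter E) (𝓝 ζ0) :=
    ((hc'.dxi.differentiableAt (hc'.openW.mem_nhds hkW)).continuousAt.tendsto).comp hk
  have hκW : ∀ᶠ x in (u : Filter E), κ x ∈ W' := hk (hc'.openW.mem_nhds hkW)
  have hψζ : ∀ᶠ x in (u : Filter E), ψ (ζ x) = κ x := by
    filter_upwards [huU, hκW] with x hx hxW
    exact hc'.right _ (hU.sub (hθκ x hx).2.2.2.2.2.1) hxW
  -- a ball around ζ0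
  obtain ⟨r₀, hr₀, hr₀B⟩ := Metric.isOpen_iff.1 hc'.openB ζ0 hζ0B
  obtain ⟨R, hR⟩ := hU.bdd.exists_norm_le
  have hR0 : 0 ≤ R := (norm_nonneg _).trans (hR k hkU)
  -- the maps G x := θ x ∘ ψ
  have hGd : ∀ x ∈ UU, DifferentiableOn ℂ (θ x ∘ ψ) B' := fun x hx =>
    (hθκ x hx).1.comp_param hc'.dphi hc'.openB hψU
  have hGm : ∀ x ∈ UU, ∀ z ∈ B', (θ x ∘ ψ) z ∈ U := fun x hx z hz => (hθκ x hx).2.1 (hψU hz)
  have hGlip : ∀ x ∈ UU, ∀ z ∈ ball ζ0 (r₀ / 2), ∀ w ∈ ball ζ0 (r₀ / 2),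
      ‖(θ x ∘ ψ) z - (θ x ∘ ψ) w‖ ≤ R / (r₀ / 2) * ‖z - w‖ := by
    intro x hx z hz w hw
    refine (convex_ball ζ0 (r₀ / 2)).norm_image_sub_le_of_norm_fderiv_le (𝕜 := ℂ) ?_ ?_ hw hz
    · intro p hp
      exact (hGd x hx).differentiableAt (hc'.openB.mem_nhds
        (hr₀B (ball_subset_ball (by linarith) hp)))
    · intro p hp
      have hsub : ball p (r₀ / 2) ⊆ B' := by
        intro q hq
        refine hr₀B ?_
        rw [mem_ball] at *
        linarith [dist_triangle q p ζ0]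
      exact R266.SCV.norm_fderiv_le_of_ball (by positivity) ((hGd x hx).mono hsub)
        (fun q hq => hR _ (hGm x hx q (hsub hq)))
  -- neighbourhood of φ y
  have hyW : φ y ∈ W := hc.mphi hy
  have hξc : ContinuousAt ξ (φ y) := (hc.dxi.differentiableAt (hc.openW.mem_nhds hyW)).continuousAt
  have hφt : Tendsto (fun x => φ x) (u : Filter E) (𝓝 (φ y)) :=
    ((hc.dphi.differentiableAt (hc.openB.mem_nhds hy)).continuousAt.tendsto).comp hux
  set M : ℝ := ‖ξ (φ y)‖ + 1 with hM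
  have hM0 : 0 ≤ M := by positivity
  obtain ⟨ρ, hρ, hρW⟩ : ∃ ρ > 0, ∀ p ∈ ball (φ y) ρ, p ∈ W ∧ ‖ξ p‖ ≤ M := by
    have h1 : ∀ᶠ p in 𝓝 (φ y), ‖ξ p‖ < M := by
      have := hξc.norm.tendsto
      exact this.eventually_lt_const (by rw [hM]; linarith)
    obtain ⟨ρ, hρ, h2⟩ := Metric.eventually_nhds_iff_ball.1 (h1.and (hc.openW.mem_nhds hyW))
    exact ⟨ρ, hρ, fun p hp => ⟨(h2 p hp).2, (h2 p hp).1.le⟩⟩
  -- radius r with `4 r` as radius of the working ball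
  set r : ℝ := min (r₀ / 8) (ρ * r₀ / (32 * (R + 1))) with hr
  have hr0 : 0 < r := by positivity
  have hr1 : 4 * r ≤ r₀ / 2 := by
    have : r ≤ r₀ / 8 := min_le_left _ _
    linarith
  have hr2 : R / (r₀ / 2) * (8 * r) ≤ ρ / 2 := by
    have h1 : r ≤ ρ * r₀ / (32 * (R + 1)) := min_le_right _ _
    calc R / (r₀ / 2) * (8 * r) ≤ R / (r₀ / 2) * (8 * (ρ * r₀ / (32 * (R + 1)))) := by gcongr
      _ = (R / (R + 1)) * (ρ / 2) := by field_simp; ring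
      _ ≤ 1 * (ρ / 2) := by
          gcongr
          rw [div_le_one (by positivity)]
          linarith
      _ = ρ / 2 := one_mul _
  -- eventually the working ball is mapped into the chart
  have hev1 : ∀ᶠ x in (u : Filter E), ζ x ∈ ball ζ0 (r / 2) :=
    hζt (ball_mem_nhds _ (by positivity))
  have hev2 : ∀ᶠ x in (u : Filter E), φ x ∈ ball (φ y) (ρ / 2) :=
    hφt (ball_mem_nhds _ (by positivity))
  have hGball : ∀ᶠ x in (u : Filter E), ∀ z ∈ ball ζ0 (4 * r), (θ x ∘ ψ) z ∈ ball (φ y) ρ := by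
    filter_upwards [huU, hev1, hev2, hψζ] with x hx h1 h2 h3 z hz
    have h4 : (θ x ∘ ψ) (ζ x) = φ x := by
      rw [Function.comp_apply, h3]
      exact (hθκ x hx).2.2.2.2.2.2
    have h5 : ζ x ∈ ball ζ0 (r₀ / 2) := ball_subset_ball (by linarith) h1
    have h6 := hGlip x hx z (ball_subset_ball hr1 hz) (ζ x) h5
    rw [h4] at h6
    have h7 : ‖z - ζ x‖ < 8 * r := by
      rw [← dist_eq_norm]
      rw [mem_ball] at hz h1
      have := dist_triangle_right z (ζ x) ζ0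
      linarith
    rw [mem_ball, dist_eq_norm]
    rw [mem_ball, dist_eq_norm] at h2
    calc ‖(θ x ∘ ψ) z - φ y‖ = ‖((θ x ∘ ψ) z - φ x) + (φ x - φ y)‖ := by congr 1; abel
      _ ≤ ‖(θ x ∘ ψ) z - φ x‖ + ‖φ x - φ y‖ := norm_add_le _ _
      _ < R / (r₀ / 2) * (8 * r) + ρ / 2 := by
          refine add_lt_add_of_le_of_lt (h6.trans ?_) h2
          gcongr
      _ ≤ ρ / 2 + ρ / 2 := by linarith
      _ = ρ := by ring
  -- the maps g x := ξ ∘ θ x ∘ ψ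
  set g : E → E → E := fun x => ξ ∘ (θ x ∘ ψ) with hg
  have hgall : ∀ᶠ x in (u : Filter E), DifferentiableOn ℂ (g x) (ball ζ0 (4 * r)) ∧
      (∀ z ∈ ball ζ0 (4 * r), ‖g x z‖ ≤ M) ∧ (∀ z ∈ ball ζ0 (4 * r), g x z ∈ UU) ∧
      (∀ z ∈ ball ζ0 (4 * r), φ (g x z) = (θ x ∘ ψ) z) ∧ g x (ζ x) = x := by
    filter_upwards [huU, hGball, hψζ] with x hx h1 h3
    have hsub : ball ζ0 (4 * r) ⊆ B' := (ball_subset_ball (by linarith)).trans hr₀B
    have hm : ∀ z ∈ ball ζ0 (4 * r), (θ x ∘ ψ) z ∈ U := fun z hz => hGm x hx z (hsub hz)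
    have hm2 : ∀ z ∈ ball ζ0 (4 * r), φ (g x z) = (θ x ∘ ψ) z := fun z hz =>
      hc.right _ (hm z hz) (hρW _ (h1 z hz)).1
    refine ⟨?_, fun z hz => (hρW _ (h1 z hz)).2, ?_, hm2, ?_⟩
    · exact hc.dxi.comp ((hGd x hx).mono hsub) (fun z hz => (hρW _ (h1 z hz)).1)
    · intro z hz
      rw [hUU]
      refine ⟨hc.mxi _ (hm z hz) (hρW _ (h1 z hz)).1, ?_⟩
      rw [mem_preimage, hm2 z hz]
      exact hm z hz
    · have h4 : (θ x ∘ ψ) (ζ x) = φ x := by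
        rw [Function.comp_apply, h3]
        exact (hθκ x hx).2.2.2.2.2.2
      change ξ ((θ x ∘ ψ) (ζ x)) = x
      rw [h4]
      exact hc.left x (hUUB x hx)
  -- derivatives at ζ x and their limit
  set A : E → (E →L[ℂ] E) := fun x => fderiv ℂ (g x) (ζ x) with hA
  have hAb : ∀ᶠ x in (u : Filter E), ‖A x‖ ≤ M / r := by
    filter_upwards [hgall, hev1] with x hx h1
    exact (norm_fderiv_sub_le hr0 hx.1 hx.2.1).1 _ (ball_subset_ball (by linarith) h1)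
  obtain ⟨A0, hA0⟩ : ∃ A0 : E →L[ℂ] E, Tendsto A (u : Filter E) (𝓝 A0) := by
    have : ProperSpace (E →L[ℂ] E) := FiniteDimensional.proper ℂ _
    have h1 : ((u.map A : Ultrafilter (E →L[ℂ] E)) : Filter (E →L[ℂ] E)) ≤
        𝓟 (closedBall 0 (M / r)) := by
      rw [le_principal_iff]
      change ∀ᶠ x in (u : Filter E), A x ∈ closedBall 0 (M / r)
      filter_upwards [hAb] with x hx
      simpa using hx
    obtain ⟨A0, -, h2⟩ := isCompact_iff_ultrafilter_le_nhds.1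
      (isCompact_closedBall (0 : E →L[ℂ] E) (M / r)) (u.map A) h1
    exact ⟨A0, h2⟩
  -- the fixed map F0
  set L0 : H →L[ℂ] E := fderiv ℂ π k with hL0
  set ε : ℝ := ((‖L0‖ + 1) * (R + 1))⁻¹ with hε
  have hε0 : 0 < ε := by positivity
  set F0 : H →L[ℂ] E := (ε : ℂ) • L0 with hF0
  have hF0b : ∀ x ∈ U, ‖F0 x‖ ≤ 1 := by
    intro x hx
    have h1 : ‖F0 x‖ = ε * ‖L0 x‖ := by
      rw [hF0, ContinuousLinearMap.smul_apply, norm_smul, Complex.norm_real, Real.norm_eq_abs,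
        abs_of_pos hε0]
    rw [h1]
    calc ε * ‖L0 x‖ ≤ ε * (‖L0‖ * ‖x‖) := by gcongr; exact L0.le_opNorm x
      _ ≤ ε * ((‖L0‖ + 1) * (R + 1)) := by
          gcongr
          · linarith
          · linarith [hR x hx]
      _ = 1 := by rw [hε]; field_simp
  have hF0d : DifferentiableOn ℂ (F0 ∘ ψ) B' := F0.differentiable.comp_differentiableOn hc'.dphi
  have hF0det : (fderiv ℂ (F0 ∘ ψ) ζ0).det ≠ 0 := by
    have h1 : DifferentiableAt ℂ ψ ζ0 := hc'.dphi.differentiableAt (hc'.openB.mem_nhds hζ0B)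
    have h2 : fderiv ℂ (F0 ∘ ψ) ζ0 = F0.comp (fderiv ℂ ψ ζ0) :=
      (F0.hasFDerivAt.comp ζ0 h1.hasFDerivAt).fderiv
    have h3 : ψ ζ0 = k := hc'.right k hkU hkW
    have h4 := chart_fderiv_comp hc' hζ0B
    rw [h3] at h4
    have h5 : F0.comp (fderiv ℂ ψ ζ0) = (ε : ℂ) • ContinuousLinearMap.id ℂ E := by
      rw [hF0, ContinuousLinearMap.smul_comp, ← h4]
    rw [h2, h5]
    have h6 : (((ε : ℂ) • ContinuousLinearMap.id ℂ E : E →L[ℂ] E)).det =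
        (ε : ℂ) ^ Module.finrank ℂ E := by
      change LinearMap.det ((ε : ℂ) • (LinearMap.id : E →ₗ[ℂ] E)) = _
      rw [LinearMap.det_smul]
      simp
    rw [h6]
    exact pow_ne_zero _ (by exact_mod_cast hε0.ne')
  have hF0t : Tendsto (fun x => (fderiv ℂ (F0 ∘ ψ) (ζ x)).det) (u : Filter E)
      (𝓝 (fderiv ℂ (F0 ∘ ψ) ζ0).det) := by
    have h1 : AnalyticOnNhd ℂ (F0 ∘ ψ) B' :=
      R266.SCV.analyticOnNhd_of_differentiableOn hc'.openB hF0d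
    have h2 : ContinuousAt (fderiv ℂ (F0 ∘ ψ)) ζ0 := (h1.fderiv ζ0 hζ0B).continuousAt
    have h3 : ContinuousAt (fun z => (fderiv ℂ (F0 ∘ ψ) z).det) ζ0 :=
      (differentiable_det.continuous.continuousAt).comp h2
    exact h3.tendsto.comp hζt
  -- chain rule
  have hchain : ∀ᶠ x in (u : Filter E), ∃ h ∈ Hfam U φ,
      (fderiv ℂ (F0 ∘ ψ) (ζ x)).det = h x * (A x).det := by
    filter_upwards [huU, hgall, hev1] with x hx h1 h2
    obtain ⟨hgd, -, hgU, hgφ, hgx⟩ := h1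
    obtain ⟨-, hθm, hθ'h, hθ'm, hθ'θ, -, -⟩ := hθκ x hx
    have hFa : HolOn U (F0 ∘ θ' x) :=
      (HolOn.of_differentiable (U := U) F0.differentiable).comp hθ'h hθ'm
    refine ⟨_, ⟨F0 ∘ θ' x, hFa, fun z hz => hF0b _ (hθ'm hz), rfl⟩, ?_⟩
    have h3 : DifferentiableAt ℂ ((F0 ∘ θ' x) ∘ φ) x :=
      (hFa.comp_param (hc.dphi.mono hUUB) hUUo hφU).differentiableAt (hUUo.mem_nhds hx)
    have hζb : ζ x ∈ ball ζ0 (4 * r) := ball_subset_ball (by linarith) h2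
    have h4 : DifferentiableAt ℂ (g x) (ζ x) := hgd.differentiableAt (isOpen_ball.mem_nhds hζb)
    have h5 : HasFDerivAt (((F0 ∘ θ' x) ∘ φ) ∘ g x)
        ((fderiv ℂ ((F0 ∘ θ' x) ∘ φ) x).comp (A x)) (ζ x) := by
      have h6 : HasFDerivAt ((F0 ∘ θ' x) ∘ φ) (fderiv ℂ ((F0 ∘ θ' x) ∘ φ) x) (g x (ζ x)) := by
        rw [hgx]
        exact h3.hasFDerivAt
      exact h6.comp (ζ x) h4.hasFDerivAt
    have h7 : (F0 ∘ ψ) =ᶠ[𝓝 (ζ x)] (((F0 ∘ θ' x) ∘ φ) ∘ g x) := by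
      filter_upwards [isOpen_ball.mem_nhds hζb] with z hz
      have hzB : z ∈ B' := hr₀B (ball_subset_ball (by linarith) hz)
      simp only [Function.comp_apply]
      rw [hgφ z hz]
      simp only [Function.comp_apply]
      rw [hθ'θ _ (hψU hzB)]
    have h8 : fderiv ℂ (F0 ∘ ψ) (ζ x) = (fderiv ℂ ((F0 ∘ θ' x) ∘ φ) x).comp (A x) :=
      (h5.congr_of_eventuallyEq h7).fderiv
    rw [h8, det_comp]
  -- the limit of the determinants is nonzero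
  have hA0det : A0.det ≠ 0 := by
    intro h0
    have h1 : Tendsto (fun x => (A x).det) (u : Filter E) (𝓝 A0.det) :=
      (differentiable_det.continuous.tendsto A0).comp hA0
    rw [h0] at h1
    have h2 : Tendsto (fun x => (fderiv ℂ (F0 ∘ ψ) (ζ x)).det) (u : Filter E) (𝓝 0) := by
      refine squeeze_zero_norm' (a := fun x => |C| * ‖(A x).det‖) ?_ ?_
      · filter_upwards [hchain, huh] with x hx hxC
        obtain ⟨h, hh, heq⟩ := hx
        rw [heq, norm_mul]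
        gcongr
        exact (hxC h hh).trans (le_abs_self C)
      · have := (h1.norm).const_mul |C|
        simpa using this
    exact hF0det (tendsto_nhds_unique hF0t h2)
  -- surjectivity
  obtain ⟨δ, hδ, ε', hε', κ', hκ', hδr, hsur⟩ := surj_small hA0det hr0 hM0 ζ0
  have hAclose : ∀ᶠ x in (u : Filter E), ‖A x - A0‖ ≤ ε' := by
    have := hA0 (closedBall_mem_nhds A0 hε')
    filter_upwards [this] with x hx
    simpa [dist_eq_norm] using hx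
  have hxy : ∀ᶠ x in (u : Filter E), x ∈ closedBall y κ' := hux (closedBall_mem_nhds y hκ')
  obtain ⟨x, hx1, hx2, hx3, hx4⟩ := (hgall.and (hev1.and (hAclose.and hxy))).exists
  have hfin := hsur (g x) hx1.1 hx1.2.1 (ζ x) hx2 hx3
  rw [hx1.2.2.2.2] at hfin
  obtain ⟨z, hz, hzy⟩ := hfin (mem_closedBall_comm.1 hx4)
  refine hyU ?_
  rw [← hzy]
  refine hx1.2.2.1 z ?_
  rw [mem_closedBall] at hz
  rw [mem_ball] at hx2 ⊢
  linarith [dist_triangle z (ζ x) ζ0]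

/-- **Kontinuitaetssatz (KS)** in a chart `φ : B → W` near a boundary point of `U`. -/
theorem ks_chart {U : Set H} {Θ : Set (H → H)} {K0 : Set H} (hU : Cocpt E U Θ K0)
    {B : Set E} {W : Set H} {φ : E → H} {ξ : H → E} (hc : IsChart U B W φ ξ)
    (hUUo : IsOpen (B ∩ φ ⁻¹' U)) {A : ℝ → ℂ → E}
    (hA : ContinuousOn (fun q : ℝ × ℂ => A q.1 q.2) (Icc (0 : ℝ) 1 ×ˢ closedBall (0 : ℂ) 1))
    (hAh : ∀ s ∈ Icc (0 : ℝ) 1, DifferentiableOn ℂ (A s) (ball (0 : ℂ) 1))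
    (hAP : ∀ s ∈ Icc (0 : ℝ) 1, ∀ z ∈ closedBall (0 : ℂ) 1, A s z ∈ B)
    {Q : Set E} (hQ : IsCompact Q) (hQU : Q ⊆ B ∩ φ ⁻¹' U)
    (hbd : ∀ s ∈ Icc (0 : ℝ) 1, ∀ z ∈ sphere (0 : ℂ) 1, A s z ∈ Q)
    (h0 : ∀ z ∈ closedBall (0 : ℂ) 1, A 0 z ∈ B ∩ φ ⁻¹' U) :
    ∀ s ∈ Icc (0 : ℝ) 1, ∀ z ∈ closedBall (0 : ℂ) 1, A s z ∈ B ∩ φ ⁻¹' U :=
  konti hUUo (P := B)
    (hfam_differentiableOn hUUo (hc.dphi.mono inter_subset_left) (fun _ hx => hx.2))
    (hfam_bdd hUUo (hc.dphi.mono inter_subset_left) (fun _ hx => hx.2))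
    (fun _ hy hyU C => blowup hU hc rfl hUUo hy hyU C) hA hAh hAP hQ hQU hbd h0

end Crest.Agent.R264.KS
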