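import Crest.Agent.R264.TopDefs

/-!
Row 264 (S0402): first consequences of `Setup` (helper369).
-/

set_option autoImplicit false

open Topology Filter Set

namespace Crest.Agent.R264

open Crest.AlgGeometry.Semialg

/-- An algebraic set is closed. -/
theorem isClosed_of_isAlgebraicSet {N : ℕ} {V : Set (Fin N → ℂ)} (hV : IsAlgebraicSet V) :
    IsClosed V := by
  obtain ⟨I, rfl⟩ := hV
  have : MvPolynomial.zeroLocus ℂ I = ⋂ p ∈ I, {x : Fin N → ℂ | MvPolynomial.aeval x p = 0} := by
    ext x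
    simp [MvPolynomial.mem_zeroLocus_iff]
  rw [this]
  refine isClosed_biInter fun p _ => ?_
  refine isClosed_eq ?_ continuous_const
  have h : (fun x : Fin N → ℂ => MvPolynomial.aeval x p) = fun x => MvPolynomial.eval x p := by
    funext x
    rw [MvPolynomial.aeval_def, MvPolynomial.eval, MvPolynomial.eval₂Hom]
    rfl
  rw [h]
  exact MvPolynomial.continuous_eval p

/-- A holomorphic map on a subset is continuous. -/
theorem continuous_of_isHolomorphicMap {N M : ℕ} {X : Set (Fin N → ℂ)} {φ : X → (Fin M → ℂ)}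
    (h : IsHolomorphicMap X φ) : Continuous φ := by
  rw [continuous_iff_continuousAt]
  intro x
  obtain ⟨O, hO, hx, Φ, hΦ, he⟩ := h x
  have h1 : ContinuousAt Φ (x : Fin N → ℂ) :=
    ((hΦ x hx).differentiableAt (hO.mem_nhds hx)).continuousAt
  have h2 : ContinuousAt (fun y : X => Φ y) x :=
    ContinuousAt.comp (f := fun y : X => (y : Fin N → ℂ)) h1 continuous_subtype_val.continuousAt
  refine h2.congr ?_
  have h3 : ∀ᶠ y : X in 𝓝 x, (y : Fin N → ℂ) ∈ O :=
    continuous_subtype_val.continuousAt.eventually (hO.mem_nhds hx)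
  filter_upwards [h3] with y hy
  exact (he y hy).symm

namespace Setup

variable {N : ℕ} {U : Set (Fin N → ℂ)} {Γ : Subgroup (Equiv.Perm U)}

theorem isLocallyClosed (S : Setup N U Γ) : IsLocallyClosed U := by
  obtain ⟨V, O, hV, hO, rfl⟩ := S.alg
  exact ⟨O, V, hO, isClosed_of_isAlgebraicSet hV, rfl⟩

theorem locallyCompact (S : Setup N U Γ) : LocallyCompactSpace U :=
  S.isLocallyClosed.locallyCompactSpace

theorem nonempty (S : Setup N U Γ) : U.Nonempty := S.conn.nonempty

/-- Elements of `Γ` are continuous. -/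
theorem continuous (S : Setup N U Γ) {γ : Equiv.Perm U} (hγ : γ ∈ Γ) : Continuous γ := by
  have h := continuous_of_isHolomorphicMap (S.hol γ hγ)
  exact continuous_induced_rng.mpr h

theorem continuousConstSMul (S : Setup N U Γ) : ContinuousConstSMul Γ U :=
  ⟨fun γ => S.continuous γ.2⟩

/-- There is a compact set `K` (of the subtype) whose `Γ`-translates cover `U`. -/
theorem exists_compact (S : Setup N U Γ) :
    ∃ K : Set U, IsCompact K ∧ ∀ y : U, ∃ γ ∈ Γ, ∃ k ∈ K, γ k = y := by
  have := S.locallyCompact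
  have := S.continuousConstSMul
  have := S.cpt
  have hK : ∀ y : U, ∃ K : Set U, IsCompact K ∧ y ∈ interior K := fun y =>
    exists_compact_mem_nhds y |>.imp fun K hK => ⟨hK.1, mem_interior_iff_mem_nhds.mpr hK.2⟩
  choose K hKc hKi using hK
  let q : U → Quotient (MulAction.orbitRel Γ U) := Quotient.mk _
  have hq : IsOpenMap q := isOpenMap_quotient_mk'_mul
  have hcov : (univ : Set (Quotient (MulAction.orbitRel Γ U))) ⊆ ⋃ y : U, q '' interior (K y) := by
    intro z _
    induction z using Quotient.inductionOn with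
    | h y => exact mem_iUnion.mpr ⟨y, y, hKi y, rfl⟩
  obtain ⟨t, ht⟩ := isCompact_univ.elim_finite_subcover (fun y : U => q '' interior (K y))
    (fun y => hq _ isOpen_interior) hcov
  refine ⟨⋃ y ∈ t, K y, t.isCompact_biUnion fun y _ => hKc y, fun y => ?_⟩
  have hy := ht (mem_univ (q y))
  simp only [mem_iUnion] at hy
  obtain ⟨a, ha, b, hb, hbq⟩ := hy
  have hrel : (MulAction.orbitRel Γ U) b y := Quotient.exact hbq
  rw [MulAction.orbitRel_apply] at hrel
  obtain ⟨g, hg⟩ := hrel
  refine ⟨(g⁻¹ : Γ), (g⁻¹ : Γ).2, b, mem_biUnion ha (interior_subset hb), ?_⟩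
  have : g • y = b := hg
  have h2 : g⁻¹ • b = y := by rw [← this, inv_smul_smul]
  exact h2

/-- Finiteness in functional form. -/
theorem finite_inter (S : Setup N U Γ) {K L : Set U} (hK : IsCompact K) (hL : IsCompact L) :
    {γ : Equiv.Perm U | γ ∈ Γ ∧ ∃ x ∈ K, γ x ∈ L}.Finite := by
  have := S.pd
  have h := ProperlyDiscontinuousSMul.finite_disjoint_inter_image (Γ := Γ) (T := U) hK hL
  have h2 : ((fun γ : Γ => (γ : Equiv.Perm U)) ''
      {γ : Γ | ((fun x => γ • x) '' K ∩ L).Nonempty}).Finite := h.image _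
  refine h2.subset ?_
  rintro γ ⟨hγ, x, hx, hxL⟩
  refine ⟨⟨γ, hγ⟩, ?_, rfl⟩
  rw [Set.mem_ofPred_eq]
  exact ⟨γ x, ⟨x, hx, rfl⟩, hxL⟩

end Setup

end Crest.Agent.R264
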