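import Mathlib
import Crest.Agent.R264.KSMain
import Crest.Agent.R264.TopSetup
import Crest.Agent.R264.BshIface

/-!
Row 264, LEMMA KS, final form: for the data of S0402, the Kontinuitaetssatz `Bsh.KSHyp` holds for
`UU = B ∩ φ⁻¹(U)` in every polydisc contained in the parameter domain `B` of a chart
`φ : B → W ⊆ ℂ^N` whose image contains `U ∩ W`. (helper163)
-/

set_option autoImplicit false

open Set Filter Topology Metric

namespace Crest.Agent.R264.KS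

open Crest.AlgGeometry.Semialg

variable {N : ℕ} {U : Set (Fin N → ℂ)}

open Classical in
/-- total extension of a permutation of `U` -/
noncomputable def extP (γ : Equiv.Perm U) (y : Fin N → ℂ) : Fin N → ℂ :=
  if h : y ∈ U then (γ ⟨y, h⟩ : U) else y

theorem extP_of_mem (γ : Equiv.Perm U) {y : Fin N → ℂ} (h : y ∈ U) :
    extP γ y = (γ ⟨y, h⟩ : U) := by
  simp [extP, h]

theorem extP_mem (γ : Equiv.Perm U) {y : Fin N → ℂ} (h : y ∈ U) : extP γ y ∈ U := by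
  rw [extP_of_mem γ h]; exact (γ ⟨y, h⟩).2

theorem holOn_extP {γ : Equiv.Perm U}
    (hγ : IsHolomorphicMap U (fun y : U => ((γ y : U) : Fin N → ℂ))) : HolOn U (extP γ) := by
  intro x hx
  obtain ⟨O, hO, hxO, G, hG, h⟩ := hγ ⟨x, hx⟩
  refine ⟨O, hO, hxO, G, hG, fun y hy hyO => ?_⟩
  rw [extP_of_mem γ hy]
  exact h ⟨y, hy⟩ hyO

theorem extP_inv (γ : Equiv.Perm U) {y : Fin N → ℂ} (h : y ∈ U) : extP γ⁻¹ (extP γ y) = y := by
  have h1 : extP γ y = (γ ⟨y, h⟩ : U) := extP_of_mem γ h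
  rw [h1, extP_of_mem γ⁻¹ (γ ⟨y, h⟩).2]
  simp

/-- the data of S0402 on a submanifold give a `Cocpt` structure modelled on any `E` of the right
dimension -/
theorem exists_cocpt {n : ℕ} {Γ : Subgroup (Equiv.Perm U)} (S : Setup N U Γ) (hS : IsSubmfd n U)
    (E : Type*) [NormedAddCommGroup E] [NormedSpace ℂ E] [FiniteDimensional ℂ E]
    (hE : Module.finrank ℂ E = n) :
    ∃ (Θ : Set ((Fin N → ℂ) → (Fin N → ℂ))) (K0 : Set (Fin N → ℂ)), Cocpt E U Θ K0 := by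
  obtain ⟨K, hK, hcov⟩ := S.exists_compact
  have e : (Fin n → ℂ) ≃L[ℂ] E :=
    ContinuousLinearEquiv.ofFinrankEq (by rw [hE]; simp)
  refine ⟨{θ | ∃ γ ∈ Γ, θ = extP γ}, Subtype.val '' K, ?_⟩
  refine ⟨S.bdd, ?_, hK.image continuous_subtype_val, ?_, ?_, ?_⟩
  · rintro θ ⟨γ, hγ, rfl⟩
    exact ⟨holOn_extP (S.hol γ hγ), fun y hy => extP_mem γ hy, extP γ⁻¹,
      holOn_extP (S.hol _ (Γ.inv_mem hγ)), fun y hy => extP_mem _ hy, fun y hy => extP_inv γ hy⟩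
  · rintro _ ⟨y, -, rfl⟩
    exact y.2
  · intro x hx
    obtain ⟨γ, hγ, k, hk, hkx⟩ := hcov ⟨x, hx⟩
    refine ⟨extP γ, ⟨γ, hγ, rfl⟩, k, ⟨k, hk, rfl⟩, ?_⟩
    rw [extP_of_mem γ k.2]
    exact congrArg Subtype.val hkx
  · rintro _ ⟨k, -, rfl⟩
    obtain ⟨L⟩ := hS k k.2
    refine ⟨e.symm ⁻¹' L.W, L.O, L.ψ ∘ e.symm, e ∘ L.π, ?_, ?_, L.mem⟩
    · refine ⟨L.hW.preimage e.symm.continuous, L.hO, ?_, ?_, ?_, ?_, ?_, ?_⟩
      · exact L.hψ.comp e.symm.differentiable.differentiableOn (fun x hx => hx)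
      · exact e.differentiable.comp_differentiableOn L.hπ
      · exact fun b hb => (L.ψ_mem _ hb).2
      · intro b hb
        simp only [Function.comp_apply]
        rw [L.π_ψ _ hb, e.apply_symm_apply]
      · intro x hx hxO
        simp only [Function.comp_apply, mem_preimage, e.symm_apply_apply]
        exact L.π_mem x hx hxO
      · intro x hx hxO
        simp only [Function.comp_apply, e.symm_apply_apply]
        exact L.ψ_π x hx hxO
    · exact fun b hb => (L.ψ_mem _ hb).1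

/-- **LEMMA KS**, final form. -/
theorem ksHyp {n m k : ℕ} {Γ : Subgroup (Equiv.Perm U)} (S : Setup N U Γ) (hS : IsSubmfd n U)
    (hmk : m + k = n) {B : Set ((Fin m → ℂ) × (Fin k → ℂ))} {W : Set (Fin N → ℂ)}
    {φ : (Fin m → ℂ) × (Fin k → ℂ) → (Fin N → ℂ)} {ξ : (Fin N → ℂ) → (Fin m → ℂ) × (Fin k → ℂ)}
    (hc : IsChart U B W φ ξ) (hUUo : IsOpen (B ∩ φ ⁻¹' U)) {ρ₁ : ℝ} (hρ : ball 0 ρ₁ ⊆ B) :
    Bsh.KSHyp (B ∩ φ ⁻¹' U) ρ₁ := by
  obtain ⟨Θ, K0, hU⟩ := exists_cocpt S hS ((Fin m → ℂ) × (Fin k → ℂ))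
    (by rw [Module.finrank_prod]; simpa using hmk)
  intro z₀ A hz₀ hA hAh hAρ Q hQ hQU hbd h0
  have hmem : ∀ l ∈ Icc (0 : ℝ) 1, ∀ ζ ∈ closedBall (0 : ℂ) 1, (z₀, A l ζ) ∈ B := by
    intro l hl ζ hζ
    refine hρ ?_
    rw [mem_ball_zero_iff, Prod.norm_def]
    exact max_lt hz₀ (hAρ l hl ζ hζ)
  have := ks_chart hU hc hUUo (A := fun l ζ => (z₀, A l ζ))
    (by
      have h1 : Continuous (fun q : ℝ × ℂ => (z₀, A q.1 q.2)) := by
        exact continuous_const.prodMk hA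
      exact h1.continuousOn)
    (fun l _ => ((differentiable_const z₀).prodMk (hAh l)).differentiableOn)
    hmem hQ hQU hbd h0
  exact this 1 ⟨zero_le_one, le_refl 1⟩

end Crest.Agent.R264.KS
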