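import Mathlib
import Crest.Agent.R264.AIface
import Crest.Agent.R264.AChgDef
import Crest.Agent.R264.KSTop

/-!
Row 264, Part A, CHANGE OF COORDINATES (helper163): from the coordinates of `AI.GraphData` to the
final coordinates at `a ∈ O` (the affine normalisation `JL.Amap`).

* `Alin D`, `AE D hD`  : linear part of `Amap`, as a continuous linear equivalence (`‖D‖ ≤ 1/4`).
* `Ainv Ht a h`        : inverse of `Amap Ht a`.
* `FinData G a`        : the final chart (`e'`, `κ'`, `W'`, `UU'`), KSHyp, PeakAt.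
-/

set_option autoImplicit false

open Topology Filter Set Metric Complex
open scoped ContDiff

namespace Crest.Agent.R264.AChg

open Crest.AlgGeometry.Semialg Crest.Agent.R264.AI
open Crest.Agent.R264.JL (P sig Amap ofR reV imV alpha beta alpha_apply beta_apply ofR_apply
  reV_apply imV_apply)

variable {m k : ℕ}

/-- linear part of the affine normalisation -/
noncomputable def Alin (D : P m k →L[ℝ] (Fin k → ℝ)) : EE m k →L[ℂ] EE m k :=
  (ContinuousLinearMap.fst ℂ (Fin m → ℂ) (Fin k → ℂ)).prod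
    (ContinuousLinearMap.snd ℂ (Fin m → ℂ) (Fin k → ℂ)
      - I • (beta D).comp (ContinuousLinearMap.snd ℂ (Fin m → ℂ) (Fin k → ℂ))
      - (2 * I) • (alpha D).comp (ContinuousLinearMap.fst ℂ (Fin m → ℂ) (Fin k → ℂ)))

theorem Alin_apply (D : P m k →L[ℝ] (Fin k → ℝ)) (p : EE m k) :
    Alin D p = (p.1, p.2 - I • beta D p.2 - (2 * I) • alpha D p.1) := rfl

theorem Amap_eq (Ht : P m k → (Fin k → ℝ)) (a : P m k) (p : EE m k) :
    Amap Ht a p = Alin (fderiv ℝ Ht a) (p - sig Ht a) := rfl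

theorem norm_reV_le (w : Fin k → ℂ) : ‖reV w‖ ≤ ‖w‖ := by
  refine (pi_norm_le_iff_of_nonneg (norm_nonneg _)).2 fun i => ?_
  rw [reV_apply, Real.norm_eq_abs]
  exact (Complex.abs_re_le_norm _).trans (norm_le_pi_norm w i)

theorem norm_imV_le (w : Fin k → ℂ) : ‖imV w‖ ≤ ‖w‖ := by
  refine (pi_norm_le_iff_of_nonneg (norm_nonneg _)).2 fun i => ?_
  rw [imV_apply, Real.norm_eq_abs]
  exact (Complex.abs_im_le_norm _).trans (norm_le_pi_norm w i)

theorem norm_ofR (u : Fin k → ℝ) : ‖ofR u‖ = ‖u‖ := by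
  refine le_antisymm ?_ ?_
  · refine (pi_norm_le_iff_of_nonneg (norm_nonneg _)).2 fun i => ?_
    rw [ofR_apply, Complex.norm_real]
    exact norm_le_pi_norm u i
  · refine (pi_norm_le_iff_of_nonneg (norm_nonneg _)).2 fun i => ?_
    have := norm_le_pi_norm (ofR u) i
    rwa [ofR_apply, Complex.norm_real] at this

theorem norm_beta_le (D : P m k →L[ℝ] (Fin k → ℝ)) (w : Fin k → ℂ) :
    ‖beta D w‖ ≤ 2 * ‖D‖ * ‖w‖ := by
  rw [beta_apply]
  have h1 : ‖ofR (D (0, reV w))‖ ≤ ‖D‖ * ‖w‖ := by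
    rw [norm_ofR]
    refine (D.le_opNorm _).trans ?_
    gcongr
    rw [Prod.norm_def]
    simpa using norm_reV_le w
  have h2 : ‖I • ofR (D (0, imV w))‖ ≤ ‖D‖ * ‖w‖ := by
    rw [norm_smul, Complex.norm_I, one_mul, norm_ofR]
    refine (D.le_opNorm _).trans ?_
    gcongr
    rw [Prod.norm_def]
    simpa using norm_imV_le w
  calc ‖ofR (D (0, reV w)) + I • ofR (D (0, imV w))‖ ≤ _ := norm_add_le _ _
    _ ≤ ‖D‖ * ‖w‖ + ‖D‖ * ‖w‖ := add_le_add h1 h2
    _ = 2 * ‖D‖ * ‖w‖ := by ring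

theorem Alin_inj {D : P m k →L[ℝ] (Fin k → ℝ)} (hD : ‖D‖ ≤ 1 / 4) :
    Function.Injective (Alin D) := by
  rw [injective_iff_map_eq_zero]
  intro p hp
  rw [Alin_apply, Prod.mk_eq_zero] at hp
  obtain ⟨h1, h2⟩ := hp
  rw [h1, map_zero, smul_zero, sub_zero, sub_eq_zero] at h2
  have h3 : ‖p.2‖ ≤ 2 * ‖D‖ * ‖p.2‖ := by
    conv_lhs => rw [h2]
    rw [norm_smul, Complex.norm_I, one_mul]
    exact norm_beta_le D p.2
  have h4 : ‖p.2‖ = 0 := by
    have := norm_nonneg p.2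
    nlinarith
  exact Prod.ext h1 (norm_eq_zero.1 h4)

/-- `Alin` as an equivalence -/
noncomputable def AE {D : P m k →L[ℝ] (Fin k → ℝ)} (hD : ‖D‖ ≤ 1 / 4) : EE m k ≃L[ℂ] EE m k :=
  (LinearEquiv.ofInjectiveEndo (Alin D : EE m k →ₗ[ℂ] EE m k)
    (Alin_inj hD)).toContinuousLinearEquiv

@[simp] theorem AE_apply {D : P m k →L[ℝ] (Fin k → ℝ)} (hD : ‖D‖ ≤ 1 / 4) (p : EE m k) :
    AE hD p = Alin D p := rfl

/-- inverse of `Amap Ht a` -/
noncomputable def Ainv (Ht : P m k → (Fin k → ℝ)) (a : P m k) (hD : ‖fderiv ℝ Ht a‖ ≤ 1 / 4)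
    (y : EE m k) : EE m k := sig Ht a + (AE hD).symm y

section inv

variable {Ht : P m k → (Fin k → ℝ)} {a : P m k} (hD : ‖fderiv ℝ Ht a‖ ≤ 1 / 4)

theorem Amap_Ainv (y : EE m k) : Amap Ht a (Ainv Ht a hD y) = y := by
  rw [Amap_eq, Ainv, add_sub_cancel_left, ← AE_apply hD, (AE hD).apply_symm_apply]

theorem Ainv_Amap (p : EE m k) : Ainv Ht a hD (Amap Ht a p) = p := by
  rw [Amap_eq, Ainv, ← AE_apply hD, (AE hD).symm_apply_apply, add_sub_cancel]

theorem Amap_sig (Ht : P m k → (Fin k → ℝ)) (a : P m k) : Amap Ht a (sig Ht a) = 0 := by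
  rw [Amap_eq, sub_self, map_zero]

theorem Ainv_zero : Ainv Ht a hD 0 = sig Ht a := by
  rw [Ainv, map_zero, add_zero]

theorem differentiable_Amap (Ht : P m k → (Fin k → ℝ)) (a : P m k) :
    Differentiable ℂ (Amap Ht a) := by
  have h1 : Differentiable ℂ (fun p : EE m k => p - sig Ht a) :=
    differentiable_id.sub_const _
  exact (Alin (fderiv ℝ Ht a)).differentiable.comp h1

theorem hasFDerivAt_Ainv (y : EE m k) :
    HasFDerivAt (Ainv Ht a hD) ((AE hD).symm : EE m k →L[ℂ] EE m k) y := by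
  have h1 := ((AE hD).symm : EE m k →L[ℂ] EE m k).hasFDerivAt (x := y)
  exact h1.const_add _

theorem differentiable_Ainv : Differentiable ℂ (Ainv Ht a hD) := fun y =>
  (hasFDerivAt_Ainv hD y).differentiableAt

theorem image_Amap (s : Set (EE m k)) : Amap Ht a '' s = Ainv Ht a hD ⁻¹' s := by
  ext y
  constructor
  · rintro ⟨p, hp, rfl⟩
    rw [mem_preimage, Ainv_Amap]
    exact hp
  · intro hy
    exact ⟨Ainv Ht a hD y, hy, Amap_Ainv hD y⟩

theorem isOpen_image_Amap {s : Set (EE m k)} (hs : IsOpen s)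
    (hD : ‖fderiv ℝ Ht a‖ ≤ 1 / 4) : IsOpen (Amap Ht a '' s) := by
  rw [image_Amap hD]
  exact hs.preimage (differentiable_Ainv hD).continuous

end inv

/-! ### the tangent space -/

/-- tangent vectors of the graph -/
noncomputable def tanv (D : P m k →L[ℝ] (Fin k → ℝ)) (ξ : P m k) : EE m k :=
  (ξ.1, ofR ξ.2 + I • ofR (D ξ))

/-- tangent vectors of `ℂ^m × ℝ^k` -/
noncomputable def tan0 (ξ : P m k) : EE m k := (ξ.1, ofR ξ.2)

/-- the induced map of the parameters -/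
noncomputable def Rmap (D : P m k →L[ℝ] (Fin k → ℝ)) : P m k →ₗ[ℝ] P m k where
  toFun ξ := (ξ.1, ξ.2 + D (0, D ξ) + (2 : ℝ) • imV (alpha D ξ.1))
  map_add' x y := by
    have h2 : ((0, D (x + y)) : P m k) = (0, D x) + (0, D y) := by simp
    rw [h2]
    refine Prod.ext (by simp) ?_
    simp only [Prod.snd_add, Prod.fst_add, map_add, smul_add]
    abel
  map_smul' c x := by
    have h2 : ((0, D (c • x)) : P m k) = c • (0, D x) := by simp
    rw [h2]
    refine Prod.ext (by simp) ?_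
    have h3 : alpha D (c • x.1) = c • alpha D x.1 := by
      have := (alpha D).map_smul (c : ℂ) x.1
      rw [Complex.coe_smul, Complex.coe_smul] at this
      exact this
    simp only [Prod.smul_fst, Prod.smul_snd, map_smul, h3, RingHom.id_apply, smul_add]
    rw [smul_comm c (2 : ℝ)]

theorem Rmap_apply (D : P m k →L[ℝ] (Fin k → ℝ)) (ξ : P m k) :
    Rmap D ξ = (ξ.1, ξ.2 + D (0, D ξ) + (2 : ℝ) • imV (alpha D ξ.1)) := rfl

theorem reV_ofR (u v : Fin k → ℝ) : reV (ofR u + I • ofR v) = u := by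
  funext i; simp

theorem imV_ofR (u v : Fin k → ℝ) : imV (ofR u + I • ofR v) = v := by
  funext i; simp

theorem D_split (D : P m k →L[ℝ] (Fin k → ℝ)) (ξ : P m k) :
    D ξ = (2 : ℝ) • reV (alpha D ξ.1) + D (0, ξ.2) := by
  have h1 : ξ = (ξ.1, 0) + (0, ξ.2) := by simp
  conv_lhs => rw [h1, map_add]
  congr 1
  rw [alpha_apply]
  funext i
  simp [Complex.mul_re, Complex.sub_re]

theorem Alin_tanv (D : P m k →L[ℝ] (Fin k → ℝ)) (ξ : P m k) :
    Alin D (tanv D ξ) = tan0 (Rmap D ξ) := by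
  rw [Alin_apply, Rmap_apply, tan0, tanv]
  refine Prod.ext rfl ?_
  simp only
  rw [beta_apply, reV_ofR, imV_ofR]
  have h1 := D_split D ξ
  funext i
  have h1i : D ξ i = 2 * (alpha D ξ.1 i).re + D (0, ξ.2) i := by
    have := congrFun h1 i
    simpa using this
  simp only [Pi.add_apply, Pi.sub_apply, Pi.smul_apply, ofR_apply, smul_eq_mul, imV_apply,
    Complex.ofReal_add, Complex.ofReal_mul, Complex.ofReal_ofNat]
  rw [h1i]
  have h2 := Complex.re_add_im (alpha D ξ.1 i)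
  push_cast
  linear_combination (-((D (0, D ξ) i : ℝ) : ℂ) - 2 * (alpha D ξ.1 i).im) * Complex.I_sq + 2 * I * h2

theorem tanv_inj (D : P m k →L[ℝ] (Fin k → ℝ)) : Function.Injective (tanv D) := by
  intro x y h
  have h1 : x.1 = y.1 := by
    have := congrArg Prod.fst h
    exact this
  have h2 : ofR x.2 + I • ofR (D x) = ofR y.2 + I • ofR (D y) := by
    have := congrArg Prod.snd h
    exact this
  have h3 := congrArg (fun w => reV w) h2
  simp only [reV_ofR] at h3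
  exact Prod.ext h1 h3

theorem Rmap_surj {D : P m k →L[ℝ] (Fin k → ℝ)} (hD : ‖D‖ ≤ 1 / 4) :
    Function.Surjective (Rmap D) := by
  have hinj : Function.Injective (Rmap D) := by
    intro x y h
    have h1 : Alin D (tanv D x) = Alin D (tanv D y) := by rw [Alin_tanv, Alin_tanv, h]
    exact tanv_inj D (Alin_inj hD h1)
  exact LinearMap.injective_iff_surjective.1 hinj

/-- the tangent space of the graph is mapped onto `ℂ^m × ℝ^k` by `Alin` -/
theorem image_tanv {D : P m k →L[ℝ] (Fin k → ℝ)} (hD : ‖D‖ ≤ 1 / 4) :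
    range (fun ξ : P m k => (AE hD).symm (tan0 ξ)) = range (tanv D) := by
  ext v
  constructor
  · rintro ⟨ξ, rfl⟩
    obtain ⟨η, rfl⟩ := Rmap_surj hD ξ
    refine ⟨η, ?_⟩
    simp only
    rw [← Alin_tanv, ← AE_apply hD, (AE hD).symm_apply_apply]
  · rintro ⟨η, rfl⟩
    refine ⟨Rmap D η, ?_⟩
    simp only
    rw [← Alin_tanv, ← AE_apply hD, (AE hD).symm_apply_apply]

/-! ### the final chart -/

section final

variable {N : ℕ} {U : Set (Fin N → ℂ)} (G : GraphData m k U) {a : P m k} (ha : a ∈ G.O)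

/-- inverse chart in the final coordinates -/
noncomputable def eF (y : EE m k) : Fin N → ℂ := G.e (Ainv G.Ht a (G.Hsmall a ha) y)

/-- chart in the final coordinates -/
noncomputable def κF (_ha : a ∈ G.O) (x : Fin N → ℂ) : EE m k := Amap G.Ht a (G.κ x)

theorem κF_differentiable : Differentiable ℂ (κF G ha) :=
  (differentiable_Amap G.Ht a).comp G.hκ

include ha in
theorem isOpen_WF : IsOpen (Amap G.Ht a '' G.W) := isOpen_image_Amap G.hW (G.Hsmall a ha)

include ha in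
theorem isOpen_UUF : IsOpen (Amap G.Ht a '' G.UU) := isOpen_image_Amap G.UUopen (G.Hsmall a ha)

theorem mem_WF {y : EE m k} :
    y ∈ Amap G.Ht a '' G.W ↔ Ainv G.Ht a (G.Hsmall a ha) y ∈ G.W := by
  rw [image_Amap (G.Hsmall a ha)]; rfl

include ha in
theorem zero_mem_WF : (0 : EE m k) ∈ Amap G.Ht a '' G.W := by
  rw [mem_WF G ha, Ainv_zero]
  exact G.sig_W a ha

theorem eF_zero : eF G ha 0 = G.e (sig G.Ht a) := by
  rw [eF, Ainv_zero]

theorem eF_differentiableOn : DifferentiableOn ℂ (eF G ha) (Amap G.Ht a '' G.W) := by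
  refine G.he.comp (differentiable_Ainv (G.Hsmall a ha)).differentiableOn ?_
  intro y hy
  exact (mem_WF G ha).1 hy

theorem eF_mem {y : EE m k} (hy : y ∈ Amap G.Ht a '' G.W) : eF G ha y ∈ G.B :=
  G.e_mem _ ((mem_WF G ha).1 hy)

theorem κF_eF {y : EE m k} (hy : y ∈ Amap G.Ht a '' G.W) : κF G ha (eF G ha y) = y := by
  rw [κF, eF, G.κ_e _ ((mem_WF G ha).1 hy), Amap_Ainv]

theorem κF_mem {x : Fin N → ℂ} (hx : x ∈ closure U) (hxB : x ∈ G.B) :
    κF G ha x ∈ Amap G.Ht a '' G.W := ⟨_, G.κ_mem x hx hxB, rfl⟩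

theorem eF_κF {x : Fin N → ℂ} (hx : x ∈ closure U) (hxB : x ∈ G.B) :
    eF G ha (κF G ha x) = x := by
  rw [eF, κF, Ainv_Amap]
  exact G.e_κ x hx hxB

theorem UUF_iff {y : EE m k} :
    y ∈ Amap G.Ht a '' G.UU ↔ y ∈ Amap G.Ht a '' G.W ∧ eF G ha y ∈ U := by
  rw [image_Amap (G.Hsmall a ha), image_Amap (G.Hsmall a ha)]
  exact G.UU_iff _

theorem UUF_eq :
    Amap G.Ht a '' G.UU = Amap G.Ht a '' G.W ∩ eF G ha ⁻¹' U := by
  ext y; exact UUF_iff G ha

theorem eF_zero_mem : eF G ha 0 ∈ closure U := by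
  rw [eF_zero]; exact G.sig_cl a ha

theorem eF_zero_notMem : eF G ha 0 ∉ U := by
  rw [eF_zero]; exact G.sig_nU a ha

theorem κF_eF_zero : κF G ha (eF G ha 0) = 0 := κF_eF G ha (zero_mem_WF G ha)

theorem g_eF_zero : MvPolynomial.eval (eF G ha 0) G.g ≠ 0 := by
  rw [eF_zero]; exact G.g_ne a ha

/-- the peak package in the form of `CtrlStmt` -/
theorem peak_eF :
    PeakAt (closure U) G.g (eF G ha 0)
      (range fun ξ : P m k => fderiv ℂ (eF G ha) 0 (ξ.1, ofR ξ.2)) := by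
  have h1 := G.peak a ha
  rw [eF_zero]
  have h2 : HasFDerivAt (eF G ha)
      ((fderiv ℂ G.e (sig G.Ht a)).comp
        ((AE (G.Hsmall a ha)).symm : EE m k →L[ℂ] EE m k)) 0 := by
    have h3 : HasFDerivAt G.e (fderiv ℂ G.e (sig G.Ht a)) (Ainv G.Ht a (G.Hsmall a ha) 0) := by
      rw [Ainv_zero]
      exact (G.he.differentiableAt (G.hW.mem_nhds (G.sig_W a ha))).hasFDerivAt
    exact h3.comp 0 (hasFDerivAt_Ainv (G.Hsmall a ha) 0)
  rw [h2.fderiv]
  convert h1 using 1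
  have h4 := image_tanv (G.Hsmall a ha)
  have h5 : (range fun ξ : P m k => fderiv ℂ G.e (sig G.Ht a)
      (ξ.1, ofR ξ.2 + I • ofR (fderiv ℝ G.Ht a ξ)))
      = fderiv ℂ G.e (sig G.Ht a) '' range (tanv (fderiv ℝ G.Ht a)) := by
    rw [← range_comp]; rfl
  rw [h5, ← h4, ← range_comp]
  rfl

/-- the Kontinuitätssatz in the final coordinates -/
theorem ksHyp_eF {n : ℕ} {Γ : Subgroup (Equiv.Perm U)} (S : Setup N U Γ) (hS : IsSubmfd n U)
    (hmk : m + k = n) (ha : a ∈ G.O) : ∃ ρ₁ > 0, Bsh.KSHyp (Amap G.Ht a '' G.UU) ρ₁ := by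
  obtain ⟨ρ₁, hρ₁, hball⟩ := Metric.isOpen_iff.1 (isOpen_WF G ha) 0 (zero_mem_WF G ha)
  refine ⟨ρ₁, hρ₁, ?_⟩
  rw [UUF_eq G ha]
  have hc : KS.IsChart U (Amap G.Ht a '' G.W) G.B (eF G ha) (κF G ha) :=
    { openB := isOpen_WF G ha
      openW := G.hB
      dphi := eF_differentiableOn G ha
      dxi := (κF_differentiable G ha).differentiableOn
      mphi := fun y hy => eF_mem G ha hy
      left := fun y hy => κF_eF G ha hy
      mxi := fun x hx hxB => κF_mem G ha (subset_closure hx) hxB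
      right := fun x hx hxB => eF_κF G ha (subset_closure hx) hxB }
  exact KS.ksHyp S hS hmk hc (by rw [← UUF_eq G ha]; exact isOpen_UUF G ha) hball

end final

/-- **the final chart** (interface `AChgDef`) -/
theorem fchartStmt : FChartStmt := by
  intro N U Γ S n hS m k hmk G a ha
  obtain ⟨ρ₁, hρ₁, hKS⟩ := ksHyp_eF G S hS hmk ha
  exact ⟨{
    W := Amap G.Ht a '' G.W
    κ := κF G ha
    e := eF G ha
    hW := isOpen_WF G ha
    W0 := zero_mem_WF G ha
    hκ := κF_differentiable G ha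
    he := eF_differentiableOn G ha
    e_mem := fun y hy => eF_mem G ha hy
    κ_e := fun y hy => κF_eF G ha hy
    κ_mem := fun x hx hxB => κF_mem G ha hx hxB
    e_κ := fun x hx hxB => eF_κF G ha hx hxB
    e0 := eF_zero G ha
    UU_iff := fun y => UUF_iff G ha
    UUo := isOpen_UUF G ha
    peak := peak_eF G ha
    ks := ⟨ρ₁, hρ₁, hKS⟩ }⟩

end Crest.Agent.R264.AChg
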