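import Mathlib
import Crest.Agent.R264.AChg

/-!
Row 264, Part A, ASSEMBLY 1 (helper163): `GraphData` (+ the nodes A5 - A9) gives `PeakData`.
-/

set_option autoImplicit false

open Topology Filter Set Metric Complex
open scoped ContDiff

namespace Crest.Agent.R264.AChg

open Crest.AlgGeometry.Semialg Crest.Agent.R264.AI
open Crest.Agent.R264.JL (P sig Amap ofR reV imV alpha beta Far OMs dil)

variable {m k : ℕ}

section graph

variable {N : ℕ} {U : Set (Fin N → ℂ)}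

theorem k_pos (G : GraphData m k U) : 0 < k := by
  rcases Nat.eq_zero_or_pos k with rfl | hk
  swap
  · exact hk
  exfalso
  obtain ⟨a, ha⟩ := G.hOne
  have hE : ∀ p : EE m 0, ((p.1, (0 : Fin 0 → ℝ)) : P m 0) ∈ G.O → G.e p ∉ U := by
    intro p hp
    have h1 := G.sig_nU _ hp
    have h2 : sig G.Ht (p.1, (0 : Fin 0 → ℝ)) = p :=
      Prod.ext rfl (Subsingleton.elim _ _)
    rwa [h2] at h1
  have hVo : IsOpen (G.B ∩ G.κ ⁻¹' {p : EE m 0 | ((p.1, (0 : Fin 0 → ℝ)) : P m 0) ∈ G.O}) := by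
    refine G.hB.inter (IsOpen.preimage G.hκ.continuous ?_)
    exact G.hO.preimage (continuous_fst.prodMk continuous_const)
  have hxV : G.e (sig G.Ht a) ∈
      G.B ∩ G.κ ⁻¹' {p : EE m 0 | ((p.1, (0 : Fin 0 → ℝ)) : P m 0) ∈ G.O} := by
    refine ⟨G.e_mem _ (G.sig_W a ha), ?_⟩
    rw [mem_preimage, G.κ_e _ (G.sig_W a ha)]
    change (((sig G.Ht a).1, (0 : Fin 0 → ℝ)) : P m 0) ∈ G.O
    have h3 : (((sig G.Ht a).1, (0 : Fin 0 → ℝ)) : P m 0) = a :=
      Prod.ext rfl (Subsingleton.elim _ _)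
    rw [h3]
    exact ha
  obtain ⟨x, hxV', hxU⟩ := _root_.mem_closure_iff.1 (G.sig_cl a ha) _ hVo hxV
  refine hE (G.κ x) hxV'.2 ?_
  rw [G.e_κ x (subset_closure hxU) hxV'.1]
  exact hxU

theorem sig_closure (G : GraphData m k U) (a : P m k) (ha : a ∈ G.O) :
    sig G.Ht a ∈ closure G.UU := by
  rw [_root_.mem_closure_iff]
  intro s hs hsig
  have hVo : IsOpen (G.B ∩ G.κ ⁻¹' s) := G.hB.inter (hs.preimage G.hκ.continuous)
  have hxV : G.e (sig G.Ht a) ∈ G.B ∩ G.κ ⁻¹' s := by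
    refine ⟨G.e_mem _ (G.sig_W a ha), ?_⟩
    rw [mem_preimage, G.κ_e _ (G.sig_W a ha)]
    exact hsig
  obtain ⟨x, hxV', hxU⟩ := _root_.mem_closure_iff.1 (G.sig_cl a ha) _ hVo hxV
  refine ⟨G.κ x, hxV'.2, (G.UU_iff _).2 ⟨G.κ_mem x (subset_closure hxU) hxV'.1, ?_⟩⟩
  rw [G.e_κ x (subset_closure hxU) hxV'.1]
  exact hxU

theorem sig_notMem (G : GraphData m k U) (a : P m k) (ha : a ∈ G.O) : sig G.Ht a ∉ G.UU :=
  fun h => G.sig_nU a ha ((G.UU_iff _).1 h).2

end graph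

/-! ### dilations -/

theorem dil_eq_Dil (ε : ℝ) (y : EE m k) : dil ε y = Dil ε y := by
  refine Prod.ext ?_ ?_
  · funext i
    simp [dil, Dil]
  · funext i
    simp [dil, Dil]

theorem norm_dil_le {ε : ℝ} (h0 : 0 ≤ ε) (h1 : ε ≤ 1) (y : EE m k) : ‖dil ε y‖ ≤ ε * ‖y‖ := by
  have h2 : ε ^ 2 ≤ ε := by nlinarith
  rw [Prod.norm_def]
  refine max_le ?_ ?_
  · change ‖ε • y.1‖ ≤ _
    rw [norm_smul, Real.norm_of_nonneg h0]
    exact mul_le_mul_of_nonneg_left (norm_fst_le y) h0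
  · change ‖(ε ^ 2) • y.2‖ ≤ _
    rw [norm_smul, Real.norm_of_nonneg (by positivity)]
    exact mul_le_mul h2 (norm_snd_le y) (norm_nonneg _) h0

theorem dil_small (x : EE m k) {r ρ : ℝ} (hr : 0 < r) (hρ : 0 < ρ) :
    ∀ᶠ ε in 𝓝[>] (0 : ℝ), ∀ y ∈ ball x r, dil ε y ∈ ball (0 : EE m k) ρ := by
  have hpos : 0 < ‖x‖ + r := by positivity
  have h1 : Ioo (0 : ℝ) (min 1 (ρ / (‖x‖ + r))) ∈ 𝓝[>] (0 : ℝ) :=
    Ioo_mem_nhdsGT (lt_min one_pos (by positivity))
  filter_upwards [h1] with ε hε y hy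
  rw [mem_ball_zero_iff]
  have hy' : ‖y‖ < ‖x‖ + r := by
    have h3 : ‖y - x‖ < r := by rwa [mem_ball, dist_eq_norm] at hy
    calc ‖y‖ = ‖x + (y - x)‖ := by rw [add_sub_cancel]
      _ ≤ ‖x‖ + ‖y - x‖ := norm_add_le _ _
      _ < ‖x‖ + r := by linarith
  have h4 : ε < ρ / (‖x‖ + r) := lt_of_lt_of_le hε.2 (min_le_right _ _)
  calc ‖dil ε y‖ ≤ ε * ‖y‖ := norm_dil_le hε.1.le (le_trans hε.2.le (min_le_left _ _)) y
    _ ≤ ε * (‖x‖ + r) := mul_le_mul_of_nonneg_left hy'.le hε.1.le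
    _ < ρ := by rwa [lt_div_iff₀ hpos] at h4

theorem isOpen_OMs (UU : Set (EE m k)) : IsOpen (OMs UU) := by
  rw [Metric.isOpen_iff]
  rintro x ⟨r, hr, h⟩
  refine ⟨r / 2, by positivity, fun x' hx' => ⟨r / 2, by positivity, ?_⟩⟩
  filter_upwards [h] with ε hε y hy
  apply hε
  rw [mem_ball] at hx' hy ⊢
  calc dist y x ≤ dist y x' + dist x' x := dist_triangle _ _ _
    _ < r := by linarith

/-- the form `DD` as an algebraic form -/
noncomputable def toDD (DD : (Fin m → ℂ) →L[ℝ] ((Fin m → ℂ) →L[ℂ] (Fin k → ℂ))) : DDForm m k where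
  toFun b := (DD b : (Fin m → ℂ) →ₗ[ℂ] (Fin k → ℂ))
  map_add' x y := by
    ext1 z
    simp
  map_smul' c x := by
    ext1 z
    simp

theorem toDD_apply (DD : (Fin m → ℂ) →L[ℝ] ((Fin m → ℂ) →L[ℂ] (Fin k → ℂ))) (b z : Fin m → ℂ) :
    toDD DD b z = DD b z := rfl

theorem Lmap_toDD (DD : (Fin m → ℂ) →L[ℝ] ((Fin m → ℂ) →L[ℂ] (Fin k → ℂ))) (b : Fin m → ℂ)
    (t : Fin k → ℝ) (p : EE m k) : Lmap (toDD DD) b t p = JL.Lmap DD b t p := by
  refine Prod.ext rfl ?_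
  funext i
  simp [Lmap, JL.Lmap, toDD_apply]

/-! ### the assembly -/

theorem asm1 (hArc : ArcStmt) (hFar : FarStmt) (hJL : JL.Main) (hCtrl : CtrlStmt)
    (hBox : BoxStmt) :
    ∀ (N : ℕ) (U : Set (Fin N → ℂ)) (Γ : Subgroup (Equiv.Perm U)), Setup N U Γ →
    ∀ n : ℕ, 0 < n → IsSubmfd n U → ∀ m k : ℕ, m + k = n → GraphData m k U →
    Nonempty (PeakData U n) := by
  intro N U Γ S n hn hS m k hmk G
  have hk : 0 < k := k_pos G
  obtain ⟨A⟩ := hArc m k G.O G.Ht G.UU G.hO G.hOne G.Hsm G.Hsa G.UUopen G.UUsa (sig_closure G)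
    (sig_notMem G)
  obtain ⟨a0, ha0', DD, hinv, hker⟩ := hJL m k G.Ht A.O' G.UU A.hO' A.hne
    ((G.Hsm.mono A.sub).of_le (WithTop.coe_le_coe.2 (le_top : (2 : ℕ∞) ≤ ⊤)))
    (fun a ha => G.Hsmall a (A.sub ha)) G.UUopen
    (fun a _ x r hr => hFar m k G.Ht G.UU G.UUsa a x r hr)
  have ha : a0 ∈ G.O := A.sub ha0'
  obtain ⟨h, M, ν, Q, C1, ρ, hρ, hρW, hh, hhM, hlt, hν, hexp, hctrl⟩ :=
    hCtrl N m k U G.g (Amap G.Ht a0 '' G.W) (eF G ha) G.B (κF G ha) (isOpen_WF G ha)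
      (zero_mem_WF G ha) (eF_differentiableOn G ha) G.hB
      (κF_differentiable G ha).differentiableOn (fun y hy => eF_mem G ha hy)
      (fun y hy => κF_eF G ha hy) (g_eF_zero G ha) (peak_eF G ha)
  obtain ⟨ρ₁, hρ₁, hKS⟩ := ksHyp_eF G S hS hmk ha
  obtain ⟨c, C2, t₀, hc, ht₀, hbox⟩ := hBox m k G.O G.Ht G.UU G.hO G.Hsm G.Hsmall G.UUopen A a0
    ha0' ρ₁ hρ₁ hKS
  choose! e he hbox using hbox
  set UF : Set (EE m k) := Amap G.Ht a0 '' G.UU with hUF
  have hUFW : UF ⊆ Amap G.Ht a0 '' G.W := fun y hy => ((UUF_iff G ha).1 hy).1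
  have hUFU : ∀ y ∈ UF, eF G ha y ∈ U := fun y hy => ((UUF_iff G ha).1 hy).2
  set Cp : ℝ := max C1 (max C2 0) with hCp
  have hCp1 : C1 ≤ Cp := le_max_left _ _
  have hCp2 : C2 ≤ Cp := (le_max_left _ _).trans (le_max_right _ _)
  have hCp0 : 0 ≤ Cp := (le_max_right _ _).trans (le_max_right _ _)
  set ts : ℝ := min t₀ (min ((ρ / c) ^ 2) (ρ / (c + Cp + 1))) with hts
  have hts0 : 0 < ts := by
    refine lt_min ht₀ (lt_min (by positivity) (by positivity))
  refine ⟨{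
    m := m
    k := k
    hmk := hmk
    hk := hk
    p0 := eF G ha 0
    hp0 := eF_zero_mem G ha
    O := G.B ∩ κF G ha ⁻¹' ball 0 ρ
    hO := G.hB.inter (isOpen_ball.preimage (κF_differentiable G ha).continuous)
    hpO := ⟨eF_mem G ha (zero_mem_WF G ha), by
      rw [mem_preimage, κF_eF_zero]; exact mem_ball_self hρ⟩
    κ := κF G ha
    hκ := (κF_differentiable G ha).differentiableOn
    κ_p0 := κF_eF_zero G ha
    UU := UF ∩ ball 0 ρ
    hUU := (isOpen_UUF G ha).inter isOpen_ball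
    χ := eF G ha
    hχ := (eF_differentiableOn G ha).mono (inter_subset_left.trans hUFW)
    hχ0 := ?_
    κ_mem := ?_
    χ_mem := ?_
    χ_κ := ?_
    κ_χ := ?_
    h := h
    hh := hh
    M := M
    h_p0 := hhM
    h_lt := hlt
    ν := ν
    hν := hν
    Q := Q
    Cp := Cp
    expand := ?_
    ctrl := ?_
    c := c
    hc := hc
    ts := ts
    hts := hts0
    e := e
    e_le := ?_
    box := ?_
    OM := OMs UF
    OM_open := isOpen_OMs UF
    kernel₁ := ?_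
    kernel₂ := ?_
    DD := toDD DD
    inv := ?_ }⟩
  · have h1 : ContinuousAt (eF G ha) 0 :=
      ((eF_differentiableOn G ha).differentiableAt
        ((isOpen_WF G ha).mem_nhds (zero_mem_WF G ha))).continuousAt
    exact h1.tendsto.mono_left nhdsWithin_le_nhds
  · intro x hx hxO
    refine ⟨(UUF_iff G ha).2 ⟨κF_mem G ha (subset_closure hx) hxO.1, ?_⟩, hxO.2⟩
    rw [eF_κF G ha (subset_closure hx) hxO.1]
    exact hx
  · intro y hy
    refine ⟨hUFU y hy.1, eF_mem G ha (hUFW hy.1), ?_⟩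
    rw [mem_preimage, κF_eF G ha (hUFW hy.1)]
    exact hy.2
  · intro x hx hxO
    exact eF_κF G ha (subset_closure hx) hxO.1
  · intro y hy
    exact κF_eF G ha (hUFW hy.1)
  · intro i y hy
    refine (hexp i y hy.2).trans ?_
    exact mul_le_mul_of_nonneg_right hCp1 (by positivity)
  · intro i y hy
    refine (hctrl i y hy.2 (hUFU y hy.1)).trans ?_
    have h1 : (h i (eF G ha y)).re < M i := by
      refine hlt i _ (subset_closure (hUFU y hy.1)) ?_
      intro h2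
      apply eF_zero_notMem G ha
      rw [← h2]
      exact hUFU y hy.1
    exact mul_le_mul_of_nonneg_right hCp1 (by linarith)
  · intro t ht0 ht1
    exact (he t ht0 (lt_of_lt_of_le ht1 (min_le_left _ _))).trans hCp2
  · intro t ht0 ht1 y hy1 hy2
    have ht2 : t < t₀ := lt_of_lt_of_le ht1 (min_le_left _ _)
    have ht3 : t < (ρ / c) ^ 2 :=
      lt_of_lt_of_le ht1 ((min_le_right _ _).trans (min_le_left _ _))
    have ht4 : t < ρ / (c + Cp + 1) :=
      lt_of_lt_of_le ht1 ((min_le_right _ _).trans (min_le_right _ _))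
    have hvec : (Complex.I * (t : ℂ)) • cvec (e t) = fun i => Complex.I * (t * (e t i : ℂ)) := by
      funext i
      simp [cvec, mul_assoc]
    rw [hvec] at hy2
    refine ⟨hbox t ht0 ht2 y hy1 hy2, ?_⟩
    rw [mem_ball_zero_iff, Prod.norm_def]
    refine max_lt ?_ ?_
    · have h5 : Real.sqrt t < ρ / c := by
        rw [Real.sqrt_lt' (by positivity)]
        exact ht3
      calc ‖y.1‖ < c * Real.sqrt t := hy1
        _ < c * (ρ / c) := mul_lt_mul_of_pos_left h5 hc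
        _ = ρ := by field_simp
    · have h6 : ‖(fun i => Complex.I * (t * (e t i : ℂ)) : Fin k → ℂ)‖ ≤ t * Cp := by
        refine (pi_norm_le_iff_of_nonneg (by positivity)).2 fun i => ?_
        rw [norm_mul, Complex.norm_I, one_mul, norm_mul, Complex.norm_real, Complex.norm_real,
          Real.norm_of_nonneg ht0.le]
        refine mul_le_mul_of_nonneg_left ?_ ht0.le
        exact (norm_le_pi_norm (e t) i).trans ((he t ht0 ht2).trans hCp2)
      have h7 : t * (c + Cp + 1) < ρ := by rwa [lt_div_iff₀ (by positivity)] at ht4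
      calc ‖y.2‖ = ‖(y.2 - fun i => Complex.I * (t * (e t i : ℂ)))
            + fun i => Complex.I * (t * (e t i : ℂ))‖ := by rw [sub_add_cancel]
        _ ≤ ‖y.2 - fun i => Complex.I * (t * (e t i : ℂ))‖
            + ‖(fun i => Complex.I * (t * (e t i : ℂ)) : Fin k → ℂ)‖ := norm_add_le _ _
        _ < c * t + t * Cp := add_lt_add_of_lt_of_le hy2 h6
        _ < ρ := by nlinarith
  · rintro x ⟨r, hr, hx⟩
    refine ⟨r, hr, ?_⟩
    filter_upwards [hx, dil_small x hr hρ] with ε h1 h2 y hy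
    rw [← dil_eq_Dil]
    exact ⟨h1 hy, h2 y hy⟩
  · intro x r hr hx
    refine hker x r hr (hx.mono ?_)
    intro ε h1 y hy
    have h2 := (h1 y hy).1
    rw [← dil_eq_Dil] at h2
    exact h2
  · intro b t x hx
    rw [Lmap_toDD]
    rw [← hinv b t]
    exact mem_image_of_mem _ hx

end Crest.Agent.R264.AChg
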