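import Mathlib

/-!
Row 264 (helper369): POLYNOMIAL MAPS between real vector spaces (`fun_prop`).

* `PF f`  : `f : V → ℝ` is a polynomial function; `Pol g` : `g : V → W` is a polynomial map.
-/

set_option autoImplicit false

open Set Topology Filter

namespace Crest.Agent.R264

/-! ### polynomial functions -/

/-- polynomial functions on a real vector space -/
inductive PF {V : Type*} [AddCommGroup V] [Module ℝ V] : (V → ℝ) → Prop
  | lin (l : V →ₗ[ℝ] ℝ) : PF (fun v => l v)
  | const (c : ℝ) : PF (fun _ => c)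
  | add {f g : V → ℝ} : PF f → PF g → PF (fun v => f v + g v)
  | mul {f g : V → ℝ} : PF f → PF g → PF (fun v => f v * g v)

section PFsec

variable {V W Z : Type*} [AddCommGroup V] [Module ℝ V] [AddCommGroup W] [Module ℝ W]
  [AddCommGroup Z] [Module ℝ Z]

/-- polynomial maps -/
@[fun_prop]
def Pol (g : V → W) : Prop := ∀ l : W →ₗ[ℝ] ℝ, PF (fun v => l (g v))

theorem PF.pol {f : V → ℝ} (hf : PF f) : Pol f := by
  intro l
  have : (fun v => l (f v)) = fun v => (l 1) * f v := by
    funext v
    conv_lhs => rw [show f v = f v • (1 : ℝ) by simp]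
    rw [map_smul, smul_eq_mul, mul_comm]
  rw [this]
  exact (PF.const _).mul hf

theorem Pol.pf {f : V → ℝ} (hf : Pol f) : PF f := hf LinearMap.id

theorem pol_iff_pf {f : V → ℝ} : Pol f ↔ PF f := ⟨Pol.pf, PF.pol⟩

@[fun_prop]
theorem Pol.id' : Pol (fun v : V => v) := fun l => PF.lin l

@[fun_prop]
theorem Pol.const (w : W) : Pol (fun _ : V => w) := fun l => PF.const (l w)

theorem Pol.lin (f : V →ₗ[ℝ] W) : Pol (fun v => f v) := fun l => PF.lin (l ∘ₗ f)

theorem PF.comp {f : W → ℝ} (hf : PF f) {g : V → W} (hg : Pol g) : PF (fun v => f (g v)) := by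
  induction hf with
  | lin l => exact hg l
  | const c => exact PF.const c
  | add _ _ h1 h2 => exact h1.add h2
  | mul _ _ h1 h2 => exact h1.mul h2

@[fun_prop]
theorem Pol.comp {f : W → Z} (hf : Pol f) {g : V → W} (hg : Pol g) : Pol (fun v => f (g v)) :=
  fun l => (hf l).comp hg

@[fun_prop]
theorem Pol.add {f g : V → W} (hf : Pol f) (hg : Pol g) : Pol (fun v => f v + g v) := by
  intro l
  simp only [map_add]
  exact (hf l).add (hg l)

@[fun_prop]
theorem Pol.neg {f : V → W} (hf : Pol f) : Pol (fun v => - f v) := by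
  intro l
  have : (fun v => l (- f v)) = fun v => (-1) * l (f v) := by funext v; simp
  rw [this]
  exact (PF.const _).mul (hf l)

@[fun_prop]
theorem Pol.sub {f g : V → W} (hf : Pol f) (hg : Pol g) : Pol (fun v => f v - g v) := by
  simp only [sub_eq_add_neg]
  exact hf.add hg.neg

@[fun_prop]
theorem Pol.mul {f g : V → ℝ} (hf : Pol f) (hg : Pol g) : Pol (fun v => f v * g v) :=
  (hf.pf.mul hg.pf).pol

@[fun_prop]
theorem Pol.smul {f : V → ℝ} {g : V → W} (hf : Pol f) (hg : Pol g) :
    Pol (fun v => f v • g v) := by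
  intro l
  simp only [map_smul, smul_eq_mul]
  exact hf.pf.mul (hg l)

@[fun_prop]
theorem Pol.pow {f : V → ℝ} (hf : Pol f) (n : ℕ) : Pol (fun v => f v ^ n) := by
  induction n with
  | zero => simpa using Pol.const (V := V) (1 : ℝ)
  | succ n ih => simp only [pow_succ]; exact ih.mul hf

theorem Pol.sum {ι : Type*} {s : Finset ι} {f : ι → V → W} (hf : ∀ i ∈ s, Pol (f i)) :
    Pol (fun v => ∑ i ∈ s, f i v) := by
  classical
  induction s using Finset.induction_on with
  | empty => simpa using Pol.const (V := V) (0 : W)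
  | insert a s ha ih =>
    simp only [Finset.sum_insert ha]
    exact (hf a (Finset.mem_insert_self a s)).add
      (ih fun i hi => hf i (Finset.mem_insert_of_mem hi))

@[fun_prop]
theorem Pol.sum' {ι : Type*} {s : Finset ι} {f : ι → V → W} (hf : ∀ i, Pol (f i)) :
    Pol (fun v => ∑ i ∈ s, f i v) := Pol.sum fun i _ => hf i

@[fun_prop]
theorem Pol.fst' : Pol (fun p : V × W => p.1) := Pol.lin (LinearMap.fst ℝ V W)

@[fun_prop]
theorem Pol.snd' : Pol (fun p : V × W => p.2) := Pol.lin (LinearMap.snd ℝ V W)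

@[fun_prop]
theorem Pol.fst {f : Z → V × W} (hf : Pol f) : Pol (fun p => (f p).1) := Pol.fst'.comp hf

@[fun_prop]
theorem Pol.snd {f : Z → V × W} (hf : Pol f) : Pol (fun p => (f p).2) := Pol.snd'.comp hf

@[fun_prop]
theorem Pol.prodMk {f : Z → V} {g : Z → W} (hf : Pol f) (hg : Pol g) :
    Pol (fun z => (f z, g z)) := by
  intro l
  have : (fun z => l (f z, g z)) =
      fun z => (l ∘ₗ LinearMap.inl ℝ V W) (f z) + (l ∘ₗ LinearMap.inr ℝ V W) (g z) := by
    funext z
    simp only [LinearMap.comp_apply, LinearMap.inl_apply, LinearMap.inr_apply, ← map_add]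
    simp
  rw [this]
  exact (hf _).add (hg _)

@[fun_prop]
theorem Pol.apply' {ι : Type*} {W : ι → Type*} [∀ i, AddCommGroup (W i)] [∀ i, Module ℝ (W i)]
    (i : ι) : Pol (fun x : (∀ i, W i) => x i) :=
  Pol.lin (LinearMap.proj (R := ℝ) (φ := W) i)

theorem Pol.apply {ι : Type*} {W : ι → Type*} [∀ i, AddCommGroup (W i)] [∀ i, Module ℝ (W i)]
    {f : V → (∀ i, W i)} (hf : Pol f) (i : ι) : Pol (fun x => f x i) :=
  (Pol.apply' i).comp hf

@[fun_prop]
theorem Pol.pi {ι : Type*} [Finite ι] {W : ι → Type*} [∀ i, AddCommGroup (W i)]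
    [∀ i, Module ℝ (W i)] {f : V → (∀ i, W i)} (hf : ∀ i, Pol (fun x => f x i)) : Pol f := by
  classical
  have := Fintype.ofFinite ι
  intro l
  have : (fun v => l (f v)) =
      fun v => ∑ i, (l ∘ₗ LinearMap.single ℝ W i) (f v i) := by
    funext v
    simp only [LinearMap.comp_apply, ← map_sum]
    congr 1
    exact (LinearMap.sum_single_apply W (f v)).symm
  rw [this]
  exact (Pol.sum (s := Finset.univ) (f := fun i v => (l ∘ₗ LinearMap.single ℝ W i) (f v i))
    fun i _ => (hf i _).pol).pf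

/-! complex valued -/

@[fun_prop]
theorem Pol.re {f : V → ℂ} (hf : Pol f) : Pol (fun v => (f v).re) :=
  (Pol.lin Complex.reLm).comp hf

@[fun_prop]
theorem Pol.im {f : V → ℂ} (hf : Pol f) : Pol (fun v => (f v).im) :=
  (Pol.lin Complex.imLm).comp hf

@[fun_prop]
theorem Pol.ofReal {f : V → ℝ} (hf : Pol f) : Pol (fun v => ((f v : ℝ) : ℂ)) :=
  (Pol.lin (V := ℝ) (W := ℂ) Complex.ofRealCLM.toLinearMap).comp hf

theorem Pol.of_re_im {f : V → ℂ} (h1 : Pol (fun v => (f v).re)) (h2 : Pol (fun v => (f v).im)) :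
    Pol f := by
  have : f = fun v => (((f v).re : ℝ) : ℂ) + (((f v).im : ℝ) : ℂ) * Complex.I := by
    funext v; exact (Complex.re_add_im _).symm
  rw [this]
  have h3 : Pol (fun v => (((f v).im : ℝ) : ℂ) * Complex.I) := by
    have : (fun v => (((f v).im : ℝ) : ℂ) * Complex.I) = fun v => (f v).im • Complex.I := by
      funext v; rw [Complex.real_smul]
    rw [this]
    exact h2.smul (Pol.const _)
  exact h1.ofReal.add h3

@[fun_prop]
theorem Pol.cmul {f g : V → ℂ} (hf : Pol f) (hg : Pol g) : Pol (fun v => f v * g v) := by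
  refine Pol.of_re_im ?_ ?_
  · simp only [Complex.mul_re]; fun_prop
  · simp only [Complex.mul_im]; fun_prop

@[fun_prop]
theorem Pol.cpow {f : V → ℂ} (hf : Pol f) (n : ℕ) : Pol (fun v => f v ^ n) := by
  induction n with
  | zero => simpa using Pol.const (V := V) (1 : ℂ)
  | succ n ih => simp only [pow_succ]; exact ih.cmul hf

@[fun_prop]
theorem Pol.conj {f : V → ℂ} (hf : Pol f) : Pol (fun v => (starRingEnd ℂ) (f v)) := by
  refine Pol.of_re_im ?_ ?_
  · simp only [Complex.conj_re]; fun_prop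
  · simp only [Complex.conj_im]; fun_prop

@[fun_prop]
theorem Pol.normSq {f : V → ℂ} (hf : Pol f) : Pol (fun v => Complex.normSq (f v)) := by
  simp only [Complex.normSq_apply]; fun_prop

/-- complex scalar times a vector of `ℂ^ι` -/
@[fun_prop]
theorem Pol.csmul {ι : Type*} [Finite ι] {f : V → ℂ} {g : V → (ι → ℂ)} (hf : Pol f) (hg : Pol g) :
    Pol (fun v => f v • g v) := by
  refine Pol.pi fun i => ?_
  simp only [Pi.smul_apply, smul_eq_mul]
  fun_prop

/-- evaluation of a fixed complex polynomial -/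
@[fun_prop]
theorem Pol.ceval {ι : Type*} [Finite ι] (p : MvPolynomial ι ℂ) {g : V → (ι → ℂ)} (hg : Pol g) :
    Pol (fun v => MvPolynomial.eval (g v) p) := by
  induction p using MvPolynomial.induction_on with
  | C a => simp only [MvPolynomial.eval_C]; fun_prop
  | add p q hp hq => simp only [map_add]; fun_prop
  | mul_X p i hp => simp only [map_mul, MvPolynomial.eval_X]; fun_prop

/-- evaluation of a fixed real polynomial -/
@[fun_prop]
theorem Pol.reval {ι : Type*} [Finite ι] (p : MvPolynomial ι ℝ) {g : V → (ι → ℝ)} (hg : Pol g) :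
    Pol (fun v => MvPolynomial.eval (g v) p) := by
  induction p using MvPolynomial.induction_on with
  | C a => simp only [MvPolynomial.eval_C]; fun_prop
  | add p q hp hq => simp only [map_add]; fun_prop
  | mul_X p i hp => simp only [map_mul, MvPolynomial.eval_X]; fun_prop

/-- representation by a polynomial in linear coordinates -/
theorem PF.repr {f : V → ℝ} (hf : PF f) {ι : Type*} [Fintype ι] (e : V ≃ₗ[ℝ] (ι → ℝ)) :
    ∃ p : MvPolynomial ι ℝ, ∀ x, f (e.symm x) = MvPolynomial.eval x p := by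
  classical
  induction hf with
  | lin l =>
    refine ⟨∑ i, MvPolynomial.C (l (e.symm (Pi.single i 1))) * MvPolynomial.X i, fun x => ?_⟩
    simp only [map_sum, map_mul, MvPolynomial.eval_C, MvPolynomial.eval_X]
    conv_lhs => rw [← LinearMap.sum_single_apply (fun _ : ι => ℝ) x]
    rw [map_sum, map_sum]
    refine Finset.sum_congr rfl fun i _ => ?_
    have : (Pi.single i (x i) : ι → ℝ) = x i • (Pi.single i (1 : ℝ)) := by
      ext j
      by_cases h : j = i
      · subst h; simp
      · simp [h]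
    rw [this, map_smul, map_smul, smul_eq_mul, mul_comm]
  | const c => exact ⟨MvPolynomial.C c, fun x => by simp⟩
  | add _ _ h1 h2 =>
    obtain ⟨p, hp⟩ := h1
    obtain ⟨q, hq⟩ := h2
    exact ⟨p + q, fun x => by rw [map_add, ← hp, ← hq]⟩
  | mul _ _ h1 h2 =>
    obtain ⟨p, hp⟩ := h1
    obtain ⟨q, hq⟩ := h2
    exact ⟨p * q, fun x => by rw [map_mul, ← hp, ← hq]⟩

end PFsec

end Crest.Agent.R264
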