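import Crest.Agent.R264.TSProj
import Crest.Agent.R264.SAVDefs
import Crest.Agent.R264.SAPol
import Crest.Prelude.Def_SemialgDomain

/-!
Row 264 (helper369): SEMIALGEBRAIC SUBSETS OF FINITE-DIMENSIONAL REAL VECTOR SPACES.

`SAV s` (SAVDefs.lean): `s : Set V` is semialgebraic in some (equivalently all) linear coordinates.

* coordinates: `SAV.iff_equiv`, `SAV.finiteDimensional`;
* boolean operations (set-builder form): `SAV.and/or/not/imp/iff`, `SAV.inter/union/compl/diff`,
  `SAV.exists_finite/forall_finite`, `SAV.const`;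
* polynomial conditions: `SAV.pos/nonneg/eq/ne/lt/le`; preimages `SAV.preimage (hg : Pol g)`;
* quantifiers: `SAV.ex`, `SAV.all`, `SAV.ex'`, `SAV.all'`;
* norms: class `SANorm W`; `SAV.norm_lt/norm_le/dist_lt/dist_le`;
* topology: `SAV.closure/interior/frontier`;
* one variable: `SAV.eventually_or`;
* `SAV.of_isSemialgebraic`.
-/

set_option autoImplicit false

open Set Topology Filter

namespace Crest.Agent.R264

open TS

section basic

variable {V W Z : Type*} [AddCommGroup V] [Module ℝ V] [AddCommGroup W] [Module ℝ W]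
  [AddCommGroup Z] [Module ℝ Z]

theorem SAV.finiteDimensional {s : Set V} (hs : SAV s) : FiniteDimensional ℝ V := by
  obtain ⟨n, e, -⟩ := hs
  exact Module.Finite.equiv e.symm

/-- pull-back of an `SA` set under a polynomial map in coordinates -/
theorem sa_preimage_pol {ι κ : Type*} [Fintype ι] {s : Set (κ → ℝ)} (hs : SA s)
    (e : V ≃ₗ[ℝ] (ι → ℝ)) {g : V → (κ → ℝ)} (hg : ∀ k, PF (fun v => g v k)) :
    SA {x : ι → ℝ | g (e.symm x) ∈ s} := by
  have h : ∀ k, ∃ p : MvPolynomial ι ℝ, ∀ x, g (e.symm x) k = MvPolynomial.eval x p :=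
    fun k => (hg k).repr e
  choose P hP using h
  have h2 := hs.preimage P
  have e2 : {x : ι → ℝ | (fun k => MvPolynomial.eval x (P k)) ∈ s} =
      {x : ι → ℝ | g (e.symm x) ∈ s} := by
    ext x
    have : (fun k => MvPolynomial.eval x (P k)) = g (e.symm x) := by
      funext k; exact (hP k x).symm
    rw [Set.mem_ofPred_eq, this, Set.mem_ofPred_eq]
  rw [← e2]
  exact h2

/-- independence of the coordinates -/
theorem SAV.coord {ι : Type*} [Fintype ι] (e : V ≃ₗ[ℝ] (ι → ℝ)) {s : Set V} (hs : SAV s) :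
    SA {x : ι → ℝ | e.symm x ∈ s} := by
  obtain ⟨n, e', h'⟩ := hs
  have h1 : SA {x : ι → ℝ | (fun v => e' v) (e.symm x) ∈ (e'.symm ⁻¹' s)} :=
    sa_preimage_pol h' e fun k => PF.lin ((LinearMap.proj k) ∘ₗ e'.toLinearMap)
  have e2 : {x : ι → ℝ | (fun v => e' v) (e.symm x) ∈ (e'.symm ⁻¹' s)} =
      {x : ι → ℝ | e.symm x ∈ s} := by
    ext x
    simp
  rw [← e2]; exact h1

theorem SAV.of_coord {ι : Type*} [Fintype ι] (e : V ≃ₗ[ℝ] (ι → ℝ)) {s : Set V}
    (hs : SA {x : ι → ℝ | e.symm x ∈ s}) : SAV s := by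
  have : FiniteDimensional ℝ V := Module.Finite.equiv e.symm
  let e' : V ≃ₗ[ℝ] (Fin (Module.finrank ℝ V) → ℝ) := (Module.finBasis ℝ V).equivFun
  refine ⟨_, e', ?_⟩
  have h1 : SA {x : Fin (Module.finrank ℝ V) → ℝ |
      (fun v => e v) (e'.symm x) ∈ {x : ι → ℝ | e.symm x ∈ s}} :=
    sa_preimage_pol hs e' fun k => PF.lin ((LinearMap.proj k) ∘ₗ e.toLinearMap)
  have e2 : {x : Fin (Module.finrank ℝ V) → ℝ |
      (fun v => e v) (e'.symm x) ∈ {x : ι → ℝ | e.symm x ∈ s}} = (e'.symm ⁻¹' s) := by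
    ext x
    rw [Set.mem_ofPred_eq, Set.mem_ofPred_eq]
    simp
  rw [← e2]; exact h1

/-- coordinates on a finite-dimensional space -/
noncomputable def coordE (V : Type*) [AddCommGroup V] [Module ℝ V] [FiniteDimensional ℝ V] :
    V ≃ₗ[ℝ] (Fin (Module.finrank ℝ V) → ℝ) := (Module.finBasis ℝ V).equivFun

theorem sav_iff_coordE [FiniteDimensional ℝ V] {s : Set V} :
    SAV s ↔ SA {x | (coordE V).symm x ∈ s} := ⟨SAV.coord _, SAV.of_coord _⟩

theorem sav_iff_sa {ι : Type*} [Fintype ι] {s : Set (ι → ℝ)} : SAV s ↔ SA s := by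
  constructor
  · intro h; exact h.coord (LinearEquiv.refl ℝ (ι → ℝ))
  · intro h; exact SAV.of_coord (LinearEquiv.refl ℝ (ι → ℝ)) h

/-- preimage under a polynomial map -/
theorem SAV.preimage [FiniteDimensional ℝ V] {s : Set W} (hs : SAV s) {g : V → W} (hg : Pol g) :
    SAV {v | g v ∈ s} := by
  obtain ⟨n, e', h'⟩ := hs
  have h1 : SA {x | (fun v => e' (g v)) ((coordE V).symm x) ∈ (e'.symm ⁻¹' s)} :=
    sa_preimage_pol h' (coordE V) fun k => hg ((LinearMap.proj k) ∘ₗ e'.toLinearMap)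
  have e2 : {x | (fun v => e' (g v)) ((coordE V).symm x) ∈ (e'.symm ⁻¹' s)} =
      {x | (coordE V).symm x ∈ {v | g v ∈ s}} := by
    ext x
    simp
  rw [sav_iff_coordE, ← e2]; exact h1

/-! ### boolean operations -/

variable [FiniteDimensional ℝ V]

theorem SAV.univ : SAV (univ : Set V) := by
  rw [sav_iff_coordE]; simpa using SA.univ

theorem SAV.empty : SAV (∅ : Set V) := by
  rw [sav_iff_coordE]; simpa using SA.empty

omit [FiniteDimensional ℝ V] in
theorem SAV.compl {s : Set V} (hs : SAV s) : SAV sᶜ := by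
  obtain ⟨n, e, h⟩ := hs
  exact ⟨n, e, h.compl⟩

theorem SAV.inter {s t : Set V} (hs : SAV s) (ht : SAV t) : SAV (s ∩ t) := by
  rw [sav_iff_coordE] at *
  exact hs.inter ht

theorem SAV.union {s t : Set V} (hs : SAV s) (ht : SAV t) : SAV (s ∪ t) := by
  rw [sav_iff_coordE] at *
  exact hs.union ht

theorem SAV.diff {s t : Set V} (hs : SAV s) (ht : SAV t) : SAV (s \ t) := hs.inter ht.compl

theorem SAV.const (P : Prop) : SAV {_v : V | P} := by
  by_cases h : P
  · simp only [h]; exact SAV.univ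
  · simp only [h]; exact SAV.empty

omit [FiniteDimensional ℝ V] in
theorem SAV.not {P : V → Prop} (h : SAV {v | P v}) : SAV {v | ¬ P v} := h.compl

theorem SAV.and {P Q : V → Prop} (h : SAV {v | P v}) (h' : SAV {v | Q v}) :
    SAV {v | P v ∧ Q v} := h.inter h'

theorem SAV.or {P Q : V → Prop} (h : SAV {v | P v}) (h' : SAV {v | Q v}) :
    SAV {v | P v ∨ Q v} := h.union h'

theorem SAV.imp {P Q : V → Prop} (h : SAV {v | P v}) (h' : SAV {v | Q v}) :
    SAV {v | P v → Q v} := by
  have e : {v | P v → Q v} = {v | ¬ P v ∨ Q v} := by ext x; exact imp_iff_not_or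
  rw [e]; exact h.not.or h'

theorem SAV.iff {P Q : V → Prop} (h : SAV {v | P v}) (h' : SAV {v | Q v}) :
    SAV {v | P v ↔ Q v} := by
  have e : {v | P v ↔ Q v} = {v | (P v → Q v) ∧ (Q v → P v)} := by
    ext x; exact iff_iff_implies_and_implies
  rw [e]; exact (h.imp h').and (h'.imp h)

theorem SAV.exists_finite {α : Type*} [Finite α] {P : α → V → Prop} (h : ∀ a, SAV {v | P a v}) :
    SAV {v | ∃ a, P a v} := by
  simp only [sav_iff_coordE] at *
  exact SA.exists_finite h

theorem SAV.forall_finite {α : Type*} [Finite α] {P : α → V → Prop} (h : ∀ a, SAV {v | P a v}) :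
    SAV {v | ∀ a, P a v} := by
  simp only [sav_iff_coordE] at *
  exact SA.forall_finite h

/-! ### polynomial conditions -/

theorem SAV.pos {f : V → ℝ} (hf : Pol f) : SAV {v | 0 < f v} := by
  obtain ⟨p, hp⟩ := hf.pf.repr (coordE V)
  rw [sav_iff_coordE]
  have := SA.pos p
  convert this using 3 with x
  rw [Set.mem_ofPred_eq, hp]

theorem SAV.eq_zero {f : V → ℝ} (hf : Pol f) : SAV {v | f v = 0} := by
  obtain ⟨p, hp⟩ := hf.pf.repr (coordE V)
  rw [sav_iff_coordE]
  have := SA.eq_zero p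
  convert this using 3 with x
  rw [Set.mem_ofPred_eq, hp]

theorem SAV.lt {f g : V → ℝ} (hf : Pol f) (hg : Pol g) : SAV {v | f v < g v} := by
  simpa only [sub_pos] using SAV.pos (hg.sub hf)

theorem SAV.le {f g : V → ℝ} (hf : Pol f) (hg : Pol g) : SAV {v | f v ≤ g v} := by
  simpa only [not_lt] using (SAV.lt hg hf).not

/-- equality of two polynomial maps -/
theorem SAV.eq [FiniteDimensional ℝ W] {f g : V → W} (hf : Pol f) (hg : Pol g) :
    SAV {v | f v = g v} := by
  have h : ∀ k, SAV {v | (coordE W (f v - g v)) k = 0} := fun k =>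
    SAV.eq_zero (((hf.sub hg) ((LinearMap.proj k) ∘ₗ (coordE W).toLinearMap)).pol)
  have := SAV.forall_finite h
  convert this using 3 with v
  constructor
  · intro e k; simp [e]
  · intro e
    have : coordE W (f v - g v) = 0 := by funext k; exact e k
    rw [LinearEquiv.map_eq_zero_iff, sub_eq_zero] at this
    exact this

theorem SAV.ne [FiniteDimensional ℝ W] {f g : V → W} (hf : Pol f) (hg : Pol g) :
    SAV {v | f v ≠ g v} := (SAV.eq hf hg).not

theorem SAV.singleton (a : V) : SAV ({a} : Set V) := SAV.eq Pol.id' (Pol.const a)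

theorem SAV.finite {s : Set V} (hs : s.Finite) : SAV s := by
  induction s, hs using Set.Finite.induction_on with
  | empty => exact SAV.empty
  | insert _ _ ih => exact (SAV.singleton _).union ih

/-! ### quantifiers -/

theorem SAV.ex [FiniteDimensional ℝ W] {P : V → W → Prop} (h : SAV {p : V × W | P p.1 p.2}) :
    SAV {v | ∃ w, P v w} := by
  classical
  let eV := coordE V
  let eW := coordE W
  let e : (V × W) ≃ₗ[ℝ] ((Fin (Module.finrank ℝ V) ⊕ Fin (Module.finrank ℝ W)) → ℝ) :=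
    (eV.prodCongr eW).trans (LinearEquiv.sumArrowLequivProdArrow _ _ ℝ ℝ).symm
  have h1 := (h.coord e).ex
  rw [sav_iff_coordE]
  have key : ∀ (x : Fin (Module.finrank ℝ V) → ℝ) (y : Fin (Module.finrank ℝ W) → ℝ),
      e.symm (Sum.elim x y) = (eV.symm x, eW.symm y) := by
    intro x y
    rw [LinearEquiv.symm_apply_eq]
    ext k
    rcases k with k | k <;> simp [e]
  convert h1 using 3 with x
  constructor
  · rintro ⟨w, hw⟩
    refine ⟨eW w, ?_⟩
    rw [Set.mem_ofPred_eq, key]
    simpa using hw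
  · rintro ⟨y, hy⟩
    rw [Set.mem_ofPred_eq, key] at hy
    exact ⟨_, hy⟩

theorem SAV.all [FiniteDimensional ℝ W] {P : V → W → Prop} (h : SAV {p : V × W | P p.1 p.2}) :
    SAV {v | ∀ w, P v w} := by
  have := (SAV.ex (P := fun v w => ¬ P v w) h.not).not
  convert this using 3 with v
  simp

/-- bounded quantifier -/
theorem SAV.bex [FiniteDimensional ℝ W] {Q P : V → W → Prop} (hQ : SAV {p : V × W | Q p.1 p.2})
    (h : SAV {p : V × W | P p.1 p.2}) : SAV {v | ∃ w, Q v w ∧ P v w} := SAV.ex (hQ.and h)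

theorem SAV.ball [FiniteDimensional ℝ W] {Q P : V → W → Prop} (hQ : SAV {p : V × W | Q p.1 p.2})
    (h : SAV {p : V × W | P p.1 p.2}) : SAV {v | ∀ w, Q v w → P v w} := SAV.all (hQ.imp h)

/-- image under a polynomial map -/
theorem SAV.image [FiniteDimensional ℝ W] {s : Set W} (hs : SAV s) {g : W → V} (hg : Pol g) :
    SAV (g '' s) := by
  have : g '' s = {v | ∃ w, w ∈ s ∧ g w = v} := rfl
  rw [this]
  exact SAV.bex (Q := fun (_ : V) (w : W) => w ∈ s) (P := fun v w => g w = v)
    (hs.preimage Pol.snd') (SAV.eq (by fun_prop) (by fun_prop))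

end basic

/-! ### norms -/

/-- the norm is semialgebraic -/
class SANorm (W : Type*) [NormedAddCommGroup W] [NormedSpace ℝ W] : Prop where
  fin : FiniteDimensional ℝ W
  sa : SAV {p : W × ℝ | ‖p.1‖ < p.2}

attribute [instance 100] SANorm.fin

section norm

variable {V W Z : Type*} [AddCommGroup V] [Module ℝ V] [FiniteDimensional ℝ V]
  [NormedAddCommGroup W] [NormedSpace ℝ W] [NormedAddCommGroup Z] [NormedSpace ℝ Z]

theorem SAV.norm_lt [SANorm W] {f : V → W} {r : V → ℝ} (hf : Pol f) (hr : Pol r) :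
    SAV {v | ‖f v‖ < r v} :=
  (SANorm.sa (W := W)).preimage (hf.prodMk hr)

theorem SAV.norm_le [SANorm W] {f : V → W} {r : V → ℝ} (hf : Pol f) (hr : Pol r) :
    SAV {v | ‖f v‖ ≤ r v} := by
  have h : SAV {v | ∀ s : ℝ, r v < s → ‖f v‖ < s} :=
    SAV.ball (Q := fun v s => r v < s) (P := fun v s => ‖f v‖ < s)
      (SAV.lt (by fun_prop) (by fun_prop)) (SAV.norm_lt (by fun_prop) (by fun_prop))
  convert h using 3 with v
  exact ⟨fun h s hs => h.trans_lt hs, fun h => le_of_forall_gt fun s hs => h s hs⟩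

theorem SAV.lt_norm [SANorm W] {f : V → W} {r : V → ℝ} (hf : Pol f) (hr : Pol r) :
    SAV {v | r v < ‖f v‖} := by
  simpa only [not_le] using (SAV.norm_le hf hr).not

theorem SAV.le_norm [SANorm W] {f : V → W} {r : V → ℝ} (hf : Pol f) (hr : Pol r) :
    SAV {v | r v ≤ ‖f v‖} := by
  simpa only [not_lt] using (SAV.norm_lt hf hr).not

theorem SAV.norm_eq [SANorm W] {f : V → W} {r : V → ℝ} (hf : Pol f) (hr : Pol r) :
    SAV {v | ‖f v‖ = r v} := by
  have := (SAV.norm_le hf hr).and (SAV.le_norm hf hr)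
  convert this using 3 with v
  exact le_antisymm_iff

theorem SAV.dist_lt [SANorm W] {f g : V → W} {r : V → ℝ} (hf : Pol f) (hg : Pol g) (hr : Pol r) :
    SAV {v | dist (f v) (g v) < r v} := by
  simp only [dist_eq_norm]; exact SAV.norm_lt (hf.sub hg) hr

theorem SAV.dist_le [SANorm W] {f g : V → W} {r : V → ℝ} (hf : Pol f) (hg : Pol g) (hr : Pol r) :
    SAV {v | dist (f v) (g v) ≤ r v} := by
  simp only [dist_eq_norm]; exact SAV.norm_le (hf.sub hg) hr

theorem SAV.le_dist [SANorm W] {f g : V → W} {r : V → ℝ} (hf : Pol f) (hg : Pol g) (hr : Pol r) :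
    SAV {v | r v ≤ dist (f v) (g v)} := by
  simp only [dist_eq_norm]; exact SAV.le_norm (hf.sub hg) hr

instance : SANorm ℝ where
  fin := inferInstance
  sa := by
    have : {p : ℝ × ℝ | ‖p.1‖ < p.2} = {p : ℝ × ℝ | - p.2 < p.1 ∧ p.1 < p.2} := by
      ext p; simp only [Set.mem_ofPred_eq, Real.norm_eq_abs, abs_lt]
    rw [this]
    exact (SAV.lt (by fun_prop) (by fun_prop)).and (SAV.lt (by fun_prop) (by fun_prop))

instance : SANorm ℂ where
  fin := inferInstance
  sa := by
    have : {p : ℂ × ℝ | ‖p.1‖ < p.2} =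
        {p : ℂ × ℝ | 0 < p.2 ∧ p.1.re * p.1.re + p.1.im * p.1.im < p.2 ^ 2} := by
      ext p
      simp only [Set.mem_ofPred_eq]
      rw [← Complex.normSq_apply, Complex.normSq_eq_norm_sq]
      constructor
      · intro h
        exact ⟨(norm_nonneg _).trans_lt h, pow_lt_pow_left₀ h (norm_nonneg _) two_ne_zero⟩
      · rintro ⟨h1, h2⟩
        exact lt_of_pow_lt_pow_left₀ 2 h1.le h2
    rw [this]
    exact (SAV.lt (by fun_prop) (by fun_prop)).and (SAV.lt (by fun_prop) (by fun_prop))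

instance [SANorm W] [SANorm Z] : SANorm (W × Z) where
  fin := inferInstance
  sa := by
    have : {p : (W × Z) × ℝ | ‖p.1‖ < p.2} = {p | ‖p.1.1‖ < p.2 ∧ ‖p.1.2‖ < p.2} := by
      ext p; simp only [Set.mem_ofPred_eq, Prod.norm_def, max_lt_iff]
    rw [this]
    exact (SAV.norm_lt (by fun_prop) (by fun_prop)).and (SAV.norm_lt (by fun_prop) (by fun_prop))

instance {ι : Type*} [Fintype ι] [SANorm W] : SANorm (ι → W) where
  fin := inferInstance
  sa := by
    have : {p : (ι → W) × ℝ | ‖p.1‖ < p.2} = {p | 0 < p.2 ∧ ∀ i, ‖p.1 i‖ < p.2} := by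
      ext p
      simp only [Set.mem_ofPred_eq]
      constructor
      · intro h
        have h0 : 0 < p.2 := (norm_nonneg _).trans_lt h
        exact ⟨h0, (pi_norm_lt_iff h0).1 h⟩
      · rintro ⟨h0, h⟩
        exact (pi_norm_lt_iff h0).2 h
    rw [this]
    exact (SAV.lt (by fun_prop) (by fun_prop)).and
      (SAV.forall_finite fun i => SAV.norm_lt (by fun_prop) (by fun_prop))

/-! ### topology -/

theorem SAV.closure [SANorm W] {s : Set W} (hs : SAV s) : SAV (_root_.closure s) := by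
  have : _root_.closure s = {x | ∀ r : ℝ, 0 < r → ∃ y, y ∈ s ∧ dist x y < r} := by
    ext x; exact Metric.mem_closure_iff
  rw [this]
  refine SAV.ball (Q := fun (_ : W) (r : ℝ) => 0 < r)
    (P := fun (x : W) (r : ℝ) => ∃ y, y ∈ s ∧ dist x y < r) (SAV.lt (by fun_prop) (by fun_prop)) ?_
  refine SAV.bex (V := W × ℝ) (Q := fun (_ : W × ℝ) (y : W) => y ∈ s)
    (P := fun (p : W × ℝ) (y : W) => dist p.1 y < p.2) (hs.preimage Pol.snd') ?_
  exact SAV.dist_lt (by fun_prop) (by fun_prop) (by fun_prop)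

theorem SAV.interior [SANorm W] {s : Set W} (hs : SAV s) : SAV (_root_.interior s) := by
  rw [← compl_compl (_root_.interior s), ← closure_compl]
  exact hs.compl.closure.compl

theorem SAV.frontier [SANorm W] {s : Set W} (hs : SAV s) : SAV (_root_.frontier s) :=
  hs.closure.diff hs.interior

end norm

/-! ### one variable -/

theorem eventually_sign_polynomial (p : Polynomial ℝ) :
    ∃ c : SignType, ∀ᶠ ε in 𝓝[>] (0 : ℝ), SignType.sign (p.eval ε) = c := by
  by_cases hp : p = 0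
  · subst hp; exact ⟨0, Eventually.of_forall fun ε => by simp⟩
  obtain ⟨q, hq, hq0⟩ : ∃ q : Polynomial ℝ, p = Polynomial.X ^ (p.rootMultiplicity 0) * q ∧
      q.eval 0 ≠ 0 := by
    obtain ⟨q, h1, h2⟩ := Polynomial.exists_eq_pow_rootMultiplicity_mul_and_not_dvd p hp 0
    refine ⟨q, by simpa using h1, fun h => h2 ?_⟩
    exact Polynomial.dvd_iff_isRoot.mpr h
  have hc : ∀ᶠ ε in 𝓝 (0 : ℝ), SignType.sign (q.eval ε) = SignType.sign (q.eval 0) := by
    rcases lt_or_gt_of_ne hq0 with h | h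
    · have : ∀ᶠ ε in 𝓝 (0 : ℝ), q.eval ε < 0 := q.continuous.continuousAt.eventually_lt
        continuousAt_const h
      filter_upwards [this] with ε hε
      rw [sign_neg hε, sign_neg h]
    · have : ∀ᶠ ε in 𝓝 (0 : ℝ), 0 < q.eval ε := continuousAt_const.eventually_lt
        q.continuous.continuousAt h
      filter_upwards [this] with ε hε
      rw [sign_pos hε, sign_pos h]
  refine ⟨SignType.sign (q.eval 0), ?_⟩
  filter_upwards [nhdsWithin_le_nhds hc, self_mem_nhdsWithin] with ε h1 h2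
  rw [hq, Polynomial.eval_mul, Polynomial.eval_pow, Polynomial.eval_X, sign_mul,
    sign_pos (pow_pos h2 _), one_mul]
  exact h1

/-- a semialgebraic subset of `ℝ` contains all small positive numbers or none -/
theorem SAV.eventually_or {s : Set ℝ} (hs : SAV s) :
    (∀ᶠ ε in 𝓝[>] (0 : ℝ), ε ∈ s) ∨ (∀ᶠ ε in 𝓝[>] (0 : ℝ), ε ∉ s) := by
  have e : ℝ ≃ₗ[ℝ] (Unit → ℝ) := (LinearEquiv.funUnique Unit ℝ ℝ).symm
  obtain ⟨Wf, hW⟩ := hs.coord e
  -- along the line, every polynomial has eventually constant sign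
  have h1 : ∀ p : MvPolynomial Unit ℝ, ∃ c : SignType, ∀ᶠ ε in 𝓝[>] (0 : ℝ),
      SignType.sign (MvPolynomial.eval (e ε) p) = c := by
    intro p
    have : ∃ P : Polynomial ℝ, ∀ ε, MvPolynomial.eval (e ε) p = P.eval ε := by
      induction p using MvPolynomial.induction_on with
      | C a => exact ⟨Polynomial.C a, fun ε => by simp⟩
      | add p q hp hq =>
        obtain ⟨P, hP⟩ := hp
        obtain ⟨Q, hQ⟩ := hq
        exact ⟨P + Q, fun ε => by simp [hP, hQ]⟩
      | mul_X p i hp =>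
        obtain ⟨P, hP⟩ := hp
        refine ⟨P * (Polynomial.C (e 1 i) * Polynomial.X), fun ε => ?_⟩
        have : e ε i = ε * e 1 i := by
          conv_lhs => rw [show ε = ε • (1 : ℝ) by simp]
          rw [map_smul]; rfl
        rw [map_mul, MvPolynomial.eval_X, hP, this, Polynomial.eval_mul, Polynomial.eval_mul,
          Polynomial.eval_C, Polynomial.eval_X, mul_comm ε]
    obtain ⟨P, hP⟩ := this
    obtain ⟨c, hc⟩ := eventually_sign_polynomial P
    exact ⟨c, by filter_upwards [hc] with ε hε; rw [hP]; exact hε⟩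
  choose c hc using h1
  have h2 : ∀ᶠ ε in 𝓝[>] (0 : ℝ), ∀ p ∈ Wf, SignType.sign (MvPolynomial.eval (e ε) p) = c p :=
    (Wf.eventually_all).mpr fun p _ => hc p
  obtain ⟨ε0, h0⟩ := h2.exists
  have h3 : ∀ᶠ ε in 𝓝[>] (0 : ℝ), (ε ∈ s ↔ ε0 ∈ s) := by
    filter_upwards [h2] with ε hε
    have := hW (e ε) (e ε0) fun p hp => by rw [hε p hp, h0 p hp]
    simpa using this
  by_cases h : ε0 ∈ s
  · left; filter_upwards [h3] with ε hε; exact hε.2 h
  · right; filter_upwards [h3] with ε hε; exact fun hh => h (hε.1 hh)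

/-! ### the Prelude notion -/

open Crest.AlgGeometry.Semialg in
theorem SAV.of_isSemialgebraic {N : ℕ} {A : Set (Fin N → ℂ)} (hA : IsSemialgebraic A) :
    SAV A := by
  obtain ⟨k, m, P, Q, rfl⟩ := hA
  have hr : Pol (realCoords (N := N)) := by
    refine Pol.pi fun i => ?_
    rcases i with i | i
    · simp only [realCoords, Sum.elim_inl]; fun_prop
    · simp only [realCoords, Sum.elim_inr]; fun_prop
  have : (⋃ i, {x | (∀ j, MvPolynomial.eval (realCoords x) (P i j) = 0) ∧
      (∀ j, 0 < MvPolynomial.eval (realCoords x) (Q i j))}) =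
      {x : Fin N → ℂ | ∃ i, (∀ j, MvPolynomial.eval (realCoords x) (P i j) = 0) ∧
      (∀ j, 0 < MvPolynomial.eval (realCoords x) (Q i j))} := by
    ext x; simp
  rw [this]
  refine SAV.exists_finite fun i => SAV.and ?_ ?_
  · exact SAV.forall_finite fun j => SAV.eq_zero (Pol.reval _ hr)
  · exact SAV.forall_finite fun j => SAV.pos (Pol.reval _ hr)

end Crest.Agent.R264
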