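import Crest.Agent.R264.AIface
import Crest.Agent.R264.SAV

/-!
Row 264, Part A: `AI.PKStmt` from `StrataStmt`, `MSmooth`, `PKCalc` (helper541).
-/

set_option autoImplicit false

open Topology Filter Set Metric Complex
open scoped ContDiff

namespace Crest.Agent.R264.AI

open Crest.AlgGeometry.Semialg

/-- maximum principle: the real part of a holomorphic function has no strict local maximum -/
theorem no_strict_max {n : ℕ} (hn : 0 < n) {W : Set (Fin n → ℂ)} (hW : IsOpen W)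
    {w₀ : Fin n → ℂ} (h0 : w₀ ∈ W) {f : (Fin n → ℂ) → ℂ} (hf : DifferentiableOn ℂ f W)
    (h : ∀ w ∈ W, w ≠ w₀ → (f w).re < (f w₀).re) : False := by
  haveI : Nonempty (Fin n) := ⟨⟨0, hn⟩⟩
  have h1 : ∀ᶠ z in 𝓝 w₀, DifferentiableAt ℂ (fun z => Complex.exp (f z)) z := by
    filter_upwards [hW.mem_nhds h0] with z hz
    exact (hf.differentiableAt (hW.mem_nhds hz)).cexp
  have h2 : IsLocalMax (norm ∘ fun z => Complex.exp (f z)) w₀ := by
    filter_upwards [hW.mem_nhds h0] with z hz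
    simp only [Function.comp, Complex.norm_exp]
    by_cases hz0 : z = w₀
    · rw [hz0]
    · exact Real.exp_le_exp.2 (h z hz hz0).le
  have h3 := Complex.eventually_eq_of_isLocalMax_norm h1 h2
  haveI : (𝓝[≠] w₀).NeBot := Module.punctured_nhds_neBot ℂ (Fin n → ℂ) w₀
  have h4 : ∀ᶠ z in 𝓝[≠] w₀, z ∈ W ∧ z ≠ w₀ ∧ Complex.exp (f z) = Complex.exp (f w₀) := by
    filter_upwards [self_mem_nhdsWithin, mem_nhdsWithin_of_mem_nhds (hW.mem_nhds h0),
      mem_nhdsWithin_of_mem_nhds h3] with z hz hzW hz3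
    exact ⟨hzW, hz, hz3⟩
  obtain ⟨z, hzW, hz, hz3⟩ := h4.exists
  have h5 := congrArg norm hz3
  rw [Complex.norm_exp, Complex.norm_exp] at h5
  exact absurd (Real.exp_injective h5) (h z hzW hz).ne

theorem continuous_realCoords' {N : ℕ} : Continuous (realCoords : (Fin N → ℂ) → _) := by
  refine continuous_pi fun i => ?_
  cases i with
  | inl i => exact Complex.continuous_re.comp (continuous_apply i)
  | inr i => exact Complex.continuous_im.comp (continuous_apply i)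

theorem continuous_tS {N : ℕ} (S : RStrat N) : Continuous S.tS :=
  continuous_pi fun i => (MvPolynomial.continuous_eval (S.t i)).comp continuous_realCoords'

theorem pol_realCoords {V : Type*} [AddCommGroup V] [Module ℝ V] {N : ℕ}
    {f : V → (Fin N → ℂ)} (hf : Pol f) : Pol (fun v => realCoords (f v)) := by
  refine Pol.pi fun i => ?_
  cases i with
  | inl i => exact (hf.apply i).re
  | inr i => exact (hf.apply i).im

theorem continuous_gq {N : ℕ} (g : MvPolynomial (Fin N) ℂ) (c : QV N) :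
    Continuous (gq g c) := by
  have h1 : Continuous fun x : Fin N → ℂ => Pk.qev c x := by
    unfold Pk.qev
    fun_prop
  exact (MvPolynomial.continuous_eval g).mul h1

theorem le_Mfun {N : ℕ} {K : Set (Fin N → ℂ)} (hK : IsCompact K) (g : MvPolynomial (Fin N) ℂ)
    (c : QV N) {x : Fin N → ℂ} (hx : x ∈ K) : (gq g c x).re ≤ Mfun K g c :=
  le_csSup (hK.bddAbove_image (Complex.continuous_re.comp (continuous_gq g c)).continuousOn)
    (mem_image_of_mem _ hx)

theorem differentiable_gq {N : ℕ} (g : MvPolynomial (Fin N) ℂ) (c : QV N) :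
    Differentiable ℂ (gq g c) := by
  have h1 : Differentiable ℂ fun x : Fin N → ℂ => Pk.qev c x := by
    unfold Pk.qev
    fun_prop
  have h2 : Differentiable ℂ fun x : Fin N → ℂ => MvPolynomial.eval x g := by
    induction g using MvPolynomial.induction_on with
    | C a => simp
    | add p q hp hq =>
      simp only [map_add]
      exact hp.add hq
    | mul_X p i hp =>
      simp only [map_mul, MvPolynomial.eval_X]
      exact hp.mul (by fun_prop)
  exact h2.mul h1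

theorem pkStmt (hSt : StrataStmt) (hMS : MSmooth) (hPK : PKCalc) : PKStmt := by
  classical
  intro N U Γ S V O hV hO hUO n hn hU A
  have hKc : IsCompact (closure U) :=
    Metric.isCompact_of_isClosed_isBounded isClosed_closure S.bdd.closure
  have hUne : U.Nonempty := S.conn.nonempty
  have hKne : (closure U).Nonempty := hUne.closure
  have hKsa : SAV (closure U) := (SAV.of_isSemialgebraic S.sa).closure
  obtain ⟨ν, St, hcov, hrel⟩ := hSt N (closure U) hKsa
  have hone : (1 : MvPolynomial (Fin N) ℂ) ∉ A.I0 := by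
    intro h
    exact A.prime.ne_top ((Ideal.eq_top_iff_one _).2 h)
  have hfa : ∀ a : Fin ν, ∃ f : MvPolynomial (Fin N) ℂ, f ∉ A.I0 ∧
      ((∀ x ∈ (St a).S, MvPolynomial.eval x f = 0) ∨
        ∀ f' : MvPolynomial (Fin N) ℂ, (∀ x ∈ (St a).S, MvPolynomial.eval x f' = 0) →
          f' ∈ A.I0) := by
    intro a
    by_cases h : ∃ f : MvPolynomial (Fin N) ℂ, f ∉ A.I0 ∧ ∀ x ∈ (St a).S, MvPolynomial.eval x f = 0
    · obtain ⟨f, hf, hf0⟩ := h
      exact ⟨f, hf, Or.inl hf0⟩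
    · push Not at h
      refine ⟨1, hone, Or.inr fun f' hf' => ?_⟩
      by_contra hn'
      obtain ⟨x, hx, hx0⟩ := h f' hn'
      exact hx0 (hf' x hx)
  choose fa hfa0 hfa1 using hfa
  set g : MvPolynomial (Fin N) ℂ := A.D * ∏ a, fa a with hgdef
  have hg : g ∉ A.I0 := by
    rw [hgdef, A.prime.mul_mem_iff_mem_or_mem]
    rintro (h | h)
    · exact A.hD h
    · obtain ⟨a, -, ha⟩ := (A.prime.prod_mem_iff).1 h
      exact hfa0 a ha
  -- the support function is positive somewhere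
  have hpos : ∃ c, 0 < Mfun (closure U) g c := by
    rw [A.van] at hg
    push Not at hg
    obtain ⟨x, hx, hx0⟩ := hg
    refine ⟨((starRingEnd ℂ) (MvPolynomial.eval x g), 0, 0), ?_⟩
    refine lt_of_lt_of_le ?_ (le_Mfun hKc g _ (subset_closure hx))
    have h1 : gq g ((starRingEnd ℂ) (MvPolynomial.eval x g), 0, 0) x
        = ((Complex.normSq (MvPolynomial.eval x g) : ℝ) : ℂ) := by
      simp [gq, Pk.qev, Complex.mul_conj]
    rw [h1, Complex.ofReal_re]
    exact Complex.normSq_pos.2 hx0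
  obtain ⟨W, hWo, hWne, hWpos, hWsm⟩ := hMS N (closure U) g hKc hKne hKsa hpos
  obtain ⟨a, x₀, O₁, hx₀S, hO₁, hx₀O, hpk⟩ :=
    hPK N (closure U) g ν St W hKc hKne hWo hWne hWpos hWsm hcov hrel
  -- the stratum is dense
  have hdense : ∀ f' : MvPolynomial (Fin N) ℂ, (∀ x ∈ (St a).S, MvPolynomial.eval x f' = 0) →
      f' ∈ A.I0 := by
    rcases hfa1 a with h | h
    · exfalso
      refine (hpk x₀ hx₀S hx₀O).2.1 ?_
      rw [hgdef, map_mul, map_prod]
      rw [Finset.prod_eq_zero (Finset.mem_univ a) (h x₀ hx₀S), mul_zero]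
    · exact h
  obtain ⟨B, T, ε, hx₀B, hc'⟩ := (St a).chart x₀ hx₀S
  have hc : IsRChart (St a).S (St a).tS B T ε := hc'
  obtain ⟨hτ₀, hετ₀⟩ := hc.back x₀ hx₀B hx₀S
  set τ₀ := (St a).tS x₀ with hτ₀def
  obtain ⟨ρ₁, hρ₁, hρ₁sub⟩ := Metric.isOpen_iff.1 (hc.hB.inter hO₁) x₀ ⟨hx₀B, hx₀O⟩
  have h1 : ∀ᶠ τ in 𝓝 τ₀, ε τ ∈ ball x₀ ρ₁ := by
    have h2 : ContinuousAt ε τ₀ := (hc.hε τ₀ hτ₀).continuousAt
    have h3 : ball x₀ ρ₁ ∈ 𝓝 (ε τ₀) := by rw [hετ₀]; exact ball_mem_nhds _ hρ₁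
    exact h2.eventually h3
  obtain ⟨δ, hδ, hδsub⟩ := Metric.eventually_nhds_iff_ball.1 (h1.and (hc.hT.mem_nhds hτ₀))
  have hT' : ∀ τ ∈ ball τ₀ δ, ε τ ∈ ball x₀ ρ₁ ∧ τ ∈ T := hδsub
  have hTS : ∀ τ ∈ ball τ₀ δ, ε τ ∈ B ∧ ε τ ∈ (St a).S ∧ (St a).tS (ε τ) = τ :=
    fun τ hτ => hc.maps τ (hT' τ hτ).2
  have hp : ∀ τ ∈ ball τ₀ δ, ε τ ∈ closure U ∧ MvPolynomial.eval (ε τ) g ≠ 0 ∧
      PeakAt (closure U) g (ε τ) (range (fderiv ℝ ε τ)) := by
    intro τ hτ
    obtain ⟨hB', hS', ht'⟩ := hTS τ hτ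
    obtain ⟨h2, h3, h4⟩ := hpk (ε τ) hS' (hρ₁sub (hT' τ hτ).1).2
    have h5 := h4 B T ε hc hB'
    rw [ht'] at h5
    exact ⟨h2, h3, h5⟩
  refine ⟨{ r := (St a).r, T := ball τ₀ δ, ε := ε, t := (St a).t, hT := isOpen_ball,
            hTne := ⟨τ₀, mem_ball_self hδ⟩, hTconv := convex_ball _ _, hTsa := ?_, hε := ?_,
            t_ε := ?_, sa := ?_, mem := fun τ hτ => (hp τ hτ).1, nmem := ?_, D_ne := ?_, g := g,
            g_ne := fun τ hτ => (hp τ hτ).2.1, peak := fun τ hτ => (hp τ hτ).2.2, gen := ?_,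
            alg := ?_ }⟩
  · exact SAV.dist_lt (f := fun v => v) (g := fun _ => τ₀) (r := fun _ => δ) (by fun_prop)
      (by fun_prop) (by fun_prop)
  · exact fun τ hτ => hc.hε τ (hT' τ hτ).2
  · intro τ hτ i
    exact congrFun (hTS τ hτ).2.2 i
  · -- the graph is semialgebraic
    have e1 : {p : (Fin (St a).r → ℝ) × (Fin N → ℂ) | p.1 ∈ ball τ₀ δ ∧ p.2 = ε p.1}
        = {p | dist p.1 τ₀ < δ ∧ (p.2 ∈ (St a).S ∧ (dist p.2 x₀ < ρ₁ ∧
            ∀ i, MvPolynomial.eval (realCoords p.2) ((St a).t i) = p.1 i))} := by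
      ext p
      constructor
      · rintro ⟨h2, h3⟩
        refine ⟨h2, ?_⟩
        rw [h3]
        exact ⟨(hTS p.1 h2).2.1, (hT' p.1 h2).1, fun i => congrFun (hTS p.1 h2).2.2 i⟩
      · rintro ⟨h2, h3, h4, h5⟩
        refine ⟨h2, ?_⟩
        have h6 : (St a).tS p.2 = p.1 := funext h5
        have h7 := (hc.back p.2 (hρ₁sub h4).1 h3).2
        rw [h6] at h7
        exact h7.symm
    rw [e1]
    refine SAV.and ?_ (SAV.and ?_ (SAV.and ?_ (SAV.forall_finite fun i => ?_)))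
    · exact SAV.dist_lt (f := fun p : (Fin (St a).r → ℝ) × (Fin N → ℂ) => p.1)
        (g := fun _ => τ₀) (r := fun _ => δ) (by fun_prop) (by fun_prop) (by fun_prop)
    · exact (St a).sa.preimage Pol.snd'
    · exact SAV.dist_lt (f := fun p : (Fin (St a).r → ℝ) × (Fin N → ℂ) => p.2)
        (g := fun _ => x₀) (r := fun _ => ρ₁) (by fun_prop) (by fun_prop) (by fun_prop)
    · exact SAV.eq (f := fun p : (Fin (St a).r → ℝ) × (Fin N → ℂ) =>
          MvPolynomial.eval (realCoords p.2) ((St a).t i)) (g := fun p => p.1 i)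
        (Pol.reval _ (pol_realCoords Pol.snd')) (by fun_prop)
  · -- not in `U`: maximum principle
    intro τ hτ hτU
    obtain ⟨c₀, δ', hδ', hc₀, hpeak⟩ := (hp τ hτ).2.2
    have hstrict := hpeak c₀ (by simpa using hδ') hc₀
    obtain ⟨C⟩ := hU (ε τ) hτU
    have hw₀ : C.π (ε τ) ∈ C.W := C.π_mem _ hτU C.mem
    have hψ₀ : C.ψ (C.π (ε τ)) = ε τ := C.ψ_π _ hτU C.mem
    refine no_strict_max hn C.hW hw₀ (f := fun w => gq g c₀ (C.ψ w)) ?_ ?_
    · exact (differentiable_gq g c₀).comp_differentiableOn C.hψ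
    · intro w hw hwne
      change (gq g c₀ (C.ψ w)).re < (gq g c₀ (C.ψ (C.π (ε τ)))).re
      rw [hψ₀]
      refine hstrict _ (subset_closure (C.ψ_mem w hw).1) fun h2 => hwne ?_
      rw [← C.π_ψ w hw, h2]
  · intro τ hτ h2
    refine (hp τ hτ).2.1 ?_
    rw [hgdef, map_mul, h2, zero_mul]
  · -- density
    intro f hf
    refine hdense f ?_
    refine (St a).ov f (B ∩ (St a).tS ⁻¹' ball τ₀ δ)
      (hc.hB.inter (isOpen_ball.preimage (continuous_tS _)))
      ⟨x₀, ⟨hx₀B, mem_ball_self hδ⟩, hx₀S⟩ ?_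
    rintro x ⟨⟨hxB, hxt⟩, hxS⟩
    have h2 := hf _ hxt
    rwa [(hc.back x hxB hxS).2] at h2
  · intro f
    obtain ⟨q, hq, hq0⟩ := (St a).int f
    refine ⟨q, hq, fun τ hτ => ?_⟩
    have h2 := hq0 (ε τ) (hTS τ hτ).2.1
    have h3 : (fun i => ((MvPolynomial.eval (realCoords (ε τ)) ((St a).t i) : ℝ) : ℂ))
        = fun i => ((τ i : ℝ) : ℂ) := by
      funext i
      have := congrFun (hTS τ hτ).2.2 i
      exact congrArg _ this
    rw [h3] at h2
    exact h2

end Crest.Agent.R264.AI
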