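import Mathlib

set_option autoImplicit false
set_option linter.unusedSectionVars false

/-! Row 264, module AS part 1: commutative algebra behind the algebraic structure lemma. -/

open Polynomial nonZeroDivisors

namespace Crest.Agent.R264.AS

section Abstract

variable (T A : Type) [CommRing T] [IsDomain T] [CommRing A] [IsDomain A] [Algebra T A]
  [Module.Finite T A] [FaithfulSMul T A]

attribute [local instance] FractionRing.liftAlgebra FractionRing.isScalarTower_liftAlgebra

theorem exists_mul_eq {b : A} (hb : b ≠ 0) : ∃ c : A, ∃ n : T, n ≠ 0 ∧ b * c = algebraMap T A n := by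
  have hint : IsIntegral T b := Algebra.IsIntegral.isIntegral b
  obtain ⟨r, hr, c, hc⟩ := hint.isAlgebraic.exists_nonzero_dvd (mem_nonZeroDivisors_of_ne_zero hb)
  exact ⟨c, r, hr, hc.symm⟩

theorem frac_eq (x : FractionRing A) : ∃ a : A, ∃ n : T, n ≠ 0 ∧
    algebraMap T (FractionRing A) n * x = algebraMap A (FractionRing A) a := by
  obtain ⟨a, b, hb, rfl⟩ := IsFractionRing.div_surjective (A := A) x
  have hb0 : b ≠ 0 := nonZeroDivisors.ne_zero hb
  obtain ⟨c, n, hn, hc⟩ := exists_mul_eq T A hb0
  refine ⟨a * c, n, hn, ?_⟩
  have hb' : algebraMap A (FractionRing A) b ≠ 0 := by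
    simpa using (IsFractionRing.injective A (FractionRing A)).ne hb0
  rw [IsScalarTower.algebraMap_apply T A (FractionRing A), ← hc, map_mul, map_mul]
  field_simp

theorem finite_frac : Module.Finite (FractionRing T) (FractionRing A) := by
  classical
  obtain ⟨s, hs⟩ := (Module.Finite.fg_top : (⊤ : Submodule T A).FG)
  refine ⟨⟨s.image (algebraMap A (FractionRing A)), ?_⟩⟩
  rw [eq_top_iff]
  intro x _
  obtain ⟨a, n, hn, h⟩ := frac_eq T A x
  have ha : a ∈ Submodule.span T (s : Set A) := by rw [hs]; trivial
  have h1 : algebraMap A (FractionRing A) a ∈ Submodule.span (FractionRing T)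
      ((s.image (algebraMap A (FractionRing A)) : Finset (FractionRing A)) : Set (FractionRing A)) := by
    have h2 : (Algebra.linearMap A (FractionRing A)).restrictScalars T a ∈
        Submodule.map ((Algebra.linearMap A (FractionRing A)).restrictScalars T)
          (Submodule.span T (s : Set A)) := Submodule.mem_map_of_mem ha
    rw [Submodule.map_span] at h2
    have h3 : Submodule.span T (((Algebra.linearMap A (FractionRing A)).restrictScalars T) '' (s : Set A))
        ≤ (Submodule.span (FractionRing T)
      ((s.image (algebraMap A (FractionRing A)) : Finset (FractionRing A)) : Set (FractionRing A))).restrictScalars T := by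
      rw [Submodule.span_le]
      rintro _ ⟨y, hy, rfl⟩
      apply Submodule.subset_span
      rw [Finset.coe_image]
      exact ⟨y, hy, rfl⟩
    exact h3 h2
  have hn' : algebraMap T (FractionRing T) n ≠ 0 := by
    simpa using (IsFractionRing.injective T (FractionRing T)).ne hn
  have : x = (algebraMap T (FractionRing T) n)⁻¹ • algebraMap A (FractionRing A) a := by
    rw [← h, Algebra.smul_def, map_inv₀, ← IsScalarTower.algebraMap_apply]
    have : algebraMap T (FractionRing A) n ≠ 0 := by
      rw [IsScalarTower.algebraMap_apply T (FractionRing T) (FractionRing A)]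
      simpa using hn
    field_simp
  rw [this]
  exact Submodule.smul_mem _ _ h1

theorem exists_prim [CharZero T] : ∃ a : A, ∀ x : FractionRing A, ∃ p : (FractionRing T)[X],
    x = aeval (algebraMap A (FractionRing A) a) p := by
  have := finite_frac T A
  have : CharZero (FractionRing T) := charZero_of_injective_algebraMap
    (IsFractionRing.injective T (FractionRing T))
  obtain ⟨α, hα⟩ := Field.exists_primitive_element (FractionRing T) (FractionRing A)
  obtain ⟨a, n, hn, h⟩ := frac_eq T A α
  refine ⟨a, fun x => ?_⟩
  have hn' : algebraMap T (FractionRing T) n ≠ 0 := by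
    simpa using (IsFractionRing.injective T (FractionRing T)).ne hn
  have hmem : x ∈ (IntermediateField.adjoin (FractionRing T) {algebraMap A (FractionRing A) a}) := by
    have h1 : (⊤ : IntermediateField (FractionRing T) (FractionRing A)) ≤
        IntermediateField.adjoin (FractionRing T) {algebraMap A (FractionRing A) a} := by
      rw [← hα, IntermediateField.adjoin_simple_le_iff]
      have h2 : α = algebraMap (FractionRing T) (FractionRing A) (algebraMap T (FractionRing T) n)⁻¹ *
          algebraMap A (FractionRing A) a := by
        rw [← h, map_inv₀, ← IsScalarTower.algebraMap_apply]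
        have : algebraMap T (FractionRing A) n ≠ 0 := by
          rw [IsScalarTower.algebraMap_apply T (FractionRing T) (FractionRing A)]
          simpa using hn
        field_simp
      rw [h2]
      exact mul_mem (IntermediateField.algebraMap_mem _ _)
        (IntermediateField.mem_adjoin_simple_self _ _)
    exact h1 trivial
  have halg : IsAlgebraic (FractionRing T) (algebraMap A (FractionRing A) a) :=
    Algebra.IsAlgebraic.isAlgebraic _
  rw [← IntermediateField.mem_toSubalgebra,
    IntermediateField.adjoin_simple_toSubalgebra_of_isAlgebraic halg,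
    Algebra.adjoin_singleton_eq_range_aeval] at hmem
  obtain ⟨p, hp⟩ := hmem
  exact ⟨p, hp.symm⟩

/-- common denominator form -/
theorem exists_coords [CharZero T] {ι : Type} [Finite ι] (x : ι → A) :
    ∃ a : A, ∃ d : T, d ≠ 0 ∧ ∀ i, ∃ R : T[X], algebraMap T A d * x i = aeval a R := by
  classical
  obtain ⟨a, ha⟩ := exists_prim T A
  choose p hp using fun i => ha (algebraMap A (FractionRing A) (x i))
  have h1 : ∀ i, ∃ b : T, b ≠ 0 ∧ ∃ q : T[X], algebraMap T A b * x i = aeval a q := by
    intro i
    obtain ⟨b, hb, hq⟩ := IsLocalization.integerNormalization_spec T⁰ (p i)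
    refine ⟨b, nonZeroDivisors.ne_zero hb, IsLocalization.integerNormalization T⁰ (p i), ?_⟩
    apply IsFractionRing.injective A (FractionRing A)
    rw [map_mul, ← IsScalarTower.algebraMap_apply, hp i]
    have e1 : algebraMap A (FractionRing A) (aeval a (IsLocalization.integerNormalization T⁰ (p i))) =
        aeval (algebraMap A (FractionRing A) a)
          ((IsLocalization.integerNormalization T⁰ (p i)).map (algebraMap T (FractionRing T))) := by
      rw [aeval_map_algebraMap, aeval_algebraMap_apply]
    have e2 : (b • p i : (FractionRing T)[X]) = C (algebraMap T (FractionRing T) b) * p i := by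
      rw [Algebra.smul_def]; rfl
    rw [e1, hq, e2, map_mul, aeval_C, ← IsScalarTower.algebraMap_apply]
  choose b hb0 q hq using h1
  have := Fintype.ofFinite ι
  refine ⟨a, ∏ i, b i, Finset.prod_ne_zero_iff.2 fun i _ => hb0 i, fun i => ?_⟩
  refine ⟨C (∏ j ∈ Finset.univ.erase i, b j) * q i, ?_⟩
  rw [← Finset.mul_prod_erase _ _ (Finset.mem_univ i), map_mul, map_mul, aeval_C, ← hq i]
  ring

theorem sep_bezout [CharZero T] [IsIntegrallyClosed T] (a : A) : ∃ δ : T, δ ≠ 0 ∧
    ∃ U V : T[X], U * minpoly T a + V * derivative (minpoly T a) = C δ := by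
  have hint : IsIntegral T a := Algebra.IsIntegral.isIntegral a
  have : CharZero (FractionRing T) := charZero_of_injective_algebraMap
    (IsFractionRing.injective T (FractionRing T))
  have hirr : Irreducible ((minpoly T a).map (algebraMap T (FractionRing T))) := by
    rw [← minpoly.isIntegrallyClosed_eq_field_fractions (FractionRing T) (FractionRing A) hint]
    exact minpoly.irreducible (hint.map (IsScalarTower.toAlgHom T A (FractionRing A))).tower_top
  have hsep : ((minpoly T a).map (algebraMap T (FractionRing T))).Separable := hirr.separable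
  obtain ⟨U, V, h⟩ := hsep
  obtain ⟨b1, hb1, hU⟩ := IsLocalization.integerNormalization_spec T⁰ U
  obtain ⟨b2, hb2, hV⟩ := IsLocalization.integerNormalization_spec T⁰ V
  refine ⟨b1 * b2, mul_ne_zero (nonZeroDivisors.ne_zero hb1) (nonZeroDivisors.ne_zero hb2),
    C b2 * IsLocalization.integerNormalization T⁰ U, C b1 * IsLocalization.integerNormalization T⁰ V, ?_⟩
  apply Polynomial.map_injective _ (IsFractionRing.injective T (FractionRing T))
  rw [Polynomial.map_add, Polynomial.map_mul, Polynomial.map_mul, Polynomial.map_mul,
    Polynomial.map_mul, hU, hV, map_C, map_C, map_C, ← derivative_map]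
  have : (b1 • U : (FractionRing T)[X]) = C (algebraMap T (FractionRing T) b1) * U := by
    rw [Algebra.smul_def]; rfl
  rw [this]
  have : (b2 • V : (FractionRing T)[X]) = C (algebraMap T (FractionRing T) b2) * V := by
    rw [Algebra.smul_def]; rfl
  rw [this, map_mul, map_mul]
  linear_combination (C (algebraMap T (FractionRing T) b1) * C (algebraMap T (FractionRing T) b2)) * h

end Abstract

end Crest.Agent.R264.AS
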