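import Crest.Agent.R264.AS1

set_option autoImplicit false
set_option linter.unusedSectionVars false

/-! Row 264, module AS part 2: the ALGEBRAIC STRUCTURE LEMMA. `ASD σ K` is the data, `exists_asd`
the existence for every prime ideal (K a field of characteristic zero, σ finite). -/

open Polynomial nonZeroDivisors

namespace Crest.Agent.R264.AS

variable {σ K : Type} [Field K]

/-- value at `(τ, y)` of a polynomial in `Y` with coefficients in `K[T_1..T_r]` -/
noncomputable def ev2 {r : ℕ} (τ : Fin r → K) (y : K) (p : Polynomial (MvPolynomial (Fin r) K)) : K :=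
  p.eval₂ (MvPolynomial.eval τ) y

/-- substitution of polynomials `t, θ` in `x` into a polynomial in `T, Y` -/
noncomputable def sub2 {r : ℕ} (t : Fin r → MvPolynomial σ K) (θ : MvPolynomial σ K)
    (p : Polynomial (MvPolynomial (Fin r) K)) : MvPolynomial σ K :=
  p.eval₂ (MvPolynomial.aeval t : MvPolynomial (Fin r) K →ₐ[K] MvPolynomial σ K).toRingHom θ

theorem eval_sub2 {r : ℕ} (t : Fin r → MvPolynomial σ K) (θ : MvPolynomial σ K)
    (p : Polynomial (MvPolynomial (Fin r) K)) (x : σ → K) :
    MvPolynomial.eval x (sub2 t θ p) = ev2 (fun i => MvPolynomial.eval x (t i)) (MvPolynomial.eval x θ) p := by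
  unfold sub2 ev2
  rw [Polynomial.hom_eval₂]
  congr 1
  ext i
  · simp
  · simp

theorem ev2_eq {r : ℕ} (τ : Fin r → K) (y : K) (p : Polynomial (MvPolynomial (Fin r) K)) :
    ev2 τ y p = (p.map (MvPolynomial.eval τ)).eval y := by
  unfold ev2
  rw [Polynomial.eval_map]

/-- ALGEBRAIC STRUCTURE DATA of a prime ideal `I` of `K[x_σ]`. -/
structure ASD (σ K : Type) [Field K] where
  I : Ideal (MvPolynomial σ K)
  prime : I.IsPrime
  r : ℕ
  t : Fin r → MvPolynomial σ K
  θ : MvPolynomial σ K
  P : Polynomial (MvPolynomial (Fin r) K)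
  d : MvPolynomial (Fin r) K
  Δ : MvPolynomial (Fin r) K
  R : σ → Polynomial (MvPolynomial (Fin r) K)
  monic : P.Monic
  d_ne : d ≠ 0
  Δ_ne : Δ ≠ 0
  ind : ∀ g : MvPolynomial (Fin r) K, MvPolynomial.aeval t g ∈ I → g = 0
  int : ∀ h : MvPolynomial σ K, ∃ q : Polynomial (MvPolynomial (Fin r) K), q.Monic ∧ sub2 t h q ∈ I
  root : sub2 t θ P ∈ I
  coord : ∀ j, MvPolynomial.aeval t d * MvPolynomial.X j - sub2 t θ (R j) ∈ I
  sep : ∀ τ : Fin r → K, MvPolynomial.eval τ Δ ≠ 0 →
    MvPolynomial.eval τ d ≠ 0 ∧ (P.map (MvPolynomial.eval τ)).Separable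
  pt : ∀ (τ : Fin r → K) (y : K), MvPolynomial.eval τ d ≠ 0 → ev2 τ y P = 0 →
    ∀ x : σ → K, (∀ j, MvPolynomial.eval τ d * x j = ev2 τ y (R j)) →
      (∀ f ∈ I, MvPolynomial.eval x f = 0) ∧ (∀ i, MvPolynomial.eval x (t i) = τ i) ∧
        MvPolynomial.eval x θ = y
  norm : ∀ f, f ∉ I → ∃ Nf : MvPolynomial (Fin r) K, Nf ≠ 0 ∧ ∃ g, MvPolynomial.aeval t Nf - g * f ∈ I

theorem exists_asd_aux [Finite σ] [CharZero K] (A : Type) [CommRing A] [IsDomain A] [Algebra K A]
    (π : MvPolynomial σ K →ₐ[K] A) (hπ : Function.Surjective π)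
    (I : Ideal (MvPolynomial σ K)) (hI : I.IsPrime) (hker : ∀ f, f ∈ I ↔ π f = 0)
    (r : ℕ) [Algebra (MvPolynomial (Fin r) K) A] [IsScalarTower K (MvPolynomial (Fin r) K) A]
    [Module.Finite (MvPolynomial (Fin r) K) A] [FaithfulSMul (MvPolynomial (Fin r) K) A] :
    ∃ D : ASD σ K, D.I = I := by
  classical
  set T := MvPolynomial (Fin r) K with hT
  obtain ⟨a, d, hd, hR⟩ := exists_coords T A (fun j : σ => π (MvPolynomial.X j))
  choose R hR using hR
  obtain ⟨δ, hδ, U, V, hUV⟩ := sep_bezout T A a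
  obtain ⟨θ, hθ⟩ := hπ a
  choose t ht using fun i : Fin r => hπ (algebraMap T A (MvPolynomial.X i))
  have hsub1 : ∀ q : T, π (MvPolynomial.aeval t q) = algebraMap T A q := by
    intro q
    have : π.comp (MvPolynomial.aeval t) = IsScalarTower.toAlgHom K T A := by
      apply MvPolynomial.algHom_ext
      intro i
      rw [AlgHom.comp_apply, MvPolynomial.aeval_X, ht i]
      rfl
    exact DFunLike.congr_fun this q
  have hsub2 : ∀ (h : MvPolynomial σ K) (p : Polynomial T),
      π (sub2 t h p) = aeval (π h) p := by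
    intro h p
    unfold sub2
    have := Polynomial.hom_eval₂ p (MvPolynomial.aeval t : T →ₐ[K] MvPolynomial σ K).toRingHom
      (π : MvPolynomial σ K →+* A) h
    rw [aeval_def]
    refine Eq.trans this ?_
    congr 1
    exact RingHom.ext (fun q => hsub1 q)
  have hint : IsIntegral T a := Algebra.IsIntegral.isIntegral a
  refine ⟨{ I := I, prime := hI, r := r, t := t, θ := θ, P := minpoly T a, d := d, Δ := d * δ, R := R,
            monic := minpoly.monic hint, d_ne := hd, Δ_ne := mul_ne_zero hd hδ, ind := ?_, int := ?_,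
            root := ?_, coord := ?_, sep := ?_, pt := ?_, norm := ?_ }, rfl⟩
  · intro q hq
    rw [hker, hsub1] at hq
    exact (FaithfulSMul.algebraMap_injective T A) (by rw [hq, map_zero])
  · intro h
    refine ⟨minpoly T (π h), minpoly.monic (Algebra.IsIntegral.isIntegral _), ?_⟩
    rw [hker, hsub2, minpoly.aeval]
  · rw [hker, hsub2, hθ, minpoly.aeval]
  · intro j
    rw [hker, map_sub, map_mul, hsub1, hsub2, hθ, hR j, sub_self]
  · intro τ hτ
    rw [map_mul] at hτ
    have h1 := left_ne_zero_of_mul hτ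
    have h2 := right_ne_zero_of_mul hτ
    refine ⟨h1, ?_⟩
    have h3 := congrArg (Polynomial.map (MvPolynomial.eval τ)) hUV
    rw [Polynomial.map_add, Polynomial.map_mul, Polynomial.map_mul, map_C, ← derivative_map] at h3
    refine ⟨C (MvPolynomial.eval τ δ)⁻¹ * U.map (MvPolynomial.eval τ),
      C (MvPolynomial.eval τ δ)⁻¹ * V.map (MvPolynomial.eval τ), ?_⟩
    have h4 : (C (MvPolynomial.eval τ δ)⁻¹ * C (MvPolynomial.eval τ δ) : K[X]) = 1 := by
      rw [← C_mul, inv_mul_cancel₀ h2, C_1]
    linear_combination (C (MvPolynomial.eval τ δ)⁻¹) * h3 + h4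
  · intro τ y hd0 hP x hx
    -- evaluation of `T[X]`, extended to the localization at `C d`
    set e : T[X] →+* K := Polynomial.eval₂RingHom (MvPolynomial.eval τ) y with he
    have heC : ∀ q : T, e (C q) = MvPolynomial.eval τ q := by intro q; simp [he]
    have hev : ∀ p : T[X], e p = ev2 τ y p := fun p => rfl
    let S := Localization.Away (C d : T[X])
    have hu1 : IsUnit (e (C d)) := by rw [heC]; exact isUnit_iff_ne_zero.2 hd0
    let eS : S →+* K := IsLocalization.Away.lift (C d : T[X]) hu1
    have heS : ∀ p : T[X], eS (algebraMap T[X] S p) = e p := fun p =>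
      IsLocalization.Away.lift_eq (C d : T[X]) hu1 p
    let ρ : T[X] →+* FractionRing A := (algebraMap A (FractionRing A)).comp (aeval a).toRingHom
    have hρ : ∀ p : T[X], ρ p = algebraMap A (FractionRing A) (aeval a p) := fun p => rfl
    have hdA : algebraMap T A d ≠ 0 := by
      simpa using (FaithfulSMul.algebraMap_injective T A).ne hd
    have hu2 : IsUnit (ρ (C d)) := by
      rw [hρ, aeval_C]
      exact isUnit_iff_ne_zero.2 (by simpa using (IsFractionRing.injective A (FractionRing A)).ne hdA)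
    let ψ : S →+* FractionRing A := IsLocalization.Away.lift (C d : T[X]) hu2
    have hψ : ∀ p : T[X], ψ (algebraMap T[X] S p) = ρ p := fun p =>
      IsLocalization.Away.lift_eq (C d : T[X]) hu2 p
    -- the kernel property
    have hkey : ∀ s : S, ψ s = 0 → eS s = 0 := by
      intro s hs
      obtain ⟨F, ⟨_, n, rfl⟩, rfl⟩ := IsLocalization.exists_mk'_eq (Submonoid.powers (C d : T[X])) s
      have h1 : IsLocalization.mk' S F (⟨(C d : T[X]) ^ n, n, rfl⟩ : Submonoid.powers (C d : T[X])) *
          algebraMap T[X] S ((C d : T[X]) ^ n) = algebraMap T[X] S F :=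
        IsLocalization.mk'_spec S F _
      have h2 := congrArg ψ h1
      rw [map_mul, hs, zero_mul, hψ, hρ] at h2
      have h3 : aeval a F = 0 := by
        apply IsFractionRing.injective A (FractionRing A)
        rw [← h2, map_zero]
      obtain ⟨G, hG⟩ := minpoly.isIntegrallyClosed_dvd hint h3
      have h4 : e F = 0 := by rw [hG, map_mul, hev, hP, zero_mul]
      have h5 := congrArg eS h1
      rw [map_mul, heS, heS, h4] at h5
      rcases mul_eq_zero.1 h5 with h | h
      · exact h
      · rw [map_pow, heC] at h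
        exact absurd h (pow_ne_zero n hd0)
    let φ : MvPolynomial σ K →+* S := MvPolynomial.eval₂Hom
      ((algebraMap T[X] S).comp (C.comp MvPolynomial.C))
      (fun j => IsLocalization.mk' S (R j) (⟨C d, 1, pow_one _⟩ : Submonoid.powers (C d : T[X])))
    have hφX : ∀ j, φ (MvPolynomial.X j) * algebraMap T[X] S (C d) = algebraMap T[X] S (R j) := by
      intro j
      have : φ (MvPolynomial.X j) = IsLocalization.mk' S (R j)
          (⟨C d, 1, pow_one _⟩ : Submonoid.powers (C d : T[X])) := MvPolynomial.eval₂Hom_X' _ _ _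
      rw [this]
      exact IsLocalization.mk'_spec S (R j) _
    have hφC : ∀ c : K, φ (MvPolynomial.C c) = algebraMap T[X] S (C (MvPolynomial.C c)) := fun c =>
      MvPolynomial.eval₂Hom_C _ _ _
    have h1 : eS.comp φ = (MvPolynomial.eval x : MvPolynomial σ K →+* K) := by
      apply MvPolynomial.ringHom_ext
      · intro c
        rw [RingHom.comp_apply, hφC, heS, heC, MvPolynomial.eval_C, MvPolynomial.eval_C]
      · intro j
        rw [RingHom.comp_apply, MvPolynomial.eval_X]
        have h2 := congrArg eS (hφX j)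
        rw [map_mul, heS, heS, heC, hev, ← hx j, mul_comm] at h2
        exact mul_left_cancel₀ hd0 h2
    have h2 : ψ.comp φ = (algebraMap A (FractionRing A)).comp (π : MvPolynomial σ K →+* A) := by
      apply MvPolynomial.ringHom_ext
      · intro c
        rw [RingHom.comp_apply, hφC, hψ, hρ, aeval_C, RingHom.comp_apply]
        congr 1
        have := π.commutes c
        rw [MvPolynomial.algebraMap_eq] at this
        rw [RingHom.coe_coe, this, IsScalarTower.algebraMap_apply K T A]
        rfl
      · intro j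
        rw [RingHom.comp_apply, RingHom.comp_apply]
        have h3 := congrArg ψ (hφX j)
        rw [map_mul, hψ, hψ, hρ, hρ, aeval_C, ← hR j, map_mul, mul_comm] at h3
        exact mul_left_cancel₀ (by simpa using (IsFractionRing.injective A (FractionRing A)).ne hdA) h3
    have h1' : ∀ f, MvPolynomial.eval x f = eS (φ f) := fun f => (DFunLike.congr_fun h1 f).symm
    have h2' : ∀ f, ψ (φ f) = algebraMap A (FractionRing A) (π f) := fun f => DFunLike.congr_fun h2 f
    refine ⟨?_, ?_, ?_⟩
    · intro f hf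
      rw [h1']
      exact hkey _ (by rw [h2', (hker f).1 hf, map_zero])
    · intro i
      have h3 : eS (φ (t i) - algebraMap T[X] S (C (MvPolynomial.X i))) = 0 := by
        apply hkey
        rw [map_sub, h2', hψ, hρ, aeval_C, ht, sub_self]
      rw [map_sub, heS, heC, MvPolynomial.eval_X, ← h1', sub_eq_zero] at h3
      exact h3
    · have h3 : eS (φ θ - algebraMap T[X] S X) = 0 := by
        apply hkey
        rw [map_sub, h2', hψ, hρ, aeval_X, hθ, sub_self]
      rw [map_sub, heS, hev, ← h1', sub_eq_zero] at h3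
      rw [h3]
      simp [ev2]
  · intro f hf
    have hf' : π f ≠ 0 := by rwa [Ne, ← hker]
    obtain ⟨c, n, hn, hc⟩ := exists_mul_eq T A hf'
    obtain ⟨g', hg'⟩ := hπ c
    refine ⟨n, hn, g', ?_⟩
    rw [hker, map_sub, map_mul, hsub1, ← hc, hg']
    ring

theorem exists_asd [Finite σ] [CharZero K] (I : Ideal (MvPolynomial σ K)) [hI : I.IsPrime] :
    ∃ D : ASD σ K, D.I = I := by
  obtain ⟨r, g, ginj, gfin⟩ := exists_finite_inj_algHom_of_fg K (MvPolynomial σ K ⧸ I)
  let alg : Algebra (MvPolynomial (Fin r) K) (MvPolynomial σ K ⧸ I) := g.toRingHom.toAlgebra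
  have h1 : @FaithfulSMul (MvPolynomial (Fin r) K) (MvPolynomial σ K ⧸ I) alg.toSMul :=
    (@faithfulSMul_iff_algebraMap_injective _ _ _ _ alg).2 ginj
  have h2 : @Module.Finite (MvPolynomial (Fin r) K) (MvPolynomial σ K ⧸ I) _ _ alg.toModule := gfin
  have h3 : @IsScalarTower K (MvPolynomial (Fin r) K) (MvPolynomial σ K ⧸ I) _ alg.toSMul _ :=
    @IsScalarTower.of_algebraMap_eq' K (MvPolynomial (Fin r) K) (MvPolynomial σ K ⧸ I) _ _ _ _ alg _
      (by ext k; exact (g.commutes k).symm)
  exact @exists_asd_aux σ K _ _ _ (MvPolynomial σ K ⧸ I) _ _ _ (Ideal.Quotient.mkₐ K I)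
    (Ideal.Quotient.mkₐ_surjective K I) I hI (fun f => by
      rw [Ideal.Quotient.mkₐ_eq_mk, Ideal.Quotient.eq_zero_iff_mem]) r alg h3 h2 h1

end Crest.Agent.R264.AS
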