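import Crest.Agent.R264.AS2

set_option autoImplicit false
set_option linter.unusedSectionVars false

/-! Row 264, module AS part 3: local charts of the regular part of `Z(I)` and (OV), K = ℝ or ℂ. -/

open Polynomial Topology Filter Metric
open scoped ContDiff

namespace Crest.Agent.R264.AS

section Charts

variable {σ 𝕜 : Type} [Fintype σ] [RCLike 𝕜]

/-- the map `x ↦ t(x)` -/
noncomputable def ASD.tm (D : ASD σ 𝕜) (x : σ → 𝕜) : Fin D.r → 𝕜 := fun i => MvPolynomial.eval x (D.t i)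

/-- the real/complex zero set of `I` -/
def ASD.Z (D : ASD σ 𝕜) : Set (σ → 𝕜) := {x | ∀ f ∈ D.I, MvPolynomial.eval x f = 0}

/-- the regular part `Z(I) ∖ {Δ(t) = 0}` -/
def ASD.S (D : ASD σ 𝕜) : Set (σ → 𝕜) := {x | x ∈ D.Z ∧ MvPolynomial.eval (D.tm x) D.Δ ≠ 0}

theorem analytic_eval {ι : Type} [Fintype ι] (q : MvPolynomial ι 𝕜) :
    AnalyticOnNhd 𝕜 (fun x : ι → 𝕜 => MvPolynomial.eval x q) Set.univ :=
  AnalyticOnNhd.eval_mvPolynomial q

theorem continuous_eval {ι : Type} [Fintype ι] (q : MvPolynomial ι 𝕜) :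
    Continuous (fun x : ι → 𝕜 => MvPolynomial.eval x q) :=
  MvPolynomial.continuous_eval q

theorem analytic_ev2 {r : ℕ} (p : Polynomial (MvPolynomial (Fin r) 𝕜)) :
    AnalyticOnNhd 𝕜 (fun z : (Fin r → 𝕜) × 𝕜 => ev2 z.1 z.2 p) Set.univ := by
  intro z _
  have : (fun z : (Fin r → 𝕜) × 𝕜 => ev2 z.1 z.2 p) = fun z =>
      ∑ i ∈ Finset.range (p.natDegree + 1), MvPolynomial.eval z.1 (p.coeff i) * z.2 ^ i := by
    funext z
    unfold ev2
    rw [Polynomial.eval₂_eq_sum_range]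
  rw [this]
  refine Finset.analyticAt_fun_sum _ fun i _ => ?_
  refine AnalyticAt.mul ?_ (analyticAt_snd.pow i)
  exact (analytic_eval (p.coeff i) z.1 (Set.mem_univ _)).comp analyticAt_fst

theorem ASD.continuous_tm (D : ASD σ 𝕜) : Continuous D.tm :=
  continuous_pi fun i => continuous_eval (D.t i)

theorem ASD.root_Z (D : ASD σ 𝕜) {x : σ → 𝕜} (hx : x ∈ D.Z) :
    ev2 (D.tm x) (MvPolynomial.eval x D.θ) D.P = 0 := by
  have := hx _ D.root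
  rwa [eval_sub2] at this

theorem eval_aeval {r : ℕ} (t : Fin r → MvPolynomial σ 𝕜) (x : σ → 𝕜) (g : MvPolynomial (Fin r) 𝕜) :
    MvPolynomial.eval x (MvPolynomial.aeval t g) = MvPolynomial.eval (fun i => MvPolynomial.eval x (t i)) g := by
  induction g using MvPolynomial.induction_on with
  | C a => simp
  | add p q hp hq => simp only [map_add, hp, hq]
  | mul_X p i hp => simp only [map_mul, hp, MvPolynomial.aeval_X, MvPolynomial.eval_X]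

theorem ASD.eval_aeval_t (D : ASD σ 𝕜) (x : σ → 𝕜) (g : MvPolynomial (Fin D.r) 𝕜) :
    MvPolynomial.eval x (MvPolynomial.aeval D.t g) = MvPolynomial.eval (D.tm x) g :=
  eval_aeval D.t x g

theorem ASD.coord_Z (D : ASD σ 𝕜) {x : σ → 𝕜} (hx : x ∈ D.Z) (j : σ) :
    MvPolynomial.eval (D.tm x) D.d * x j = ev2 (D.tm x) (MvPolynomial.eval x D.θ) (D.R j) := by
  have := hx _ (D.coord j)
  rw [map_sub, map_mul, eval_sub2, MvPolynomial.eval_X, sub_eq_zero, D.eval_aeval_t] at this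
  exact this

theorem deriv_ne {r : ℕ} (P : Polynomial (MvPolynomial (Fin r) 𝕜)) (τ : Fin r → 𝕜) (y : 𝕜)
    (hs : (P.map (MvPolynomial.eval τ)).Separable) (h0 : ev2 τ y P = 0) :
    ∃ c : 𝕜, c ≠ 0 ∧ HasDerivAt (fun w => ev2 τ w P) c y := by
  refine ⟨(P.map (MvPolynomial.eval τ)).derivative.eval y, ?_, ?_⟩
  · obtain ⟨a, b, hab⟩ := hs
    intro h
    have := congrArg (Polynomial.eval y) hab
    rw [ev2_eq] at h0
    rw [eval_add, eval_mul, eval_mul, h0, h, mul_zero, mul_zero, add_zero, eval_one] at this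
    exact zero_ne_one this
  · have : (fun w => ev2 τ w P) = fun w => (P.map (MvPolynomial.eval τ)).eval w := by
      funext w; rw [ev2_eq]
    rw [this]
    exact Polynomial.hasDerivAt _ _

theorem chart (D : ASD σ 𝕜) {x0 : σ → 𝕜} (hx0 : x0 ∈ D.S) :
    ∃ (δ ρ : ℝ) (E : (Fin D.r → 𝕜) → (σ → 𝕜)), 0 < δ ∧ 0 < ρ ∧
      AnalyticOnNhd 𝕜 E (ball (D.tm x0) δ) ∧ E (D.tm x0) = x0 ∧
      (∀ τ ∈ ball (D.tm x0) δ, E τ ∈ D.S ∧ D.tm (E τ) = τ) ∧
      (∀ x ∈ D.Z, dist x x0 < ρ → D.tm x ∈ ball (D.tm x0) δ ∧ E (D.tm x) = x) := by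
  obtain ⟨hZ, hΔ⟩ := hx0
  set τ0 := D.tm x0 with hτ0
  set y0 := MvPolynomial.eval x0 D.θ with hy0
  obtain ⟨hd0, hsep⟩ := D.sep τ0 hΔ
  have hroot : ev2 τ0 y0 D.P = 0 := D.root_Z hZ
  obtain ⟨c, hc, hder⟩ := deriv_ne D.P τ0 y0 hsep hroot
  set f : (Fin D.r → 𝕜) × 𝕜 → 𝕜 := fun z => ev2 z.1 z.2 D.P with hf
  have hfan : AnalyticAt 𝕜 f (τ0, y0) := analytic_ev2 D.P (τ0, y0) (Set.mem_univ _)
  have cdf : ContDiffAt 𝕜 ω f (τ0, y0) := hfan.contDiffAt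
  have hinv : (fderiv 𝕜 f (τ0, y0) ∘L .inr 𝕜 (Fin D.r → 𝕜) 𝕜).IsInvertible := by
    have h1 : HasFDerivAt (fun w : 𝕜 => f (τ0, w))
        (fderiv 𝕜 f (τ0, y0) ∘L .inr 𝕜 (Fin D.r → 𝕜) 𝕜) y0 := by
      have := (hfan.differentiableAt.hasFDerivAt).comp y0 (hasFDerivAt_prodMk_right τ0 y0)
      exact this
    have h2 := h1.unique hder.hasFDerivAt
    rw [h2]
    refine ⟨ContinuousLinearEquiv.unitsEquivAut 𝕜 (Units.mk0 c hc), ?_⟩
    ext
    simp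
  set ξ := cdf.implicitFunction (by simp) hinv with hξ
  have hξ0 : ξ τ0 = y0 := cdf.implicitFunction_apply_self (by simp) hinv
  have hξan : AnalyticAt 𝕜 ξ τ0 :=
    (cdf.contDiffAt_implicitFunction (by simp) hinv).analyticAt
  have e1 : ∀ᶠ τ in 𝓝 τ0, f (τ, ξ τ) = 0 := by
    have := cdf.eventually_apply_implicitFunction (by simp) hinv
    simpa [hf, hroot] using this
  have e2 : ∀ᶠ v in 𝓝 (τ0, y0), f v = f (τ0, y0) ↔ ξ v.1 = v.2 :=
    cdf.eventually_apply_eq_iff_implicitFunction (by simp) hinv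
  have e3 : ∀ᶠ τ in 𝓝 τ0, MvPolynomial.eval τ D.Δ ≠ 0 :=
    (continuous_eval D.Δ).continuousAt.eventually_ne hΔ
  have e4 : ∀ᶠ τ in 𝓝 τ0, AnalyticAt 𝕜 ξ τ := hξan.eventually_analyticAt
  obtain ⟨δ, hδ, hball⟩ := Metric.eventually_nhds_iff_ball.1 (e1.and (e3.and e4))
  set E : (Fin D.r → 𝕜) → (σ → 𝕜) := fun τ j => ev2 τ (ξ τ) (D.R j) / MvPolynomial.eval τ D.d with hE
  have hcont : Continuous fun x : σ → 𝕜 => (D.tm x, MvPolynomial.eval x D.θ) :=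
    D.continuous_tm.prodMk (continuous_eval D.θ)
  have e5 : ∀ᶠ x in 𝓝 x0, (f (D.tm x, MvPolynomial.eval x D.θ) = f (τ0, y0) ↔
      ξ (D.tm x) = MvPolynomial.eval x D.θ) := hcont.continuousAt.eventually e2
  have e6 : ∀ᶠ x in 𝓝 x0, D.tm x ∈ ball τ0 δ :=
    D.continuous_tm.continuousAt.eventually (ball_mem_nhds _ hδ)
  obtain ⟨ρ, hρ, hball2⟩ := Metric.eventually_nhds_iff_ball.1 (e5.and e6)
  have hret : ∀ x ∈ D.Z, dist x x0 < ρ → D.tm x ∈ ball τ0 δ ∧ E (D.tm x) = x := by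
    intro x hx hxρ
    obtain ⟨h5, h6⟩ := hball2 x hxρ
    refine ⟨h6, ?_⟩
    have h7 : ξ (D.tm x) = MvPolynomial.eval x D.θ := h5.1 (by
      rw [hf]; simp only; rw [D.root_Z hx, hroot])
    have hd : MvPolynomial.eval (D.tm x) D.d ≠ 0 := (D.sep _ (hball _ h6).2.1).1
    funext j
    rw [hE]
    simp only
    rw [h7, ← D.coord_Z hx j]
    field_simp
  refine ⟨δ, ρ, E, hδ, hρ, ?_, ?_, ?_, hret⟩
  · intro τ hτ
    obtain ⟨h1, h2, h3⟩ := hball τ hτ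
    rw [hE]
    refine AnalyticAt.pi fun j => ?_
    refine AnalyticAt.div ?_ (analytic_eval D.d τ (Set.mem_univ _)) (D.sep τ h2).1
    have hg : AnalyticAt 𝕜 (fun z : (Fin D.r → 𝕜) × 𝕜 => ev2 z.1 z.2 (D.R j)) (τ, ξ τ) :=
      analytic_ev2 (D.R j) (τ, ξ τ) (Set.mem_univ _)
    have hh : AnalyticAt 𝕜 (fun s : Fin D.r → 𝕜 => (s, ξ s)) τ := analyticAt_id.prod h3
    exact AnalyticAt.comp (f := fun s : Fin D.r → 𝕜 => (s, ξ s)) hg hh
  · exact (hret x0 hZ (by simpa using hρ)).2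
  · intro τ hτ
    obtain ⟨h1, h2, h3⟩ := hball τ hτ
    have hd := (D.sep τ h2).1
    have hpt := D.pt τ (ξ τ) hd h1 (E τ) (fun j => by rw [hE]; simp only; field_simp)
    have htm : D.tm (E τ) = τ := funext hpt.2.1
    exact ⟨⟨hpt.1, by rw [htm]; exact h2⟩, htm⟩

/-- a polynomial vanishing on a ball is zero -/
theorem eq_zero_of_ball {ι : Type} [Fintype ι] (q : MvPolynomial ι 𝕜) (τ0 : ι → 𝕜) {δ : ℝ} (hδ : 0 < δ)
    (h : ∀ τ ∈ ball τ0 δ, MvPolynomial.eval τ q = 0) : q = 0 := by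
  have hinf : ∀ i, (ball (τ0 i) δ).Infinite := by
    intro i
    exact infinite_of_mem_nhds (τ0 i) (ball_mem_nhds _ hδ)
  refine MvPolynomial.funext_set (fun i => ball (τ0 i) δ) hinf fun x hx => ?_
  rw [map_zero]
  apply h
  rw [mem_ball, dist_pi_lt_iff hδ]
  exact fun i => hx i (Set.mem_univ i)

theorem mem_I_of_vanish (D : ASD σ 𝕜) {f : MvPolynomial σ 𝕜} {τ0 : Fin D.r → 𝕜} {δ : ℝ} (hδ : 0 < δ)
    (E : (Fin D.r → 𝕜) → (σ → 𝕜)) (hE : ∀ τ ∈ ball τ0 δ, E τ ∈ D.Z ∧ D.tm (E τ) = τ)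
    (h : ∀ τ ∈ ball τ0 δ, MvPolynomial.eval (E τ) f = 0) : f ∈ D.I := by
  by_contra hf
  obtain ⟨Nf, hN, g, hg⟩ := D.norm f hf
  apply hN
  refine eq_zero_of_ball Nf τ0 hδ fun τ hτ => ?_
  obtain ⟨h1, h2⟩ := hE τ hτ
  have h3 := h1 _ hg
  rw [map_sub, map_mul, h τ hτ, mul_zero, sub_zero, D.eval_aeval_t, h2] at h3
  exact h3

/-- (OV) a polynomial vanishing on a nonempty relatively open subset of `S` is in `I`. -/
theorem ov (D : ASD σ 𝕜) {f : MvPolynomial σ 𝕜} {x0 : σ → 𝕜} (hx0 : x0 ∈ D.S) {O : Set (σ → 𝕜)}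
    (hO : O ∈ 𝓝 x0) (h : ∀ x ∈ D.S, x ∈ O → MvPolynomial.eval x f = 0) : f ∈ D.I := by
  obtain ⟨δ, ρ, E, hδ, hρ, han, hE0, hES, hret⟩ := chart D hx0
  have hc : ContinuousAt E (D.tm x0) := (han _ (mem_ball_self hδ)).continuousAt
  have h1 : ∀ᶠ τ in 𝓝 (D.tm x0), E τ ∈ O := hc.eventually (by rw [hE0]; exact hO)
  obtain ⟨δ', hδ', hb⟩ := Metric.eventually_nhds_iff_ball.1 h1
  refine mem_I_of_vanish D (lt_min hδ hδ') E (τ0 := D.tm x0) (fun τ hτ => ?_) (fun τ hτ => ?_)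
  · have := hES τ (ball_subset_ball (min_le_left _ _) hτ)
    exact ⟨this.1.1, this.2⟩
  · exact h _ (hES τ (ball_subset_ball (min_le_left _ _) hτ)).1
      (hb τ (ball_subset_ball (min_le_right _ _) hτ))

end Charts

end Crest.Agent.R264.AS
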