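import Crest.Agent.R264.AS3

set_option autoImplicit false
set_option linter.unusedSectionVars false

/-! Row 264, module AS part 4: RS = stratification of `K^σ` adapted to a finite family of polynomials. -/

open Topology Filter Metric

namespace Crest.Agent.R264.AS

section Strata

variable {σ 𝕜 : Type} [Fintype σ] [RCLike 𝕜]

/-- the stratum of `D` adapted to the family `fam` -/
def ASD.St (D : ASD σ 𝕜) (fam : Finset (MvPolynomial σ 𝕜)) : Set (σ → 𝕜) :=
  {x | x ∈ D.S ∧ ∀ R ∈ fam, R ∉ D.I → MvPolynomial.eval x R ≠ 0}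

/-- on a stratum every member of the family is identically zero or nowhere zero -/
theorem ASD.St_dichotomy (D : ASD σ 𝕜) (fam : Finset (MvPolynomial σ 𝕜)) {R : MvPolynomial σ 𝕜}
    (hR : R ∈ fam) : (∀ x ∈ D.St fam, MvPolynomial.eval x R = 0) ∨
      (∀ x ∈ D.St fam, MvPolynomial.eval x R ≠ 0) := by
  by_cases h : R ∈ D.I
  · exact Or.inl fun x hx => hx.1.1 R h
  · exact Or.inr fun x hx => hx.2 R hR h

theorem rs_aux (fam : Finset (MvPolynomial σ 𝕜)) (J : Ideal (MvPolynomial σ 𝕜)) :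
    ∃ L : List (ASD σ 𝕜), ∀ x : σ → 𝕜, (∀ f ∈ J, MvPolynomial.eval x f = 0) →
      ∃ D ∈ L, x ∈ D.St fam := by
  classical
  induction J using WellFoundedGT.induction with
  | ind J ih =>
    by_cases htop : J = ⊤
    · exact ⟨[], fun x hx => absurd (hx 1 (by rw [htop]; trivial)) (by simp)⟩
    by_cases hp : J.IsPrime
    · obtain ⟨D, hD⟩ := exists_asd J
      set h : MvPolynomial σ 𝕜 := MvPolynomial.aeval D.t D.Δ *
        ∏ R ∈ fam.filter (fun R => R ∉ J), R with hh
      have hΔ : MvPolynomial.aeval D.t D.Δ ∉ J := by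
        rw [← hD]
        exact fun hmem => D.Δ_ne (D.ind _ hmem)
      have hprod : (∏ R ∈ fam.filter (fun R => R ∉ J), R) ∉ J := by
        intro hmem
        obtain ⟨R, hR, hRJ⟩ := (hp.prod_mem_iff).1 hmem
        exact (Finset.mem_filter.1 hR).2 hRJ
      have hhJ : h ∉ J := fun hmem => (hp.mem_or_mem hmem).elim hΔ hprod
      obtain ⟨L, hL⟩ := ih (J ⊔ Ideal.span {h}) (lt_of_le_of_ne le_sup_left fun he =>
        hhJ (by rw [he]; exact Ideal.mem_sup_right (Ideal.mem_span_singleton_self h)))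
      refine ⟨D :: L, fun x hx => ?_⟩
      by_cases hxh : MvPolynomial.eval x h = 0
      · obtain ⟨D', hD', h'⟩ := hL x (fun f hf => by
          obtain ⟨a, ha, b, hb, rfl⟩ := Submodule.mem_sup.1 hf
          obtain ⟨c, rfl⟩ := Ideal.mem_span_singleton.1 hb
          rw [map_add, map_mul, hx a ha, hxh]; ring)
        exact ⟨D', List.mem_cons_of_mem _ hD', h'⟩
      · refine ⟨D, List.mem_cons_self, ?_⟩
        rw [hh, map_mul] at hxh
        refine ⟨⟨fun f hf => hx f (by rwa [← hD]), ?_⟩, ?_⟩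
        · rw [← D.eval_aeval_t]
          exact left_ne_zero_of_mul hxh
        · intro R hR hRI
          have h2 := right_ne_zero_of_mul hxh
          rw [map_prod] at h2
          exact Finset.prod_ne_zero_iff.1 h2 R (Finset.mem_filter.2 ⟨hR, by rwa [← hD]⟩)
    · rw [Ideal.isPrime_iff] at hp
      push Not at hp
      obtain ⟨a, b, hab, ha, hb⟩ := hp htop
      obtain ⟨L1, h1⟩ := ih (J ⊔ Ideal.span {a}) (lt_of_le_of_ne le_sup_left fun he =>
        ha (by rw [he]; exact Ideal.mem_sup_right (Ideal.mem_span_singleton_self a)))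
      obtain ⟨L2, h2⟩ := ih (J ⊔ Ideal.span {b}) (lt_of_le_of_ne le_sup_left fun he =>
        hb (by rw [he]; exact Ideal.mem_sup_right (Ideal.mem_span_singleton_self b)))
      refine ⟨L1 ++ L2, fun x hx => ?_⟩
      have h3 : MvPolynomial.eval x a * MvPolynomial.eval x b = 0 := by
        rw [← map_mul]; exact hx _ hab
      rcases mul_eq_zero.1 h3 with h4 | h4
      · obtain ⟨D, hD, h⟩ := h1 x (fun f hf => by
          obtain ⟨a', ha', b', hb', rfl⟩ := Submodule.mem_sup.1 hf
          obtain ⟨c, rfl⟩ := Ideal.mem_span_singleton.1 hb'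
          rw [map_add, map_mul, hx a' ha', h4]; ring)
        exact ⟨D, List.mem_append_left _ hD, h⟩
      · obtain ⟨D, hD, h⟩ := h2 x (fun f hf => by
          obtain ⟨a', ha', b', hb', rfl⟩ := Submodule.mem_sup.1 hf
          obtain ⟨c, rfl⟩ := Ideal.mem_span_singleton.1 hb'
          rw [map_add, map_mul, hx a' ha', h4]; ring)
        exact ⟨D, List.mem_append_right _ hD, h⟩

/-- (RS) -/
theorem rs (fam : Finset (MvPolynomial σ 𝕜)) :
    ∃ (m : ℕ) (D : Fin m → ASD σ 𝕜), ∀ x : σ → 𝕜, ∃ a, x ∈ (D a).St fam := by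
  obtain ⟨L, hL⟩ := rs_aux fam (⊥ : Ideal (MvPolynomial σ 𝕜))
  refine ⟨L.length, fun i => L.get i, fun x => ?_⟩
  obtain ⟨D, hD, hx⟩ := hL x (fun f hf => by
    rw [Ideal.mem_bot] at hf
    rw [hf, map_zero])
  obtain ⟨i, hi⟩ := List.get_of_mem hD
  exact ⟨i, by show x ∈ (L.get i).St fam; rw [hi]; exact hx⟩

end Strata

end Crest.Agent.R264.AS
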