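import Crest.Prelude.Def_SemialgDomain
import Crest.Agent.R264.AS4

set_option autoImplicit false
set_option linter.unusedSectionVars false

/-! Row 264, module AS part 5: the real strata inside `ℂ^N` (through `realCoords`). -/

open Topology Filter Metric
open Crest.AlgGeometry.Semialg (realCoords)

namespace Crest.Agent.R264.AS

section General

variable {σ 𝕜 : Type} [Fintype σ] [RCLike 𝕜]

theorem ASD.isClosed_Z (D : ASD σ 𝕜) : IsClosed D.Z := by
  have : D.Z = ⋂ f ∈ D.I, {x | MvPolynomial.eval x f = 0} := by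
    ext x; simp [ASD.Z]
  rw [this]
  exact isClosed_biInter fun f _ => isClosed_eq (continuous_eval f) continuous_const

/-- the open set cutting the stratum out of `Z` -/
def ASD.Op (D : ASD σ 𝕜) (fam : Finset (MvPolynomial σ 𝕜)) : Set (σ → 𝕜) :=
  {x | MvPolynomial.eval (D.tm x) D.Δ ≠ 0 ∧ ∀ R ∈ fam, R ∉ D.I → MvPolynomial.eval x R ≠ 0}

theorem ASD.St_eq (D : ASD σ 𝕜) (fam : Finset (MvPolynomial σ 𝕜)) : D.St fam = D.Z ∩ D.Op fam := by
  ext x
  simp only [ASD.St, ASD.S, ASD.Op, Set.mem_ofPred_eq, Set.mem_inter_iff]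
  tauto

theorem ASD.isOpen_Op (D : ASD σ 𝕜) (fam : Finset (MvPolynomial σ 𝕜)) : IsOpen (D.Op fam) := by
  classical
  have : D.Op fam = {x | MvPolynomial.eval (D.tm x) D.Δ ≠ 0} ∩
      ⋂ R ∈ fam.filter (fun R => R ∉ D.I), {x | MvPolynomial.eval x R ≠ 0} := by
    ext x
    simp [ASD.Op]
  rw [this]
  refine IsOpen.inter ?_ (isOpen_biInter_finset fun R _ => ?_)
  · exact isOpen_ne_fun ((continuous_eval D.Δ).comp D.continuous_tm) continuous_const
  · exact isOpen_ne_fun (continuous_eval R) continuous_const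

theorem ASD.St_subset_S (D : ASD σ 𝕜) (fam : Finset (MvPolynomial σ 𝕜)) : D.St fam ⊆ D.S := fun _ h => h.1

theorem ASD.exists_gens (D : ASD σ 𝕜) : ∃ G : Finset (MvPolynomial σ 𝕜),
    Ideal.span (G : Set (MvPolynomial σ 𝕜)) = D.I ∧
      D.Z = {x | ∀ g ∈ G, MvPolynomial.eval x g = 0} := by
  obtain ⟨G, hG⟩ := (isNoetherianRing_iff_ideal_fg (MvPolynomial σ 𝕜)).1 inferInstance D.I
  refine ⟨G, hG, ?_⟩
  ext x
  constructor
  · intro hx g hg
    exact hx g (by rw [← hG]; exact Ideal.subset_span hg)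
  · intro hx f hf
    rw [← hG] at hf
    refine Submodule.span_induction (p := fun f _ => MvPolynomial.eval x f = 0) ?_ ?_ ?_ ?_ hf
    · exact fun g hg => hx g hg
    · exact map_zero _
    · intro a b _ _ ha hb; rw [map_add, ha, hb, add_zero]
    · intro c a _ ha; rw [smul_eq_mul, map_mul, ha, mul_zero]

end General

section CN

variable {N : ℕ}

/-- `realCoords` as a continuous real linear equivalence -/
noncomputable def rcL (N : ℕ) : (Fin N → ℂ) ≃L[ℝ] (Fin N ⊕ Fin N → ℝ) :=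
  LinearEquiv.toContinuousLinearEquiv
    { toFun := realCoords
      map_add' := by
        intro x y; funext i; cases i <;> simp [realCoords]
      map_smul' := by
        intro c x; funext i; cases i <;> simp [realCoords]
      invFun := fun x i => (x (Sum.inl i) : ℂ) + (x (Sum.inr i) : ℂ) * Complex.I
      left_inv := by
        intro z; funext i; simp [realCoords, Complex.re_add_im]
      right_inv := by
        intro x; funext i; cases i <;> simp [realCoords] }

@[simp] theorem rcL_apply (z : Fin N → ℂ) : rcL N z = realCoords z := rfl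

@[simp] theorem rcL_symm_apply (x : Fin N ⊕ Fin N → ℝ) (i : Fin N) :
    (rcL N).symm x i = (x (Sum.inl i) : ℂ) + (x (Sum.inr i) : ℂ) * Complex.I := rfl

theorem continuous_realCoords : Continuous (realCoords : (Fin N → ℂ) → _) := (rcL N).continuous

/-- real and imaginary parts of a complex polynomial as real polynomials -/
theorem exists_reIm (f : MvPolynomial (Fin N) ℂ) : ∃ u v : MvPolynomial (Fin N ⊕ Fin N) ℝ,
    ∀ z : Fin N → ℂ, MvPolynomial.eval (realCoords z) u = (MvPolynomial.eval z f).re ∧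
      MvPolynomial.eval (realCoords z) v = (MvPolynomial.eval z f).im := by
  induction f using MvPolynomial.induction_on with
  | C a => exact ⟨MvPolynomial.C a.re, MvPolynomial.C a.im, fun z => by simp⟩
  | add p q hp hq =>
    obtain ⟨u, v, h⟩ := hp
    obtain ⟨u', v', h'⟩ := hq
    exact ⟨u + u', v + v', fun z => by
      simp only [map_add, (h z).1, (h z).2, (h' z).1, (h' z).2, Complex.add_re, Complex.add_im,
        and_self]⟩
  | mul_X p i hp =>
    obtain ⟨u, v, h⟩ := hp
    refine ⟨u * MvPolynomial.X (Sum.inl i) - v * MvPolynomial.X (Sum.inr i),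
      u * MvPolynomial.X (Sum.inr i) + v * MvPolynomial.X (Sum.inl i), fun z => ?_⟩
    simp only [map_sub, map_add, map_mul, MvPolynomial.eval_X, (h z).1, (h z).2, Complex.mul_re,
      Complex.mul_im]
    simp [realCoords]

/-- complex (OV) -/
theorem ovC (D : ASD (Fin N ⊕ Fin N) ℝ) (f : MvPolynomial (Fin N) ℂ) {z0 : Fin N → ℂ}
    (hz0 : realCoords z0 ∈ D.S) {O : Set (Fin N → ℂ)} (hO : O ∈ 𝓝 z0)
    (h : ∀ z ∈ O, realCoords z ∈ D.S → MvPolynomial.eval z f = 0) :
    ∀ z, realCoords z ∈ D.Z → MvPolynomial.eval z f = 0 := by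
  obtain ⟨u, v, huv⟩ := exists_reIm f
  have hO' : (rcL N).symm ⁻¹' O ∈ 𝓝 (realCoords z0) := by
    apply (rcL N).symm.continuous.continuousAt.preimage_mem_nhds
    have : (rcL N).symm (realCoords z0) = z0 := (rcL N).symm_apply_apply z0
    rw [this]; exact hO
  have key : ∀ x ∈ D.S, x ∈ (rcL N).symm ⁻¹' O → MvPolynomial.eval ((rcL N).symm x) f = 0 := by
    intro x hx hxO
    apply h _ hxO
    have : realCoords ((rcL N).symm x) = x := (rcL N).apply_symm_apply x
    rw [this]; exact hx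
  have hu : u ∈ D.I := by
    refine ov D hz0 hO' fun x hx hxO => ?_
    have h1 : realCoords ((rcL N).symm x) = x := (rcL N).apply_symm_apply x
    have h2 := (huv ((rcL N).symm x)).1
    rw [h1, key x hx hxO] at h2
    simpa using h2
  have hv : v ∈ D.I := by
    refine ov D hz0 hO' fun x hx hxO => ?_
    have h1 : realCoords ((rcL N).symm x) = x := (rcL N).apply_symm_apply x
    have h2 := (huv ((rcL N).symm x)).2
    rw [h1, key x hx hxO] at h2
    simpa using h2
  intro z hz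
  apply Complex.ext
  · rw [← (huv z).1, hz u hu]; rfl
  · rw [← (huv z).2, hz v hv]; rfl

/-- local chart of a real stratum of `ℂ^N` -/
theorem chartC (D : ASD (Fin N ⊕ Fin N) ℝ) {z0 : Fin N → ℂ} (hz0 : realCoords z0 ∈ D.S) :
    ∃ (δ ρ : ℝ) (E : (Fin D.r → ℝ) → (Fin N → ℂ)), 0 < δ ∧ 0 < ρ ∧
      AnalyticOnNhd ℝ E (ball (D.tm (realCoords z0)) δ) ∧ E (D.tm (realCoords z0)) = z0 ∧
      (∀ τ ∈ ball (D.tm (realCoords z0)) δ,
        realCoords (E τ) ∈ D.S ∧ D.tm (realCoords (E τ)) = τ) ∧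
      (∀ z, realCoords z ∈ D.Z → dist z z0 < ρ →
        D.tm (realCoords z) ∈ ball (D.tm (realCoords z0)) δ ∧ E (D.tm (realCoords z)) = z) := by
  obtain ⟨δ, ρ, E, hδ, hρ, han, hE0, hES, hret⟩ := chart D hz0
  have h1 : ∀ᶠ z in 𝓝 z0, dist (realCoords z) (realCoords z0) < ρ :=
    continuous_realCoords.continuousAt.eventually (ball_mem_nhds _ hρ)
  obtain ⟨ρ', hρ', hb⟩ := Metric.eventually_nhds_iff_ball.1 h1
  refine ⟨δ, ρ', fun τ => (rcL N).symm (E τ), hδ, hρ', ?_, ?_, ?_, ?_⟩
  · intro τ hτ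
    exact ((rcL N).symm.toContinuousLinearMap.analyticAt (E τ)).comp (han τ hτ)
  · show (rcL N).symm (E _) = z0
    rw [hE0]; exact (rcL N).symm_apply_apply z0
  · intro τ hτ
    have : realCoords ((rcL N).symm (E τ)) = E τ := (rcL N).apply_symm_apply _
    rw [this]
    exact hES τ hτ
  · intro z hz hzρ
    obtain ⟨h2, h3⟩ := hret _ hz (hb z hzρ)
    refine ⟨h2, ?_⟩
    show (rcL N).symm (E _) = z
    rw [h3]; exact (rcL N).symm_apply_apply z

theorem analytic_tmC (D : ASD (Fin N ⊕ Fin N) ℝ) :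
    AnalyticOnNhd ℝ (fun z : Fin N → ℂ => D.tm (realCoords z)) Set.univ := by
  intro z _
  have h1 : AnalyticAt ℝ (fun x : Fin N ⊕ Fin N → ℝ => D.tm x) (rcL N z) :=
    AnalyticAt.pi fun i => analytic_eval (D.t i) _ (Set.mem_univ _)
  exact h1.comp ((rcL N).toContinuousLinearMap.analyticAt z)

theorem fderiv_leftInv {A B : Type} [NormedAddCommGroup A] [NormedSpace ℝ A] [NormedAddCommGroup B]
    [NormedSpace ℝ B] {F : B → A} {E : A → B} {τ : A} (hE : DifferentiableAt ℝ E τ)
    (hF : DifferentiableAt ℝ F (E τ)) (h : ∀ᶠ s in 𝓝 τ, F (E s) = s) :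
    (fderiv ℝ F (E τ)).comp (fderiv ℝ E τ) = ContinuousLinearMap.id ℝ A := by
  have h1 : HasFDerivAt (F ∘ E) ((fderiv ℝ F (E τ)).comp (fderiv ℝ E τ)) τ :=
    hF.hasFDerivAt.comp τ hE.hasFDerivAt
  have h2 : HasFDerivAt (F ∘ E) (ContinuousLinearMap.id ℝ A) τ :=
    (hasFDerivAt_id τ).congr_of_eventuallyEq h
  exact h1.unique h2

/-- the derivative of a chart is injective -/
theorem chartC_inj (D : ASD (Fin N ⊕ Fin N) ℝ) {τ0 : Fin D.r → ℝ} {δ : ℝ}
    {E : (Fin D.r → ℝ) → (Fin N → ℂ)} (hE : AnalyticOnNhd ℝ E (ball τ0 δ))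
    (h : ∀ τ ∈ ball τ0 δ, D.tm (realCoords (E τ)) = τ) {τ : Fin D.r → ℝ} (hτ : τ ∈ ball τ0 δ) :
    Function.Injective (fderiv ℝ E τ) := by
  have h1 := fderiv_leftInv (F := fun z : Fin N → ℂ => D.tm (realCoords z)) (E := E) (τ := τ)
    (hE τ hτ).differentiableAt (analytic_tmC D _ (Set.mem_univ _)).differentiableAt
    (Filter.eventually_of_mem (isOpen_ball.mem_nhds hτ) h)
  intro v w hvw
  have h2 := congrArg (fderiv ℝ (fun z : Fin N → ℂ => D.tm (realCoords z)) (E τ)) hvw
  have h3 : ∀ u, (fderiv ℝ (fun z : Fin N → ℂ => D.tm (realCoords z)) (E τ)) (fderiv ℝ E τ u) = u :=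
    fun u => DFunLike.congr_fun h1 u
  rwa [h3, h3] at h2

/-- every polynomial function on the stratum is integral over `ℂ[t]` (all points of `Z` at once). -/
theorem algC (D : ASD (Fin N ⊕ Fin N) ℝ) (h : MvPolynomial (Fin N) ℂ) :
    ∃ Q : Polynomial (MvPolynomial (Fin D.r) ℂ), Q.Monic ∧ ∀ z : Fin N → ℂ, realCoords z ∈ D.Z →
      Q.eval₂ (MvPolynomial.eval (fun i => ((D.tm (realCoords z) i : ℝ) : ℂ)))
        (MvPolynomial.eval z h) = 0 := by
  classical
  let Zc := {z : Fin N → ℂ // realCoords z ∈ D.Z}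
  let ψ : MvPolynomial (Fin D.r) ℂ →+* (Zc → ℂ) :=
    RingHom.pi fun z => MvPolynomial.eval (fun i => ((D.tm (realCoords z.1) i : ℝ) : ℂ))
  have hψ : ∀ q (z : Zc), ψ q z = MvPolynomial.eval (fun i => ((D.tm (realCoords z.1) i : ℝ) : ℂ)) q :=
    fun q z => rfl
  -- real polynomials are integral
  have hreal : ∀ U : MvPolynomial (Fin N ⊕ Fin N) ℝ,
      ψ.IsIntegralElem (fun z : Zc => ((MvPolynomial.eval (realCoords z.1) U : ℝ) : ℂ)) := by
    intro U
    obtain ⟨q, hq, hmem⟩ := D.int U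
    refine ⟨q.map (MvPolynomial.map Complex.ofRealHom), hq.map _, ?_⟩
    funext z
    have h1 := z.2 _ hmem
    rw [eval_sub2] at h1
    have h2 : (q.map (MvPolynomial.map Complex.ofRealHom)).eval₂ ψ
        (fun z : Zc => ((MvPolynomial.eval (realCoords z.1) U : ℝ) : ℂ)) z =
        Complex.ofRealHom (ev2 (fun i => MvPolynomial.eval (realCoords z.1) (D.t i))
          (MvPolynomial.eval (realCoords z.1) U) q) := by
      unfold ev2
      rw [Polynomial.hom_eval₂]
      have h3 := Polynomial.hom_eval₂ (q.map (MvPolynomial.map Complex.ofRealHom)) ψ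
        (Pi.evalRingHom (fun _ : Zc => ℂ) z)
        (fun z : Zc => ((MvPolynomial.eval (realCoords z.1) U : ℝ) : ℂ))
      simp only [Pi.evalRingHom_apply] at h3
      rw [h3, Polynomial.eval₂_map]
      congr 1
      apply MvPolynomial.ringHom_ext
      · intro c
        simp only [RingHom.comp_apply, Pi.evalRingHom_apply, MvPolynomial.map_C, hψ,
          MvPolynomial.eval_C]
      · intro i
        simp only [RingHom.comp_apply, Pi.evalRingHom_apply, MvPolynomial.map_X, hψ,
          MvPolynomial.eval_X, ASD.tm, Complex.ofRealHom_eq_coe]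
    rw [h2, h1]
    simp
  have hconst : ∀ c : ℂ, ψ.IsIntegralElem (fun _ : Zc => c) := by
    intro c
    have : (fun _ : Zc => c) = ψ (MvPolynomial.C c) := by
      funext z; rw [hψ]; simp
    rw [this]
    exact ψ.isIntegralElem_map
  obtain ⟨u, v, huv⟩ := exists_reIm h
  have hh : ψ.IsIntegralElem (fun z : Zc => MvPolynomial.eval z.1 h) := by
    have : (fun z : Zc => MvPolynomial.eval z.1 h) =
        (fun z : Zc => ((MvPolynomial.eval (realCoords z.1) u : ℝ) : ℂ)) +
          (fun _ : Zc => Complex.I) * (fun z : Zc => ((MvPolynomial.eval (realCoords z.1) v : ℝ) : ℂ)) := by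
      funext z
      simp only [Pi.add_apply, Pi.mul_apply, (huv z.1).1, (huv z.1).2]
      rw [mul_comm, Complex.re_add_im]
    rw [this]
    exact (hreal u).add ψ ((hconst Complex.I).mul ψ (hreal v))
  obtain ⟨Q, hQ, hQ0⟩ := hh
  refine ⟨Q, hQ, fun z hz => ?_⟩
  have h1 := congrFun hQ0 ⟨z, hz⟩
  have h3 := Polynomial.hom_eval₂ Q ψ (Pi.evalRingHom (fun _ : Zc => ℂ) ⟨z, hz⟩)
    (fun z : Zc => MvPolynomial.eval z.1 h)
  simp only [Pi.evalRingHom_apply] at h3
  rw [h3] at h1
  exact h1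

end CN

end Crest.Agent.R264.AS
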