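import Crest.Agent.R264.AS5
import Crest.Agent.R264.AIface
import Crest.Agent.R264.SAV

set_option autoImplicit false
set_option linter.unusedSectionVars false

/-! Row 264, module AS part 6: `AI.StrataStmt`. -/

open Topology Filter Metric
open Crest.AlgGeometry.Semialg (realCoords)

namespace Crest.Agent.R264.AS

variable {N : ℕ}

theorem sa_St {σ : Type} [Fintype σ] (D : ASD σ ℝ) (fam : Finset (MvPolynomial σ ℝ)) :
    TS.SA (D.St fam) := by
  classical
  obtain ⟨G, hG, hZ⟩ := D.exists_gens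
  have hz : ∀ {x y : σ → ℝ} {W : Finset (MvPolynomial σ ℝ)} {p : MvPolynomial σ ℝ},
      TS.SameSign W x y → p ∈ W → (MvPolynomial.eval x p = 0 ↔ MvPolynomial.eval y p = 0) := by
    intro x y W p h hp
    rw [← sign_eq_zero_iff, ← sign_eq_zero_iff (a := MvPolynomial.eval y p), h p hp]
  refine TS.SA.of_imp (G ∪ {MvPolynomial.aeval D.t D.Δ} ∪ fam) fun x y hxy hx => ?_
  rw [D.St_eq] at hx ⊢
  refine ⟨?_, ?_, ?_⟩
  · rw [hZ] at hx ⊢
    intro g hg
    exact (hz hxy (by simp [hg])).1 (hx.1 g hg)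
  · rw [← D.eval_aeval_t]
    have h1 := hx.2.1
    rw [← D.eval_aeval_t] at h1
    exact fun h => h1 ((hz hxy (by simp)).2 h)
  · intro R hR hRI h
    exact hx.2.2 R hR hRI ((hz hxy (by simp [hR])).2 h)

/-- the stratum as an `AI.RStrat` -/
noncomputable def toRStrat (D : ASD (Fin N ⊕ Fin N) ℝ) (fam : Finset (MvPolynomial (Fin N ⊕ Fin N) ℝ)) :
    AI.RStrat N where
  S := {x | realCoords x ∈ D.St fam}
  r := D.r
  t := D.t
  lc := by
    have : {x : Fin N → ℂ | realCoords x ∈ D.St fam} =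
        (realCoords ⁻¹' D.Z) ∩ (realCoords ⁻¹' D.Op fam) := by
      ext x; simp [D.St_eq]
    rw [this]
    exact (D.isClosed_Z.preimage continuous_realCoords).isLocallyClosed.inter
      ((D.isOpen_Op fam).preimage continuous_realCoords).isLocallyClosed
  sa := by
    refine SAV.of_coord (rcL N).toLinearEquiv ?_
    have : {x | (rcL N).toLinearEquiv.symm x ∈ {z : Fin N → ℂ | realCoords z ∈ D.St fam}} =
        D.St fam := by
      ext x
      have h1 : realCoords ((rcL N).toLinearEquiv.symm x) = x := (rcL N).apply_symm_apply x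
      simp only [Set.mem_ofPred_eq, h1]
    rw [this]
    exact sa_St D fam
  chart := by
    intro x0 hx0
    obtain ⟨δ, ρ, E, hδ, hρ, han, hE0, hES, hret⟩ := chartC D hx0.1
    have hOp := D.isOpen_Op fam
    have hx0Op : realCoords x0 ∈ D.Op fam := by
      have := hx0; rw [Set.mem_ofPred_eq, D.St_eq] at this; exact this.2
    set B : Set (Fin N → ℂ) := ball x0 ρ ∩ realCoords ⁻¹' D.Op fam with hB
    have hBo : IsOpen B := isOpen_ball.inter (hOp.preimage continuous_realCoords)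
    refine ⟨B, ball (D.tm (realCoords x0)) δ ∩ E ⁻¹' B, E, ⟨mem_ball_self hρ, hx0Op⟩, hBo, ?_, ?_, ?_, ?_⟩
    · exact han.continuousOn.isOpen_inter_preimage isOpen_ball hBo
    · exact han.mono Set.inter_subset_left
    · intro τ hτ
      obtain ⟨h1, h2⟩ := hES τ hτ.1
      refine ⟨hτ.2, ?_, h2⟩
      rw [Set.mem_ofPred_eq, D.St_eq]
      exact ⟨h1.1, hτ.2.2⟩
    · intro x hxB hxS
      obtain ⟨h1, h2⟩ := hret x hxS.1.1 hxB.1
      exact ⟨⟨h1, by show E (D.tm (realCoords x)) ∈ B; rw [h2]; exact hxB⟩, h2⟩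
  ov := by
    rintro f O hO ⟨x0, hx0O, hx0⟩ h x hx
    have hx0Op : realCoords x0 ∈ D.Op fam := by
      have := hx0; rw [Set.mem_ofPred_eq, D.St_eq] at this; exact this.2
    have hO' : O ∩ realCoords ⁻¹' (D.Op fam) ∈ 𝓝 x0 :=
      Filter.inter_mem (hO.mem_nhds hx0O)
        (((D.isOpen_Op fam).preimage continuous_realCoords).mem_nhds hx0Op)
    refine ovC D f hx0.1 hO' (fun z hz hzS => ?_) x hx.1.1
    exact h z ⟨hz.1, by rw [Set.mem_ofPred_eq, D.St_eq]; exact ⟨hzS.1, hz.2⟩⟩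
  int := by
    intro f
    obtain ⟨q, hq, h⟩ := algC D f
    exact ⟨q, hq, fun x hx => h x hx.1.1⟩

theorem strataStmt : AI.StrataStmt := by
  classical
  intro N K hK
  have hK' := SAV.coord (rcL N).toLinearEquiv hK
  obtain ⟨W, hW⟩ := hK'
  obtain ⟨m, D, hD⟩ := rs (σ := Fin N ⊕ Fin N) (𝕜 := ℝ) W
  refine ⟨m, fun a => toRStrat (D a) W, fun x => hD (realCoords x), fun a => ?_⟩
  refine ⟨{y | ∃ x ∈ K, realCoords x ∈ (D a).St W ∧ ∀ R ∈ W, R ∉ (D a).I →
      0 < MvPolynomial.eval (realCoords y) R * MvPolynomial.eval (realCoords x) R}, ?_, ?_⟩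
  · have : {y : Fin N → ℂ | ∃ x ∈ K, realCoords x ∈ (D a).St W ∧ ∀ R ∈ W, R ∉ (D a).I →
        0 < MvPolynomial.eval (realCoords y) R * MvPolynomial.eval (realCoords x) R} =
      ⋃ x ∈ {x | x ∈ K ∧ realCoords x ∈ (D a).St W}, ⋂ R ∈ W.filter (fun R => R ∉ (D a).I),
        {y | 0 < MvPolynomial.eval (realCoords y) R * MvPolynomial.eval (realCoords x) R} := by
      ext y
      simp only [Set.mem_ofPred_eq, Set.mem_iUnion, Set.mem_iInter, Finset.mem_filter, exists_prop]
      constructor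
      · rintro ⟨x, h1, h2, h3⟩
        exact ⟨x, ⟨h1, h2⟩, fun R hR => h3 R hR.1 hR.2⟩
      · rintro ⟨x, ⟨h1, h2⟩, h3⟩
        exact ⟨x, h1, h2, fun R hR hR' => h3 R ⟨hR, hR'⟩⟩
    rw [this]
    refine isOpen_biUnion fun x _ => isOpen_biInter_finset fun R _ => ?_
    exact isOpen_lt continuous_const
      (((continuous_eval R).comp continuous_realCoords).mul continuous_const)
  · ext y
    constructor
    · rintro ⟨hyK, hyS⟩
      refine ⟨⟨y, hyK, hyS, fun R hR hRI => ?_⟩, hyS⟩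
      exact mul_self_pos.2 (hyS.2 R hR hRI)
    · rintro ⟨⟨x, hxK, hxS, h⟩, hyS⟩
      refine ⟨?_, hyS⟩
      have hs : TS.SameSign W (realCoords x) (realCoords y) := by
        intro R hR
        by_cases hRI : R ∈ (D a).I
        · rw [hxS.1.1 R hRI, (show MvPolynomial.eval (realCoords y) R = 0 from
            (show realCoords y ∈ (D a).St W from hyS).1.1 R hRI)]
        · have h1 := h R hR hRI
          rcases pos_and_pos_or_neg_and_neg_of_mul_pos h1 with ⟨h2, h3⟩ | ⟨h2, h3⟩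
          · rw [sign_pos h2, sign_pos h3]
          · rw [sign_neg h2, sign_neg h3]
      have h2 := (hW _ _ hs)
      have e1 : ∀ z : Fin N → ℂ, realCoords z ∈ (rcL N).toLinearEquiv.symm ⁻¹' K ↔ z ∈ K := by
        intro z
        rw [Set.mem_preimage]
        have : (rcL N).toLinearEquiv.symm (realCoords z) = z := (rcL N).symm_apply_apply z
        rw [this]
      exact (e1 y).1 (h2.1 ((e1 x).2 hxK))

end Crest.Agent.R264.AS
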