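import Crest.Agent.R264.AIface
import Crest.Agent.R264.AChgDef
import Crest.Agent.R264.AAsm0

/-!
Row 264 (S0402), PART A, ASSEMBLY (helper369): `GraphData ⟹ PeakData`, and `ThmAT`.
-/

set_option autoImplicit false

open Topology Filter Set Metric Complex
open scoped ContDiff

namespace Crest.Agent.R264.AI

open Crest.AlgGeometry.Semialg
open Crest.Agent.R264.JL (P sig Amap ofR reV dil Far OMs)

variable {N m k : ℕ} {U : Set (Fin N → ℂ)}

namespace ASM

/-! ### boundary points in the chart -/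

theorem sig_closure (G : GraphData m k U) {a : P m k} (ha : a ∈ G.O) :
    sig G.Ht a ∈ closure G.UU := by
  have hW := G.sig_W a ha
  have hp : G.e (sig G.Ht a) ∈ closure U := G.sig_cl a ha
  have hB : G.e (sig G.Ht a) ∈ G.B := G.e_mem _ hW
  have hk : G.κ (G.e (sig G.Ht a)) = sig G.Ht a := G.κ_e _ hW
  rw [mem_closure_iff_nhds]
  intro S hS
  have hc : Tendsto G.κ (𝓝 (G.e (sig G.Ht a))) (𝓝 (sig G.Ht a)) := by
    have := G.hκ.continuous.tendsto (G.e (sig G.Ht a))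
    rwa [hk] at this
  have h1 : G.κ ⁻¹' S ∩ G.B ∈ 𝓝 (G.e (sig G.Ht a)) :=
    inter_mem (hc hS) (G.hB.mem_nhds hB)
  obtain ⟨x, ⟨hxS, hxB⟩, hxU⟩ := mem_closure_iff_nhds.1 hp _ h1
  refine ⟨G.κ x, hxS, (G.UU_iff _).2 ⟨G.κ_mem x (subset_closure hxU) hxB, ?_⟩⟩
  rw [G.e_κ x (subset_closure hxU) hxB]
  exact hxU

theorem sig_notMem (G : GraphData m k U) {a : P m k} (ha : a ∈ G.O) : sig G.Ht a ∉ G.UU := by
  intro h
  exact G.sig_nU a ha ((G.UU_iff _).1 h).2

/-- the codimension `k` of the peak stratum is positive -/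
theorem k_pos (G : GraphData m k U) : 0 < k := by
  rcases Nat.eq_zero_or_pos k with hk | hk
  swap
  · exact hk
  exfalso
  subst hk
  obtain ⟨a, ha⟩ := G.hOne
  have hcl := sig_closure G ha
  have hop : IsOpen {y : EE m 0 | ((y.1, 0) : P m 0) ∈ G.O} :=
    G.hO.preimage (continuous_fst.prodMk continuous_const)
  have hmem : sig G.Ht a ∈ {y : EE m 0 | ((y.1, 0) : P m 0) ∈ G.O} := by
    have h0 : ((sig G.Ht a).1, (0 : Fin 0 → ℝ)) = a := Prod.ext rfl (Subsingleton.elim _ _)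
    show ((sig G.Ht a).1, (0 : Fin 0 → ℝ)) ∈ G.O
    rw [h0]
    exact ha
  obtain ⟨y, hy1, hy2⟩ := mem_closure_iff_nhds.1 hcl _ (hop.mem_nhds hmem)
  have hy : sig G.Ht (y.1, 0) = y := Prod.ext rfl (Subsingleton.elim _ _)
  have h2 := sig_notMem G (a := (y.1, 0)) hy1
  rw [hy] at h2
  exact h2 hy2

/-! ### dilations, the limit domain, the maps `L_{b,t}` -/

theorem Dil_eq (ε : ℝ) (y : EE m k) : Dil ε y = dil ε y := by
  refine Prod.ext ?_ ?_
  · funext i
    simp [Dil, dil]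
  · funext i
    simp [Dil, dil]

theorem norm_dil_le {ε : ℝ} (h0 : 0 ≤ ε) (h1 : ε ≤ 1) (y : EE m k) : ‖Dil ε y‖ ≤ ε * ‖y‖ := by
  rw [Dil_eq]
  have ha : ‖y.1‖ ≤ ‖y‖ := norm_fst_le y
  have hb : ‖y.2‖ ≤ ‖y‖ := norm_snd_le y
  refine norm_prod_le_iff.2 ⟨?_, ?_⟩
  · show ‖ε • y.1‖ ≤ ε * ‖y‖
    rw [norm_smul, Real.norm_of_nonneg h0]
    exact mul_le_mul_of_nonneg_left ha h0
  · show ‖(ε ^ 2) • y.2‖ ≤ ε * ‖y‖
    rw [norm_smul, Real.norm_of_nonneg (by positivity)]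
    calc ε ^ 2 * ‖y.2‖ ≤ ε * ‖y.2‖ :=
          mul_le_mul_of_nonneg_right (by nlinarith) (norm_nonneg _)
      _ ≤ ε * ‖y‖ := mul_le_mul_of_nonneg_left hb h0

theorem isOpen_OMs (UU' : Set (EE m k)) : IsOpen (OMs UU') := by
  rw [isOpen_iff_mem_nhds]
  rintro x ⟨r, hr, h⟩
  filter_upwards [ball_mem_nhds x hr] with y hy
  have hy' : dist y x < r := hy
  refine ⟨r - dist y x, by linarith, ?_⟩
  filter_upwards [h] with ε hε
  refine Subset.trans (ball_subset_ball' ?_) hε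
  linarith

/-- the form `DD` -/
noncomputable def toDD (DD : (Fin m → ℂ) →L[ℝ] ((Fin m → ℂ) →L[ℂ] (Fin k → ℂ))) : DDForm m k where
  toFun b := (DD b : (Fin m → ℂ) →ₗ[ℂ] (Fin k → ℂ))
  map_add' x y := by
    ext z : 1
    simp
  map_smul' c x := by
    ext z : 1
    simp

theorem Lmap_eq (DD : (Fin m → ℂ) →L[ℝ] ((Fin m → ℂ) →L[ℂ] (Fin k → ℂ))) (b : Fin m → ℂ)
    (t : Fin k → ℝ) (x : EE m k) : Lmap (toDD DD) b t x = JL.Lmap DD b t x := by
  refine Prod.ext rfl ?_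
  funext i
  simp [Lmap, JL.Lmap, toDD, mul_assoc]

end ASM

open ASM

/-- NODE ASM1: `GraphData ⟹ PeakData`. -/
theorem asm1 (hFC : FChartStmt) (hArc : ArcStmt) (hFar : FarStmt) (hJL : JL.Main)
    (hCtrl : CtrlStmt) (hBox : BoxStmt) : Asm1Stmt := by
  intro N U Γ S n hn hU m k hmk G
  have hk : 0 < k := k_pos G
  -- arcs
  obtain ⟨A⟩ := hArc m k G.O G.Ht G.UU G.hO G.hOne G.Hsm G.Hsa G.UUopen G.UUsa
    (fun a ha => sig_closure G ha) (fun a ha => sig_notMem G ha)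
  -- joint limit
  obtain ⟨a0, ha0, DD, hL, hK2⟩ := hJL m k G.Ht A.O' G.UU A.hO' A.hne
    (ContDiffOn.mono (by exact_mod_cast contDiffOn_infty.1 G.Hsm 2) A.sub)
    (fun a ha => G.Hsmall a (A.sub ha)) G.UUopen
    (fun a _ x r hr => hFar m k G.Ht G.UU G.UUsa a x r hr)
  have haO : a0 ∈ G.O := A.sub ha0
  -- final chart
  obtain ⟨F⟩ := hFC N U Γ S n hU m k hmk G a0 haO
  obtain ⟨ρ₁, hρ₁, hKS⟩ := F.ks
  -- peak functions
  obtain ⟨h, M, ν, Q, C, ρ, hρ, hρW, hh, hM, hlt, hν, hexp, hctl⟩ :=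
    hCtrl N m k U G.g F.W F.e G.B F.κ F.hW F.W0 F.he G.hB F.hκ.differentiableOn F.e_mem F.κ_e
      (by rw [F.e0]; exact G.g_ne a0 haO) F.peak
  -- boxes
  obtain ⟨c, Cb, t₀, hc, ht₀, hbox⟩ := hBox m k G.O G.Ht G.UU G.hO G.Hsm G.Hsmall G.UUopen A a0 ha0
    ρ₁ hρ₁ hKS
  choose! eb heb hbx using hbox
  set UU' : Set (EE m k) := Amap G.Ht a0 '' G.UU with hUU'
  have hsubW : ∀ y ∈ UU' ∩ ball 0 ρ, y ∈ F.W := fun y hy => ((F.UU_iff y).1 hy.1).1
  have hcl0 : F.e 0 ∈ closure U := by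
    rw [F.e0]
    exact G.sig_cl a0 haO
  -- the size of the boxes
  obtain ⟨ts, hts, hts₀, hts1, htsρ⟩ : ∃ ts : ℝ, 0 < ts ∧ ts ≤ t₀ ∧ ts ≤ 1 ∧
      ∀ t, 0 < t → t < ts → (c + |Cb| + 1) * Real.sqrt t < ρ := by
    have hKp : 0 < c + |Cb| + 1 := by positivity
    refine ⟨min t₀ (min 1 ((ρ / (c + |Cb| + 1)) ^ 2)), by positivity, min_le_left _ _,
      (min_le_right _ _).trans (min_le_left _ _), ?_⟩
    intro t ht htt
    have h1 : t < (ρ / (c + |Cb| + 1)) ^ 2 :=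
      lt_of_lt_of_le htt ((min_le_right _ _).trans (min_le_right _ _))
    have h2 : Real.sqrt t < ρ / (c + |Cb| + 1) := by
      rw [Real.sqrt_lt' (by positivity)]
      exact h1
    rwa [lt_div_iff₀ hKp, mul_comm] at h2
  refine ⟨{
    m := m
    k := k
    hmk := hmk
    hk := hk
    p0 := F.e 0
    hp0 := hcl0
    O := G.B ∩ {x | ‖F.κ x‖ < ρ}
    hO := G.hB.inter (isOpen_lt F.hκ.continuous.norm continuous_const)
    hpO := ?_
    κ := F.κ
    hκ := F.hκ.differentiableOn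
    κ_p0 := F.κ_e 0 F.W0
    UU := UU' ∩ ball 0 ρ
    hUU := F.UUo.inter isOpen_ball
    χ := F.e
    hχ := F.he.mono hsubW
    hχ0 := ?_
    κ_mem := ?_
    χ_mem := ?_
    χ_κ := fun x hx hxO => F.e_κ x (subset_closure hx) hxO.1
    κ_χ := fun y hy => F.κ_e y (hsubW y hy)
    h := h
    hh := hh
    M := M
    h_p0 := hM
    h_lt := hlt
    ν := ν
    hν := hν
    Q := Q
    Cp := max C (max Cb 0)
    expand := ?_
    ctrl := ?_
    c := c
    hc := hc
    ts := ts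
    hts := hts
    e := eb
    e_le := ?_
    box := ?_
    OM := OMs UU'
    OM_open := isOpen_OMs UU'
    kernel₁ := ?_
    kernel₂ := ?_
    DD := toDD DD
    inv := ?_ }⟩
  · refine ⟨F.e_mem 0 F.W0, ?_⟩
    show ‖F.κ (F.e 0)‖ < ρ
    rw [F.κ_e 0 F.W0, norm_zero]
    exact hρ
  · have h1 : ContinuousAt F.e 0 :=
      ((F.he 0 F.W0).differentiableAt (F.hW.mem_nhds F.W0)).continuousAt
    exact h1.tendsto.mono_left nhdsWithin_le_nhds
  · intro x hx hxO
    refine ⟨(F.UU_iff _).2 ⟨F.κ_mem x (subset_closure hx) hxO.1, ?_⟩, ?_⟩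
    · rw [F.e_κ x (subset_closure hx) hxO.1]
      exact hx
    · rw [mem_ball_zero_iff]
      exact hxO.2
  · intro y hy
    refine ⟨((F.UU_iff y).1 hy.1).2, F.e_mem y (hsubW y hy), ?_⟩
    show ‖F.κ (F.e y)‖ < ρ
    rw [F.κ_e y (hsubW y hy)]
    exact mem_ball_zero_iff.1 hy.2
  · intro i y hy
    refine (hexp i y hy.2).trans ?_
    exact mul_le_mul_of_nonneg_right (le_max_left _ _) (by positivity)
  · intro i y hy
    have hyU := ((F.UU_iff y).1 hy.1).2
    refine (hctl i y hy.2 hyU).trans ?_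
    refine mul_le_mul_of_nonneg_right (le_max_left _ _) ?_
    rcases eq_or_ne (F.e y) (F.e 0) with h0 | h0
    · rw [h0, hM i, Complex.ofReal_re, sub_self]
    · have := hlt i _ (subset_closure hyU) h0
      linarith
  · intro t ht htt
    exact (heb t ht (lt_of_lt_of_le htt hts₀)).trans ((le_max_left _ _).trans (le_max_right _ _))
  · intro t ht htt y hy1 hy2
    have htt' := lt_of_lt_of_le htt hts₀
    have hv : (Complex.I * (t : ℂ)) • cvec (eb t) = fun i => Complex.I * (t * (eb t i : ℂ)) := by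
      funext i
      simp [cvec, mul_assoc]
    rw [hv] at hy2
    refine ⟨hbx t ht htt' y hy1 hy2, ?_⟩
    have hs := htsρ t ht htt
    have ht1 : t ≤ 1 := (htt.le).trans hts1
    have hs0 : 0 ≤ Real.sqrt t := Real.sqrt_nonneg t
    have hts' : t ≤ Real.sqrt t := by
      rw [Real.le_sqrt' ht]
      nlinarith
    have hC0 : 0 ≤ |Cb| := abs_nonneg _
    rw [mem_ball_zero_iff]
    refine lt_of_le_of_lt (norm_prod_le_iff.2 ⟨?_, ?_⟩) hs
    · refine hy1.le.trans ?_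
      nlinarith
    · have h2 : ‖(fun i => Complex.I * (t * (eb t i : ℂ)) : Fin k → ℂ)‖ ≤ t * |Cb| := by
        refine (pi_norm_le_iff_of_nonneg (by positivity)).2 fun i => ?_
        have h3 : ‖Complex.I * ((t : ℂ) * (eb t i : ℂ))‖ = t * |eb t i| := by
          rw [norm_mul, Complex.norm_I, one_mul, norm_mul, Complex.norm_real, Complex.norm_real,
            Real.norm_of_nonneg ht.le, Real.norm_eq_abs]
        rw [h3]
        refine mul_le_mul_of_nonneg_left ?_ ht.le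
        have h4 : |eb t i| ≤ ‖eb t‖ := by
          rw [← Real.norm_eq_abs]
          exact norm_le_pi_norm (eb t) i
        exact h4.trans ((heb t ht htt').trans (le_abs_self _))
      have h5 : ‖y.2‖ ≤ ‖y.2 - (fun i => Complex.I * (t * (eb t i : ℂ)))‖
          + ‖(fun i => Complex.I * (t * (eb t i : ℂ)) : Fin k → ℂ)‖ := by
        have := norm_add_le (y.2 - (fun i => Complex.I * (t * (eb t i : ℂ))))
          (fun i => Complex.I * (t * (eb t i : ℂ)) : Fin k → ℂ)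
        rwa [sub_add_cancel] at this
      have h6 : t * |Cb| ≤ Real.sqrt t * |Cb| := mul_le_mul_of_nonneg_right hts' hC0
      have h7 : c * t ≤ c * Real.sqrt t := mul_le_mul_of_nonneg_left hts' hc.le
      nlinarith
  · rintro x ⟨r, hr, hx⟩
    refine ⟨r, hr, ?_⟩
    have hsm : ∀ᶠ ε : ℝ in 𝓝[>] (0 : ℝ), ε * (‖x‖ + r) < ρ := by
      have h1 : Tendsto (fun ε : ℝ => ε * (‖x‖ + r)) (𝓝[>] (0 : ℝ)) (𝓝 (0 * (‖x‖ + r))) :=
        (tendsto_id.mono_left nhdsWithin_le_nhds).mul_const _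
      rw [zero_mul] at h1
      exact h1.eventually (Iio_mem_nhds hρ)
    have hle : ∀ᶠ ε : ℝ in 𝓝[>] (0 : ℝ), ε ≤ 1 :=
      nhdsWithin_le_nhds (Iic_mem_nhds one_pos)
    filter_upwards [hx, hsm, hle, self_mem_nhdsWithin] with ε h1 h2 h3 h4 y hy
    have h4' : (0 : ℝ) < ε := h4
    refine ⟨?_, ?_⟩
    · have := h1 hy
      rw [Dil_eq]
      exact this
    · rw [mem_ball_zero_iff]
      refine lt_of_le_of_lt ((norm_dil_le h4'.le h3 y).trans ?_) h2
      refine mul_le_mul_of_nonneg_left ?_ h4'.le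
      have h5 : ‖y - x‖ < r := by simpa [dist_eq_norm] using hy
      have h6 : ‖y‖ ≤ ‖x‖ + ‖y - x‖ := by
        have := norm_add_le x (y - x)
        rwa [add_sub_cancel] at this
      linarith
  · intro x r hr hx
    refine hK2 x r hr (hx.mono fun ε hε y hy => ?_)
    have := (hε y hy).1
    rw [Dil_eq] at this
    exact this
  · intro b t x hx
    rw [Lmap_eq]
    have h1 : JL.Lmap DD b t x ∈ JL.Lmap DD b t '' OMs UU' := ⟨x, hx, rfl⟩
    rw [hL b t] at h1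
    exact h1

/-- **THEOREM A (ThmAT) from the nodes of Part A.** -/
theorem thmAT_of (hPK : PKStmt) (hJ : LemJ) (hC : CoordStmt) (hFC : FChartStmt) (hArc : ArcStmt)
    (hFar : FarStmt) (hJL : JL.Main) (hCtrl : CtrlStmt) (hBox : BoxStmt) : ThmAT :=
  thmAT_of0 hPK hJ hC (asm1 hFC hArc hFar hJL hCtrl hBox)

end Crest.Agent.R264.AI
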