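import Mathlib
import Crest.Agent.R266.HolFlow

/-!
Row 264, node D7 (abelian ideals), part 1: the entire curve lemma (helper792).

If at `x` there are integral curves of `a B - b A` (`a b : ℝ`) inside the bounded open set `D`, along
which `A + i B = 0`, then `B x = 0`.
-/

set_option autoImplicit false
set_option maxHeartbeats 400000
set_option linter.unusedSectionVars false

open Set Filter Topology Metric

noncomputable section

namespace Crest.Agent.R264.AbI

open Crest.Agent.R266

variable {E : Type*} [NormedAddCommGroup E] [NormedSpace ℂ E] [CompleteSpace E]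

/-- the holomorphic one-form valued field `W y s = s • B y` -/
def Wof (B : E → E) (y : E) : ℂ →L[ℂ] E := ContinuousLinearMap.smulRight (1 : ℂ →L[ℂ] ℂ) (B y)

@[simp] lemma Wof_apply (B : E → E) (y : E) (s : ℂ) : Wof B y s = s • B y := by simp [Wof]

lemma analyticOnNhd_Wof {B : E → E} {D : Set E} (hB : AnalyticOnNhd ℂ B D) :
    AnalyticOnNhd ℂ (Wof B) D := by
  intro y hy
  exact ((ContinuousLinearMap.smulRightL ℂ ℂ E (1 : ℂ →L[ℂ] ℂ)).analyticAt (B y)).comp (hB y hy)

lemma fderiv_Wof {B : E → E} {y : E} (hB : DifferentiableAt ℂ B y) (w : E) (s : ℂ) :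
    fderiv ℂ (Wof B) y w s = s • fderiv ℂ B y w := by
  have h : HasFDerivAt (Wof B)
      ((ContinuousLinearMap.smulRightL ℂ ℂ E (1 : ℂ →L[ℂ] ℂ)).comp (fderiv ℂ B y)) y :=
    (ContinuousLinearMap.smulRightL ℂ ℂ E (1 : ℂ →L[ℂ] ℂ)).hasFDerivAt.comp y hB.hasFDerivAt
  rw [h.fderiv]
  simp

/-- ENTIRE CURVE LEMMA. -/
theorem entire_curve {D : Set E} (hDo : IsOpen D) (hDb : Bornology.IsBounded D) {A B : E → E}
    (hB : AnalyticOnNhd ℂ B D) {x : E} (hx : x ∈ D)
    (hcurve : ∀ a b : ℝ, ∃ c : ℝ → E, c 0 = x ∧ (∀ t, c t ∈ D) ∧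
      (∀ t, HasDerivAt c (a • B (c t) - b • A (c t)) t) ∧
      ∀ t, A (c t) + Complex.I • B (c t) = 0) :
    B x = 0 := by
  have hW := analyticOnNhd_Wof hB
  have hcomm : ∀ y ∈ D, ∀ u v : ℂ, fderiv ℂ (Wof B) y (Wof B y u) v
      = fderiv ℂ (Wof B) y (Wof B y v) u := by
    intro y hy u v
    rw [fderiv_Wof (hB y hy).differentiableAt, fderiv_Wof (hB y hy).differentiableAt]
    simp only [Wof_apply, map_smul, smul_smul]
    rw [mul_comm]
  have hdom : ∀ s : ℂ, (s, x) ∈ domW (Wof B) D := by
    intro s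
    rcases eq_or_ne s 0 with rfl | hs
    · exact (zero_mem_domW hDo hW hx).1
    obtain ⟨c, hc0, hcD, hcd, hcA⟩ := hcurve s.re s.im
    have h1 : ∀ t : ℝ, ((t • s) / s).re = t := by
      intro t
      rw [Complex.real_smul, mul_div_assoc, div_self hs]
      simp
    have h2 := eq_PhiW_of_segment (W := Wof B) (U := D) hDo hW (c := fun z : ℂ => c (z / s).re)
      (s := s) (fun t _ => hcD _) (fun t ht => by
        simp only [h1]
        have h3 := hcd t
        have h4 : (s.re : ℝ) • B (c t) - s.im • A (c t) = Wof B (c t) s := by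
          have h5 : A (c t) = - (Complex.I • B (c t)) := by
            rw [eq_neg_iff_add_eq_zero]; exact hcA t
          rw [h5, Wof_apply]
          have h6 : s • B (c t) = ((s.re : ℂ) + s.im * Complex.I) • B (c t) := by
            rw [Complex.re_add_im]
          rw [h6, smul_neg, sub_neg_eq_add, add_smul, mul_smul]
          rfl
        rw [← h4]
        exact h3)
    simpa [hc0] using h2.1
  have hder : ∀ s : ℂ, HasFDerivAt (fun s => PhiW (Wof B) D (s, x))
      (Wof B (PhiW (Wof B) D (s, x))) s := fun s => hasFDerivAt_PhiW hDo hW hcomm (hdom s)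
  have hdiff : Differentiable ℂ (fun s : ℂ => PhiW (Wof B) D (s, x)) :=
    fun s => (hder s).differentiableAt
  have hbd : Bornology.IsBounded (range (fun s : ℂ => PhiW (Wof B) D (s, x))) := by
    refine hDb.subset ?_
    rintro _ ⟨s, rfl⟩
    exact PhiW_mem hDo hW (hdom s)
  have hconst : ∀ s : ℂ, PhiW (Wof B) D (s, x) = PhiW (Wof B) D (0, x) := fun s =>
    hdiff.apply_eq_apply_of_bounded hbd s 0
  have h7 := hder 0
  have h8 : HasFDerivAt (fun s : ℂ => PhiW (Wof B) D (s, x)) (0 : ℂ →L[ℂ] E) 0 := by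
    have : (fun s : ℂ => PhiW (Wof B) D (s, x)) = fun _ => PhiW (Wof B) D (0, x) :=
      funext hconst
    rw [this]
    exact hasFDerivAt_const _ _
  have h9 := h7.unique h8
  rw [(zero_mem_domW hDo hW hx).2] at h9
  have h10 := congrArg (fun L : ℂ →L[ℂ] E => L 1) h9
  simpa using h10

end Crest.Agent.R264.AbI
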