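import Mathlib

/-!
Row 264, node D7 (abelian ideals), part 2: logarithmic means (helper792).
-/

set_option autoImplicit false
set_option maxHeartbeats 400000
set_option linter.unusedSectionVars false

open Set Filter Topology Metric

noncomputable section

namespace Crest.Agent.R264.AbI

/-- sub-mean value property of `log ‖h‖` -/
theorem log_norm_le_circleAverage {h : ℂ → ℂ} (hh : AnalyticOnNhd ℂ h (closedBall 0 1))
    (h0 : h 0 ≠ 0) : Real.log ‖h 0‖ ≤ Real.circleAverage (fun z => Real.log ‖h z‖) 0 1 := by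
  have hh' : AnalyticOnNhd ℂ h (closedBall 0 |(1 : ℝ)|) := by simpa using hh
  rw [hh'.circleAverage_log_norm one_ne_zero h0]
  have h1 : 0 ≤ ∑ᶠ u, (MeromorphicOn.divisor h (closedBall 0 |(1 : ℝ)|)) u
      * Real.log (1 * ‖(0 : ℂ) - u‖⁻¹) := by
    refine finsum_nonneg (fun u => ?_)
    by_cases hu : u ∈ closedBall (0 : ℂ) |(1 : ℝ)|
    · have h2 : (0 : ℤ) ≤ (MeromorphicOn.divisor h (closedBall 0 |(1 : ℝ)|)) u :=
        (MeromorphicOn.AnalyticOnNhd.divisor_nonneg hh') u
      have h3 : 0 ≤ Real.log (1 * ‖(0 : ℂ) - u‖⁻¹) := by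
        have h4 : ‖u‖ ≤ 1 := by simpa using hu
        rcases eq_or_ne u 0 with rfl | hu0
        · simp
        · apply Real.log_nonneg
          rw [one_mul, zero_sub, norm_neg]
          exact (one_le_inv₀ (norm_pos_iff.2 hu0)).2 h4
      exact mul_nonneg (by exact_mod_cast h2) h3
    · have h2 : (MeromorphicOn.divisor h (closedBall 0 |(1 : ℝ)|)) u = 0 :=
        Function.locallyFinsuppWithin.apply_eq_zero_of_notMem _ hu
      rw [h2]
      simp
  linarith

/-- mean value property of `log ‖h‖`, `h` without zeros -/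
theorem log_norm_eq_circleAverage {h : ℂ → ℂ} (hh : AnalyticOnNhd ℂ h (closedBall 0 1))
    (h0 : ∀ z ∈ closedBall (0 : ℂ) 1, h z ≠ 0) :
    Real.circleAverage (fun z => Real.log ‖h z‖) 0 1 = Real.log ‖h 0‖ :=
  AnalyticOnNhd.circleAverage_log_norm_of_ne_zero (by simpa using hh) (by simpa using h0)

/-- comparison with a continuous positive majorant -/
theorem log_norm_le_circleAverage_of_le {h : ℂ → ℂ} (hh : AnalyticOnNhd ℂ h (closedBall 0 1))
    (h0 : h 0 ≠ 0) {P : ℂ → ℝ} (hP : ContinuousOn P (sphere 0 1)) (hP0 : ∀ z ∈ sphere (0 : ℂ) 1, 0 < P z)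
    (hle : ∀ z ∈ sphere (0 : ℂ) 1, ‖h z‖ ≤ P z) :
    Real.log ‖h 0‖ ≤ Real.circleAverage (fun z => Real.log (P z)) 0 1 := by
  refine (log_norm_le_circleAverage hh h0).trans ?_
  have hcod : ∀ᶠ z in codiscreteWithin (sphere (0 : ℂ) |(1 : ℝ)|), h z ≠ 0 := by
    have h1 := hh.eqOn_zero_or_eventually_ne_zero_of_preconnected
      (convex_closedBall (0 : ℂ) 1).isPreconnected
    rcases h1 with h1 | h1
    · exact absurd (h1 (mem_closedBall_self zero_le_one)) h0
    · have h2 : codiscreteWithin (sphere (0 : ℂ) |(1 : ℝ)|) ≤ codiscreteWithin (closedBall (0 : ℂ) 1) :=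
        codiscreteWithin_mono (by rw [abs_one]; exact sphere_subset_closedBall)
      exact h2 h1
  have hself : ∀ᶠ z in codiscreteWithin (sphere (0 : ℂ) |(1 : ℝ)|), z ∈ sphere (0 : ℂ) |(1 : ℝ)| := by
    exact self_mem_codiscreteWithin _
  have heq : (fun z => Real.log ‖h z‖) =ᶠ[codiscreteWithin (sphere (0 : ℂ) |(1 : ℝ)|)]
      (fun z => min (Real.log ‖h z‖) (Real.log (P z))) := by
    filter_upwards [hcod, hself] with z hz hzs
    rw [abs_one] at hzs
    exact (min_eq_left (Real.log_le_log (norm_pos_iff.2 hz) (hle z hzs))).symm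
  have hint : CircleIntegrable (fun z => Real.log ‖h z‖) 0 1 := by
    apply MeromorphicOn.circleIntegrable_log_norm
    intro z hz
    refine (hh z ?_).meromorphicAt
    rw [abs_one] at hz
    exact sphere_subset_closedBall hz
  have hint2 := hint.congr_codiscreteWithin heq
  have hintP : CircleIntegrable (fun z => Real.log (P z)) 0 1 := by
    apply ContinuousOn.circleIntegrable zero_le_one
    exact hP.log (fun z hz => (hP0 z hz).ne')
  rw [Real.circleAverage_congr_codiscreteWithin heq one_ne_zero]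
  exact Real.circleAverage_mono hint2 hintP (fun z _ => min_le_right _ _)

/-- equality of means of two continuous functions, one above the other, forces equality -/
theorem eq_of_circleAverage_le {u v : ℂ → ℝ} (hu : ContinuousOn u (sphere 0 1))
    (hv : ContinuousOn v (sphere 0 1)) (hle : ∀ z ∈ sphere (0 : ℂ) 1, u z ≤ v z)
    (hav : Real.circleAverage v 0 1 ≤ Real.circleAverage u 0 1) : u 1 = v 1 := by
  have hcm : ∀ θ : ℝ, circleMap 0 1 θ ∈ sphere (0 : ℂ) 1 := fun θ => by simp
  have hcu : Continuous (fun θ : ℝ => u (circleMap 0 1 θ)) :=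
    hu.comp_continuous (continuous_circleMap 0 1) hcm
  have hcv : Continuous (fun θ : ℝ => v (circleMap 0 1 θ)) :=
    hv.comp_continuous (continuous_circleMap 0 1) hcm
  have h1 : ∫ θ in (0 : ℝ)..(2 * Real.pi), (v (circleMap 0 1 θ) - u (circleMap 0 1 θ)) ≤ 0 := by
    rw [intervalIntegral.integral_sub (hcv.intervalIntegrable _ _) (hcu.intervalIntegrable _ _)]
    have h2 := hav
    rw [Real.circleAverage_def, Real.circleAverage_def, smul_eq_mul, smul_eq_mul] at h2
    have h3 : 0 < (2 * Real.pi)⁻¹ := by positivity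
    have h4 := (mul_le_mul_iff_right₀ h3).1 h2
    linarith
  by_contra hne
  have hz : circleMap 0 1 0 = 1 := by simp [circleMap]
  have hlt : u 1 < v 1 := lt_of_le_of_ne (hle 1 (by simp)) hne
  have h6 := intervalIntegral.integral_pos (a := 0) (b := 2 * Real.pi) (by positivity)
    (f := fun θ => v (circleMap 0 1 θ) - u (circleMap 0 1 θ))
    (hcv.sub hcu).continuousOn (fun θ _ => sub_nonneg.2 (hle _ (hcm θ)))
    ⟨0, ⟨le_rfl, by positivity⟩, by rw [hz]; linarith⟩
  linarith

end Crest.Agent.R264.AbI
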