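import Crest.Agent.R266.SCV

/-!
Row 264, Part D (D0): Montel's theorem in ultrafilter form, convergence of derivatives,
Hurwitz-type theorems in several complex variables (helper399).
-/

set_option autoImplicit false

open Set Filter Topology Metric Complex

noncomputable section

namespace Crest.Agent.R264

open Crest.Agent.R266.SCV

variable {E : Type*} [NormedAddCommGroup E] [NormedSpace ℂ E]
variable {F : Type*} [NormedAddCommGroup F] [NormedSpace ℂ F]
variable {ι : Type*}

/-- bounded holomorphic maps are Lipschitz on smaller balls -/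
theorem norm_sub_le_of_bounded {D : Set E} {f : E → F} (hf : DifferentiableOn ℂ f D) {M : ℝ}
    (hM : ∀ z ∈ D, ‖f z‖ ≤ M) {a : E} {r : ℝ} (hr : 0 < r) (hb : ball a (2 * r) ⊆ D)
    {x y : E} (hx : x ∈ ball a r) (hy : y ∈ ball a r) : ‖f y - f x‖ ≤ M / r * ‖y - x‖ := by
  have hsub : ∀ z ∈ ball a r, ball z r ⊆ D := by
    intro z hz
    refine (ball_subset_ball' ?_).trans hb
    rw [mem_ball] at hz
    linarith
  refine Convex.norm_image_sub_le_of_norm_fderiv_le (𝕜 := ℂ) (s := ball a r) ?_ ?_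
    (convex_ball a r) hx hy
  · intro z hz
    exact (hf.mono (hsub z hz)).differentiableAt (ball_mem_nhds z hr)
  · intro z hz
    exact norm_fderiv_le_of_ball hr (hf.mono (hsub z hz)) (fun w hw => hM w (hsub z hz hw))

/-- pointwise limits of uniformly bounded holomorphic maps are locally uniform -/
theorem tlu_of_pointwise {l : Filter ι} [l.NeBot] {D : Set E} (hD : IsOpen D)
    {f : ι → E → F} {g : E → F} {M : ℝ} (hf : ∀ᶠ k in l, DifferentiableOn ℂ (f k) D)
    (hM : ∀ᶠ k in l, ∀ z ∈ D, ‖f k z‖ ≤ M)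
    (hg : ∀ z ∈ D, Tendsto (fun k => f k z) l (𝓝 (g z))) :
    TendstoLocallyUniformlyOn f g l D := by
  rw [Metric.tendstoLocallyUniformlyOn_iff]
  intro ε hε a ha
  obtain ⟨s, hs, hsD⟩ := Metric.isOpen_iff.1 hD a ha
  set r := s / 2 with hr
  have hr0 : 0 < r := by positivity
  have hball : ball a (2 * r) ⊆ D := by rw [hr]; convert hsD using 2; ring
  have hM0 : 0 ≤ M := by
    obtain ⟨k, hk⟩ := hM.exists
    exact (norm_nonneg _).trans (hk a ha)
  set δ := min r (ε * r / (4 * (M + 1))) with hδ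
  have hδ0 : 0 < δ := lt_min hr0 (by positivity)
  have hLδ : M / r * δ ≤ ε / 4 := by
    calc M / r * δ ≤ M / r * (ε * r / (4 * (M + 1))) := by gcongr; exact min_le_right _ _
      _ = ε / 4 * (M / (M + 1)) := by field_simp
      _ ≤ ε / 4 * 1 := by
          gcongr
          rw [div_le_one (by positivity)]
          linarith
      _ = ε / 4 := by ring
  refine ⟨ball a δ, mem_nhdsWithin_of_mem_nhds (ball_mem_nhds a hδ0), ?_⟩
  have hδr : ball a δ ⊆ ball a r := ball_subset_ball (min_le_left _ _)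
  have hlip : ∀ᶠ k in l, ∀ y ∈ ball a δ, ‖f k y - f k a‖ ≤ ε / 4 := by
    filter_upwards [hf, hM] with k hk hk' y hy
    calc ‖f k y - f k a‖ ≤ M / r * ‖y - a‖ :=
          norm_sub_le_of_bounded hk hk' hr0 hball (mem_ball_self hr0) (hδr hy)
      _ ≤ M / r * δ := by
          gcongr
          exact (mem_ball_iff_norm.1 hy).le
      _ ≤ ε / 4 := hLδ
  have hglip : ∀ y ∈ ball a δ, ‖g y - g a‖ ≤ ε / 4 := by
    intro y hy
    have hyD : y ∈ D := hball (ball_subset_ball (by linarith) (hδr hy))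
    have h1 : Tendsto (fun k => ‖f k y - f k a‖) l (𝓝 ‖g y - g a‖) :=
      ((hg y hyD).sub (hg a ha)).norm
    exact le_of_tendsto h1 (hlip.mono (fun k hk => hk y hy))
  have hcen : ∀ᶠ k in l, ‖f k a - g a‖ < ε / 4 := by
    have := (Metric.tendsto_nhds.1 (hg a ha)) (ε / 4) (by positivity)
    simpa [dist_eq_norm] using this
  filter_upwards [hlip, hcen] with k hk hk' y hy
  have h1 := hk y hy
  have h2 := hglip y hy
  rw [dist_eq_norm]
  calc ‖g y - f k y‖ = ‖(g y - g a) - (f k a - g a) - (f k y - f k a)‖ := by congr 1; abel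
    _ ≤ ‖(g y - g a) - (f k a - g a)‖ + ‖f k y - f k a‖ := norm_sub_le _ _
    _ ≤ ‖g y - g a‖ + ‖f k a - g a‖ + ‖f k y - f k a‖ := by gcongr; exact norm_sub_le _ _
    _ < ε := by linarith

/-- **Montel's theorem**, ultrafilter form. -/
theorem montel_ultra [FiniteDimensional ℂ E] [FiniteDimensional ℂ F] (u : Ultrafilter ι)
    {D : Set E} (hD : IsOpen D)
    {f : ι → E → F} {M : ℝ} (hf : ∀ k, DifferentiableOn ℂ (f k) D)
    (hM : ∀ k, ∀ z ∈ D, ‖f k z‖ ≤ M) :
    ∃ g : E → F, TendstoLocallyUniformlyOn f g u D ∧ DifferentiableOn ℂ g D ∧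
      (∀ z ∈ D, ‖g z‖ ≤ M) := by
  classical
  have : ProperSpace F := FiniteDimensional.proper ℂ F
  have : CompleteSpace F := FiniteDimensional.complete ℂ F
  have hlim : ∀ z, ∃ w, z ∈ D → Tendsto (fun k => f k z) u (𝓝 w) ∧ ‖w‖ ≤ M := by
    intro z
    by_cases hz : z ∈ D
    · have hK : IsCompact (closedBall (0 : F) M) := isCompact_closedBall _ _
      have hle : ((u.map (fun k => f k z) : Ultrafilter F) : Filter F) ≤ 𝓟 (closedBall (0 : F) M) := by
        rw [le_principal_iff]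
        show (fun k => f k z) ⁻¹' closedBall (0 : F) M ∈ (u : Filter ι)
        refine Filter.mem_of_superset Filter.univ_mem (fun k _ => ?_)
        simpa using hM k z hz
      obtain ⟨w, hw, hw'⟩ := hK.ultrafilter_le_nhds _ hle
      exact ⟨w, fun _ => ⟨hw', by simpa using hw⟩⟩
    · exact ⟨0, fun h => (hz h).elim⟩
  choose g hg using hlim
  have h1 : TendstoLocallyUniformlyOn f g u D :=
    tlu_of_pointwise hD (Eventually.of_forall hf) (Eventually.of_forall hM)
      (fun z hz => (hg z hz).1)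
  exact ⟨g, h1, (analyticOnNhd_of_tendstoLocallyUniformlyOn hD h1
    (Eventually.of_forall hf)).differentiableOn, fun z hz => (hg z hz).2⟩

/-- locally uniform convergence implies locally uniform convergence of derivatives -/
theorem tlu_fderiv [FiniteDimensional ℂ E] [CompleteSpace F] {l : Filter ι} [l.NeBot]
    {D : Set E} (hD : IsOpen D)
    {f : ι → E → F} {g : E → F} (h : TendstoLocallyUniformlyOn f g l D)
    (hf : ∀ᶠ k in l, DifferentiableOn ℂ (f k) D) :
    TendstoLocallyUniformlyOn (fun k => fderiv ℂ (f k)) (fderiv ℂ g) l D := by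
  have hg : DifferentiableOn ℂ g D :=
    (analyticOnNhd_of_tendstoLocallyUniformlyOn hD h hf).differentiableOn
  rw [Metric.tendstoLocallyUniformlyOn_iff] at h ⊢
  intro ε hε a ha
  obtain ⟨s, hs, hsD⟩ := Metric.isOpen_iff.1 hD a ha
  -- local uniform convergence near `a`
  have hex : ∃ r > 0, ball a (2 * r) ⊆ D ∧ ∀ δ > 0, ∀ᶠ k in l, ∀ y ∈ ball a (2 * r),
      dist (g y) (f k y) < δ := by
    have : ProperSpace E := FiniteDimensional.proper ℂ E
    refine ⟨s / 4, by positivity, (ball_subset_ball (by linarith)).trans hsD, fun δ hδ => ?_⟩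
    have hK : IsCompact (closedBall a (s / 2)) := isCompact_closedBall _ _
    have hKD : closedBall a (s / 2) ⊆ D := (closedBall_subset_ball (by linarith)).trans hsD
    have h2 : TendstoLocallyUniformlyOn f g l (closedBall a (s / 2)) :=
      (Metric.tendstoLocallyUniformlyOn_iff.2 h).mono hKD
    have h3 := (tendstoLocallyUniformlyOn_iff_tendstoUniformlyOn_of_compact hK).1 h2
    filter_upwards [Metric.tendstoUniformlyOn_iff.1 h3 δ hδ] with k hk y hy
    refine hk y (ball_subset_closedBall ?_)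
    convert hy using 2
    ring
  obtain ⟨r, hr, hrD, hδ⟩ := hex
  refine ⟨ball a r, mem_nhdsWithin_of_mem_nhds (ball_mem_nhds a hr), ?_⟩
  filter_upwards [hδ (ε * r / 2) (by positivity), hf] with k hk hfk y hy
  have hsub : ball y r ⊆ ball a (2 * r) := by
    refine ball_subset_ball' ?_
    rw [mem_ball] at hy
    linarith
  have hyD : y ∈ D := hrD (hsub (mem_ball_self hr))
  have hgy : DifferentiableAt ℂ g y := hg.differentiableAt (hD.mem_nhds hyD)
  have hfy : DifferentiableAt ℂ (f k) y := hfk.differentiableAt (hD.mem_nhds hyD)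
  have h1 : fderiv ℂ g y - fderiv ℂ (f k) y = fderiv ℂ (fun z => g z - f k z) y := by
    rw [fderiv_fun_sub hgy hfy]
  rw [dist_eq_norm, h1]
  calc ‖fderiv ℂ (fun z => g z - f k z) y‖ ≤ (ε * r / 2) / r := by
        refine norm_fderiv_le_of_ball hr ?_ ?_
        · exact ((hg.mono (hsub.trans hrD)).sub (hfk.mono (hsub.trans hrD)))
        · intro z hz
          have := hk z (hsub hz)
          rw [dist_eq_norm] at this
          exact this.le
    _ = ε / 2 := by field_simp
    _ < ε := by linarith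

/-- **Hurwitz**: a locally uniform limit of nowhere vanishing holomorphic functions vanishes
identically or nowhere. -/
theorem hurwitz_ne_zero [FiniteDimensional ℂ E] {l : Filter ι} [l.NeBot]
    {D : Set E} (hD : IsOpen D) (hc : IsPreconnected D)
    {f : ι → E → ℂ} {g : E → ℂ} (h : TendstoLocallyUniformlyOn f g l D)
    (hf : ∀ᶠ k in l, DifferentiableOn ℂ (f k) D)
    (hne : ∀ᶠ k in l, ∀ z ∈ D, f k z ≠ 0) {p : E} (hp : p ∈ D) (hgp : g p ≠ 0) :
    ∀ z ∈ D, g z ≠ 0 := by
  intro z₀ hz₀ hgz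
  have hga : AnalyticOnNhd ℂ g D := analyticOnNhd_of_tendstoLocallyUniformlyOn hD h hf
  obtain ⟨s, hs, hsD⟩ := Metric.isOpen_iff.1 hD z₀ hz₀
  obtain ⟨y, ⟨hyD, hy0⟩, hys⟩ :=
    ((dense_ne_zero hD hc hga ⟨p, hp, hgp⟩ z₀ hz₀).and_eventually (ball_mem_nhds z₀ hs)).exists
  set v := y - z₀ with hv
  have hv0 : v ≠ 0 := by
    intro h0
    have : y = z₀ := by rw [hv] at h0; exact sub_eq_zero.1 h0
    rw [this] at hy0
    exact hy0 hgz
  have hvn : 0 < ‖v‖ := norm_pos_iff.2 hv0
  have hvs : ‖v‖ < s := by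
    have := hys
    rwa [dist_eq_norm] at this
  set R := s / ‖v‖ with hR
  have hR1 : 1 < R := by rw [hR, one_lt_div hvn]; exact hvs
  set L : ℂ → E := fun t => z₀ + t • v with hL
  have hLc : Differentiable ℂ L := by
    rw [hL]; fun_prop
  have hLm : MapsTo L (ball 0 R) D := by
    intro t ht
    apply hsD
    rw [mem_ball_zero_iff] at ht
    rw [mem_ball_iff_norm, hL]
    simp only [add_sub_cancel_left, norm_smul]
    calc ‖t‖ * ‖v‖ < R * ‖v‖ := by gcongr
      _ = s := by rw [hR]; field_simp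
  -- `u = g ∘ L`
  have hu : DifferentiableOn ℂ (g ∘ L) (ball 0 R) :=
    hga.differentiableOn.comp hLc.differentiableOn hLm
  have hua : AnalyticOnNhd ℂ (g ∘ L) (ball 0 R) := hu.analyticOnNhd isOpen_ball
  have h0mem : (0 : ℂ) ∈ ball (0 : ℂ) R := mem_ball_self (by linarith)
  have hu0 : (g ∘ L) 0 = 0 := by simp [hL, hgz]
  have hu1 : (g ∘ L) 1 ≠ 0 := by
    simp only [Function.comp_apply, hL, one_smul, hv]
    rwa [add_sub_cancel]
  have hpunct : ∀ᶠ t in 𝓝[≠] (0 : ℂ), (g ∘ L) t ≠ 0 := by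
    rcases (hua 0 h0mem).eventually_eq_zero_or_eventually_ne_zero with h2 | h2
    · exfalso
      apply hu1
      exact hua.eqOn_zero_of_preconnected_of_eventuallyEq_zero
        (convex_ball (0 : ℂ) R).isPreconnected h0mem h2 (by simpa using hR1)
    · exact h2
  obtain ⟨ρ₀, hρ₀, hρ₀'⟩ := Metric.mem_nhdsWithin_iff.1 hpunct
  set ρ := min (ρ₀ / 2) (1 / 2) with hρ
  have hρ0 : 0 < ρ := lt_min (by positivity) (by norm_num)
  have hρρ₀ : ρ < ρ₀ := lt_of_le_of_lt (min_le_left _ _) (by linarith)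
  have hρR : ρ < R := lt_of_le_of_lt (min_le_right _ _) (by linarith)
  have hsphere : ∀ t ∈ sphere (0 : ℂ) ρ, (g ∘ L) t ≠ 0 := by
    intro t ht
    refine hρ₀' ⟨?_, ?_⟩
    · rw [mem_ball_zero_iff]; rw [mem_sphere_zero_iff_norm] at ht; linarith
    · rw [mem_compl_iff, mem_singleton_iff]
      rintro rfl
      simp only [mem_sphere_iff_norm, sub_zero, norm_zero] at ht
      linarith
  have hcb : closedBall (0 : ℂ) ρ ⊆ ball 0 R := closedBall_subset_ball hρR
  have hcomp : IsCompact (sphere (0 : ℂ) ρ) := isCompact_sphere _ _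
  obtain ⟨δ, hδ, hδ'⟩ : ∃ δ > 0, ∀ t ∈ sphere (0 : ℂ) ρ, δ ≤ ‖(g ∘ L) t‖ := by
    have hnonempty : (sphere (0 : ℂ) ρ).Nonempty := NormedSpace.sphere_nonempty.2 hρ0.le
    obtain ⟨t₀, ht₀, hmin⟩ := hcomp.exists_isMinOn hnonempty
      ((hu.continuousOn.mono (sphere_subset_closedBall.trans hcb)).norm)
    exact ⟨‖(g ∘ L) t₀‖, norm_pos_iff.2 (hsphere t₀ ht₀), fun t ht => hmin ht⟩
  have hunif : TendstoUniformlyOn (fun k => f k ∘ L) (g ∘ L) l (closedBall (0 : ℂ) ρ) := by
    have h2 : TendstoLocallyUniformlyOn (fun k => f k ∘ L) (g ∘ L) l (ball (0 : ℂ) R) :=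
      h.comp L hLm hLc.continuous.continuousOn
    exact (tendstoLocallyUniformlyOn_iff_tendstoUniformlyOn_of_compact
      (isCompact_closedBall _ _)).1 (h2.mono hcb)
  have hev := Metric.tendstoUniformlyOn_iff.1 hunif (δ / 2) (by positivity)
  obtain ⟨k, hk, hfk, hnek⟩ := (hev.and (hf.and hne)).exists
  -- the function `1 / (f k ∘ L)`
  set w : ℂ → ℂ := fun t => ((f k ∘ L) t)⁻¹ with hw
  have hfkL : DifferentiableOn ℂ (f k ∘ L) (ball 0 R) := hfk.comp hLc.differentiableOn hLm
  have hwd : DifferentiableOn ℂ w (ball 0 R) := by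
    intro t ht
    exact (hfkL t ht).inv (hnek _ (hLm ht))
  have hwb : ∀ t ∈ sphere (0 : ℂ) ρ, ‖w t‖ ≤ (δ / 2)⁻¹ := by
    intro t ht
    rw [hw]
    simp only [norm_inv]
    refine inv_anti₀ (by positivity) ?_
    have h2 := hk t (sphere_subset_closedBall ht)
    have h3 := hδ' t ht
    rw [dist_eq_norm] at h2
    have h4 : ‖(g ∘ L) t‖ - ‖(f k ∘ L) t‖ ≤ ‖(g ∘ L) t - (f k ∘ L) t‖ := norm_sub_norm_le _ _
    linarith
  have hw0 : ‖w 0‖ ≤ (δ / 2)⁻¹ := by
    refine Complex.norm_le_of_forall_mem_frontier_norm_le (U := ball (0 : ℂ) ρ) isBounded_ball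
      (hwd.mono (by rw [closure_ball _ hρ0.ne']; exact hcb)).diffContOnCl ?_ ?_
    · rw [frontier_ball _ hρ0.ne']
      exact hwb
    · exact subset_closure (mem_ball_self hρ0)
  have h5 := hk 0 (mem_closedBall_self hρ0.le)
  rw [dist_eq_norm, hu0, zero_sub, norm_neg] at h5
  have h6 : (f k ∘ L) 0 ≠ 0 := hnek _ (hLm h0mem)
  rw [hw] at hw0
  simp only [norm_inv] at hw0
  have h7 : 0 < ‖(f k ∘ L) 0‖ := norm_pos_iff.2 h6
  have h8 : δ / 2 ≤ ‖(f k ∘ L) 0‖ := (inv_le_inv₀ h7 (by positivity)).1 hw0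
  linarith

end Crest.Agent.R264
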