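import Mathlib
import Crest.Agent.R264.MontelU
import Crest.Agent.R264.AbI2

/-!
Row 264, node D7 (abelian ideals), part 3: the extremal Jacobian function `P` (helper792).

`X l`, `l : ι`, are holomorphic vector fields on `D`; `P x` is the supremum of
`‖det (F_i'(x) X_l(x))‖` over the holomorphic maps `F : D → closed unit polydisc ℂ^ι`.
-/

set_option autoImplicit false
set_option maxHeartbeats 400000
set_option linter.unusedSectionVars false

open Set Filter Topology Metric

noncomputable section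

namespace Crest.Agent.R264.AbI

open Crest.Agent.R266.SCV

variable {E : Type*} [NormedAddCommGroup E] [NormedSpace ℂ E] [FiniteDimensional ℂ E]
variable {ι : Type*} [Fintype ι] [DecidableEq ι]

/-- admissible maps -/
def Adm (D : Set E) (F : E → (ι → ℂ)) : Prop := DifferentiableOn ℂ F D ∧ ∀ x ∈ D, ‖F x‖ ≤ 1

/-- the Jacobian of `F` with respect to the fields `X l` -/
def J (X : ι → E → E) (F : E → (ι → ℂ)) (x : E) : ℂ :=
  Matrix.det (Matrix.of fun i l => fderiv ℂ F x (X l x) i)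

/-- the extremal function -/
def P (D : Set E) (X : ι → E → E) (x : E) : ℝ := ⨆ F : {F : E → (ι → ℂ) // Adm D F}, ‖J X F.1 x‖

variable {D : Set E} {X : ι → E → E}

lemma adm_zero : Adm D (0 : E → (ι → ℂ)) := ⟨differentiableOn_const _, fun x _ => by simp⟩

instance : Nonempty {F : E → (ι → ℂ) // Adm D F} := ⟨⟨0, adm_zero⟩⟩

lemma differentiableOn_fderiv (hD : IsOpen D) {G : Type*} [NormedAddCommGroup G] [NormedSpace ℂ G]
    [CompleteSpace G] {F : E → G} (hF : DifferentiableOn ℂ F D) :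
    DifferentiableOn ℂ (fderiv ℂ F) D := by
  have : CompleteSpace E := FiniteDimensional.complete ℂ E
  exact (analyticOnNhd_of_differentiableOn hD hF).fderiv.differentiableOn

lemma differentiableOn_J (hD : IsOpen D) (hX : ∀ l, DifferentiableOn ℂ (X l) D)
    {F : E → (ι → ℂ)} (hF : DifferentiableOn ℂ F D) : DifferentiableOn ℂ (J X F) D := by
  have h1 := differentiableOn_fderiv hD hF
  have h2 : ∀ i l, DifferentiableOn ℂ (fun x => fderiv ℂ F x (X l x) i) D := fun i l =>
    differentiableOn_pi.1 (h1.clm_apply (hX l)) i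
  have h3 : J X F = fun x => ∑ σ : Equiv.Perm ι, ((Equiv.Perm.sign σ : ℤ) : ℂ) *
      ∏ i, fderiv ℂ F x (X i x) (σ i) := by
    funext x
    rw [J, Matrix.det_apply']
    rfl
  rw [h3]
  apply DifferentiableOn.fun_sum
  intro σ _
  apply DifferentiableOn.const_mul
  have h4 : ∀ s : Finset ι, DifferentiableOn ℂ (fun y => ∏ i ∈ s, fderiv ℂ F y (X i y) (σ i)) D := by
    intro s
    induction s using Finset.induction_on with
    | empty => simp
    | insert a s ha ih =>
      simp only [Finset.prod_insert ha]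
      exact (h2 _ _).mul ih
  exact h4 _

lemma continuousOn_J (hD : IsOpen D) (hX : ∀ l, DifferentiableOn ℂ (X l) D)
    {F : E → (ι → ℂ)} (hF : DifferentiableOn ℂ F D) : ContinuousOn (J X F) D :=
  (differentiableOn_J hD hX hF).continuousOn

lemma norm_J_le {F : E → (ι → ℂ)} {x : E} {C : ℝ}
    (h : ∀ l, ‖fderiv ℂ F x (X l x)‖ ≤ C) :
    ‖J X F x‖ ≤ (Fintype.card ι).factorial • C ^ Fintype.card ι := by
  have h1 := Matrix.det_le (A := Matrix.of fun i l => fderiv ℂ F x (X l x) i)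
    (abv := (NormedField.toAbsoluteValue ℂ)) (x := C) (fun i l =>
      (norm_le_pi_norm (fderiv ℂ F x (X l x)) i).trans (h l))
  exact h1

/-- local uniform bound for the Jacobians -/
lemma exists_bound (hD : IsOpen D) (hX : ∀ l, ContinuousOn (X l) D) {x : E} (hx : x ∈ D) :
    ∃ r > 0, ∃ C : ℝ, ball x r ⊆ D ∧ ∀ F : E → (ι → ℂ), Adm D F → ∀ y ∈ ball x r, ‖J X F y‖ ≤ C := by
  have : ProperSpace E := FiniteDimensional.proper ℂ E
  obtain ⟨s, hs, hsD⟩ := Metric.isOpen_iff.1 hD x hx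
  have hK : IsCompact (closedBall x (s / 2)) := isCompact_closedBall _ _
  have hKD : closedBall x (s / 2) ⊆ D := (closedBall_subset_ball (by linarith)).trans hsD
  have hb : ∀ l, ∃ C : ℝ, ∀ y ∈ closedBall x (s / 2), ‖X l y‖ ≤ C := fun l =>
    hK.exists_bound_of_continuousOn ((hX l).mono hKD)
  choose C hC using hb
  set M : ℝ := ∑ l, |C l| with hM
  have hM' : ∀ l, ∀ y ∈ closedBall x (s / 2), ‖X l y‖ ≤ M := fun l y hy =>
    ((hC l y hy).trans (le_abs_self _)).trans
      (Finset.single_le_sum (f := fun l => |C l|) (fun _ _ => abs_nonneg _) (Finset.mem_univ l))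
  have hM0 : 0 ≤ M := Finset.sum_nonneg (fun _ _ => abs_nonneg _)
  refine ⟨s / 2, by positivity, (Fintype.card ι).factorial • (1 / (s / 2) * M) ^ Fintype.card ι,
    ball_subset_closedBall.trans hKD, fun F hF y hy => norm_J_le (fun l => ?_)⟩
  have hsub : ball y (s / 2) ⊆ D := by
    refine (ball_subset_ball' ?_).trans hsD
    rw [mem_ball] at hy
    linarith
  calc ‖fderiv ℂ F y (X l y)‖ ≤ ‖fderiv ℂ F y‖ * ‖X l y‖ := (fderiv ℂ F y).le_opNorm _
    _ ≤ 1 / (s / 2) * M := by
      gcongr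
      · exact norm_fderiv_le_of_ball (by positivity) (hF.1.mono hsub) (fun z hz => hF.2 z (hsub hz))
      · exact hM' l y (ball_subset_closedBall hy)

lemma bddAbove (hD : IsOpen D) (hX : ∀ l, ContinuousOn (X l) D) {x : E} (hx : x ∈ D) :
    BddAbove (range fun F : {F : E → (ι → ℂ) // Adm D F} => ‖J X F.1 x‖) := by
  obtain ⟨r, hr, C, -, hC⟩ := exists_bound (X := X) hD hX hx
  refine ⟨C, ?_⟩
  rintro _ ⟨F, rfl⟩
  exact hC F.1 F.2 x (mem_ball_self hr)

lemma norm_J_le_P (hD : IsOpen D) (hX : ∀ l, ContinuousOn (X l) D) {x : E} (hx : x ∈ D)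
    {F : E → (ι → ℂ)} (hF : Adm D F) : ‖J X F x‖ ≤ P D X x :=
  le_ciSup (bddAbove hD hX hx) (⟨F, hF⟩ : {F : E → (ι → ℂ) // Adm D F})

/-- the supremum is attained -/
lemma exists_extremal (hD : IsOpen D) (hX : ∀ l, ContinuousOn (X l) D) {x : E} (hx : x ∈ D) :
    ∃ F : E → (ι → ℂ), Adm D F ∧ ‖J X F x‖ = P D X x := by
  set S := {F : E → (ι → ℂ) // Adm D F}
  have hcl : P D X x ∈ closure (range fun F : S => ‖J X F.1 x‖) :=
    csSup_mem_closure (range_nonempty _) (bddAbove hD hX hx)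
  have hne : (comap (fun F : S => ‖J X F.1 x‖) (𝓝 (P D X x))).NeBot := by
    rw [comap_neBot_iff_frequently]
    exact mem_closure_iff_frequently.1 hcl
  set u := Ultrafilter.of (comap (fun F : S => ‖J X F.1 x‖) (𝓝 (P D X x))) with hu
  have hle : (u : Filter S) ≤ comap (fun F : S => ‖J X F.1 x‖) (𝓝 (P D X x)) :=
    Ultrafilter.of_le _
  have ht : Tendsto (fun F : S => ‖J X F.1 x‖) u (𝓝 (P D X x)) :=
    tendsto_comap.mono_left hle
  obtain ⟨g, hg, hgd, hgb⟩ := montel_ultra u hD (f := fun F : S => F.1) (M := 1)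
    (fun F => F.2.1) (fun F => F.2.2)
  have h1 := tlu_fderiv hD hg (Eventually.of_forall (fun F => F.2.1))
  have h2 : Tendsto (fun F : S => fderiv ℂ F.1 x) u (𝓝 (fderiv ℂ g x)) := h1.tendsto_at hx
  have h3 : Tendsto (fun F : S => ‖J X F.1 x‖) u (𝓝 ‖J X g x‖) := by
    apply Tendsto.norm
    have h4 : Continuous (fun L : E →L[ℂ] (ι → ℂ) =>
        Matrix.det (Matrix.of fun i l => L (X l x) i)) := by
      apply Continuous.matrix_det
      refine continuous_pi (fun i => continuous_pi (fun l => ?_))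
      exact (continuous_apply i).comp (ContinuousLinearMap.apply ℂ (ι → ℂ) (X l x)).continuous
    exact (h4.tendsto _).comp h2
  exact ⟨g, ⟨hgd, hgb⟩, tendsto_nhds_unique h3 ht⟩

/-- the Jacobians are uniformly Lipschitz near a point -/
lemma exists_lipschitz (hD : IsOpen D) (hX : ∀ l, DifferentiableOn ℂ (X l) D) {x : E}
    (hx : x ∈ D) : ∃ r > 0, ∃ C : ℝ, 0 ≤ C ∧ ball x r ⊆ D ∧ ∀ F : E → (ι → ℂ), Adm D F →
      ∀ y ∈ ball x r, ∀ z ∈ ball x r, ‖J X F y - J X F z‖ ≤ C * ‖y - z‖ := by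
  obtain ⟨r, hr, C, hrD, hC⟩ := exists_bound (X := X) hD (fun l => (hX l).continuousOn) hx
  have hC0 : 0 ≤ C := (norm_nonneg _).trans (hC 0 adm_zero x (mem_ball_self hr))
  refine ⟨r / 2, by positivity, C / (r / 2), by positivity,
    (ball_subset_ball (by linarith)).trans hrD, fun F hF y hy z hz => ?_⟩
  exact norm_sub_le_of_bounded (D := ball x r) ((differentiableOn_J hD hX hF.1).mono hrD)
    (hC F hF) (by positivity) (by rw [mul_div_cancel₀ _ (two_ne_zero)]) hz hy

lemma continuousOn_P (hD : IsOpen D) (hX : ∀ l, DifferentiableOn ℂ (X l) D) :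
    ContinuousOn (P D X) D := by
  intro x hx
  apply ContinuousAt.continuousWithinAt
  obtain ⟨r, hr, C, hC0, hrD, hC⟩ := exists_lipschitz hD hX hx
  have hXc : ∀ l, ContinuousOn (X l) D := fun l => (hX l).continuousOn
  have key : ∀ y ∈ ball x r, ∀ z ∈ ball x r, P D X y ≤ P D X z + C * ‖y - z‖ := by
    intro y hy z hz
    refine ciSup_le (fun F => ?_)
    have h1 := hC F.1 F.2 y hy z hz
    have h2 := norm_J_le_P hD hXc (hrD hz) F.2
    have h3 : ‖J X F.1 y‖ ≤ ‖J X F.1 z‖ + ‖J X F.1 y - J X F.1 z‖ := by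
      have := norm_add_le (J X F.1 z) (J X F.1 y - J X F.1 z)
      simpa using this
    linarith
  have hlip : LipschitzOnWith (Real.toNNReal C) (P D X) (ball x r) := by
    apply LipschitzOnWith.of_dist_le_mul
    intro y hy z hz
    rw [Real.coe_toNNReal _ hC0, Real.dist_eq, dist_eq_norm, abs_le]
    have h1 := key y hy z hz
    have h2 := key z hz y hy
    rw [norm_sub_rev z y] at h2
    constructor <;> linarith
  exact hlip.continuousOn.continuousAt (ball_mem_nhds x hr)

lemma P_nonneg {x : E} : 0 ≤ P D X x := Real.iSup_nonneg (fun _ => norm_nonneg _)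

/-- `P > 0` where the fields are linearly independent -/
lemma P_pos (hD : IsOpen D) (hDb : Bornology.IsBounded D) (hX : ∀ l, ContinuousOn (X l) D)
    {x : E} (hx : x ∈ D) (hli : LinearIndependent ℂ (fun l => X l x)) : 0 < P D X x := by
  classical
  obtain ⟨M, hM⟩ := hDb.exists_norm_le
  -- the dual functionals
  obtain ⟨f, hf⟩ : ∃ f : E →ₗ[ℂ] (ι → ℂ), ∀ l, f (X l x) = Pi.single l 1 := by
    have hc : ∃ f : E →ₗ[ℂ] (ι → ℂ), f ∘ₗ (Fintype.linearCombination ℂ (fun l => X l x)) =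
        LinearMap.id := by
      apply LinearMap.exists_leftInverse_of_injective
      rw [LinearMap.ker_eq_bot]
      exact hli.fintypeLinearCombination_injective
    obtain ⟨f, hf⟩ := hc
    refine ⟨f, fun l => ?_⟩
    have h1 := congrArg (fun g : (ι → ℂ) →ₗ[ℂ] (ι → ℂ) => g (Pi.single l 1)) hf
    simpa using h1
  set g : E →L[ℂ] (ι → ℂ) := LinearMap.toContinuousLinearMap f with hg
  set ε : ℝ := 1 / (1 + ‖g‖ * |M|) with hε
  have hε0 : 0 < ε := by positivity
  set F : E → (ι → ℂ) := fun y => (ε : ℂ) • g y with hF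
  have hFadm : Adm D F := by
    refine ⟨by rw [hF]; fun_prop, fun y hy => ?_⟩
    rw [hF]
    simp only [norm_smul, Complex.norm_real, Real.norm_eq_abs, abs_of_pos hε0]
    have h1 : ‖g y‖ ≤ ‖g‖ * |M| := (g.le_opNorm y).trans (by
      gcongr
      exact (hM y hy).trans (le_abs_self _))
    rw [hε, one_div, inv_mul_le_iff₀ (by positivity)]
    linarith
  have hder : fderiv ℂ F x = (ε : ℂ) • g := by
    rw [hF]
    exact (g.hasFDerivAt.const_smul (ε : ℂ)).fderiv
  have hJ : J X F x = (ε : ℂ) ^ Fintype.card ι := by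
    have h2 : (Matrix.of fun i l => fderiv ℂ F x (X l x) i) = (ε : ℂ) • (1 : Matrix ι ι ℂ) := by
      ext i l
      rw [Matrix.of_apply, hder]
      simp only [_root_.smul_apply, Pi.smul_apply, Matrix.smul_apply]
      congr 1
      have h3 : g (X l x) = f (X l x) := rfl
      rw [h3, hf l, Matrix.one_apply, Pi.single_apply]
    rw [J, h2, Matrix.det_smul, Matrix.det_one, mul_one]
  have h4 := norm_J_le_P hD hX hx hFadm
  rw [hJ] at h4
  refine lt_of_lt_of_le ?_ h4
  rw [norm_pow]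
  apply pow_pos
  simpa using hε0.ne'

/-- `log P` has the sub-mean value property -/
lemma log_P_le (hD : IsOpen D) (hX : ∀ l, DifferentiableOn ℂ (X l) D)
    (hpos : ∀ x ∈ D, 0 < P D X x) {x ξ : E} (hdisc : ∀ ζ : ℂ, ‖ζ‖ ≤ 1 → x + ζ • ξ ∈ D) :
    Real.log (P D X x) ≤ Real.circleAverage (fun ζ : ℂ => Real.log (P D X (x + ζ • ξ))) 0 1 := by
  have hXc : ∀ l, ContinuousOn (X l) D := fun l => (hX l).continuousOn
  have hxD : x ∈ D := by simpa using hdisc 0 (by simp)
  obtain ⟨F, hF, hFx⟩ := exists_extremal hD hXc hxD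
  have hcont : Continuous (fun ζ : ℂ => x + ζ • ξ) := by fun_prop
  have han : AnalyticOnNhd ℂ (fun ζ : ℂ => J X F (x + ζ • ξ)) (closedBall 0 1) := by
    have h1 : DifferentiableOn ℂ (fun ζ : ℂ => J X F (x + ζ • ξ))
        ((fun ζ : ℂ => x + ζ • ξ) ⁻¹' D) :=
      (differentiableOn_J hD hX hF.1).comp (by fun_prop) (fun ζ hζ => hζ)
    have h2 := h1.analyticOnNhd (hD.preimage hcont)
    exact h2.mono (fun ζ hζ => hdisc ζ (by simpa using hζ))
  have h3 := log_norm_le_circleAverage_of_le (P := fun ζ : ℂ => P D X (x + ζ • ξ)) han (by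
    intro h0
    simp only [zero_smul, add_zero] at h0
    rw [h0, norm_zero] at hFx
    exact (hpos x hxD).ne hFx)
    ((continuousOn_P hD hX).comp hcont.continuousOn (fun ζ hζ => hdisc ζ (by
      rw [mem_sphere_zero_iff_norm] at hζ; exact hζ.le)))
    (fun ζ hζ => hpos _ (hdisc ζ (by rw [mem_sphere_zero_iff_norm] at hζ; exact hζ.le)))
    (fun ζ hζ => norm_J_le_P hD hXc (hdisc ζ (by
      rw [mem_sphere_zero_iff_norm] at hζ; exact hζ.le)) hF)
  simp only [zero_smul, add_zero] at h3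
  rw [hFx] at h3
  exact h3

end Crest.Agent.R264.AbI
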