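import Mathlib
import Crest.Agent.R264.AbI3

/-!
Row 264, node D7 (abelian ideals), part 4: rigidity of the extremal function (helper792).

If `log P` has the mean value property then there is an `F` extremal at every point of `D`, and the
Schwarz-Pick trick gives a contradiction.  Also: transformation of `P` under automorphisms.
-/

set_option autoImplicit false
set_option maxHeartbeats 400000
set_option linter.unusedSectionVars false

open Set Filter Topology Metric
open scoped ComplexConjugate

noncomputable section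

namespace Crest.Agent.R264.AbI

open Crest.Agent.R266.SCV

variable {E : Type*} [NormedAddCommGroup E] [NormedSpace ℂ E] [FiniteDimensional ℂ E]
variable {ι : Type*} [Fintype ι] [DecidableEq ι]
variable {D : Set E} {X : ι → E → E}

/-- an extremal map at one point is extremal everywhere -/
theorem extremal_everywhere (hD : IsOpen D) (hDc : IsPreconnected D)
    (hX : ∀ l, DifferentiableOn ℂ (X l) D) (hpos : ∀ x ∈ D, 0 < P D X x)
    (hmean : ∀ x ξ, (∀ ζ : ℂ, ‖ζ‖ ≤ 1 → x + ζ • ξ ∈ D) →
      Real.log (P D X x) = Real.circleAverage (fun ζ : ℂ => Real.log (P D X (x + ζ • ξ))) 0 1)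
    {F : E → (ι → ℂ)} (hF : Adm D F) {x₀ : E} (hx₀ : x₀ ∈ D) (hFx : ‖J X F x₀‖ = P D X x₀) :
    ∀ x ∈ D, ‖J X F x‖ = P D X x := by
  have hXc : ∀ l, ContinuousOn (X l) D := fun l => (hX l).continuousOn
  have hJc : ContinuousOn (fun x => ‖J X F x‖) D := (continuousOn_J hD hX hF.1).norm
  have hPc := continuousOn_P (X := X) hD hX
  set S : Set E := {x ∈ D | ‖J X F x‖ = P D X x} with hS
  -- `S` is open
  have hSo : IsOpen S := by
    rw [Metric.isOpen_iff]
    rintro x ⟨hx, hxe⟩
    -- a ball in `D` where `J F` does not vanish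
    have hJx : J X F x ≠ 0 := by
      intro h0
      rw [h0, norm_zero] at hxe
      exact (hpos x hx).ne hxe
    have hev : ∀ᶠ y in 𝓝 x, y ∈ D ∧ J X F y ≠ 0 := by
      filter_upwards [hD.mem_nhds hx,
        ((continuousOn_J hD hX hF.1).continuousAt (hD.mem_nhds hx)).eventually_ne hJx] with y h1 h2
      exact ⟨h1, h2⟩
    obtain ⟨r, hr, hrD⟩ := Metric.eventually_nhds_iff_ball.1 hev
    refine ⟨r, hr, fun y hy => ?_⟩
    set ξ := y - x with hξ
    have hmem : ∀ ζ : ℂ, ‖ζ‖ ≤ 1 → x + ζ • ξ ∈ ball x r := by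
      intro ζ hζ
      rw [mem_ball, dist_eq_norm, add_sub_cancel_left, norm_smul]
      have h1 : ‖ξ‖ < r := by rwa [mem_ball, dist_eq_norm] at hy
      calc ‖ζ‖ * ‖ξ‖ ≤ 1 * ‖ξ‖ := by gcongr
        _ < r := by rwa [one_mul]
    have hdisc : ∀ ζ : ℂ, ‖ζ‖ ≤ 1 → x + ζ • ξ ∈ D := fun ζ hζ => (hrD _ (hmem ζ hζ)).1
    have hne : ∀ ζ : ℂ, ‖ζ‖ ≤ 1 → J X F (x + ζ • ξ) ≠ 0 := fun ζ hζ => (hrD _ (hmem ζ hζ)).2
    have hcont : Continuous (fun ζ : ℂ => x + ζ • ξ) := by fun_prop
    have han : AnalyticOnNhd ℂ (fun ζ : ℂ => J X F (x + ζ • ξ)) (closedBall 0 1) := by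
      have h1 : DifferentiableOn ℂ (fun ζ : ℂ => J X F (x + ζ • ξ))
          ((fun ζ : ℂ => x + ζ • ξ) ⁻¹' D) :=
        (differentiableOn_J hD hX hF.1).comp (by fun_prop) (fun ζ hζ => hζ)
      have h2 := h1.analyticOnNhd (hD.preimage hcont)
      exact h2.mono (fun ζ hζ => hdisc ζ (by simpa using hζ))
    have h3 := log_norm_eq_circleAverage han (fun z hz => hne z (by simpa using hz))
    simp only [zero_smul, add_zero] at h3
    have h4 := hmean x ξ hdisc
    have hsph : ∀ ζ ∈ sphere (0 : ℂ) 1, ‖ζ‖ ≤ 1 := fun ζ hζ => by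
      rw [mem_sphere_zero_iff_norm] at hζ; exact hζ.le
    have h5 := eq_of_circleAverage_le (u := fun ζ : ℂ => Real.log ‖J X F (x + ζ • ξ)‖)
      (v := fun ζ : ℂ => Real.log (P D X (x + ζ • ξ)))
      (ContinuousOn.log (hJc.comp hcont.continuousOn (fun ζ hζ => hdisc ζ (hsph ζ hζ)))
        (fun ζ hζ => norm_ne_zero_iff.2 (hne ζ (hsph ζ hζ))))
      (ContinuousOn.log (hPc.comp hcont.continuousOn (fun ζ hζ => hdisc ζ (hsph ζ hζ)))
        (fun ζ hζ => (hpos _ (hdisc ζ (hsph ζ hζ))).ne'))
      (fun ζ hζ => Real.log_le_log (norm_pos_iff.2 (hne ζ (hsph ζ hζ)))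
        (norm_J_le_P hD hXc (hdisc ζ (hsph ζ hζ)) hF))
      (by rw [h3, ← h4, hxe])
    have h6 : x + (1 : ℂ) • ξ = y := by rw [one_smul, hξ]; abel
    simp only [h6] at h5
    have hyD : y ∈ D := (hrD y hy).1
    refine ⟨hyD, ?_⟩
    exact Real.log_injOn_pos (norm_pos_iff.2 (hrD y hy).2) (hpos y hyD) h5
  -- `S` is closed in `D`
  have hsub : D ⊆ S := by
    by_contra hcon
    have h1 : (D ∩ {x ∈ D | ‖J X F x‖ ≠ P D X x}).Nonempty := by
      rw [not_subset] at hcon
      obtain ⟨y, hy, hyS⟩ := hcon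
      exact ⟨y, hy, hy, fun h => hyS ⟨hy, h⟩⟩
    have hTo : IsOpen {x ∈ D | ‖J X F x‖ ≠ P D X x} := by
      rw [isOpen_iff_mem_nhds]
      rintro y ⟨hy, hne⟩
      have hc1 := hJc.continuousAt (hD.mem_nhds hy)
      have hc2 := hPc.continuousAt (hD.mem_nhds hy)
      filter_upwards [hD.mem_nhds hy, hc1.ne_iff_eventually_ne hc2 |>.1 hne] with z hz hz'
      exact ⟨hz, hz'⟩
    obtain ⟨z, -, hz1, hz2⟩ := hDc S _ hSo hTo (fun z hz => by
      by_cases h : ‖J X F z‖ = P D X z
      · exact Or.inl ⟨hz, h⟩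
      · exact Or.inr ⟨hz, h⟩) ⟨x₀, hx₀, hx₀, hFx⟩ h1
    exact hz2.2 hz1.2
  exact fun x hx => (hsub hx).2

/-- the Schwarz-Pick trick: a map extremal at every point does not exist -/
theorem schwarz_pick (hD : IsOpen D) [Nonempty ι]
    (hX : ∀ l, DifferentiableOn ℂ (X l) D) (hpos : ∀ x ∈ D, 0 < P D X x)
    {F : E → (ι → ℂ)} (hF : Adm D F) (hext : ∀ x ∈ D, ‖J X F x‖ = P D X x) (hne : D.Nonempty) :
    False := by
  have hXc : ∀ l, ContinuousOn (X l) D := fun l => (hX l).continuousOn
  obtain ⟨i₀⟩ := ‹Nonempty ι›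
  have hJ0 : ∀ x ∈ D, J X F x ≠ 0 := by
    intro x hx h0
    have h1 := hext x hx
    rw [h0, norm_zero] at h1
    exact (hpos x hx).ne h1
  have hFi : ∀ x ∈ D, ‖F x i₀‖ ≤ 1 := fun x hx => (norm_le_pi_norm (F x) i₀).trans (hF.2 x hx)
  have hFid : DifferentiableOn ℂ (fun x => F x i₀) D := differentiableOn_pi.1 hF.1 i₀
  -- the row `i₀` of the Jacobian matrix vanishes if the derivative of `F_{i₀}` vanishes
  have hrow : ∀ x ∈ D, fderiv ℂ (fun x => F x i₀) x ≠ 0 := by
    intro x hx h0
    apply hJ0 x hx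
    apply Matrix.det_eq_zero_of_row_eq_zero i₀
    intro l
    rw [Matrix.of_apply]
    have h1 : HasFDerivAt (fun x => F x i₀)
        ((ContinuousLinearMap.proj i₀).comp (fderiv ℂ F x)) x :=
      (ContinuousLinearMap.proj (R := ℂ) (φ := fun _ : ι => ℂ) i₀).hasFDerivAt.comp x
        (hF.1.differentiableAt (hD.mem_nhds hx)).hasFDerivAt
    have h2 := h1.fderiv
    rw [h0] at h2
    have h3 := congrArg (fun L : E →L[ℂ] ℂ => L (X l x)) h2
    simpa using h3.symm
  -- main claim
  have hzero : ∀ x ∈ D, F x i₀ = 0 := by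
    intro x hx
    set a := F x i₀ with ha
    have ha1 : ‖a‖ ≤ 1 := hFi x hx
    rcases ha1.lt_or_eq with hlt | heq
    · -- the modified map
      have hden : ∀ w : ℂ, ‖w‖ ≤ 1 → 1 - conj a * w ≠ 0 := by
        intro w hw h0
        have h1 : conj a * w = 1 := (sub_eq_zero.1 h0).symm
        have h2 : ‖conj a * w‖ = 1 := by rw [h1]; simp
        rw [norm_mul, RCLike.norm_conj] at h2
        have h3 : ‖a‖ * ‖w‖ ≤ ‖a‖ * 1 := by gcongr
        linarith
      set φ : ℂ → ℂ := fun w => (w - a) / (1 - conj a * w) with hφ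
      have hφle : ∀ w : ℂ, ‖w‖ ≤ 1 → ‖φ w‖ ≤ 1 := by
        intro w hw
        rw [hφ]
        simp only [norm_div]
        rw [div_le_one (norm_pos_iff.2 (hden w hw))]
        have h1 : Complex.normSq (w - a) ≤ Complex.normSq (1 - conj a * w) := by
          have h2 : Complex.normSq (1 - conj a * w) - Complex.normSq (w - a)
              = (1 - Complex.normSq a) * (1 - Complex.normSq w) := by
            simp only [Complex.normSq_apply, Complex.sub_re, Complex.sub_im, Complex.mul_re,
              Complex.mul_im, Complex.conj_re, Complex.conj_im, Complex.one_re, Complex.one_im]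
            ring
          have h3 : 0 ≤ 1 - Complex.normSq a := by
            rw [Complex.normSq_eq_norm_sq]
            nlinarith [norm_nonneg a]
          have h4 : 0 ≤ 1 - Complex.normSq w := by
            rw [Complex.normSq_eq_norm_sq]
            nlinarith [norm_nonneg w]
          nlinarith [mul_nonneg h3 h4]
        rw [Complex.normSq_eq_norm_sq, Complex.normSq_eq_norm_sq] at h1
        exact (sq_le_sq₀ (norm_nonneg _) (norm_nonneg _)).1 h1
      have hφd : ∀ w : ℂ, ‖w‖ ≤ 1 → DifferentiableAt ℂ φ w := by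
        intro w hw
        exact DifferentiableAt.div (by fun_prop) (by fun_prop) (hden w hw)
      have hφ' : HasDerivAt φ (1 / (1 - conj a * a)) a := by
        have h1 : HasDerivAt φ ((1 * (1 - conj a * a) - (a - a) * (0 - conj a * 1))
            / (1 - conj a * a) ^ 2) a :=
          ((hasDerivAt_id a).sub_const a).div
            ((hasDerivAt_const a (1 : ℂ)).sub ((hasDerivAt_id a).const_mul (conj a))) (hden a ha1)
        convert h1 using 1
        have := hden a ha1
        field_simp
        ring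
      set G : E → (ι → ℂ) := fun y => Function.update (F y) i₀ (φ (F y i₀)) with hG
      have hGi : ∀ y i, G y i = if i = i₀ then φ (F y i₀) else F y i := by
        intro y i
        rw [hG]
        simp only [Function.update_apply]
      have hGadm : Adm D G := by
        refine ⟨?_, fun y hy => ?_⟩
        · rw [differentiableOn_pi]
          intro i
          by_cases hi : i = i₀
          · have : (fun y => G y i) = fun y => φ (F y i₀) := by
              funext y; rw [hGi, if_pos hi]
            rw [this]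
            intro y hy
            exact DifferentiableAt.comp_differentiableWithinAt y
              (hφd _ (hFi y hy)) (hFid y hy)
          · have : (fun y => G y i) = fun y => F y i := by
              funext y; rw [hGi, if_neg hi]
            rw [this]
            exact differentiableOn_pi.1 hF.1 i
        · rw [pi_norm_le_iff_of_nonneg zero_le_one]
          intro i
          rw [hGi]
          split_ifs with hi
          · exact hφle _ (hFi y hy)
          · exact (norm_le_pi_norm (F y) i).trans (hF.2 y hy)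
      have hFx : DifferentiableAt ℂ F x := hF.1.differentiableAt (hD.mem_nhds hx)
      have hGx : DifferentiableAt ℂ G x := hGadm.1.differentiableAt (hD.mem_nhds hx)
      set c : ℂ := 1 / (1 - conj a * a) with hc
      -- the Jacobian of `G`
      have hder : ∀ v i, fderiv ℂ G x v i = (if i = i₀ then c else 1) * fderiv ℂ F x v i := by
        intro v i
        have hpr : ∀ {H : E → (ι → ℂ)}, DifferentiableAt ℂ H x → ∀ i,
            HasFDerivAt (fun y => H y i)
              ((ContinuousLinearMap.proj i).comp (fderiv ℂ H x)) x := fun {H} hH i =>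
          (ContinuousLinearMap.proj (R := ℂ) (φ := fun _ : ι => ℂ) i).hasFDerivAt.comp x
            hH.hasFDerivAt
        have h1 := hpr hGx i
        split_ifs with hi
        · have h2 : HasFDerivAt (fun y => φ (F y i₀))
              (c • ((ContinuousLinearMap.proj i₀).comp (fderiv ℂ F x))) x := by
            have h3 := hpr hFx i₀
            exact hφ'.comp_hasFDerivAt x h3
          have h4 : (fun y => G y i) = fun y => φ (F y i₀) := by
            funext y; rw [hGi, if_pos hi]
          rw [h4] at h1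
          have h5 := h1.unique h2
          have h6 := congrArg (fun L : E →L[ℂ] ℂ => L v) h5
          subst hi
          simpa using h6
        · have h4 : (fun y => G y i) = fun y => F y i := by
            funext y; rw [hGi, if_neg hi]
          rw [h4] at h1
          have h5 := h1.unique (hpr hFx i)
          have h6 := congrArg (fun L : E →L[ℂ] ℂ => L v) h5
          simpa using h6
      have hJG : J X G x = c * J X F x := by
        rw [J, J]
        have h1 : (Matrix.of fun i l => fderiv ℂ G x (X l x) i)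
            = Matrix.updateRow (Matrix.of fun i l => fderiv ℂ F x (X l x) i) i₀
              (c • (fun l => fderiv ℂ F x (X l x) i₀)) := by
          ext i l
          rw [Matrix.of_apply, hder, Matrix.updateRow_apply]
          split_ifs with hi
          · subst hi; simp
          · simp
        rw [h1, Matrix.det_updateRow_smul]
        congr 1
        have h2 : (fun l => fderiv ℂ F x (X l x) i₀)
            = (Matrix.of fun i l => fderiv ℂ F x (X l x) i) i₀ := by
          ext l; simp
        rw [h2, Matrix.updateRow_eq_self]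
      have hle := norm_J_le_P hD hXc hx hGadm
      rw [hJG, norm_mul, ← hext x hx] at hle
      have hJpos : 0 < ‖J X F x‖ := norm_pos_iff.2 (hJ0 x hx)
      have hc1 : ‖c‖ ≤ 1 := by
        by_contra h
        push Not at h
        nlinarith
      have h7 : ‖(1 : ℂ) - conj a * a‖ = 1 - ‖a‖ ^ 2 := by
        have h8 : (1 : ℂ) - conj a * a = ((1 - ‖a‖ ^ 2 : ℝ) : ℂ) := by
          rw [← Complex.normSq_eq_conj_mul_self, Complex.normSq_eq_norm_sq]
          push_cast
          ring
        rw [h8, Complex.norm_real, Real.norm_eq_abs, abs_of_nonneg]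
        nlinarith [norm_nonneg a]
      rw [hc, norm_div, norm_one, h7, div_le_one (by nlinarith [norm_nonneg a])] at hc1
      have h9 : ‖a‖ ^ 2 ≤ 0 := by linarith
      have h10 : ‖a‖ = 0 := by nlinarith [norm_nonneg a]
      exact norm_eq_zero.1 h10
    · -- `‖a‖ = 1`: the maximum principle
      exfalso
      have h1 : ∀ᶠ z in 𝓝 x, DifferentiableAt ℂ (fun x => F x i₀) z := by
        filter_upwards [hD.mem_nhds hx] with z hz
        exact hFid.differentiableAt (hD.mem_nhds hz)
      have h2 : IsLocalMax (norm ∘ fun x => F x i₀) x := by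
        filter_upwards [hD.mem_nhds hx] with z hz
        simp only [Function.comp_apply]
        rw [← ha, heq]
        exact hFi z hz
      have h3 := Complex.eventually_eq_of_isLocalMax_norm h1 h2
      apply hrow x hx
      have h4 : (fun x => F x i₀) =ᶠ[𝓝 x] fun _ => F x i₀ := h3
      rw [h4.fderiv_eq]
      simp
  obtain ⟨x, hx⟩ := hne
  apply hrow x hx
  have h4 : (fun x => F x i₀) =ᶠ[𝓝 x] fun _ => 0 := by
    filter_upwards [hD.mem_nhds hx] with z hz
    exact hzero z hz
  rw [h4.fderiv_eq]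
  simp

/-- **no pluriharmonic extremal function** -/
theorem no_mean (hD : IsOpen D) (hDc : IsPreconnected D) (hDb : Bornology.IsBounded D)
    (hne : D.Nonempty) [Nonempty ι] (hX : ∀ l, DifferentiableOn ℂ (X l) D)
    (hli : ∀ x ∈ D, LinearIndependent ℂ (fun l => X l x))
    (hmean : ∀ x ξ, (∀ ζ : ℂ, ‖ζ‖ ≤ 1 → x + ζ • ξ ∈ D) →
      Real.log (P D X x) = Real.circleAverage (fun ζ : ℂ => Real.log (P D X (x + ζ • ξ))) 0 1) :
    False := by
  have hXc : ∀ l, ContinuousOn (X l) D := fun l => (hX l).continuousOn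
  have hpos : ∀ x ∈ D, 0 < P D X x := fun x hx => P_pos hD hDb hXc hx (hli x hx)
  obtain ⟨x₀, hx₀⟩ := hne
  obtain ⟨F, hF, hFx⟩ := exists_extremal (X := X) hD hXc hx₀
  exact schwarz_pick hD hX hpos hF
    (extremal_everywhere hD hDc hX hpos hmean hF hx₀ hFx) ⟨x₀, hx₀⟩

/-- `P` increases under maps transforming the frame by a matrix. -/
lemma P_comp_le (hD : IsOpen D) (hX : ∀ l, ContinuousOn (X l) D) {f : E → E}
    (hf : DifferentiableOn ℂ f D) (hm : MapsTo f D D) {R : Matrix ι ι ℂ} {x : E} (hx : x ∈ D)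
    (hR : ∀ l, fderiv ℂ f x (X l x) = ∑ m, R m l • X m (f x)) :
    ‖R.det‖ * P D X (f x) ≤ P D X x := by
  obtain ⟨F, hF, hFx⟩ := exists_extremal (X := X) hD hX (hm hx)
  have hadm : Adm D (F ∘ f) := ⟨hF.1.comp hf hm, fun y hy => hF.2 _ (hm hy)⟩
  have h1 : fderiv ℂ (F ∘ f) x = (fderiv ℂ F (f x)).comp (fderiv ℂ f x) :=
    fderiv_comp x (hF.1.differentiableAt (hD.mem_nhds (hm hx)))
      (hf.differentiableAt (hD.mem_nhds hx))
  have h2 : J X (F ∘ f) x = J X F (f x) * R.det := by
    rw [J, J, ← Matrix.det_mul]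
    congr 1
    ext i l
    rw [Matrix.of_apply, h1, Matrix.mul_apply]
    simp only [ContinuousLinearMap.comp_apply, hR, map_sum, map_smul, Matrix.of_apply,
      Finset.sum_apply, Pi.smul_apply, smul_eq_mul]
    exact Finset.sum_congr rfl (fun m _ => mul_comm _ _)
  have h3 := norm_J_le_P hD hX hx hadm
  rw [h2, norm_mul, hFx] at h3
  linarith [mul_comm ‖R.det‖ (P D X (f x))]

/-- transformation of `log P` -/
theorem log_P_comp (hD : IsOpen D) (hX : ∀ l, ContinuousOn (X l) D)
    (hpos : ∀ x ∈ D, 0 < P D X x) {f g : E → E}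
    (hf : DifferentiableOn ℂ f D) (hm : MapsTo f D D) (hg : DifferentiableOn ℂ g D)
    (hmg : MapsTo g D D) (hgf : ∀ x ∈ D, g (f x) = x)
    {R S : Matrix ι ι ℂ} (hRS : R * S = 1)
    (hR : ∀ x ∈ D, ∀ l, fderiv ℂ f x (X l x) = ∑ m, R m l • X m (f x))
    (hS : ∀ x ∈ D, ∀ l, fderiv ℂ g x (X l x) = ∑ m, S m l • X m (g x)) :
    ∀ x ∈ D, Real.log (P D X (f x)) = Real.log (P D X x) + -Real.log ‖R.det‖ := by
  intro x hx
  have hdet : R.det * S.det = 1 := by rw [← Matrix.det_mul, hRS, Matrix.det_one]
  have hdn : ‖R.det‖ * ‖S.det‖ = 1 := by rw [← norm_mul, hdet, norm_one]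
  have hR0 : 0 < ‖R.det‖ := by
    rw [norm_pos_iff]
    intro h0
    rw [h0, zero_mul] at hdet
    exact zero_ne_one hdet
  have h1 := P_comp_le (X := X) hD hX hf hm hx (hR x hx)
  have h2 := P_comp_le (X := X) hD hX hg hmg (hm hx) (hS _ (hm hx))
  rw [hgf x hx] at h2
  have h3 : P D X x = ‖R.det‖ * P D X (f x) := by
    refine le_antisymm ?_ h1
    calc P D X x = ‖R.det‖ * (‖S.det‖ * P D X x) := by rw [← mul_assoc, hdn, one_mul]
      _ ≤ ‖R.det‖ * P D X (f x) := by gcongr
  rw [h3, Real.log_mul hR0.ne' (hpos _ (hm hx)).ne']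
  ring

end Crest.Agent.R264.AbI
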