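import Mathlib

/-!
Row 264 (S0402), part D5: the Bergman function.  FROZEN INTERFACE (helper587).
-/

set_option autoImplicit false

open MeasureTheory Set
open scoped ContDiff

namespace Crest.Agent.R264.Berg

/-- The Levi form `∑ u_{j k̄} ξ_j ξ̄_k`, written with the real second derivative. -/
noncomputable def Lev {E : Type*} [NormedAddCommGroup E] [NormedSpace ℂ E]
    (u : E → ℝ) (x ξ : E) : ℝ :=
  (1 / 4) * (fderiv ℝ (fderiv ℝ u) x ξ ξ
    + fderiv ℝ (fderiv ℝ u) x (Complex.I • ξ) (Complex.I • ξ))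

/-- `f` is a holomorphic automorphism of `D` with inverse `h`. -/
structure IsAutPair {E : Type*} [NormedAddCommGroup E] [NormedSpace ℂ E]
    (D : Set E) (f h : E → E) : Prop where
  df : DifferentiableOn ℂ f D
  dh : DifferentiableOn ℂ h D
  mf : MapsTo f D D
  mh : MapsTo h D D
  hf : ∀ x ∈ D, h (f x) = x
  fh : ∀ x ∈ D, f (h x) = x

/-- What D5 delivers (`u = log K`; put `v = u / 2` for D8(d)). -/
structure IsBerg {n : ℕ} (D : Set (Fin n → ℂ)) (u : (Fin n → ℂ) → ℝ) : Prop where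
  smooth : ContDiffOn ℝ ∞ u D
  lev_pos : ∀ x ∈ D, ∀ ξ, ξ ≠ 0 → 0 < Lev u x ξ
  trans : ∀ f h, IsAutPair D f h → ∀ x ∈ D,
    u (f x) = u x - 2 * Real.log ‖(fderiv ℂ f x).det‖
  lev_trans : ∀ f h, IsAutPair D f h → ∀ x ∈ D, ∀ ξ,
    Lev u (f x) (fderiv ℂ f x ξ) = Lev u x ξ

/-- D5. -/
def Stmt : Prop :=
  ∀ (n : ℕ) (D : Set (Fin n → ℂ)), IsOpen D → Bornology.IsBounded D →
    ∃ u : (Fin n → ℂ) → ℝ, IsBerg D u

end Crest.Agent.R264.Berg
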