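import Mathlib
import Crest.Prelude.Def_SemialgDomain

/-!
Row 264 (S0402), TOP INTERFACE (helper369).

* `IsSubmfd n U`     : `U ⊆ ℂ^N` is locally biholomorphic to open pieces of `ℂ^n`.
* `Setup N U Γ`      : the hypotheses of S0402 (as a `Prop`-valued structure).
* `Grp D Γ`          : a group of holomorphic automorphisms of an open `D ⊆ E` in functional form
                       (maps `E → E`, cocompact, properly discontinuous).
* `IsComplete D X`   : complete holomorphic vector field.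
* `ThmD`             : Theorem D.
* `Part0`, `PartABC` : the other two parts; `Biholo` = the conclusion format of S0402.
-/

set_option autoImplicit false

open Topology Filter Set

namespace Crest.Agent.R264

open Crest.AlgGeometry.Semialg

/-- A local parametrisation of `U` near `x`: `ψ : W → U ∩ O` is a biholomorphism with inverse
`π`. -/
structure LocChart {N : ℕ} (n : ℕ) (U : Set (Fin N → ℂ)) (x : Fin N → ℂ) where
  /-- ambient neighbourhood -/
  O : Set (Fin N → ℂ)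
  /-- parameter domain -/
  W : Set (Fin n → ℂ)
  /-- parametrisation -/
  ψ : (Fin n → ℂ) → (Fin N → ℂ)
  /-- coordinates (holomorphic in the ambient space) -/
  π : (Fin N → ℂ) → (Fin n → ℂ)
  hO : IsOpen O
  hW : IsOpen W
  mem : x ∈ O
  hψ : DifferentiableOn ℂ ψ W
  hπ : DifferentiableOn ℂ π O
  ψ_mem : ∀ w ∈ W, ψ w ∈ U ∧ ψ w ∈ O
  π_ψ : ∀ w ∈ W, π (ψ w) = w
  π_mem : ∀ y ∈ U, y ∈ O → π y ∈ W
  ψ_π : ∀ y ∈ U, y ∈ O → ψ (π y) = y

/-- `U ⊆ ℂ^N` is an `n`-dimensional complex submanifold (embedded, locally closed). -/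
def IsSubmfd {N : ℕ} (n : ℕ) (U : Set (Fin N → ℂ)) : Prop :=
  ∀ x ∈ U, Nonempty (LocChart n U x)

/-- The hypotheses of S0402. -/
structure Setup (N : ℕ) (U : Set (Fin N → ℂ)) (Γ : Subgroup (Equiv.Perm U)) : Prop where
  alg : ∃ V O : Set (Fin N → ℂ), IsAlgebraicSet V ∧ IsOpen O ∧ U = O ∩ V
  conn : IsConnected U
  sa : IsSemialgebraic U
  bdd : Bornology.IsBounded U
  hol : ∀ γ ∈ Γ, IsHolomorphicMap U (fun y : U => ((γ y : U) : Fin N → ℂ))
  pd : ProperlyDiscontinuousSMul Γ U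
  cpt : CompactSpace (Quotient (MulAction.orbitRel Γ U))

/-- `D ⊆ ℂ^n` is biholomorphic to `U ⊆ ℂ^N` (exactly the format of the conclusion of S0402). -/
structure Biholo {N n : ℕ} (U : Set (Fin N → ℂ)) (D : Set (Fin n → ℂ)) (Ψ : U → (Fin n → ℂ))
    (Θ : (Fin n → ℂ) → (Fin N → ℂ)) : Prop where
  hΨ : IsHolomorphicMap U Ψ
  hΘ : DifferentiableOn ℂ Θ D
  mem : ∀ y : U, Ψ y ∈ D
  left : ∀ y : U, Θ (Ψ y) = (y : Fin N → ℂ)
  right : ∀ z ∈ D, ∃ y : U, (y : Fin N → ℂ) = Θ z ∧ Ψ y = z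

section Domain

variable {E : Type*} [NormedAddCommGroup E] [NormedSpace ℂ E]

/-- `F` is a holomorphic automorphism of `D` with inverse `G` (functional form). -/
structure AutPair (D : Set E) (F G : E → E) : Prop where
  hF : DifferentiableOn ℂ F D
  hG : DifferentiableOn ℂ G D
  mapsF : MapsTo F D D
  mapsG : MapsTo G D D
  left : ∀ x ∈ D, G (F x) = x
  right : ∀ x ∈ D, F (G x) = x

/-- `F` is a holomorphic automorphism of `D`. -/
def IsAut (D : Set E) (F : E → E) : Prop := ∃ G, AutPair D F G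

/-- A cocompact, properly discontinuous group of holomorphic automorphisms of `D` (functional
form; the elements are maps `E → E`, only their values on `D` matter). -/
structure Grp (D : Set E) (Γ : Set (E → E)) : Prop where
  one : ∃ e ∈ Γ, ∀ x ∈ D, e x = x
  mul : ∀ f ∈ Γ, ∀ g ∈ Γ, ∃ k ∈ Γ, ∀ x ∈ D, k x = f (g x)
  inv : ∀ f ∈ Γ, ∃ g ∈ Γ, AutPair D f g
  /-- elements of `Γ` are determined by their values on `D` -/
  ext : ∀ f ∈ Γ, ∀ g ∈ Γ, (∀ x ∈ D, f x = g x) → f = g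
  pd : ∀ K ⊆ D, ∀ L ⊆ D, IsCompact K → IsCompact L → {f ∈ Γ | ∃ x ∈ K, f x ∈ L}.Finite
  cocpt : ∃ K ⊆ D, IsCompact K ∧ ∀ x ∈ D, ∃ f ∈ Γ, ∃ y ∈ K, f y = x

/-- `φ` is a one-parameter group of holomorphic automorphisms of `D` with generator `X`. -/
structure IsFlow (D : Set E) (X : E → E) (φ : ℝ → E → E) : Prop where
  hol : ∀ t, DifferentiableOn ℂ (φ t) D
  maps : ∀ t, MapsTo (φ t) D D
  zero : ∀ x ∈ D, φ 0 x = x
  add : ∀ s t, ∀ x ∈ D, φ (s + t) x = φ s (φ t x)
  gen : ∀ x ∈ D, HasDerivAt (fun t => φ t x) (X x) 0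

/-- Complete holomorphic vector field on `D`. -/
def IsComplete (D : Set E) (X : E → E) : Prop :=
  DifferentiableOn ℂ X D ∧ ∃ φ : ℝ → E → E, IsFlow D X φ

/-- The complete holomorphic vector fields span the tangent space over `ℂ` at every point. -/
def Spans (D : Set E) : Prop :=
  ∀ x ∈ D, Submodule.span ℂ {v : E | ∃ X, IsComplete D X ∧ X x = v} = ⊤

end Domain

/-- THEOREM D. -/
def ThmD : Prop :=
  ∀ (n : ℕ) (D : Set (Fin n → ℂ)) (Γ : Set ((Fin n → ℂ) → (Fin n → ℂ))),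
    0 < n → IsOpen D → IsConnected D → Bornology.IsBounded D → Grp D Γ → Spans D →
    IsBoundedSymmetricDomain D

/-- PART 0: `U` is smooth. -/
def Part0 : Prop :=
  ∀ (N : ℕ) (U : Set (Fin N → ℂ)) (Γ : Subgroup (Equiv.Perm U)), Setup N U Γ →
    ∃ n : ℕ, IsSubmfd n U

/-- PARTS A + B + C: `U` is biholomorphic to a bounded domain whose complete holomorphic vector
fields span the tangent spaces over `ℂ`. -/
def PartABC : Prop :=
  ∀ (N : ℕ) (U : Set (Fin N → ℂ)) (Γ : Subgroup (Equiv.Perm U)), Setup N U Γ →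
    ∀ n : ℕ, 0 < n → IsSubmfd n U →
    ∃ (D : Set (Fin n → ℂ)) (Ψ : U → (Fin n → ℂ)) (Θ : (Fin n → ℂ) → (Fin N → ℂ)),
      IsOpen D ∧ Bornology.IsBounded D ∧ Biholo U D Ψ Θ ∧ Spans D

end Crest.Agent.R264
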