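import Mathlib
import Crest.Agent.R264.TopDefs
import Crest.Agent.R264.BergIface
import Crest.Agent.R264.DADefs
import Crest.Agent.R264.CX

/-!
Row 264 (S0402), PART D: FROZEN INTERFACE (helper744).

* `Pack D g` : everything Parts D4-D8 use about the real Lie algebra `g` of complete holomorphic
  vector fields on `D` (fields are normalised to vanish outside `D`).
* `Pack.evC` : the action of the complexification `CX g = g + i g`, a `ℂ`-linear map to fields.
* `Pack.stab`: the complex subalgebra of `CX g` of fields vanishing at `x`.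
* `Pack.Span`: the fields span the tangent space over `ℂ` at every point.
* node Props `D3Stmt`, `D7Stmt`, `D8Stmt`.
-/

set_option autoImplicit false

open Topology Filter Set
open scoped ComplexConjugate

namespace Crest.Agent.R264

section Pack

variable {E : Type*} [NormedAddCommGroup E] [NormedSpace ℂ E]

/-- The Lie algebra `g` of all complete holomorphic vector fields of `D`. -/
structure Pack (D : Set E) (g : Type*) [LieRing g] [LieAlgebra ℝ g] where
  /-- the vector field of an element of `g` -/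
  ev : g →ₗ[ℝ] (E → E)
  off : ∀ X, ∀ x ∉ D, ev X x = 0
  hol : ∀ X, DifferentiableOn ℂ (ev X) D
  lie : ∀ X Y, ∀ x ∈ D, ev ⁅X, Y⁆ x =
    fderiv ℂ (ev Y) x (ev X x) - fderiv ℂ (ev X) x (ev Y x)
  /-- a complete field is determined by its 1-jet at one point -/
  jet : ∀ X, ∀ x ∈ D, ev X x = 0 → fderiv ℂ (ev X) x = 0 → X = 0
  /-- the flow -/
  flow : g → ℝ → E → E
  isFlow : ∀ X, IsFlow D (ev X) (flow X)
  /-- integral curves (derivative at every time) -/
  flow_deriv : ∀ X, ∀ x ∈ D, ∀ t : ℝ, HasDerivAt (fun s => flow X s x) (ev X (flow X t x)) t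
  /-- derivative of the space derivative of the flow at time `0` -/
  flow_fderiv : ∀ X, ∀ x ∈ D,
    HasDerivAt (fun t : ℝ => fderiv ℂ (flow X t) x) (fderiv ℂ (ev X) x) 0
  /-- all complete fields are there -/
  surj : ∀ Y : E → E, IsComplete D Y → ∃ X, ∀ x ∈ D, ev X x = Y x
  /-- the one-parameter group of a complete field is unique -/
  uniq : ∀ X (φ : ℝ → E → E), IsFlow D (ev X) φ → ∀ t, ∀ x ∈ D, φ t x = flow X t x
  /-- push-forward by an automorphism `f` with inverse `h` -/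
  Ad : ∀ {f h : E → E}, AutPair D f h → (g ≃ₗ⁅ℝ⁆ g)
  ev_Ad : ∀ {f h : E → E} (hf : AutPair D f h) (X : g), ∀ x ∈ D,
    ev (Ad hf X) (f x) = fderiv ℂ f x (ev X x)
  /-- `d/dt Ad(φ_t) Y = - Ad(φ_t) [A, Y]`, tested on linear functionals of `g` -/
  Ad_deriv : ∀ (A Y : g) (l : g →ₗ[ℝ] ℝ) (p : ∀ t : ℝ, AutPair D (flow A t) (flow A (-t))) (t : ℝ),
    HasDerivAt (fun s => l (Ad (p s) Y)) (-(l (Ad (p t) ⁅A, Y⁆))) t
  /-- bounded isotropy: if `A` vanishes at a point of `D`, then `Ad(φ_t) Y` stays bounded -/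
  Ad_bdd : ∀ (A : g), ∀ x ∈ D, ev A x = 0 →
    ∀ (p : ∀ t : ℝ, AutPair D (flow A t) (flow A (-t))) (Y : g) (l : g →ₗ[ℝ] ℝ),
      ∃ C : ℝ, ∀ t, |l (Ad (p t) Y)| ≤ C

namespace Pack

variable {D : Set E} {g : Type*} [LieRing g] [LieAlgebra ℝ g] (P : Pack D g)

lemma flow_pair (X : g) (t : ℝ) : AutPair D (P.flow X t) (P.flow X (-t)) where
  hF := (P.isFlow X).hol t
  hG := (P.isFlow X).hol (-t)
  mapsF := (P.isFlow X).maps t
  mapsG := (P.isFlow X).maps (-t)
  left x hx := by
    rw [← (P.isFlow X).add (-t) t x hx, neg_add_cancel, (P.isFlow X).zero x hx]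
  right x hx := by
    rw [← (P.isFlow X).add t (-t) x hx, add_neg_cancel, (P.isFlow X).zero x hx]

include P in
lemma inj (hD : IsOpen D) {X : g} {x : E} (hx : x ∈ D) (h : ∀ y ∈ D, P.ev X y = 0) : X = 0 := by
  refine P.jet X x hx (h x hx) ?_
  have : P.ev X =ᶠ[𝓝 x] fun _ => (0 : E) :=
    Filter.eventually_of_mem (hD.mem_nhds hx) fun y hy => h y hy
  rw [this.fderiv_eq]; simp

/-- The fields span the tangent space over `ℂ` at every point of `D`. -/
def Span : Prop := ∀ x ∈ D, Submodule.span ℂ (Set.range fun X : g => P.ev X x) = ⊤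

/-- the holomorphic field `A + i B` of an element of `CX g` -/
noncomputable def evC : CX g →ₗ[ℂ] (E → E) := CX.lift P.ev

lemma evC_apply (X : CX g) (x : E) : P.evC X x = P.ev X.re x + Complex.I • P.ev X.im x := rfl

@[simp] lemma evC_of (X : g) : P.evC (CX.of X) = P.ev X := CX.lift_of P.ev X

lemma evC_off (X : CX g) {x : E} (hx : x ∉ D) : P.evC X x = 0 := by
  rw [evC_apply, P.off _ x hx, P.off _ x hx]; simp

lemma evC_hol (X : CX g) : DifferentiableOn ℂ (P.evC X) D :=
  (P.hol X.re).add ((P.hol X.im).const_smul Complex.I)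

lemma fderiv_evC (hD : IsOpen D) (X : CX g) {x : E} (hx : x ∈ D) :
    fderiv ℂ (P.evC X) x = fderiv ℂ (P.ev X.re) x + Complex.I • fderiv ℂ (P.ev X.im) x := by
  have h1 := (P.hol X.re).differentiableAt (hD.mem_nhds hx)
  have h2 := (P.hol X.im).differentiableAt (hD.mem_nhds hx)
  have h3 : P.evC X = P.ev X.re + Complex.I • P.ev X.im := rfl
  rw [h3, fderiv_add h1 (h2.const_smul _), fderiv_const_smul h2]

lemma evC_lie (hD : IsOpen D) (X Y : CX g) {x : E} (hx : x ∈ D) :
    P.evC ⁅X, Y⁆ x = fderiv ℂ (P.evC Y) x (P.evC X x) - fderiv ℂ (P.evC X) x (P.evC Y x) := by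
  have e : ∀ u v : E, Complex.I • (u - v) = Complex.I • u - Complex.I • v := fun u v =>
    smul_sub _ _ _
  have i2 : ∀ u : E, Complex.I • Complex.I • u = - u := fun u => by
    rw [smul_smul, Complex.I_mul_I, neg_one_smul]
  rw [P.fderiv_evC hD X hx, P.fderiv_evC hD Y hx]
  simp only [evC_apply, CX.lie_re, CX.lie_im, map_sub, map_add, Pi.sub_apply, Pi.add_apply,
    P.lie _ _ x hx, add_apply, smul_apply, map_smul, smul_add, e, i2]
  abel

/-- divergence (complex trace of the derivative) at `x` -/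
noncomputable def div (x : E) (X : CX g) : ℂ :=
  LinearMap.trace ℂ E ((fderiv ℂ (P.evC X) x : E →L[ℂ] E) : E →ₗ[ℂ] E)

/-- the complex subalgebra `h` of `CX g` of the fields vanishing at `x ∈ D` -/
noncomputable def stab (hD : IsOpen D) {x : E} (hx : x ∈ D) : LieSubalgebra ℂ (CX g) where
  carrier := {X | P.evC X x = 0}
  zero_mem' := by simp
  add_mem' {X Y} hX hY := by
    simp only [mem_ofPred_eq] at *
    simp [hX, hY]
  smul_mem' c X hX := by
    simp only [mem_ofPred_eq] at *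
    simp [hX]
  lie_mem' {X Y} hX hY := by
    simp only [mem_ofPred_eq] at *
    rw [P.evC_lie hD X Y hx, hX, hY]
    simp

lemma mem_stab (hD : IsOpen D) {x : E} (hx : x ∈ D) (X : CX g) :
    X ∈ P.stab hD hx ↔ P.evC X x = 0 := Iff.rfl

end Pack

end Pack

/-- NODE D3: the complete holomorphic fields of a bounded domain form a finite-dimensional real
Lie algebra with all the properties of `Pack`. -/
def D3Stmt : Prop :=
  ∀ (n : ℕ) (D : Set (Fin n → ℂ)), IsOpen D → IsConnected D → Bornology.IsBounded D →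
    ∃ (g : Type) (_ : LieRing g) (_ : LieAlgebra ℝ g),
      Module.Finite ℝ g ∧ Nonempty (Pack D g)

/-- NODE D7: the Killing form is nondegenerate. -/
def D7Stmt : Prop :=
  ∀ (n : ℕ) (D : Set (Fin n → ℂ)) (Γ : Set ((Fin n → ℂ) → (Fin n → ℂ))), 0 < n →
    IsOpen D → IsConnected D → Bornology.IsBounded D → Grp D Γ →
    ∀ (g : Type) (_ : LieRing g) (_ : LieAlgebra ℝ g) (_ : Module.Finite ℝ g) (P : Pack D g),
      P.Span → LieAlgebra.IsKilling ℝ g

/-- NODE D8 (analysis): the hypotheses of the algebra unit hold at every point. -/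
def D8Stmt : Prop :=
  ∀ (n : ℕ) (D : Set (Fin n → ℂ)) (Γ : Set ((Fin n → ℂ) → (Fin n → ℂ))), 0 < n →
    ∀ (hD : IsOpen D), IsConnected D → Bornology.IsBounded D → Grp D Γ →
    ∀ (g : Type) (_ : LieRing g) (_ : LieAlgebra ℝ g) (_ : Module.Finite ℝ g)
      (_ : LieAlgebra.IsKilling ℝ g) (P : Pack D g), P.Span →
      ∀ (x : Fin n → ℂ) (hx : x ∈ D),
        ∃ δ : CX g →ₗ[ℂ] ℂ, DA.Hyp (CX.cc g) (P.stab hD hx) δ

/-- NODE D8alg (744 + 575). -/
def DAlgStmt : Prop :=
  ∀ (g : Type) (_ : LieRing g) (_ : LieAlgebra ℝ g) (_ : Module.Finite ℝ g)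
    (_ : LieAlgebra.IsKilling ℝ g) (h : LieSubalgebra ℂ (CX g)) (δ : CX g →ₗ[ℂ] ℂ),
    DA.Hyp (CX.cc g) h δ → DA.Concl (CX.cc g) h

end Crest.Agent.R264
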