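import Mathlib
import Crest.Agent.R264.DIface
import Crest.Agent.R264.AbI1
import Crest.Agent.R266.Osgood

/-!
Row 264, node D7 (abelian ideals), part 5: characteristic ideals; abelian ideals of complete fields
act with linearly independent values (helper792).
-/

set_option autoImplicit false
set_option maxHeartbeats 400000
set_option linter.unusedSectionVars false

open Set Filter Topology Metric

noncomputable section

namespace Crest.Agent.R264.AbI

section Algebra

variable {g : Type*} [LieRing g] [LieAlgebra ℝ g]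

/-- an ideal invariant under all Lie automorphisms -/
def IsChar (I : LieIdeal ℝ g) : Prop := ∀ e : g ≃ₗ⁅ℝ⁆ g, ∀ X ∈ I, e X ∈ I

lemma isChar_lie {I J : LieIdeal ℝ g} (hI : IsChar I) (hJ : IsChar J) : IsChar ⁅I, J⁆ := by
  intro e X hX
  have h1 : ⁅I, J⁆ ≤ ⁅I.comap (e : g →ₗ⁅ℝ⁆ g), J.comap (e : g →ₗ⁅ℝ⁆ g)⁆ :=
    LieSubmodule.mono_lie (fun Y hY => by
      rw [LieIdeal.mem_comap]; exact hI e Y hY) (fun Y hY => by
      rw [LieIdeal.mem_comap]; exact hJ e Y hY)
  have h2 := LieIdeal.comap_bracket_le (f := (e : g →ₗ⁅ℝ⁆ g)) (J₁ := I) (J₂ := J)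
  have h3 := h2 (h1 hX)
  rw [LieIdeal.mem_comap] at h3
  exact h3

lemma isChar_derivedSeries {I : LieIdeal ℝ g} (hI : IsChar I) (k : ℕ) :
    IsChar (LieAlgebra.derivedSeriesOfIdeal ℝ g k I) := by
  induction k with
  | zero => simpa using hI
  | succ k ih =>
    rw [LieAlgebra.derivedSeriesOfIdeal_succ]
    exact isChar_lie ih ih

lemma isChar_derivedAbelianOfIdeal {I : LieIdeal ℝ g} (hI : IsChar I) :
    IsChar (LieAlgebra.derivedAbelianOfIdeal I) := by
  unfold LieAlgebra.derivedAbelianOfIdeal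
  split
  · intro e X hX
    rw [LieSubmodule.mem_bot] at hX ⊢
    rw [hX, map_zero]
  · exact isChar_derivedSeries hI _

lemma isChar_radical [IsNoetherian ℝ g] : IsChar (LieAlgebra.radical ℝ g) := by
  intro e X hX
  set J : LieIdeal ℝ g := (LieAlgebra.radical ℝ g).comap (e.symm : g →ₗ⁅ℝ⁆ g) with hJ
  have hmem : ∀ Y : g, Y ∈ J ↔ e.symm Y ∈ LieAlgebra.radical ℝ g := fun Y => by
    rw [hJ, LieIdeal.mem_comap]; rfl
  let f : J →ₗ⁅ℝ⁆ (LieAlgebra.radical ℝ g) :=
    { toFun := fun x => ⟨e.symm x.1, (hmem _).1 x.2⟩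
      map_add' := fun x y => by ext; simp
      map_smul' := fun c x => by ext; simp
      map_lie' := fun {x y} => by ext; exact e.symm.map_lie _ _ }
  have hf : Function.Injective f := by
    intro x y hxy
    have h1 : e.symm x.1 = e.symm y.1 := congrArg Subtype.val hxy
    exact Subtype.ext (e.symm.injective h1)
  have hsol : LieAlgebra.IsSolvable J := hf.lieAlgebra_isSolvable
  have h1 : J ≤ LieAlgebra.radical ℝ g := (LieAlgebra.LieIdeal.solvable_iff_le_radical ℝ g J).1 hsol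
  exact h1 ((hmem _).2 (by simpa using hX))

/-- If there is no non-zero characteristic abelian ideal then the Killing form is non-degenerate -/
theorem isKilling_of [Module.Finite ℝ g]
    (h : ∀ I : LieIdeal ℝ g, IsLieAbelian I → IsChar I → I = ⊥) : LieAlgebra.IsKilling ℝ g := by
  have h1 : LieAlgebra.HasTrivialRadical ℝ g := by
    constructor
    rw [← LieAlgebra.abelian_of_solvable_ideal_eq_bot_iff]
    exact h _ (LieAlgebra.abelian_derivedAbelianOfIdeal _)
      (isChar_derivedAbelianOfIdeal isChar_radical)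
  infer_instance

end Algebra

section Inj

variable {E : Type*} [NormedAddCommGroup E] [NormedSpace ℂ E] [FiniteDimensional ℂ E]
variable {D : Set E} {g : Type*} [LieRing g] [LieAlgebra ℝ g] (Q : Pack D g)

include Q in
lemma ev_ext (hD : IsOpen D) {x : E} (hx : x ∈ D) {Y Z : g}
    (h : ∀ y ∈ D, Q.ev Y y = Q.ev Z y) : Y = Z := by
  have h1 : Y - Z = 0 := Q.inj hD hx (fun y hy => by
    rw [map_sub, Pi.sub_apply, h y hy, sub_self])
  exact sub_eq_zero.1 h1

lemma eq_of_functionals {Y Z : g} (h : ∀ l : g →ₗ[ℝ] ℝ, l Y = l Z) : Y = Z := by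
  have h1 : ∀ l : Module.Dual ℝ g, l (Y - Z) = 0 := fun l => by rw [map_sub, h l, sub_self]
  exact sub_eq_zero.1 ((Module.forall_dual_apply_eq_zero_iff ℝ _).1 h1)

/-- `Ad` of the flow at time `0` -/
lemma Ad_zero (hD : IsOpen D) {x : E} (hx : x ∈ D) (A Y : g)
    (p : ∀ t : ℝ, AutPair D (Q.flow A t) (Q.flow A (-t))) : Q.Ad (p 0) Y = Y := by
  refine ev_ext Q hD hx (fun y hy => ?_)
  have h1 := Q.ev_Ad (p 0) Y y hy
  have h2 : (Q.flow A 0) =ᶠ[𝓝 y] id := by
    filter_upwards [hD.mem_nhds hy] with z hz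
    exact (Q.isFlow A).zero z hz
  rw [h2.fderiv_eq, (Q.isFlow A).zero y hy] at h1
  simpa using h1

/-- `[A,[A,Y]] = 0` implies `Ad(φ_t) Y = Y - t [A,Y]` -/
lemma Ad_of_lie_lie (hD : IsOpen D) {x : E} (hx : x ∈ D) {A Y : g} (hAY : ⁅A, ⁅A, Y⁆⁆ = 0)
    (p : ∀ t : ℝ, AutPair D (Q.flow A t) (Q.flow A (-t))) (t : ℝ) :
    Q.Ad (p t) Y = Y - t • ⁅A, Y⁆ := by
  -- first `Ad(φ_t) [A,Y] = [A,Y]`
  have h1 : ∀ t, Q.Ad (p t) ⁅A, Y⁆ = ⁅A, Y⁆ := by
    intro t
    apply eq_of_functionals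
    intro l
    have h2 : ∀ s, HasDerivAt (fun s => l (Q.Ad (p s) ⁅A, Y⁆)) 0 s := by
      intro s
      have h3 := Q.Ad_deriv A ⁅A, Y⁆ l p s
      rw [hAY, map_zero, map_zero, neg_zero] at h3
      exact h3
    have h4 := is_const_of_deriv_eq_zero (fun s => (h2 s).differentiableAt)
      (fun s => (h2 s).deriv) t 0
    rw [h4, Ad_zero Q hD hx]
  apply eq_of_functionals
  intro l
  have h2 : ∀ s, HasDerivAt (fun s => l (Q.Ad (p s) Y) + s * l ⁅A, Y⁆) 0 s := by
    intro s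
    have h3 := (Q.Ad_deriv A Y l p s).add ((hasDerivAt_id s).mul_const (l ⁅A, Y⁆))
    rw [h1 s] at h3
    have h5 : -(l ⁅A, Y⁆) + 1 * l ⁅A, Y⁆ = 0 := by ring
    rw [h5] at h3
    exact h3
  have h4 := is_const_of_deriv_eq_zero (fun s => (h2 s).differentiableAt)
    (fun s => (h2 s).deriv) t 0
  simp only [zero_mul, add_zero] at h4
  rw [Ad_zero Q hD hx] at h4
  rw [map_sub, map_smul, smul_eq_mul]
  linarith

/-- commuting fields: `Y` is invariant under the flow of `A` -/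
lemma ev_flow_of_lie (hD : IsOpen D) {A Y : g} (hAY : ⁅A, Y⁆ = 0) {x : E} (hx : x ∈ D) (t : ℝ) :
    Q.ev Y (Q.flow A t x) = fderiv ℂ (Q.flow A t) x (Q.ev Y x) := by
  have h1 := Q.ev_Ad (Q.flow_pair A t) Y x hx
  have h2 := Ad_of_lie_lie Q hD hx (A := A) (Y := Y) (by rw [hAY, lie_zero]) (Q.flow_pair A) t
  rw [h2, hAY, smul_zero, sub_zero] at h1
  exact h1

/-- (b): an element `A` with `[A,[A,Y]] = 0` for all `Y` that vanishes at a point is `0`. -/
lemma eq_zero_of_ev_eq_zero (hD : IsOpen D) (hspan : Q.Span) {A : g}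
    (hA : ∀ Y : g, ⁅A, ⁅A, Y⁆⁆ = 0) {x : E} (hx : x ∈ D) (hAx : Q.ev A x = 0) : A = 0 := by
  have h1 : ∀ Y : g, ⁅A, Y⁆ = 0 := by
    intro Y
    apply eq_of_functionals
    intro l
    obtain ⟨C, hC⟩ := Q.Ad_bdd A x hx hAx (Q.flow_pair A) Y l
    have h2 : ∀ t : ℝ, |l Y - t * l ⁅A, Y⁆| ≤ C := by
      intro t
      have h3 := hC t
      rw [Ad_of_lie_lie Q hD hx (hA Y) (Q.flow_pair A) t, map_sub, map_smul, smul_eq_mul] at h3
      exact h3
    rw [map_zero]
    by_contra hne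
    have h4 := h2 ((l Y - (C + 1)) / l ⁅A, Y⁆)
    rw [div_mul_cancel₀ _ hne] at h4
    have h5 : l Y - (l Y - (C + 1)) = C + 1 := by ring
    rw [h5] at h4
    have h6 := le_abs_self (C + 1)
    linarith
  refine Q.jet A x hx hAx ?_
  have h2 : ∀ Y : g, fderiv ℂ (Q.ev A) x (Q.ev Y x) = 0 := by
    intro Y
    have h3 := Q.lie A Y x hx
    rw [h1 Y, hAx] at h3
    simp only [map_zero, Pi.zero_apply, zero_sub] at h3
    exact neg_eq_zero.1 h3.symm
  have h3 : (⊤ : Submodule ℂ E) ≤ LinearMap.ker ((fderiv ℂ (Q.ev A) x : E →L[ℂ] E) : E →ₗ[ℂ] E) := by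
    rw [← hspan x hx, Submodule.span_le]
    rintro _ ⟨Y, rfl⟩
    exact h2 Y
  ext v
  exact h3 (Submodule.mem_top (x := v))

/-- (a): commuting `A, B` with `A(x) + i B(x) = 0` vanish at `x`. -/
lemma ev_eq_zero_of_commute (hD : IsOpen D) (hDb : Bornology.IsBounded D) {A B : g}
    (hAB : ⁅A, B⁆ = 0) {x : E} (hx : x ∈ D) (h : Q.ev A x + Complex.I • Q.ev B x = 0) :
    Q.ev B x = 0 := by
  have : CompleteSpace E := FiniteDimensional.complete ℂ E
  have hBA : ⁅B, A⁆ = 0 := by rw [← lie_skew, hAB, neg_zero]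
  refine entire_curve hD hDb (A := Q.ev A) (B := Q.ev B)
    (Crest.Agent.R266.SCV.analyticOnNhd_of_differentiableOn hD (Q.hol B)) hx (fun a b => ?_)
  set X : g := a • B - b • A with hX
  have hXA : ⁅X, A⁆ = 0 := by
    rw [hX, sub_lie, smul_lie, smul_lie, hBA, lie_self, smul_zero, smul_zero, sub_zero]
  have hXB : ⁅X, B⁆ = 0 := by
    rw [hX, sub_lie, smul_lie, smul_lie, hAB, lie_self, smul_zero, smul_zero, sub_zero]
  have hev : ∀ y, Q.ev X y = a • Q.ev B y - b • Q.ev A y := by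
    intro y
    rw [hX, map_sub, map_smul, map_smul]
    rfl
  refine ⟨fun t => Q.flow X t x, (Q.isFlow X).zero x hx, fun t => (Q.isFlow X).maps t hx,
    fun t => ?_, fun t => ?_⟩
  · have h1 := Q.flow_deriv X x hx t
    rw [hev] at h1
    exact h1
  · rw [ev_flow_of_lie Q hD hXA hx t, ev_flow_of_lie Q hD hXB hx t, ← map_smul, ← map_add, h,
      map_zero]

/-- INJ: a basis of an abelian ideal has `ℂ`-linearly independent values at every point. -/
theorem linearIndependent_ev (hD : IsOpen D) (hDb : Bornology.IsBounded D) (hspan : Q.Span)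
    {I : LieIdeal ℝ g} (hI : IsLieAbelian I) {ι : Type*} [Fintype ι] {b : ι → g}
    (hbI : ∀ i, b i ∈ I) (hb : LinearIndependent ℝ b) {x : E} (hx : x ∈ D) :
    LinearIndependent ℂ (fun i => Q.ev (b i) x) := by
  have hcomm : ∀ Y ∈ I, ∀ Z ∈ I, ⁅Y, Z⁆ = 0 := by
    intro Y hY Z hZ
    have h1 : ⁅(⟨Y, hY⟩ : I), (⟨Z, hZ⟩ : I)⁆ = 0 := trivial_lie_zero I I _ _
    have h2 := congrArg Subtype.val h1
    simpa using h2
  have hzero : ∀ Y ∈ I, Q.ev Y x = 0 → Y = 0 := fun Y hY h =>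
    eq_zero_of_ev_eq_zero Q hD hspan (fun Z => hcomm Y hY _ (lie_mem_left ℝ g I Y Z hY)) hx h
  rw [Fintype.linearIndependent_iff]
  intro c hc
  set A : g := ∑ i, (c i).re • b i with hA
  set B : g := ∑ i, (c i).im • b i with hB
  have hAI : A ∈ I := sum_mem (fun i _ => I.smul_mem _ (hbI i))
  have hBI : B ∈ I := sum_mem (fun i _ => I.smul_mem _ (hbI i))
  have hsum : Q.ev A x + Complex.I • Q.ev B x = 0 := by
    rw [← hc, hA, hB, map_sum, map_sum, Finset.sum_apply, Finset.sum_apply, Finset.smul_sum,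
      ← Finset.sum_add_distrib]
    refine Finset.sum_congr rfl (fun i _ => ?_)
    rw [map_smul, map_smul, Pi.smul_apply, Pi.smul_apply]
    conv_rhs => rw [← Complex.re_add_im (c i), add_smul, mul_comm, mul_smul]
    rfl
  have hB0 : Q.ev B x = 0 := ev_eq_zero_of_commute Q hD hDb (hcomm A hAI B hBI) hx hsum
  have hA0 : Q.ev A x = 0 := by simpa [hB0] using hsum
  have hAz := hzero A hAI hA0
  have hBz := hzero B hBI hB0
  rw [Fintype.linearIndependent_iff] at hb
  intro i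
  apply Complex.ext
  · exact hb _ hAz i
  · exact hb _ hBz i

end Inj

end Crest.Agent.R264.AbI
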