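import Mathlib
import Crest.Agent.R264.TopDefs
import Crest.Agent.R264.BergIface

/-! Row 264, node D6 (Lemma K): definitions (helper310). -/

set_option autoImplicit false

open Set Filter Topology MeasureTheory
open scoped ContDiff

namespace Crest.Agent.R264.K

open Crest.Agent.R264.Berg (Lev)

noncomputable section

variable {n : ℕ}

/-- Plurisubharmonic: sub-mean value inequality on closed discs contained in `D`. -/
def Psh (D : Set (Fin n → ℂ)) (φ : (Fin n → ℂ) → ℝ) : Prop :=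
  ∀ x ξ, (∀ ζ : ℂ, ‖ζ‖ ≤ 1 → x + ζ • ξ ∈ D) →
    φ x ≤ Real.circleAverage (fun ζ : ℂ => φ (x + ζ • ξ)) 0 1

/-- Pluriharmonic: mean value equality on closed discs contained in `D`. -/
def Plh (D : Set (Fin n → ℂ)) (φ : (Fin n → ℂ) → ℝ) : Prop :=
  ∀ x ξ, (∀ ζ : ℂ, ‖ζ‖ ≤ 1 → x + ζ • ξ ∈ D) →
    φ x = Real.circleAverage (fun ζ : ℂ => φ (x + ζ • ξ)) 0 1

/-- **LEMMA K** (node D6), to be proved in `R264/KMain.lean` as `lemmaK (n) : LemmaK n`. -/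
def LemmaK (n : ℕ) : Prop :=
  ∀ (D : Set (Fin n → ℂ)) (Γ : Set ((Fin n → ℂ) → (Fin n → ℂ))), IsOpen D → D.Nonempty →
    Grp D Γ →
    ∀ u : (Fin n → ℂ) → ℝ, ContDiffOn ℝ ∞ u D →
      (∀ x ∈ D, ∀ ξ, ξ ≠ 0 → 0 < Lev u x ξ) →
      (∀ f ∈ Γ, ∀ x ∈ D, ∀ ξ, Lev u (f x) (fderiv ℂ f x ξ) = Lev u x ξ) →
    ∀ φ : (Fin n → ℂ) → ℝ, ContinuousOn φ D → Psh D φ →
      (∀ f ∈ Γ, ∃ c : ℝ, ∀ x ∈ D, φ (f x) = φ x + c) →
      Plh D φ

end

end Crest.Agent.R264.K
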