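import Mathlib
import Crest.Agent.R264.AbI4
import Crest.Agent.R264.AbI5
import Crest.Agent.R264.KDefs
import Crest.Agent.R264.DIface

/-!
Row 264, node D7 (abelian ideals), part 6: assembly (helper792).
-/

set_option autoImplicit false
set_option maxHeartbeats 400000
set_option linter.unusedSectionVars false

open Set Filter Topology Metric

noncomputable section

namespace Crest.Agent.R264.AbI

variable {n : ℕ}

/-- NODE D7 from D5 and D6. -/
theorem d7_of (hB : Berg.Stmt) (hK : ∀ n, K.LemmaK n) : D7Stmt := by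
  intro n D Γ hn hDo hDc hDb hΓ g _ _ _ Q hspan
  apply isKilling_of
  intro I hI hchar
  by_contra hne
  obtain ⟨x₀, hx₀⟩ := hDc.nonempty
  set V : Submodule ℝ g := I.toSubmodule with hV
  have hVI : ∀ Y, Y ∈ V ↔ Y ∈ I := fun Y => Iff.rfl
  set b := Module.finBasis ℝ V with hb
  set X : Fin (Module.finrank ℝ V) → (Fin n → ℂ) → (Fin n → ℂ) := fun i => Q.ev (b i : g) with hX
  have hne' : Nonempty (Fin (Module.finrank ℝ V)) := by
    by_contra hcon
    rw [not_nonempty_iff] at hcon
    apply hne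
    rw [LieSubmodule.eq_bot_iff]
    intro Y hY
    have h1 := b.sum_repr ⟨Y, hY⟩
    have h2 := congrArg Subtype.val h1
    simp only [Finset.univ_eq_empty, Finset.sum_empty] at h2
    exact h2.symm
  have hXd : ∀ l, DifferentiableOn ℂ (X l) D := fun l => Q.hol _
  have hXc : ∀ l, ContinuousOn (X l) D := fun l => (hXd l).continuousOn
  have hbli : LinearIndependent ℝ (fun i => (b i : g)) := by
    have h1 := b.linearIndependent
    exact h1.map' V.subtype (Submodule.ker_subtype V)
  have hli : ∀ x ∈ D, LinearIndependent ℂ (fun l => X l x) := fun x hx =>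
    linearIndependent_ev Q hDo hDb hspan hI (b := fun i => (b i : g))
      (fun i => (b i).2) hbli hx
  have hpos : ∀ x ∈ D, 0 < P D X x := fun x hx => P_pos hDo hDb hXc hx (hli x hx)
  -- the matrix of `Ad`
  have hmat : ∀ (f h : (Fin n → ℂ) → (Fin n → ℂ)) (p : AutPair D f h),
      ∃ T : V →ₗ[ℝ] V, ∀ Y : V, (T Y : g) = Q.Ad p (Y : g) := by
    intro f h p
    refine ⟨LinearMap.restrict ((Q.Ad p : g →ₗ⁅ℝ⁆ g) : g →ₗ[ℝ] g) (p := V) (q := V)
      (fun Y hY => hchar (Q.Ad p) Y hY), fun Y => rfl⟩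
  have hrel : ∀ (f h : (Fin n → ℂ) → (Fin n → ℂ)) (p : AutPair D f h) (T : V →ₗ[ℝ] V),
      (∀ Y : V, (T Y : g) = Q.Ad p (Y : g)) → ∀ x ∈ D, ∀ l, fderiv ℂ f x (X l x)
        = ∑ m, ((LinearMap.toMatrix b b T).map (fun r : ℝ => (r : ℂ))) m l • X m (f x) := by
    intro f h p T hT x hx l
    have h1 := Q.ev_Ad p (b l : g) x hx
    have h2 : T (b l) = ∑ m, LinearMap.toMatrix b b T m l • b m := by
      simp only [LinearMap.toMatrix_apply]
      exact (b.sum_repr _).symm
    have h3 : Q.Ad p (b l : g) = ∑ m, LinearMap.toMatrix b b T m l • (b m : g) := by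
      rw [← hT, h2]
      push_cast
      rfl
    rw [h3, map_sum, Finset.sum_apply] at h1
    rw [hX]
    simp only
    rw [← h1]
    refine Finset.sum_congr rfl (fun m _ => ?_)
    rw [map_smul, Pi.smul_apply]
    rfl
  -- transformation law
  have htrans : ∀ f ∈ Γ, ∃ c : ℝ, ∀ x ∈ D, Real.log (P D X (f x)) = Real.log (P D X x) + c := by
    intro f hf
    obtain ⟨h, hhΓ, p⟩ := hΓ.inv f hf
    have p' : AutPair D h f := ⟨p.hG, p.hF, p.mapsG, p.mapsF, p.right, p.left⟩
    obtain ⟨T, hT⟩ := hmat f h p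
    obtain ⟨T', hT'⟩ := hmat h f p'
    have hTT : T ∘ₗ T' = LinearMap.id := by
      ext Y
      simp only [LinearMap.comp_apply, LinearMap.id_apply]
      rw [hT, hT']
      refine ev_ext Q hDo hx₀ (fun y hy => ?_)
      -- evaluate at `y = f (h y)`
      have hhy : h y ∈ D := p.mapsG hy
      have h1 := Q.ev_Ad p (Q.Ad p' (Y : g)) (h y) hhy
      have h2 := Q.ev_Ad p' (Y : g) y hy
      rw [p.right y hy, h2] at h1
      rw [h1]
      have h3 : HasFDerivAt (fun z => f (h z)) ((fderiv ℂ f (h y)).comp (fderiv ℂ h y)) y :=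
        HasFDerivAt.comp y (p.hF.differentiableAt (hDo.mem_nhds hhy)).hasFDerivAt
          (p.hG.differentiableAt (hDo.mem_nhds hy)).hasFDerivAt
      have h4 : (fun z => f (h z)) =ᶠ[𝓝 y] id := by
        filter_upwards [hDo.mem_nhds hy] with z hz
        exact p.right z hz
      have h5 : HasFDerivAt (fun z => f (h z)) (ContinuousLinearMap.id ℂ (Fin n → ℂ)) y :=
        (hasFDerivAt_id y).congr_of_eventuallyEq h4
      have h6 := congrArg (fun L => L (Q.ev (Y : g) y)) (h3.unique h5)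
      simpa using h6
    have hRS : (LinearMap.toMatrix b b T).map (fun r : ℝ => (r : ℂ))
        * (LinearMap.toMatrix b b T').map (fun r : ℝ => (r : ℂ)) = 1 := by
      have h1 : LinearMap.toMatrix b b T * LinearMap.toMatrix b b T' = 1 := by
        rw [← LinearMap.toMatrix_comp, hTT, LinearMap.toMatrix_id]
      have h2 := congrArg (fun M => M.map (Complex.ofRealHom)) h1
      rw [Matrix.map_mul, Matrix.map_one _ (map_zero _) (map_one _)] at h2
      exact h2
    refine ⟨_, log_P_comp hDo hXc hpos p.hF p.mapsF p.hG p.mapsG p.left hRS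
      (hrel f h p T hT) (hrel h f p' T' hT')⟩
  obtain ⟨u, hu⟩ := hB n D hDo hDb
  have hplh := hK n D Γ hDo ⟨x₀, hx₀⟩ hΓ u hu.smooth hu.lev_pos
    (fun f hf x hx ξ => by
      obtain ⟨h, -, p⟩ := hΓ.inv f hf
      exact hu.lev_trans f h ⟨p.hF, p.hG, p.mapsF, p.mapsG, p.left, p.right⟩ x hx ξ)
    (fun x => Real.log (P D X x))
    ((continuousOn_P hDo hXd).log (fun x hx => (hpos x hx).ne'))
    (fun x ξ hdisc => log_P_le hDo hXd hpos hdisc) htrans
  exact no_mean hDo hDc.isPreconnected hDb ⟨x₀, hx₀⟩ hXd hli (fun x ξ hdisc => hplh x ξ hdisc)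

end Crest.Agent.R264.AbI
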