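import Mathlib
import Crest.Agent.R264.TopDefs

/-!
Row 264 (S0402), part D3: definitions around complete holomorphic vector fields (helper938).
`AutPair`, `IsAut`, `IsFlow` (pointwise generator), `IsComplete` are those of `TopDefs`.
-/

set_option autoImplicit false

open Set Filter Topology

namespace Crest.Agent.R264

variable {E : Type*} [NormedAddCommGroup E] [NormedSpace ℂ E]

/-- locally uniform version of `IsFlow` (equivalent to it for holomorphic `X`). -/
structure LFlow (D : Set E) (X : E → E) (φ : ℝ → E → E) : Prop where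
  hol : ∀ t, DifferentiableOn ℂ (φ t) D
  maps : ∀ t, MapsTo (φ t) D D
  zero : ∀ x ∈ D, φ 0 x = x
  add : ∀ s t, ∀ x ∈ D, φ (s + t) x = φ s (φ t x)
  lgen : TendstoLocallyUniformlyOn (fun (t : ℝ) x => t⁻¹ • (φ t x - x)) X (𝓝[≠] (0 : ℝ)) D

/-- the set of complete holomorphic vector fields on `D`, normalised to vanish outside `D`
(it will be a real Lie algebra of finite dimension) -/
def gSet (D : Set E) : Set (E → E) := {X | IsComplete D X ∧ ∀ x ∉ D, X x = 0}

/-- the bracket `[X,Y] = DY.X - DX.Y` on `D`, extended by zero -/
noncomputable def brk (D : Set E) (X Y : E → E) : E → E := by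
  classical exact fun x => if x ∈ D then fderiv ℂ Y x (X x) - fderiv ℂ X x (Y x) else 0

/-- push-forward of a vector field by an automorphism `f` of `D` with inverse `h`
(extended by zero) -/
noncomputable def push (D : Set E) (f h : E → E) (X : E → E) : E → E := by
  classical exact fun y => if y ∈ D then fderiv ℂ f (h y) (X (h y)) else 0

lemma brk_of_mem {D : Set E} {X Y : E → E} {x : E} (hx : x ∈ D) :
    brk D X Y x = fderiv ℂ Y x (X x) - fderiv ℂ X x (Y x) := by simp [brk, hx]

lemma brk_of_notMem {D : Set E} {X Y : E → E} {x : E} (hx : x ∉ D) :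
    brk D X Y x = 0 := by simp [brk, hx]

lemma push_of_mem {D : Set E} {f h X : E → E} {y : E} (hy : y ∈ D) :
    push D f h X y = fderiv ℂ f (h y) (X (h y)) := by simp [push, hy]

lemma push_of_notMem {D : Set E} {f h X : E → E} {y : E} (hy : y ∉ D) :
    push D f h X y = 0 := by simp [push, hy]

end Crest.Agent.R264
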