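import Crest.Agent.R264.MontelU
import Crest.Agent.R264.AutLem

/-!
Row 264, Part D, node D2: H. Cartan's theorem on limits of automorphisms of a bounded domain
(helper399).
-/

set_option autoImplicit false
set_option linter.unusedSectionVars false

open Set Filter Topology Metric Complex

noncomputable section

namespace Crest.Agent.R264

open Crest.Agent.R266.SCV

variable {E : Type*} [NormedAddCommGroup E] [NormedSpace ℂ E] [FiniteDimensional ℂ E]
variable {ι : Type*}

/-- determinant of the complex derivative, as a holomorphic function -/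
theorem differentiableOn_det_fderiv {D : Set E} (hD : IsOpen D) {f : E → E}
    (hf : DifferentiableOn ℂ f D) : DifferentiableOn ℂ (fun z => (fderiv ℂ f z).det) D := by
  classical
  set b := Module.finBasis ℂ E with hb
  have h1 : DifferentiableOn ℂ (fderiv ℂ f) D := by
    have := (analyticOnNhd_of_differentiableOn hD hf).fderiv
    exact this.differentiableOn
  have h2 : ∀ z, (fderiv ℂ f z).det =
      Matrix.det (LinearMap.toMatrix b b (fderiv ℂ f z : E →ₗ[ℂ] E)) := by
    intro z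
    rw [ContinuousLinearMap.det, LinearMap.det_toMatrix]
  have h3 : ∀ i j, DifferentiableOn ℂ (fun z => LinearMap.toMatrix b b
      (fderiv ℂ f z : E →ₗ[ℂ] E) i j) D := by
    intro i j
    have h4 : (fun z => LinearMap.toMatrix b b (fderiv ℂ f z : E →ₗ[ℂ] E) i j) =
        fun z => (LinearMap.toContinuousLinearMap (b.coord i)) ((fderiv ℂ f z) (b j)) := by
      funext z
      rw [LinearMap.toMatrix_apply]
      rfl
    rw [h4]
    refine (ContinuousLinearMap.differentiable _).comp_differentiableOn ?_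
    exact h1.clm_apply (differentiableOn_const _)
  have h5 : (fun z => (fderiv ℂ f z).det) = fun z => ∑ σ : Equiv.Perm (Fin (Module.finrank ℂ E)),
      ((Equiv.Perm.sign σ : ℤ) : ℂ) * ∏ i, LinearMap.toMatrix b b
        (fderiv ℂ f z : E →ₗ[ℂ] E) (σ i) i := by
    funext z
    rw [h2, Matrix.det_apply']
  rw [h5]
  refine DifferentiableOn.fun_sum (fun σ _ => ?_)
  refine DifferentiableOn.const_mul ?_ _
  intro z hz
  exact (HasFDerivWithinAt.finsetProd (u := Finset.univ)
    (fun i _ => (h3 (σ i) i z hz).hasFDerivWithinAt)).differentiableWithinAt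

theorem continuous_det : Continuous (fun L : E →L[ℂ] E => L.det) := by
  exact ContinuousLinearMap.continuous_det

/-- locally uniform convergence passes to the Jacobian determinants -/
theorem tlu_det_fderiv {l : Filter ι} [l.NeBot] {D : Set E} (hD : IsOpen D)
    {f : ι → E → E} {F : E → E} (h : TendstoLocallyUniformlyOn f F l D)
    (hf : ∀ k, DifferentiableOn ℂ (f k) D) :
    TendstoLocallyUniformlyOn (fun k z => (fderiv ℂ (f k) z).det)
      (fun z => (fderiv ℂ F z).det) l D := by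
  have h1 := tlu_fderiv hD h (Eventually.of_forall hf)
  have hF : AnalyticOnNhd ℂ F D :=
    analyticOnNhd_of_tendstoLocallyUniformlyOn hD h (Eventually.of_forall hf)
  have h2 : ContinuousOn (fderiv ℂ F) D := hF.fderiv.continuousOn
  rw [Metric.tendstoLocallyUniformlyOn_iff]
  intro η hη x hx
  have hc := continuous_det (E := E)
  have h3 : ∀ᶠ L in 𝓝 (fderiv ℂ F x), dist (L : E →L[ℂ] E).det (fderiv ℂ F x).det < η / 2 :=
    (hc.tendsto (fderiv ℂ F x)).eventually (ball_mem_nhds _ (by positivity))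
  obtain ⟨ε, hε, hεs⟩ := Metric.eventually_nhds_iff.1 h3
  rw [Metric.tendstoLocallyUniformlyOn_iff] at h1
  obtain ⟨t, ht, htk⟩ := h1 (ε / 2) (by positivity) x hx
  have h4 : ∀ᶠ y in 𝓝[D] x, dist (fderiv ℂ F y) (fderiv ℂ F x) < ε / 2 :=
    (h2 x hx).eventually (ball_mem_nhds _ (by positivity))
  refine ⟨t ∩ {y | dist (fderiv ℂ F y) (fderiv ℂ F x) < ε / 2}, inter_mem ht h4, ?_⟩
  filter_upwards [htk] with k hk y hy
  have h5 := hk y hy.1
  have h6 : dist (fderiv ℂ F y) (fderiv ℂ F x) < ε / 2 := hy.2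
  have h7 : dist (fderiv ℂ (f k) y) (fderiv ℂ F x) < ε := by
    calc dist (fderiv ℂ (f k) y) (fderiv ℂ F x) ≤ dist (fderiv ℂ (f k) y) (fderiv ℂ F y) +
          dist (fderiv ℂ F y) (fderiv ℂ F x) := dist_triangle _ _ _
      _ < ε := by rw [dist_comm (fderiv ℂ (f k) y)]; linarith
  have h8 := hεs h7
  have h9 := hεs (show dist (fderiv ℂ F y) (fderiv ℂ F x) < ε by linarith)
  calc dist (fderiv ℂ F y).det (fderiv ℂ (f k) y).det
      ≤ dist (fderiv ℂ F y).det (fderiv ℂ F x).det +
        dist (fderiv ℂ F x).det (fderiv ℂ (f k) y).det := dist_triangle _ _ _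
    _ < η := by rw [dist_comm (fderiv ℂ F x).det]; linarith

/-- stability of surjectivity near a point with invertible derivative -/
theorem eventually_mem_image {l : Filter ι} [l.NeBot] {D : Set E} (hD : IsOpen D)
    {f : ι → E → E} {F : E → E} (h : TendstoLocallyUniformlyOn f F l D)
    (hf : ∀ k, DifferentiableOn ℂ (f k) D) {a : E} (ha : a ∈ D)
    (hdet : (fderiv ℂ F a).det ≠ 0) : ∀ᶠ k in l, F a ∈ f k '' D := by
  have : CompleteSpace E := FiniteDimensional.complete ℂ E
  set A : E ≃L[ℂ] E := (fderiv ℂ F a).toContinuousLinearEquivOfDetNeZero hdet with hA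
  have hAc : (A : E →L[ℂ] E) = fderiv ℂ F a := by
    ext v; simp [hA]
  rcases subsingleton_or_nontrivial E with hE | hE
  · refine Eventually.of_forall (fun k => ⟨a, ha, Subsingleton.elim _ _⟩)
  set N : NNReal := ‖(A.symm : E →L[ℂ] E)‖₊ with hN
  have hNpos : 0 < N := by
    rw [hN]
    exact (A.symm).norm_pos
  have h1 := tlu_fderiv hD h (Eventually.of_forall hf)
  have hFa : AnalyticOnNhd ℂ F D :=
    analyticOnNhd_of_tendstoLocallyUniformlyOn hD h (Eventually.of_forall hf)
  have h2 : ContinuousOn (fderiv ℂ F) D := hFa.fderiv.continuousOn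
  set c : NNReal := N⁻¹ / 2 with hc
  have hcpos : 0 < c := by rw [hc]; positivity
  rw [Metric.tendstoLocallyUniformlyOn_iff] at h1
  obtain ⟨t, ht, htk⟩ := h1 (c / 2) (by positivity) a ha
  have h4 : ∀ᶠ y in 𝓝[D] a, dist (fderiv ℂ F y) (fderiv ℂ F a) < c / 2 :=
    (h2 a ha).eventually (ball_mem_nhds _ (by positivity))
  rw [hD.nhdsWithin_eq ha] at ht h4
  obtain ⟨r, hr, hrs⟩ := Metric.mem_nhds_iff.1 (inter_mem (inter_mem ht h4) (hD.mem_nhds ha))
  have hcb : closedBall a (r / 2) ⊆ ball a r := closedBall_subset_ball (by linarith)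
  have hlim : Tendsto (fun k => f k a) l (𝓝 (F a)) := by
    exact h.tendsto_at ha
  have hrad : 0 < ((N : ℝ)⁻¹ - c) * (r / 2) := by
    have : (c : ℝ) = (N : ℝ)⁻¹ / 2 := by rw [hc]; simp
    rw [this]
    have : 0 < (N : ℝ)⁻¹ := by positivity
    have : (N : ℝ)⁻¹ - (N : ℝ)⁻¹ / 2 = (N : ℝ)⁻¹ / 2 := by ring
    rw [this]
    positivity
  filter_upwards [htk, Metric.tendsto_nhds.1 hlim _ hrad] with k hk hk'
  -- `f k` approximates `A` on the closed ball
  have happ : ApproximatesLinearOn (f k) (A : E →L[ℂ] E) (closedBall a (r / 2)) c := by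
    rw [hAc]
    intro x hx y hy
    refine (convex_closedBall a (r / 2)).norm_image_sub_le_of_norm_fderiv_le' (𝕜 := ℂ)
      (f := f k) (φ := fderiv ℂ F a) ?_ ?_ hy hx
    · intro z hz
      exact (hf k).differentiableAt (hD.mem_nhds (hrs (hcb hz)).2)
    · intro z hz
      have h5 := hk z (hrs (hcb hz)).1.1
      have h6 : dist (fderiv ℂ F z) (fderiv ℂ F a) < c / 2 := (hrs (hcb hz)).1.2
      rw [← dist_eq_norm]
      calc dist (fderiv ℂ (f k) z) (fderiv ℂ F a) ≤ dist (fderiv ℂ (f k) z) (fderiv ℂ F z) +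
            dist (fderiv ℂ F z) (fderiv ℂ F a) := dist_triangle _ _ _
        _ ≤ c := by rw [dist_comm (fderiv ℂ (f k) z)]; linarith
  have hsurj := happ.surjOn_closedBall_of_nonlinearRightInverse A.toNonlinearRightInverse
    (b := a) (ε := r / 2) (by positivity) subset_rfl
  have hmem : F a ∈ closedBall (f k a) (((N : ℝ)⁻¹ - c) * (r / 2)) := by
    rw [mem_closedBall, dist_comm]
    exact hk'.le
  obtain ⟨x, hx, hxe⟩ := hsurj hmem
  exact ⟨x, (hrs (hcb hx)).2, hxe⟩

/-- composition of locally uniform limits at a point -/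
theorem tendsto_comp_of_tlu {F : Type*} [NormedAddCommGroup F] [NormedSpace ℂ F]
    {l : Filter ι} [l.NeBot] {D : Set E} (hD : IsOpen D)
    {g : ι → E → F} {G : E → F} (h : TendstoLocallyUniformlyOn g G l D)
    (hG : ContinuousOn G D) {x : ι → E} {y : E} (hy : y ∈ D) (hx : Tendsto x l (𝓝 y)) :
    Tendsto (fun k => g k (x k)) l (𝓝 (G y)) := by
  refine h.tendsto_comp (hG y hy) hy ?_
  rw [hD.nhdsWithin_eq hy]
  exact hx

/-- D2, filter form with both limits given. -/
theorem aut_limit_filter {l : Filter ι} [l.NeBot] {D : Set E} (hDo : IsOpen D)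
    (hDc : IsPreconnected D) {f g : ι → E → E}
    (h : ∀ k, AutPair D (f k) (g k)) {F G : E → E} (hF : TendstoLocallyUniformlyOn f F l D)
    (hG : TendstoLocallyUniformlyOn g G l D) {p : E} (hp : p ∈ D) (hFp : F p ∈ D) :
    AutPair D F G := by
  have hFa : AnalyticOnNhd ℂ F D :=
    analyticOnNhd_of_tendstoLocallyUniformlyOn hDo hF (Eventually.of_forall fun k => (h k).hF)
  have hGa : AnalyticOnNhd ℂ G D :=
    analyticOnNhd_of_tendstoLocallyUniformlyOn hDo hG (Eventually.of_forall fun k => (h k).hG)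
  have hGF : ∀ z ∈ D, F z ∈ D → G (F z) = z := by
    intro z hz hFz
    have h1 : Tendsto (fun k => g k (f k z)) l (𝓝 (G (F z))) :=
      tendsto_comp_of_tlu hDo hG hGa.continuousOn hFz (hF.tendsto_at hz)
    have h2 : (fun k => g k (f k z)) = fun _ => z := by
      funext k; exact (h k).left z hz
    rw [h2] at h1
    exact tendsto_nhds_unique h1 tendsto_const_nhds
  have hFG : ∀ z ∈ D, G z ∈ D → F (G z) = z := by
    intro z hz hGz
    have h1 : Tendsto (fun k => f k (g k z)) l (𝓝 (F (G z))) :=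
      tendsto_comp_of_tlu hDo hF hFa.continuousOn hGz (hG.tendsto_at hz)
    have h2 : (fun k => f k (g k z)) = fun _ => z := by
      funext k; exact (h k).right z hz
    rw [h2] at h1
    exact tendsto_nhds_unique h1 tendsto_const_nhds
  -- the derivative of `F` at `p` is invertible
  have hdet : ∀ (F G : E → E), AnalyticOnNhd ℂ F D → AnalyticOnNhd ℂ G D →
      (∀ z ∈ D, F z ∈ D → G (F z) = z) → ∀ z ∈ D, F z ∈ D → (fderiv ℂ F z).det ≠ 0 := by
    intro F G hFa hGa hGF z hz hFz
    have h1 : (G ∘ F) =ᶠ[𝓝 z] id := by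
      have h2 : ∀ᶠ w in 𝓝 z, F w ∈ D := (hFa z hz).continuousAt (hDo.mem_nhds hFz)
      filter_upwards [h2, hDo.mem_nhds hz] with w hw hw'
      exact hGF w hw' hw
    have h3 : HasFDerivAt (G ∘ F) ((fderiv ℂ G (F z)).comp (fderiv ℂ F z)) z :=
      (hGa _ hFz).differentiableAt.hasFDerivAt.comp z (hFa z hz).differentiableAt.hasFDerivAt
    have h4 : (fderiv ℂ G (F z)).comp (fderiv ℂ F z) = ContinuousLinearMap.id ℂ E :=
      h3.unique ((hasFDerivAt_id z).congr_of_eventuallyEq h1)
    have h5 : ((fderiv ℂ G (F z)).det) * ((fderiv ℂ F z).det) = 1 := by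
      have : (((fderiv ℂ G (F z)).comp (fderiv ℂ F z)) : E →L[ℂ] E).det = 1 := by
        rw [h4]; simp [ContinuousLinearMap.det]
      rw [← this]
      show LinearMap.det _ * LinearMap.det _ = LinearMap.det
        ((fderiv ℂ G (F z) : E →ₗ[ℂ] E) ∘ₗ (fderiv ℂ F z : E →ₗ[ℂ] E))
      rw [LinearMap.det_comp]
    intro h6
    rw [h6, mul_zero] at h5
    exact zero_ne_one h5
  -- `det F'` has no zeros
  have key : ∀ (f g : ι → E → E) (F G : E → E), (∀ k, AutPair D (f k) (g k)) →
      TendstoLocallyUniformlyOn f F l D → AnalyticOnNhd ℂ F D → AnalyticOnNhd ℂ G D →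
      (∀ z ∈ D, F z ∈ D → G (F z) = z) → ∀ p ∈ D, F p ∈ D → ∀ z ∈ D, F z ∈ D := by
    intro f g F G h hF hFa hGa hGF p hp hFp z hz
    have h1 : ∀ k, ∀ z ∈ D, (fderiv ℂ (f k) z).det ≠ 0 := by
      intro k z hz
      exact hdet (f k) (g k) (analyticOnNhd_of_differentiableOn hDo (h k).hF)
        (analyticOnNhd_of_differentiableOn hDo (h k).hG) (fun w hw _ => (h k).left w hw) z hz
        ((h k).mapsF hz)
    have h2 : (fderiv ℂ F z).det ≠ 0 :=
      hurwitz_ne_zero hDo hDc (tlu_det_fderiv hDo hF (fun k => (h k).hF))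
        (Eventually.of_forall fun k => differentiableOn_det_fderiv hDo (h k).hF)
        (Eventually.of_forall fun k => h1 k) hp (hdet F G hFa hGa hGF p hp hFp) z hz
    obtain ⟨k, hk⟩ := (eventually_mem_image hDo hF (fun k => (h k).hF) hz h2).exists
    obtain ⟨x, hx, hxe⟩ := hk
    rw [← hxe]
    exact (h k).mapsF hx
  have hGq : G (F p) ∈ D := by rw [hGF p hp hFp]; exact hp
  have mF : ∀ z ∈ D, F z ∈ D := key f g F G h hF hFa hGa hGF p hp hFp
  have mG : ∀ z ∈ D, G z ∈ D :=
    key g f G F (fun k => (h k).symm) hG hGa hFa hFG (F p) hFp hGq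
  exact ⟨hFa.differentiableOn, hGa.differentiableOn, mF, mG, fun z hz => hGF z hz (mF z hz),
    fun z hz => hFG z hz (mG z hz)⟩

/-- **D2** (H. Cartan). -/
theorem aut_limit_gen {l : Filter ι} [l.NeBot] {D : Set E} (hDo : IsOpen D)
    (hDc : IsPreconnected D) (hDb : Bornology.IsBounded D) {f g : ι → E → E}
    (h : ∀ k, AutPair D (f k) (g k)) {F : E → E} (hF : TendstoLocallyUniformlyOn f F l D)
    {p : E} (hp : p ∈ D) (hFp : F p ∈ D) :
    ∃ G, AutPair D F G ∧ TendstoLocallyUniformlyOn g G l D := by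
  obtain ⟨M, hM⟩ := hDb.exists_norm_le
  have hgM : ∀ k, ∀ z ∈ D, ‖g k z‖ ≤ M := fun k z hz => hM _ ((h k).mapsG hz)
  -- along every ultrafilter
  have hul : ∀ u : Ultrafilter ι, (u : Filter ι) ≤ l → ∃ G, AutPair D F G ∧
      TendstoLocallyUniformlyOn g G u D := by
    intro u hu
    obtain ⟨G, hG, -, -⟩ := montel_ultra u hDo (fun k => (h k).hG) hgM
    have hFu : TendstoLocallyUniformlyOn f F u D := by
      intro v hv x hx
      obtain ⟨t, ht, ht'⟩ := hF v hv x hx
      exact ⟨t, ht, hu ht'⟩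
    exact ⟨G, aut_limit_filter hDo hDc h hFu hG hp hFp, hG⟩
  obtain ⟨G, hG, -⟩ := hul (Ultrafilter.of l) (Ultrafilter.of_le l)
  refine ⟨G, hG, ?_⟩
  refine tlu_of_pointwise hDo (Eventually.of_forall fun k => (h k).hG)
    (Eventually.of_forall hgM) (fun z hz => ?_)
  rw [tendsto_iff_ultrafilter]
  intro u hu
  obtain ⟨G', hG', hG'u⟩ := hul u hu
  have h1 : G' z = G z := by
    have h2 : F (G' z) = F (G z) := by rw [hG'.right z hz, hG.right z hz]
    exact hG.injOn (hG'.mapsG hz) (hG.mapsG hz) h2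
  rw [← h1]
  exact hG'u.tendsto_at hz

theorem aut_limit {D : Set E} (hDo : IsOpen D)
    (hDc : IsPreconnected D) (hDb : Bornology.IsBounded D) {f g : ℕ → E → E}
    (h : ∀ k, AutPair D (f k) (g k)) {F : E → E} (hF : TendstoLocallyUniformlyOn f F atTop D)
    {p : E} (hp : p ∈ D) (hFp : F p ∈ D) :
    ∃ G, AutPair D F G ∧ TendstoLocallyUniformlyOn g G atTop D :=
  aut_limit_gen hDo hDc hDb h hF hp hFp

/-- **D2'**: compactness of sets of automorphisms, ultrafilter form. -/
theorem aut_compact_ultra (u : Ultrafilter ι) {D : Set E} (hDo : IsOpen D)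
    (hDc : IsPreconnected D) (hDb : Bornology.IsBounded D) {f g : ι → E → E}
    (h : ∀ k, AutPair D (f k) (g k)) {x : ι → E} {p q : E} (hp : p ∈ D) (hq : q ∈ D)
    (hx : Tendsto x u (𝓝 p)) (hfx : Tendsto (fun k => f k (x k)) u (𝓝 q)) :
    ∃ F G, AutPair D F G ∧ F p = q ∧ TendstoLocallyUniformlyOn f F u D ∧
      TendstoLocallyUniformlyOn g G u D := by
  obtain ⟨M, hM⟩ := hDb.exists_norm_le
  obtain ⟨F, hF, hFd, -⟩ := montel_ultra u hDo (fun k => (h k).hF)
    (fun k z hz => hM _ ((h k).mapsF hz))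
  have h1 : F p = q := by
    have h2 : Tendsto (fun k => f k (x k)) u (𝓝 (F p)) :=
      tendsto_comp_of_tlu hDo hF hFd.continuousOn hp hx
    exact tendsto_nhds_unique h2 hfx
  obtain ⟨G, hG, hG'⟩ := aut_limit_gen hDo hDc hDb h hF hp (by rw [h1]; exact hq)
  exact ⟨F, G, hG, h1, hF, hG'⟩

end Crest.Agent.R264
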