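import Crest.Agent.R264.BergIface
import Crest.Agent.R266.SCV

/-!
Row 264, D5 (helper587): mean value property on closed polydiscs.
-/

set_option autoImplicit false

open MeasureTheory Set Metric Filter
open scoped Real ContDiff Topology

noncomputable section

namespace Crest.Agent.R264.Berg

variable {n : ℕ}

lemma measurePreserving_rot (c : Circle) :
    MeasurePreserving (fun y : Fin n → ℂ => (c : ℂ) • y) volume volume :=
  volume_preserving_pi (f := fun (_ : Fin n) (z : ℂ) => (c : ℂ) * z)
    (fun _ => (rotation c).measurePreserving)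

lemma measurableEmbedding_rot (c : Circle) :
    MeasurableEmbedding (fun y : Fin n → ℂ => (c : ℂ) • y) :=
  (Homeomorph.smulOfNeZero (c : ℂ) (by simp)).measurableEmbedding

lemma setIntegral_rot {g : (Fin n → ℂ) → ℂ} (c : Circle) (r : ℝ) :
    ∫ y in closedBall (0 : Fin n → ℂ) r, g ((c : ℂ) • y)
      = ∫ y in closedBall (0 : Fin n → ℂ) r, g y := by
  have h := (measurePreserving_rot (n := n) c).setIntegral_preimage_emb
    (measurableEmbedding_rot c) g (closedBall 0 r)
  rw [← h]
  congr 2
  ext y
  rw [mem_preimage, mem_closedBall_zero_iff, mem_closedBall_zero_iff, norm_smul,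
    Circle.norm_coe, one_mul]

lemma setIntegral_trans {f : (Fin n → ℂ) → ℂ} (x : Fin n → ℂ) (r : ℝ) :
    ∫ y in closedBall x r, f y = ∫ y in closedBall (0 : Fin n → ℂ) r, f (x + y) := by
  have h := (measurePreserving_add_left volume x).setIntegral_preimage_emb
    (measurableEmbedding_addLeft x) f (closedBall x r)
  rw [← h]
  congr 2
  ext y
  simp

/-- mean value property on closed balls of the sup norm -/
theorem mv_closedBall {f : (Fin n → ℂ) → ℂ} {x : Fin n → ℂ} {r : ℝ} {D : Set (Fin n → ℂ)}
    (hD : IsOpen D) (hf : DifferentiableOn ℂ f D) (hB : closedBall x r ⊆ D) :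
    ∫ y in closedBall x r, f y = (volume.real (closedBall x r)) • f x := by
  set B : Set (Fin n → ℂ) := closedBall 0 r with hBdef
  have hBc : IsCompact B := isCompact_closedBall _ _
  have hmem : ∀ (ζ : ℂ), ‖ζ‖ ≤ 1 → ∀ y ∈ B, x + ζ • y ∈ D := by
    intro ζ hζ y hy
    apply hB
    rw [mem_closedBall, dist_eq_norm, add_sub_cancel_left, norm_smul]
    have : ‖y‖ ≤ r := by simpa [hBdef] using hy
    nlinarith [norm_nonneg y, norm_nonneg ζ]
  -- inner average
  have havg : ∀ y ∈ B, ∫ θ in (0 : ℝ)..2 * π, f (x + (circleMap 0 1 θ) • y)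
      = (2 * π) • f x := by
    intro y hy
    have hd : ∀ ζ ∈ closedBall (0 : ℂ) 1, DifferentiableAt ℂ (fun ζ : ℂ => f (x + ζ • y)) ζ := by
      intro ζ hζ
      have h1 : DifferentiableAt ℂ f (x + ζ • y) :=
        hf.differentiableAt (hD.mem_nhds (hmem ζ (by simpa using hζ) y hy))
      exact h1.comp ζ (f := fun ζ : ℂ => x + ζ • y) (by fun_prop)
    have hdc : DiffContOnCl ℂ (fun ζ : ℂ => f (x + ζ • y)) (ball 0 |(1 : ℝ)|) := by
      apply DifferentiableOn.diffContOnCl
      intro ζ hζ
      exact (hd ζ (by simpa using closure_ball_subset_closedBall hζ)).differentiableWithinAt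
    have h2 := hdc.circleAverage
    rw [Real.circleAverage_def] at h2
    simp only [zero_smul, add_zero] at h2
    rw [← h2, smul_smul, mul_inv_cancel₀ (by positivity), one_smul]
  have hcont : ContinuousOn (fun p : ℝ × (Fin n → ℂ) => f (x + (circleMap 0 1 p.1) • p.2))
      (Icc 0 (2 * π) ×ˢ B) := by
    refine hf.continuousOn.comp (by fun_prop) ?_
    rintro ⟨θ, y⟩ ⟨-, hy⟩
    exact hmem _ (by simp [circleMap]) y hy
  have hint : IntegrableOn (fun p : ℝ × (Fin n → ℂ) => f (x + (circleMap 0 1 p.1) • p.2))
      (Icc 0 (2 * π) ×ˢ B) (volume.prod volume) :=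
    hcont.integrableOn_compact (isCompact_Icc.prod hBc)
  have hint' : Integrable (Function.uncurry
      (fun (θ : ℝ) (y : Fin n → ℂ) => f (x + (circleMap 0 1 θ) • y)))
      ((volume.restrict (Icc 0 (2 * π))).prod (volume.restrict B)) := by
    rw [Measure.prod_restrict]
    exact hint
  have hswap := integral_integral_swap hint'
  -- left side: constant in θ
  have hL : ∀ θ : ℝ, ∫ y in B, f (x + (circleMap 0 1 θ) • y) = ∫ y in B, f (x + y) := by
    intro θ
    have h1 : circleMap 0 1 θ = ((Circle.exp θ : Circle) : ℂ) := by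
      simp [circleMap]
    rw [h1]
    exact setIntegral_rot (g := fun y => f (x + y)) (Circle.exp θ) r
  simp only [hL] at hswap
  rw [setIntegral_trans]
  have h3 : ∫ _θ in Icc 0 (2 * π), ∫ y in B, f (x + y) = (2 * π) • ∫ y in B, f (x + y) := by
    rw [integral_const]
    congr 1
    rw [Measure.real, Measure.restrict_apply_univ, Real.volume_Icc,
      ENNReal.toReal_ofReal (by linarith [Real.pi_pos])]
    ring
  rw [h3] at hswap
  have h4 : ∫ y in B, (∫ θ in Icc 0 (2 * π), f (x + (circleMap 0 1 θ) • y))
      = ∫ y in B, (2 * π) • f x := by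
    refine setIntegral_congr_fun hBc.measurableSet (fun y hy => ?_)
    have := havg y hy
    rw [intervalIntegral.integral_of_le (by positivity)] at this
    rw [integral_Icc_eq_integral_Ioc, this]
  rw [h4, integral_const] at hswap
  have h5 : (2 * π) • ∫ y in B, f (x + y) = (2 * π) • (volume.real B • f x) := by
    rw [hswap, smul_comm, Measure.real, Measure.real, Measure.restrict_apply_univ]
  have h6 : (2 * π : ℝ) ≠ 0 := by positivity
  have h7 := smul_right_injective ℂ h6 h5
  rw [h7]
  congr 1
  rw [hBdef, Measure.real, Measure.real, Measure.addHaar_closedBall_center volume x r]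

end Crest.Agent.R264.Berg
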