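import Crest.Agent.R264.Berg1

/-!
Row 264, D5 (helper587): square integrable holomorphic functions and their evaluations.
-/

set_option autoImplicit false

open MeasureTheory Set Metric Filter
open scoped Real ContDiff Topology ENNReal InnerProductSpace

noncomputable section

namespace Crest.Agent.R264.Berg

variable {n : ℕ}

/-- `L²(D)` -/
abbrev L2D (D : Set (Fin n → ℂ)) := Lp ℂ 2 (volume.restrict D)

/-- `f` is a holomorphic representative of `F` -/
def Rep (D : Set (Fin n → ℂ)) (F : L2D D) (f : (Fin n → ℂ) → ℂ) : Prop :=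
  DifferentiableOn ℂ f D ∧ (F : (Fin n → ℂ) → ℂ) =ᵐ[volume.restrict D] f

/-- square integrable holomorphic functions -/
def A2 (D : Set (Fin n → ℂ)) : Submodule ℂ (L2D D) where
  carrier := {F | ∃ f, Rep D F f}
  add_mem' := by
    rintro F G ⟨f, hf, hf'⟩ ⟨g, hg, hg'⟩
    refine ⟨f + g, hf.add hg, ?_⟩
    filter_upwards [Lp.coeFn_add F G, hf', hg'] with x h1 h2 h3
    rw [h1, Pi.add_apply, h2, h3, Pi.add_apply]
  zero_mem' := ⟨0, differentiableOn_const 0, Lp.coeFn_zero _ _ _⟩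
  smul_mem' := by
    rintro c F ⟨f, hf, hf'⟩
    refine ⟨c • f, hf.const_smul c, ?_⟩
    filter_upwards [Lp.coeFn_smul c F, hf'] with x h1 h2
    rw [h1, Pi.smul_apply, h2, Pi.smul_apply]

/-- the closure -/
def VV (D : Set (Fin n → ℂ)) : Submodule ℂ (L2D D) := (A2 D).topologicalClosure

lemma A2_le (D : Set (Fin n → ℂ)) : A2 D ≤ VV D := Submodule.le_topologicalClosure _

/-- the Hilbert space (the closure of the space of square integrable holomorphic functions) -/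
def W (D : Set (Fin n → ℂ)) : Type := ↥(VV D)

instance (D : Set (Fin n → ℂ)) : NormedAddCommGroup (W D) :=
  inferInstanceAs (NormedAddCommGroup (VV D))

instance (D : Set (Fin n → ℂ)) : InnerProductSpace ℂ (W D) :=
  inferInstanceAs (InnerProductSpace ℂ (VV D))

instance (D : Set (Fin n → ℂ)) : CompleteSpace (W D) :=
  (Submodule.isClosed_topologicalClosure (A2 D)).completeSpace_coe

/-- the inclusion in `L²` -/
def toL (D : Set (Fin n → ℂ)) : W D →ₗᵢ[ℂ] L2D D := (VV D).subtypeₗᵢ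

/-- elements of `W` from elements of `A²` -/
def ofA2 {D : Set (Fin n → ℂ)} (F : L2D D) (h : F ∈ A2 D) : W D := ⟨F, A2_le D h⟩

lemma toL_ofA2 {D : Set (Fin n → ℂ)} (F : L2D D) (h : F ∈ A2 D) : toL D (ofA2 F h) = F := rfl

/-- a property that is closed and holds on `A²` holds on `VV` -/
lemma VV_ind {D : Set (Fin n → ℂ)} {P : W D → Prop} (hc : IsClosed {F | P F})
    (h : ∀ F : W D, toL D F ∈ A2 D → P F) (F : W D) : P F := by
  have hd : Dense {F : W D | toL D F ∈ A2 D} := by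
    rw [dense_iff_closure_eq, eq_univ_iff_forall]
    intro G
    rw [(toL D).isometry.isEmbedding.isInducing.closure_eq_preimage_closure_image]
    have h1 : toL D G ∈ closure ((A2 D : Submodule ℂ (L2D D)) : Set (L2D D)) := G.2
    refine closure_mono ?_ h1
    intro y hy
    exact ⟨ofA2 y hy, hy, rfl⟩
  have : closure {F : W D | toL D F ∈ A2 D} ⊆ {F | P F} := hc.closure_subset_iff.2 h
  rw [hd.closure_eq] at this
  exact this (mem_univ F)

lemma ext_A2 {D : Set (Fin n → ℂ)} {φ ψ : W D →L[ℂ] ℂ}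
    (h : ∀ F : W D, toL D F ∈ A2 D → φ F = ψ F) : φ = ψ := by
  ext F
  exact VV_ind (P := fun F => φ F = ψ F) (isClosed_eq φ.continuous ψ.continuous) h F

lemma norm_le_of_A2 {D : Set (Fin n → ℂ)} {φ : W D →L[ℂ] ℂ} {C : ℝ} (hC : 0 ≤ C)
    (h : ∀ F : W D, toL D F ∈ A2 D → ‖φ F‖ ≤ C * ‖F‖) : ‖φ‖ ≤ C := by
  refine φ.opNorm_le_bound hC (fun F => ?_)
  exact VV_ind (P := fun F => ‖φ F‖ ≤ C * ‖F‖)
    (isClosed_le φ.continuous.norm (continuous_const.mul continuous_norm)) h F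

lemma rep_unique {D : Set (Fin n → ℂ)} (hD : IsOpen D) {F : L2D D} {f g : (Fin n → ℂ) → ℂ}
    (hf : Rep D F f) (hg : Rep D F g) : EqOn f g D :=
  Measure.eqOn_open_of_ae_eq (μ := volume) (hf.2.symm.trans hg.2) hD
    hf.1.continuousOn hg.1.continuousOn

/-- volume of balls -/
def vb (n : ℕ) (r : ℝ) : ℝ := volume.real (closedBall (0 : Fin n → ℂ) r)

lemma vb_pos {r : ℝ} (hr : 0 < r) : 0 < vb n r := by
  rw [vb, Measure.real]
  refine ENNReal.toReal_pos ?_ (measure_closedBall_lt_top).ne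
  exact (measure_closedBall_pos volume _ hr).ne'

lemma vb_eq (x : Fin n → ℂ) (r : ℝ) : volume.real (closedBall x r) = vb n r := by
  rw [vb, Measure.real, Measure.real, Measure.addHaar_closedBall_center volume x r]

lemma restrict_cb {D : Set (Fin n → ℂ)} {x : Fin n → ℂ} {r : ℝ} (hB : closedBall x r ⊆ D) :
    (volume.restrict D).restrict (closedBall x r) = volume.restrict (closedBall x r) :=
  Measure.restrict_restrict_of_subset hB

lemma meas_cb (D : Set (Fin n → ℂ)) (x : Fin n → ℂ) (r : ℝ) :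
    (volume.restrict D) (closedBall x r) ≠ (⊤ : ℝ≥0∞) :=
  ((Measure.restrict_apply_le _ _).trans_lt measure_closedBall_lt_top).ne

/-- the averaging vector -/
def bb (D : Set (Fin n → ℂ)) (x : Fin n → ℂ) (r : ℝ) : L2D D :=
  (((vb n r)⁻¹ : ℝ) : ℂ) • indicatorConstLp 2 (measurableSet_closedBall (x := x) (ε := r))
    (meas_cb D x r) (1 : ℂ)

lemma inner_bb {D : Set (Fin n → ℂ)} (hD : IsOpen D) {x : Fin n → ℂ} {r : ℝ} (hr : 0 < r)
    (hB : closedBall x r ⊆ D) {F : L2D D} {f : (Fin n → ℂ) → ℂ} (hf : Rep D F f) :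
    ⟪bb D x r, F⟫_ℂ = f x := by
  rw [bb, inner_smul_left, L2.inner_indicatorConstLp_one, restrict_cb hB]
  have h1 : ∫ y in closedBall x r, (F : (Fin n → ℂ) → ℂ) y = ∫ y in closedBall x r, f y := by
    refine integral_congr_ae ?_
    have := ae_restrict_of_ae_restrict_of_subset hB hf.2
    exact this
  rw [h1, mv_closedBall hD hf.1 hB, vb_eq, Complex.conj_ofReal, Complex.real_smul, ← mul_assoc,
    ← Complex.ofReal_mul, inv_mul_cancel₀ (vb_pos hr).ne', Complex.ofReal_one, one_mul]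

/-- the constant of the `L²` bound -/
def cb (n : ℕ) (r : ℝ) : ℝ := (vb n r)⁻¹ * (vb n r) ^ ((1 : ℝ) / 2)

lemma cb_nonneg (n : ℕ) (r : ℝ) : 0 ≤ cb n r := by
  have h : 0 ≤ vb n r := measureReal_nonneg
  unfold cb
  positivity

lemma norm_bb {D : Set (Fin n → ℂ)} {x : Fin n → ℂ} {r : ℝ} (hB : closedBall x r ⊆ D) :
    ‖bb D x r‖ = cb n r := by
  have h0 : 0 ≤ vb n r := measureReal_nonneg
  rw [bb, norm_smul, norm_indicatorConstLp (by norm_num) (by norm_num), norm_one, one_mul,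
    Complex.norm_real, Real.norm_of_nonneg (inv_nonneg.2 h0), cb]
  congr 2
  rw [Measure.real, Measure.restrict_apply measurableSet_closedBall,
    inter_eq_self_of_subset_left hB, ← Measure.real, vb_eq]

/-- evaluation through the averaging vector -/
def ev0 (D : Set (Fin n → ℂ)) (x : Fin n → ℂ) (r : ℝ) : W D →L[ℂ] ℂ :=
  (innerSL ℂ (bb D x r)).comp (toL D).toContinuousLinearMap

lemma ev0_apply {D : Set (Fin n → ℂ)} (hD : IsOpen D) {x : Fin n → ℂ} {r : ℝ} (hr : 0 < r)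
    (hB : closedBall x r ⊆ D) {F : W D} {f : (Fin n → ℂ) → ℂ} (hf : Rep D (toL D F) f) :
    ev0 D x r F = f x :=
  inner_bb hD hr hB hf

lemma norm_ev0_le {D : Set (Fin n → ℂ)} {x : Fin n → ℂ} {r : ℝ}
    (hB : closedBall x r ⊆ D) : ‖ev0 D x r‖ ≤ cb n r := by
  refine ContinuousLinearMap.opNorm_le_bound _ (cb_nonneg n r) (fun F => ?_)
  calc ‖ev0 D x r F‖ = ‖⟪bb D x r, toL D F⟫_ℂ‖ := rfl
    _ ≤ ‖bb D x r‖ * ‖toL D F‖ := norm_inner_le_norm _ _
    _ = cb n r * ‖F‖ := by rw [norm_bb hB, (toL D).norm_map]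

lemma exists_cb {D : Set (Fin n → ℂ)} (hD : IsOpen D) {x : Fin n → ℂ} (hx : x ∈ D) :
    ∃ r, 0 < r ∧ closedBall x r ⊆ D :=
  nhds_basis_closedBall.mem_iff.1 (hD.mem_nhds hx)

open Classical in
/-- evaluation at a point of `D` -/
def ev (D : Set (Fin n → ℂ)) (x : Fin n → ℂ) : W D →L[ℂ] ℂ :=
  if h : ∃ r, 0 < r ∧ closedBall x r ⊆ D then ev0 D x h.choose else 0

lemma ev_apply {D : Set (Fin n → ℂ)} (hD : IsOpen D) {x : Fin n → ℂ} (hx : x ∈ D)
    {F : W D} {f : (Fin n → ℂ) → ℂ} (hf : Rep D (toL D F) f) : ev D x F = f x := by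
  rw [ev, dif_pos (exists_cb hD hx)]
  exact ev0_apply hD (exists_cb hD hx).choose_spec.1 (exists_cb hD hx).choose_spec.2 hf

lemma ev_eq_ev0 {D : Set (Fin n → ℂ)} (hD : IsOpen D) {x : Fin n → ℂ} {r : ℝ} (hr : 0 < r)
    (hB : closedBall x r ⊆ D) : ev D x = ev0 D x r := by
  refine ext_A2 (fun F hF => ?_)
  obtain ⟨f, hf⟩ := hF
  rw [ev_apply hD (hB (mem_closedBall_self hr.le)) hf, ev0_apply hD hr hB hf]

lemma norm_ev_le {D : Set (Fin n → ℂ)} (hD : IsOpen D) {x : Fin n → ℂ} {r : ℝ} (hr : 0 < r)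
    (hB : closedBall x r ⊆ D) : ‖ev D x‖ ≤ cb n r := by
  rw [ev_eq_ev0 hD hr hB]
  exact norm_ev0_le hB

/-- local Lipschitz bound -/
lemma ev_lip {D : Set (Fin n → ℂ)} (hD : IsOpen D) {x₀ : Fin n → ℂ} {r : ℝ} (hr : 0 < r)
    (hB : closedBall x₀ (3 * r) ⊆ D) {y z : Fin n → ℂ} (hy : y ∈ ball x₀ r) (hz : z ∈ ball x₀ r) :
    ‖ev D y - ev D z‖ ≤ cb n r / r * ‖y - z‖ := by
  refine norm_le_of_A2 (by have := cb_nonneg n r; positivity) (fun F hF => ?_)
  obtain ⟨f, hf⟩ := hF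
  have hin : ∀ w ∈ ball x₀ (2 * r), w ∈ D ∧ closedBall w r ⊆ D := by
    intro w hw
    have h1 : closedBall w r ⊆ D := by
      refine (closedBall_subset_closedBall' ?_).trans hB
      rw [mem_ball] at hw
      linarith
    exact ⟨h1 (mem_closedBall_self hr.le), h1⟩
  have hsub : ball x₀ r ⊆ ball x₀ (2 * r) := ball_subset_ball (by linarith)
  have hbd : ∀ w ∈ ball x₀ (2 * r), ‖f w‖ ≤ cb n r * ‖F‖ := by
    intro w hw
    rw [← ev_apply hD (hin w hw).1 hf]
    exact ((ev D w).le_opNorm F).trans (by gcongr; exact norm_ev_le hD hr (hin w hw).2)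
  have hder : ∀ w ∈ ball x₀ r, ‖fderiv ℂ f w‖ ≤ (cb n r * ‖F‖) / r := by
    intro w hw
    have hs : ball w r ⊆ ball x₀ (2 * r) := by
      refine ball_subset_ball' ?_
      rw [mem_ball] at hw
      linarith
    exact Crest.Agent.R266.SCV.norm_fderiv_le_of_ball hr
      (hf.1.mono (fun v hv => (hin v (hs hv)).1)) (fun v hv => hbd v (hs hv))
  have hmv := (convex_ball x₀ r).norm_image_sub_le_of_norm_fderiv_le (𝕜 := ℂ)
    (fun w hw => hf.1.differentiableAt (hD.mem_nhds (hin w (hsub hw)).1)) hder hz hy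
  rw [_root_.sub_apply, ev_apply hD (hin y (hsub hy)).1 hf,
    ev_apply hD (hin z (hsub hz)).1 hf]
  calc ‖f y - f z‖ ≤ cb n r * ‖F‖ / r * ‖y - z‖ := hmv
    _ = cb n r / r * ‖y - z‖ * ‖F‖ := by ring

lemma exists_3r {D : Set (Fin n → ℂ)} (hD : IsOpen D) {x : Fin n → ℂ} (hx : x ∈ D) :
    ∃ r, 0 < r ∧ closedBall x (3 * r) ⊆ D := by
  obtain ⟨r, hr, h⟩ := exists_cb hD hx
  exact ⟨r / 3, by positivity, by rwa [mul_div_cancel₀ _ (by norm_num : (3 : ℝ) ≠ 0)]⟩

lemma continuousOn_ev {D : Set (Fin n → ℂ)} (hD : IsOpen D) : ContinuousOn (ev D) D := by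
  intro x hx
  obtain ⟨r, hr, hB⟩ := exists_3r hD hx
  refine ContinuousAt.continuousWithinAt ?_
  have hc := cb_nonneg n r
  rw [Metric.continuousAt_iff]
  intro ε hε
  refine ⟨min r (ε / (cb n r / r + 1)), by positivity, fun {y} hy => ?_⟩
  rw [lt_min_iff] at hy
  rw [dist_eq_norm]
  have h1 := ev_lip hD hr hB (mem_ball.2 hy.1) (mem_ball_self hr : x ∈ ball x r)
  rw [← dist_eq_norm y x] at h1
  have h2 := (lt_div_iff₀ (by positivity : 0 < cb n r / r + 1)).1 hy.2
  have h3 : 0 ≤ dist y x := dist_nonneg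
  nlinarith [h1, h2, h3, div_nonneg hc hr.le]

/-- `x ↦ ev_x` is holomorphic (analytic). -/
theorem analyticOnNhd_ev {D : Set (Fin n → ℂ)} (hD : IsOpen D) :
    AnalyticOnNhd ℂ (ev D) D := by
  refine Crest.Agent.R266.SCV.analyticOnNhd_of_gateaux hD (continuousOn_ev hD) (fun x hx v => ?_)
  -- small disc
  have hcont : Continuous (fun z : ℂ => x + z • v) := by fun_prop
  have hopen : IsOpen ((fun z : ℂ => x + z • v) ⁻¹' D) := hD.preimage hcont
  have h0 : (0 : ℂ) ∈ (fun z : ℂ => x + z • v) ⁻¹' D := by simpa using hx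
  obtain ⟨R, hR, hRs⟩ := nhds_basis_closedBall.mem_iff.1 (hopen.mem_nhds h0)
  have hmem : ∀ z ∈ closedBall (0 : ℂ) R, x + z • v ∈ D := fun z hz => hRs hz
  have key := Crest.Agent.R266.SCV.differentiableOn_of_separating
    (G := W D →L[ℂ] ℂ) (F := ℂ)
    (ι := {F : W D // toL D F ∈ A2 D})
    (fun F => ContinuousLinearMap.apply ℂ ℂ (F : W D))
    (fun φ ψ h => ext_A2 (fun F hF => h ⟨F, hF⟩))
    (g := fun z : ℂ => ev D (x + z • v)) (c := 0) (R := R)
    ((continuousOn_ev hD).comp hcont.continuousOn hmem)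
    (by
      rintro ⟨F, f, hf⟩ z hz
      have hz' := hmem z (ball_subset_closedBall hz)
      have h1 : DifferentiableAt ℂ (fun t : ℂ => f (x + t • v)) z :=
        (hf.1.differentiableAt (hD.mem_nhds hz')).comp z (f := fun z : ℂ => x + z • v)
          (by fun_prop)
      refine h1.congr_of_eventuallyEq ?_
      filter_upwards [hopen.mem_nhds hz'] with t ht
      exact ev_apply hD ht hf)
  exact key.differentiableAt (ball_mem_nhds _ hR)

end Crest.Agent.R264.Berg
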