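import Crest.Agent.R264.Berg2

/-!
Row 264, D5 (helper587): bounded functions are in `A²`, derivative of the evaluation,
behaviour under automorphisms (modulo the change of variables formula).
-/

set_option autoImplicit false

open MeasureTheory Set Metric Filter
open scoped Real ContDiff Topology ENNReal InnerProductSpace

noncomputable section

namespace Crest.Agent.R264.Berg

variable {n : ℕ}

lemma mem_A2 {D : Set (Fin n → ℂ)} {F : L2D D} : F ∈ A2 D ↔ ∃ f, Rep D F f := Iff.rfl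

/-- element of `VV` with a given square integrable holomorphic representative -/
def mkV {D : Set (Fin n → ℂ)} (g : (Fin n → ℂ) → ℂ) (hg : DifferentiableOn ℂ g D)
    (hm : MemLp g 2 (volume.restrict D)) : W D :=
  ofA2 (hm.toLp g) (mem_A2.2 ⟨g, hg, hm.coeFn_toLp⟩)

lemma rep_mkV {D : Set (Fin n → ℂ)} (g : (Fin n → ℂ) → ℂ) (hg : DifferentiableOn ℂ g D)
    (hm : MemLp g 2 (volume.restrict D)) : Rep D (toL D (mkV g hg hm)) g :=
  ⟨hg, hm.coeFn_toLp⟩

lemma norm_mkV {D : Set (Fin n → ℂ)} (g : (Fin n → ℂ) → ℂ) (hg : DifferentiableOn ℂ g D)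
    (hm : MemLp g 2 (volume.restrict D)) :
    ‖mkV g hg hm‖ = (eLpNorm g 2 (volume.restrict D)).toReal := by
  rw [← (toL D).norm_map, mkV, toL_ofA2, Lp.norm_toLp]

lemma memLp_of_bdd {D : Set (Fin n → ℂ)} (hD : IsOpen D) (hb : Bornology.IsBounded D)
    {g : (Fin n → ℂ) → ℂ} (hg : ContinuousOn g D) {C : ℝ} (hC : ∀ x ∈ D, ‖g x‖ ≤ C) :
    MemLp g 2 (volume.restrict D) := by
  have : IsFiniteMeasure (volume.restrict D) :=
    ⟨by rw [Measure.restrict_apply_univ]; exact hb.measure_lt_top⟩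
  refine MemLp.of_bound (hg.aestronglyMeasurable hD.measurableSet) C ?_
  exact (ae_restrict_iff' hD.measurableSet).2 (Eventually.of_forall hC)

lemma memLp_coord {D : Set (Fin n → ℂ)} (hD : IsOpen D) (hb : Bornology.IsBounded D)
    (j : Fin n) : MemLp (fun x : Fin n → ℂ => x j) 2 (volume.restrict D) := by
  obtain ⟨C, hC⟩ := hb.exists_norm_le
  exact memLp_of_bdd hD hb (by fun_prop) (fun x hx => (norm_le_pi_norm x j).trans (hC x hx))

lemma memLp_one {D : Set (Fin n → ℂ)} (hD : IsOpen D) (hb : Bornology.IsBounded D) :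
    MemLp (fun _ : Fin n → ℂ => (1 : ℂ)) 2 (volume.restrict D) :=
  memLp_of_bdd hD hb (by fun_prop) (C := 1) (fun x hx => by simp)

lemma ev_ne_zero {D : Set (Fin n → ℂ)} (hD : IsOpen D) (hb : Bornology.IsBounded D)
    {x : Fin n → ℂ} (hx : x ∈ D) : ev D x ≠ 0 := by
  intro h
  have h1 := ev_apply hD hx (rep_mkV _ (differentiableOn_const 1) (memLp_one hD hb))
  rw [h] at h1
  simp at h1

lemma fderiv_ev_apply {D : Set (Fin n → ℂ)} (hD : IsOpen D) {x : Fin n → ℂ} (hx : x ∈ D)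
    {F : W D} {f : (Fin n → ℂ) → ℂ} (hf : Rep D (toL D F) f) (ξ : Fin n → ℂ) :
    fderiv ℂ (ev D) x ξ F = fderiv ℂ f x ξ := by
  have h1 : HasFDerivAt (ev D) (fderiv ℂ (ev D) x) x :=
    (analyticOnNhd_ev hD x hx).differentiableAt.hasFDerivAt
  have h2 : HasFDerivAt (fun y => ev D y F)
      ((ContinuousLinearMap.apply ℂ ℂ F).comp (fderiv ℂ (ev D) x)) x :=
    ((ContinuousLinearMap.apply ℂ ℂ F).hasFDerivAt (x := ev D x)).comp x h1
  have h3 : (fun y => ev D y F) =ᶠ[𝓝 x] f := by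
    filter_upwards [hD.mem_nhds hx] with y hy
    exact ev_apply hD hy hf
  rw [← h3.fderiv_eq, h2.fderiv]
  rfl

/-- the derivative of the evaluation is never proportional to the evaluation -/
lemma fderiv_ev_ne {D : Set (Fin n → ℂ)} (hD : IsOpen D) (hb : Bornology.IsBounded D)
    {x : Fin n → ℂ} (hx : x ∈ D) {ξ : Fin n → ℂ} (hξ : ξ ≠ 0) :
    ¬ ∃ c : ℂ, fderiv ℂ (ev D) x ξ = c • ev D x := by
  rintro ⟨c, hc⟩
  have hone := rep_mkV _ (differentiableOn_const (c := (1 : ℂ))) (memLp_one hD hb)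
  have h1 := fderiv_ev_apply hD hx hone ξ
  rw [hc, _root_.smul_apply, ev_apply hD hx hone] at h1
  have hc0 : c = 0 := by simpa using h1
  have hc' : fderiv ℂ (ev D) x ξ = 0 := by
    rw [hc, hc0]
    exact zero_smul ℂ (ev D x)
  apply hξ
  ext j
  have hj := rep_mkV (D := D) (fun x : Fin n → ℂ => x j)
    (by fun_prop) (memLp_coord hD hb j)
  have h2 := fderiv_ev_apply hD hx hj ξ
  rw [hc', _root_.zero_apply] at h2
  have h3 : fderiv ℂ (fun x : Fin n → ℂ => x j) x ξ = ξ j := by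
    have : HasFDerivAt (fun x : Fin n → ℂ => x j) (ContinuousLinearMap.proj (R := ℂ) j) x :=
      (ContinuousLinearMap.proj (R := ℂ) (φ := fun _ : Fin n => ℂ) j).hasFDerivAt
    rw [this.fderiv]
    rfl
  rw [h3] at h2
  simpa using h2.symm

lemma det_eq_matrix (A : (Fin n → ℂ) →L[ℂ] (Fin n → ℂ)) :
    A.det = Matrix.det (Matrix.of fun i j => A (Pi.single j 1) i) := by
  rw [ContinuousLinearMap.det, ← LinearMap.det_toMatrix']
  congr 1

lemma differentiableOn_det {D : Set (Fin n → ℂ)} (hD : IsOpen D)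
    {f : (Fin n → ℂ) → (Fin n → ℂ)} (hf : DifferentiableOn ℂ f D) :
    DifferentiableOn ℂ (fun x => (fderiv ℂ f x).det) D := by
  have h1 : DifferentiableOn ℂ (fderiv ℂ f) D :=
    (Crest.Agent.R266.SCV.analyticOnNhd_of_differentiableOn hD hf).fderiv.differentiableOn
  have h2 : ∀ i j, DifferentiableOn ℂ (fun x => fderiv ℂ f x (Pi.single j 1) i) D := by
    intro i j
    have h3 : DifferentiableOn ℂ (fun x => fderiv ℂ f x (Pi.single j 1)) D :=
      h1.clm_apply (differentiableOn_const _)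
    exact (differentiableOn_pi.1 h3) i
  have h4 : (fun x => (fderiv ℂ f x).det) = fun x => ∑ σ : Equiv.Perm (Fin n),
      ((Equiv.Perm.sign σ : ℤ) : ℂ) * ∏ i, fderiv ℂ f x (Pi.single i 1) (σ i) := by
    ext x
    rw [det_eq_matrix, Matrix.det_apply']
    rfl
  rw [h4]
  refine DifferentiableOn.fun_sum (fun σ _ => ?_)
  refine (differentiableOn_const _).mul ?_
  intro x hx
  exact (HasFDerivWithinAt.finsetProd (u := Finset.univ)
    (g := fun i x => fderiv ℂ f x (Pi.single i 1) (σ i))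
    (fun i _ => (h2 (σ i) i x hx).hasFDerivWithinAt)).differentiableWithinAt

/-- the change of variables statement used below -/
def CoV (D : Set (Fin n → ℂ)) (f : (Fin n → ℂ) → (Fin n → ℂ)) : Prop :=
  ∀ g : (Fin n → ℂ) → ℂ, DifferentiableOn ℂ g D →
    eLpNorm (fun x => (fderiv ℂ f x).det * g (f x)) 2 (volume.restrict D)
      = eLpNorm g 2 (volume.restrict D)

lemma ev_aut_le {D : Set (Fin n → ℂ)} (hD : IsOpen D) {f h : (Fin n → ℂ) → (Fin n → ℂ)}
    (hfh : IsAutPair D f h) (hT : CoV D f) {x : Fin n → ℂ} (hx : x ∈ D) :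
    ‖(fderiv ℂ f x).det‖ * ‖ev D (f x)‖ ≤ ‖ev D x‖ := by
  rw [← norm_smul]
  refine norm_le_of_A2 (norm_nonneg _) (fun G hG => ?_)
  obtain ⟨g, hg⟩ := hG
  have hgm : MemLp g 2 (volume.restrict D) := (memLp_congr_ae hg.2).1 (Lp.memLp _)
  have hdiff : DifferentiableOn ℂ (fun x => (fderiv ℂ f x).det * g (f x)) D :=
    (differentiableOn_det hD hfh.df).mul (hg.1.comp hfh.df hfh.mf)
  have hm : MemLp (fun x => (fderiv ℂ f x).det * g (f x)) 2 (volume.restrict D) := by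
    refine ⟨hdiff.continuousOn.aestronglyMeasurable hD.measurableSet, ?_⟩
    rw [hT g hg.1]
    exact hgm.2
  have h1 := ev_apply hD hx (rep_mkV _ hdiff hm)
  have h2 : ‖mkV _ hdiff hm‖ = ‖G‖ := by
    rw [norm_mkV, hT g hg.1]
    rw [← (toL D).norm_map, Lp.norm_def, eLpNorm_congr_ae hg.2]
  calc ‖((fderiv ℂ f x).det • ev D (f x)) G‖
      = ‖(fderiv ℂ f x).det * g (f x)‖ := by
        rw [_root_.smul_apply, ev_apply hD (hfh.mf hx) hg, smul_eq_mul]
    _ = ‖ev D x (mkV _ hdiff hm)‖ := by rw [h1]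
    _ ≤ ‖ev D x‖ * ‖mkV _ hdiff hm‖ := (ev D x).le_opNorm _
    _ = ‖ev D x‖ * ‖G‖ := by rw [h2]

lemma IsAutPair.symm {D : Set (Fin n → ℂ)} {f h : (Fin n → ℂ) → (Fin n → ℂ)}
    (hfh : IsAutPair D f h) : IsAutPair D h f :=
  ⟨hfh.dh, hfh.df, hfh.mh, hfh.mf, hfh.fh, hfh.hf⟩

lemma IsAutPair.det_mul {D : Set (Fin n → ℂ)} (hD : IsOpen D)
    {f h : (Fin n → ℂ) → (Fin n → ℂ)} (hfh : IsAutPair D f h) {x : Fin n → ℂ} (hx : x ∈ D) :
    (fderiv ℂ h (f x)).det * (fderiv ℂ f x).det = 1 := by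
  have h1 : HasFDerivAt f (fderiv ℂ f x) x :=
    (hfh.df.differentiableAt (hD.mem_nhds hx)).hasFDerivAt
  have h2 : HasFDerivAt h (fderiv ℂ h (f x)) (f x) :=
    (hfh.dh.differentiableAt (hD.mem_nhds (hfh.mf hx))).hasFDerivAt
  have h3 := h2.comp x h1
  have h4 : (h ∘ f) =ᶠ[𝓝 x] id := by
    filter_upwards [hD.mem_nhds hx] with y hy
    exact hfh.hf y hy
  have h5 : (fderiv ℂ h (f x)).comp (fderiv ℂ f x) = ContinuousLinearMap.id ℂ _ := by
    rw [← h3.fderiv, h4.fderiv_eq]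
    exact fderiv_id
  have h6 : ((fderiv ℂ h (f x)).comp (fderiv ℂ f x)).det = 1 := by
    rw [h5]
    exact LinearMap.det_id
  rw [← h6]
  exact (LinearMap.det_comp _ _).symm

lemma norm_ev_aut {D : Set (Fin n → ℂ)} (hD : IsOpen D) {f h : (Fin n → ℂ) → (Fin n → ℂ)}
    (hfh : IsAutPair D f h) (hT : CoV D f) (hT' : CoV D h) {x : Fin n → ℂ} (hx : x ∈ D) :
    ‖(fderiv ℂ f x).det‖ * ‖ev D (f x)‖ = ‖ev D x‖ := by
  refine le_antisymm (ev_aut_le hD hfh hT hx) ?_
  have h1 := ev_aut_le hD hfh.symm hT' (hfh.mf hx)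
  rw [hfh.hf x hx] at h1
  have h2 := congrArg norm (hfh.det_mul hD hx)
  rw [norm_mul, norm_one] at h2
  calc ‖ev D x‖ = (‖(fderiv ℂ h (f x)).det‖ * ‖(fderiv ℂ f x).det‖) * ‖ev D x‖ := by
        rw [h2, one_mul]
    _ = ‖(fderiv ℂ f x).det‖ * (‖(fderiv ℂ h (f x)).det‖ * ‖ev D x‖) := by ring
    _ ≤ ‖(fderiv ℂ f x).det‖ * ‖ev D (f x)‖ := by gcongr

/-- the Bergman potential -/
def uB (D : Set (Fin n → ℂ)) (x : Fin n → ℂ) : ℝ := Real.log (‖ev D x‖ ^ 2)

lemma uB_trans {D : Set (Fin n → ℂ)} (hD : IsOpen D) (hb : Bornology.IsBounded D)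
    {f h : (Fin n → ℂ) → (Fin n → ℂ)}
    (hfh : IsAutPair D f h) (hT : CoV D f) (hT' : CoV D h) {x : Fin n → ℂ} (hx : x ∈ D) :
    uB D (f x) = uB D x - 2 * Real.log ‖(fderiv ℂ f x).det‖ := by
  have h1 := norm_ev_aut hD hfh hT hT' hx
  have h2 : ‖(fderiv ℂ f x).det‖ ≠ 0 := by
    intro h0
    have := hfh.det_mul hD hx
    rw [norm_eq_zero] at h0
    rw [h0, mul_zero] at this
    exact zero_ne_one this
  have h3 : ‖ev D (f x)‖ ≠ 0 := norm_ne_zero_iff.2 (ev_ne_zero hD hb (hfh.mf hx))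
  rw [uB, uB, ← h1, mul_pow, Real.log_mul (by positivity) (by positivity), Real.log_pow,
    Real.log_pow]
  push_cast
  ring

end Crest.Agent.R264.Berg
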