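import Crest.Agent.R264.BergTrans

/-!
Row 264, node D5, piece (L3) (helper415): change of variables under holomorphic automorphisms.
-/

set_option autoImplicit false

open Set Filter Topology Complex MeasureTheory
open scoped ContDiff ENNReal

noncomputable section

namespace Crest.Agent.R264.BergTrans

open Berg

variable {n : ℕ}

/-- the real Jacobian of a complex linear map is the square of the modulus of the complex one -/
lemma det_restrictScalars_clm (A : (Fin n → ℂ) →L[ℂ] (Fin n → ℂ)) :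
    (A.restrictScalars ℝ).det = ‖A.det‖ ^ 2 := by
  have h1 : (A.restrictScalars ℝ).det =
      LinearMap.det ((A : (Fin n → ℂ) →ₗ[ℂ] (Fin n → ℂ)).restrictScalars ℝ) := rfl
  rw [h1, LinearMap.det_restrictScalars, Algebra.norm_complex_apply, normSq_eq_norm_sq]

/-- change of variables: `∫_D ‖g ∘ f‖² ‖det f'‖² = ∫_D ‖g‖²` -/
theorem lintegral_aut {D : Set (Fin n → ℂ)} (hD : IsOpen D) {f h : (Fin n → ℂ) → (Fin n → ℂ)}
    (H : IsAutPair D f h) (g : (Fin n → ℂ) → ℂ) :
    ∫⁻ x in D, ‖g (f x) * (fderiv ℂ f x).det‖ₑ ^ (2 : ℝ) = ∫⁻ x in D, ‖g x‖ₑ ^ (2 : ℝ) := by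
  have himg : f '' D = D := by
    apply Subset.antisymm
    · rintro _ ⟨x, hx, rfl⟩
      exact H.mf hx
    · intro x hx
      exact ⟨h x, H.mh hx, H.fh x hx⟩
  have hinj : InjOn f D := by
    intro x hx y hy hxy
    rw [← H.hf x hx, ← H.hf y hy, hxy]
  have hder : ∀ x ∈ D, HasFDerivWithinAt f ((fderiv ℂ f x).restrictScalars ℝ) D x := by
    intro x hx
    exact ((H.df.differentiableAt (hD.mem_nhds hx)).hasFDerivAt.restrictScalars
      ℝ).hasFDerivWithinAt
  have h1 := lintegral_image_eq_lintegral_abs_det_fderiv_mul volume hD.measurableSet hder hinj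
    (fun x => ‖g x‖ₑ ^ (2 : ℝ))
  rw [himg] at h1
  rw [h1]
  refine setLIntegral_congr_fun hD.measurableSet (fun x _ => ?_)
  rw [det_restrictScalars_clm, abs_of_nonneg (by positivity), enorm_mul,
    ENNReal.mul_rpow_of_nonneg _ _ (by norm_num), mul_comm]
  congr 1
  rw [← ofReal_norm, ENNReal.ofReal_rpow_of_nonneg (norm_nonneg _) (by norm_num)]
  norm_num

/-- the `L²` norm is preserved by `g ↦ (g ∘ f) det f'` -/
theorem eLpNorm_aut {D : Set (Fin n → ℂ)} (hD : IsOpen D) {f h : (Fin n → ℂ) → (Fin n → ℂ)}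
    (H : IsAutPair D f h) (g : (Fin n → ℂ) → ℂ) :
    eLpNorm (fun x => g (f x) * (fderiv ℂ f x).det) 2 (volume.restrict D) =
      eLpNorm g 2 (volume.restrict D) := by
  rw [eLpNorm_eq_lintegral_rpow_enorm_toReal (by norm_num) (by norm_num),
    eLpNorm_eq_lintegral_rpow_enorm_toReal (by norm_num) (by norm_num)]
  simp only [ENNReal.toReal_ofNat]
  rw [lintegral_aut hD H g]

/-- `g ↦ (g ∘ f) det f'` preserves holomorphic `L²` functions -/
theorem memLp_aut {D : Set (Fin n → ℂ)} (hD : IsOpen D) {f h : (Fin n → ℂ) → (Fin n → ℂ)}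
    (H : IsAutPair D f h) {g : (Fin n → ℂ) → ℂ} (hg : DifferentiableOn ℂ g D)
    (hg2 : MemLp g 2 (volume.restrict D)) :
    DifferentiableOn ℂ (fun x => g (f x) * (fderiv ℂ f x).det) D ∧
      MemLp (fun x => g (f x) * (fderiv ℂ f x).det) 2 (volume.restrict D) := by
  have h1 : DifferentiableOn ℂ (fun x => g (f x) * (fderiv ℂ f x).det) D :=
    (hg.comp H.df H.mf).mul (differentiableOn_det hD H.df)
  refine ⟨h1, ?_, ?_⟩
  · exact h1.continuousOn.aestronglyMeasurable hD.measurableSet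
  · rw [eLpNorm_aut hD H g]
    exact hg2.2

end Crest.Agent.R264.BergTrans
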