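import Crest.Agent.R266.SCV
import Crest.Agent.R264.BergIface

/-!
Row 264, node D5, piece (L1) (helper415): Levi form of `log ‖F‖²` for a holomorphic map `F` into the
dual of a complex Hilbert space.
-/

set_option autoImplicit false

open Set Filter Topology Complex
open scoped ContDiff InnerProductSpace

noncomputable section

namespace Crest.Agent.R264.BergLevi

variable {E : Type*} [NormedAddCommGroup E] [NormedSpace ℂ E] [FiniteDimensional ℂ E]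
variable {H : Type*} [NormedAddCommGroup H] [InnerProductSpace ℂ H] [CompleteSpace H]

/-- the (conjugate linear, hence real linear) Riesz map of the dual, as a real linear map -/
def J : (H →L[ℂ] ℂ) →L[ℝ] H where
  toFun := fun l => (InnerProductSpace.toDual ℂ H).symm l
  map_add' := fun l m => by simp
  map_smul' := fun c l => by
    have h : (c : ℝ) • l = (c : ℂ) • l := by
      ext v; simp
    rw [h, map_smulₛₗ]
    simp
  cont := (InnerProductSpace.toDual ℂ H).symm.continuous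

@[simp] lemma norm_J (l : H →L[ℂ] ℂ) : ‖J l‖ = ‖l‖ := by
  change ‖(InnerProductSpace.toDual ℂ H).symm l‖ = _
  simp

lemma J_smul (c : ℂ) (l : H →L[ℂ] ℂ) : J (c • l) = (starRingEnd ℂ c) • J l := by
  change (InnerProductSpace.toDual ℂ H).symm (c • l) = _ • (InnerProductSpace.toDual ℂ H).symm l
  rw [map_smulₛₗ]

lemma J_injective : Function.Injective (J : (H →L[ℂ] ℂ) → H) := by
  intro a b h
  exact (InnerProductSpace.toDual ℂ H).symm.injective h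

omit [FiniteDimensional ℂ E] in
lemma fderiv_fderiv_apply {g : E → ℝ} {x : E} (h : DifferentiableAt ℝ (fderiv ℝ g) x) (v w : E) :
    fderiv ℝ (fderiv ℝ g) x v w = fderiv ℝ (fun y => fderiv ℝ g y w) x v := by
  have h1 : HasFDerivAt (fun y => fderiv ℝ g y w)
      ((ContinuousLinearMap.apply ℝ ℝ w).comp (fderiv ℝ (fderiv ℝ g) x)) x :=
    (ContinuousLinearMap.apply ℝ ℝ w).hasFDerivAt.comp x h.hasFDerivAt
  rw [h1.fderiv]
  simp


section Main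

attribute [local instance] InnerProductSpace.complexToReal

set_option linter.unusedSectionVars false

variable {D : Set E} {F : E → (H →L[ℂ] ℂ)}

lemma contDiffOn_F (hD : IsOpen D) (hF : DifferentiableOn ℂ F D) : ContDiffOn ℝ ∞ F D :=
  ((R266.SCV.contDiffOn_omega_of_differentiableOn hD hF).of_le (by simp)).restrict_scalars ℝ

lemma contDiffOn_J (hD : IsOpen D) (hF : DifferentiableOn ℂ F D) :
    ContDiffOn ℝ ∞ (fun y => J (F y)) D :=
  (J : (H →L[ℂ] ℂ) →L[ℝ] H).contDiff.comp_contDiffOn (contDiffOn_F hD hF)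

lemma contDiffOn_logNorm (hD : IsOpen D) (hF : DifferentiableOn ℂ F D) (h0 : ∀ x ∈ D, F x ≠ 0) :
    ContDiffOn ℝ ∞ (fun x => Real.log (‖F x‖ ^ 2)) D := by
  have h1 : ContDiffOn ℝ ∞ (fun x => ‖J (F x)‖ ^ 2) D := (contDiffOn_J hD hF).norm_sq ℝ
  have h2 : ContDiffOn ℝ ∞ (fun x => Real.log (‖J (F x)‖ ^ 2)) D := by
    refine h1.log (fun x hx => ?_)
    have : ‖F x‖ ≠ 0 := norm_ne_zero_iff.2 (h0 x hx)
    simpa using this
  simpa using h2

/-- derivative of `y ↦ J (F y)` -/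
lemma hasFDerivAt_J {x : E} (hF : DifferentiableAt ℂ F x) :
    HasFDerivAt (fun y => J (F y)) (J.comp ((fderiv ℂ F x).restrictScalars ℝ)) x :=
  J.hasFDerivAt.comp x (hF.hasFDerivAt.restrictScalars ℝ)

/-- derivative of `y ↦ J (F' y w)` -/
lemma hasFDerivAt_J' {x : E} (hF : DifferentiableAt ℂ (fderiv ℂ F) x) (w : E) :
    HasFDerivAt (fun y => J (fderiv ℂ F y w))
      (J.comp (((ContinuousLinearMap.apply ℂ (H →L[ℂ] ℂ) w).comp
        (fderiv ℂ (fderiv ℂ F) x)).restrictScalars ℝ)) x := by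
  have h1 : HasFDerivAt (fun y => fderiv ℂ F y w)
      ((ContinuousLinearMap.apply ℂ (H →L[ℂ] ℂ) w).comp (fderiv ℂ (fderiv ℂ F) x)) x :=
    HasFDerivAt.comp x (f := fderiv ℂ F) (g := ContinuousLinearMap.apply ℂ (H →L[ℂ] ℂ) w)
      (ContinuousLinearMap.apply ℂ (H →L[ℂ] ℂ) w).hasFDerivAt hF.hasFDerivAt
  exact J.hasFDerivAt.comp x (h1.restrictScalars ℝ)

lemma fderiv_normSq {x : E} (hF : DifferentiableAt ℂ F x) :
    HasFDerivAt (fun y => ‖F y‖ ^ 2)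
      (2 • (innerSL ℝ (J (F x))).comp (J.comp ((fderiv ℂ F x).restrictScalars ℝ))) x := by
  have h1 := (hasFDerivAt_J hF).norm_sq
  simpa using h1

theorem second_deriv (hD : IsOpen D) (hF : DifferentiableOn ℂ F D) (h0 : ∀ x ∈ D, F x ≠ 0)
    {x : E} (hx : x ∈ D) (w : E) :
    fderiv ℝ (fderiv ℝ (fun x => Real.log (‖F x‖ ^ 2))) x w w =
      (2 * ⟪J (F x), J (fderiv ℂ (fderiv ℂ F) x w w)⟫_ℝ + 2 * ‖fderiv ℂ F x w‖ ^ 2) / ‖F x‖ ^ 2
      - 4 * ⟪J (F x), J (fderiv ℂ F x w)⟫_ℝ ^ 2 / (‖F x‖ ^ 2) ^ 2 := by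
  have hana := R266.SCV.analyticOnNhd_of_differentiableOn hD hF
  have hu := contDiffOn_logNorm hD hF h0
  have huat : ContDiffAt ℝ ∞ (fun x => Real.log (‖F x‖ ^ 2)) x := hu.contDiffAt (hD.mem_nhds hx)
  have hdd : DifferentiableAt ℝ (fderiv ℝ (fun x => Real.log (‖F x‖ ^ 2))) x := by
    have h1 : ContDiffAt ℝ 1 (fderiv ℝ (fun x => Real.log (‖F x‖ ^ 2))) x :=
      huat.fderiv_right (m := 1) (by norm_cast)
    exact h1.differentiableAt (by norm_num)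
  rw [fderiv_fderiv_apply hdd]
  have hN0 : ‖F x‖ ^ 2 ≠ 0 := by
    have : ‖F x‖ ≠ 0 := norm_ne_zero_iff.2 (h0 x hx)
    positivity
  have hev : (fun y => fderiv ℝ (fun x => Real.log (‖F x‖ ^ 2)) y w) =ᶠ[𝓝 x]
      fun y => (2 * ⟪J (F y), J (fderiv ℂ F y w)⟫_ℝ) / ‖F y‖ ^ 2 := by
    filter_upwards [hD.mem_nhds hx] with y hy
    have hFy : DifferentiableAt ℂ F y := hF.differentiableAt (hD.mem_nhds hy)
    have hy0 : ‖F y‖ ^ 2 ≠ 0 := by
      have : ‖F y‖ ≠ 0 := norm_ne_zero_iff.2 (h0 y hy)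
      positivity
    rw [((fderiv_normSq hFy).log hy0).fderiv]
    simp
    ring
  rw [hev.fderiv_eq]
  have hFx : DifferentiableAt ℂ F x := hF.differentiableAt (hD.mem_nhds hx)
  have hF'x : DifferentiableAt ℂ (fderiv ℂ F) x := ((hana x hx).fderiv).differentiableAt
  have hnum := (hasFDerivAt_J hFx).inner ℝ (hasFDerivAt_J' hF'x w)
  have hinv : HasFDerivAt (fun y => (‖F y‖ ^ 2)⁻¹) (-((‖F x‖ ^ 2) ^ 2)⁻¹ •
      (2 • (innerSL ℝ (J (F x))).comp (J.comp ((fderiv ℂ F x).restrictScalars ℝ)))) x :=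
    (hasDerivAt_inv hN0).comp_hasFDerivAt x (fderiv_normSq hFx)
  have hq : HasFDerivAt (fun y => 2 * ⟪J (F y), J (fderiv ℂ F y w)⟫_ℝ * (‖F y‖ ^ 2)⁻¹) _ x :=
    (hnum.const_mul 2).mul hinv
  simp only [div_eq_mul_inv]
  rw [hq.fderiv]
  simp only [add_apply, smul_apply,
    ContinuousLinearMap.comp_apply, ContinuousLinearMap.prod_apply, fderivInnerCLM_apply,
    ContinuousLinearMap.coe_restrictScalars', ContinuousLinearMap.apply_apply, smul_eq_mul,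
    innerSL_apply_apply, nsmul_eq_mul, Nat.cast_ofNat]
  rw [real_inner_self_eq_norm_sq, norm_J]
  field_simp
  ring


/-- the Levi form of `log ‖F‖²` -/
theorem lev_eq (hD : IsOpen D) (hF : DifferentiableOn ℂ F D) (h0 : ∀ x ∈ D, F x ≠ 0)
    {x : E} (hx : x ∈ D) (w : E) :
    (1 / 4) * (fderiv ℝ (fderiv ℝ (fun x => Real.log (‖F x‖ ^ 2))) x w w +
      fderiv ℝ (fderiv ℝ (fun x => Real.log (‖F x‖ ^ 2))) x (I • w) (I • w)) =
    (‖F x‖ ^ 2 * ‖fderiv ℂ F x w‖ ^ 2 - ‖⟪J (F x), J (fderiv ℂ F x w)⟫_ℂ‖ ^ 2) / ‖F x‖ ^ 4 := by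
  rw [second_deriv hD hF h0 hx, second_deriv hD hF h0 hx]
  have hN0 : ‖F x‖ ≠ 0 := norm_ne_zero_iff.2 (h0 x hx)
  have e1 : J (fderiv ℂ (fderiv ℂ F) x (I • w) (I • w)) =
      - J (fderiv ℂ (fderiv ℂ F) x w w) := by
    have h : fderiv ℂ (fderiv ℂ F) x (I • w) (I • w) = -(fderiv ℂ (fderiv ℂ F) x w w) := by
      rw [map_smul, map_smul]
      change I • I • (fderiv ℂ (fderiv ℂ F) x w w) = _
      rw [smul_smul, I_mul_I]
      ext v
      simp
    rw [h, map_neg]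
  have e2 : J (fderiv ℂ F x (I • w)) = (-I) • J (fderiv ℂ F x w) := by
    rw [map_smul, J_smul, conj_I]
  have e3 : ‖fderiv ℂ F x (I • w)‖ = ‖fderiv ℂ F x w‖ := by
    rw [map_smul, norm_smul, norm_I, one_mul]
  have e4 : ⟪J (F x), J (fderiv ℂ F x w)⟫_ℝ = (⟪J (F x), J (fderiv ℂ F x w)⟫_ℂ).re := rfl
  have e5 : ⟪J (F x), (-I) • J (fderiv ℂ F x w)⟫_ℝ = (⟪J (F x), J (fderiv ℂ F x w)⟫_ℂ).im := by
    change (⟪J (F x), (-I) • J (fderiv ℂ F x w)⟫_ℂ).re = _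
    rw [inner_smul_right]
    simp
  rw [e1, e2, e3, e5, e4, inner_neg_right, ← normSq_eq_norm_sq, normSq_apply]
  field_simp
  ring

theorem lev_pos (hD : IsOpen D) (hF : DifferentiableOn ℂ F D) (h0 : ∀ x ∈ D, F x ≠ 0)
    {x : E} (hx : x ∈ D) (w : E) (hw : ∀ c : ℂ, fderiv ℂ F x w ≠ c • F x) :
    0 < (1 / 4) * (fderiv ℝ (fderiv ℝ (fun x => Real.log (‖F x‖ ^ 2))) x w w +
      fderiv ℝ (fderiv ℝ (fun x => Real.log (‖F x‖ ^ 2))) x (I • w) (I • w)) := by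
  rw [lev_eq hD hF h0 hx]
  have hN0 : ‖F x‖ ≠ 0 := norm_ne_zero_iff.2 (h0 x hx)
  have hJ0 : J (F x) ≠ 0 := by
    intro h
    apply hN0
    rw [← norm_J, h, norm_zero]
  have hb0 : J (fderiv ℂ F x w) ≠ 0 := by
    intro h
    apply hw 0
    apply J_injective
    rw [h, J_smul, map_zero, zero_smul]
  refine div_pos ?_ (by positivity)
  have h1 : ‖⟪J (F x), J (fderiv ℂ F x w)⟫_ℂ‖ ≤ ‖J (F x)‖ * ‖J (fderiv ℂ F x w)‖ :=
    norm_inner_le_norm _ _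
  have h2 : ‖⟪J (F x), J (fderiv ℂ F x w)⟫_ℂ‖ ≠ ‖J (F x)‖ * ‖J (fderiv ℂ F x w)‖ := by
    intro h
    obtain ⟨r, hr0, hr⟩ := (norm_inner_eq_norm_iff hJ0 hb0).1 h
    apply hw (starRingEnd ℂ r)
    apply J_injective
    rw [J_smul, hr]
    simp
  have h3 := lt_of_le_of_ne h1 h2
  rw [norm_J, norm_J] at h3
  have h4 : ‖⟪J (F x), J (fderiv ℂ F x w)⟫_ℂ‖ ^ 2 < (‖F x‖ * ‖fderiv ℂ F x w‖) ^ 2 :=
    pow_lt_pow_left₀ h3 (norm_nonneg _) (by norm_num)
  rw [mul_pow] at h4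
  linarith

/-- the Levi form of `log ‖F‖²` (interface form) -/
theorem Lev_log_normSq_eq (hD : IsOpen D) (hF : DifferentiableOn ℂ F D) (h0 : ∀ x ∈ D, F x ≠ 0)
    {x : E} (hx : x ∈ D) (w : E) :
    Berg.Lev (fun x => Real.log (‖F x‖ ^ 2)) x w =
    (‖F x‖ ^ 2 * ‖fderiv ℂ F x w‖ ^ 2 - ‖⟪J (F x), J (fderiv ℂ F x w)⟫_ℂ‖ ^ 2) / ‖F x‖ ^ 4 :=
  lev_eq hD hF h0 hx w

/-- positivity of the Levi form of `log ‖F‖²` (interface form) -/
theorem Lev_log_normSq_pos (hD : IsOpen D) (hF : DifferentiableOn ℂ F D) (h0 : ∀ x ∈ D, F x ≠ 0)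
    {x : E} (hx : x ∈ D) (w : E) (hw : ∀ c : ℂ, fderiv ℂ F x w ≠ c • F x) :
    0 < Berg.Lev (fun x => Real.log (‖F x‖ ^ 2)) x w :=
  lev_pos hD hF h0 hx w hw

end Main

end Crest.Agent.R264.BergLevi
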