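import Crest.Agent.R264.BergLevi

/-!
Row 264, node D5, pieces (T1)-(T3) and (L3) (helper415): transformation of the Levi form under
holomorphic maps, pluriharmonicity of `log ‖g‖`, change of variables under automorphisms.
-/

set_option autoImplicit false

open Set Filter Topology Complex MeasureTheory
open scoped ContDiff InnerProductSpace

noncomputable section

namespace Crest.Agent.R264.BergTrans

open Berg

section LevCalc

variable {E : Type*} [NormedAddCommGroup E] [NormedSpace ℂ E]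
variable {E₂ : Type*} [NormedAddCommGroup E₂] [NormedSpace ℂ E₂]

theorem Lev_congr {u v : E → ℝ} {x : E} (h : u =ᶠ[𝓝 x] v) (ξ : E) : Lev u x ξ = Lev v x ξ := by
  have h1 : fderiv ℝ u =ᶠ[𝓝 x] fderiv ℝ v := h.fderiv
  unfold Lev
  rw [h1.fderiv_eq]

lemma differentiableAt_fderiv {u : E → ℝ} {x : E} (hu : ContDiffAt ℝ 2 u x) :
    DifferentiableAt ℝ (fderiv ℝ u) x := by
  have h1 : ContDiffAt ℝ 1 (fderiv ℝ u) x := hu.fderiv_right (m := 1) (by norm_num)
  exact h1.differentiableAt (by norm_num)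

theorem Lev_add {u v : E → ℝ} {x : E} (hu : ContDiffAt ℝ 2 u x) (hv : ContDiffAt ℝ 2 v x) (ξ : E) :
    Lev (fun y => u y + v y) x ξ = Lev u x ξ + Lev v x ξ := by
  have h1 : fderiv ℝ (fun y => u y + v y) =ᶠ[𝓝 x] fun y => fderiv ℝ u y + fderiv ℝ v y := by
    filter_upwards [hu.eventually (by simp), hv.eventually (by simp)] with y hy1 hy2
    exact fderiv_fun_add (hy1.differentiableAt (by norm_num)) (hy2.differentiableAt (by norm_num))
  unfold Lev
  rw [h1.fderiv_eq, fderiv_fun_add (differentiableAt_fderiv hu) (differentiableAt_fderiv hv)]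
  simp only [add_apply]
  ring

theorem Lev_const_mul {u : E → ℝ} {x : E} (c : ℝ) (hu : ContDiffAt ℝ 2 u x) (ξ : E) :
    Lev (fun y => c * u y) x ξ = c * Lev u x ξ := by
  have h1 : fderiv ℝ (fun y => c * u y) =ᶠ[𝓝 x] fun y => c • fderiv ℝ u y := by
    filter_upwards [hu.eventually (by simp)] with y hy1
    exact fderiv_const_mul (hy1.differentiableAt (by norm_num)) c
  unfold Lev
  rw [h1.fderiv_eq, fderiv_fun_const_smul (differentiableAt_fderiv hu)]
  simp only [smul_apply, smul_eq_mul]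
  ring

/-- (T1) the Levi form of `u ∘ f`, `f` holomorphic -/
theorem Lev_comp [FiniteDimensional ℂ E] [CompleteSpace E₂] {u : E₂ → ℝ} {f : E → E₂} {x : E}
    (hu : ContDiffAt ℝ 2 u (f x)) (hf : ∀ᶠ y in 𝓝 x, DifferentiableAt ℂ f y) (ξ : E) :
    Lev (fun y => u (f y)) x ξ = Lev u (f x) (fderiv ℂ f x ξ) := by
  have hfa : AnalyticAt ℂ f x := R266.SCV.analyticAt_of_eventually_differentiableAt hf
  have hfc : ContinuousAt f x := hfa.continuousAt
  have hfR : ContDiffAt ℝ 2 f x := (hfa.contDiffAt).restrict_scalars ℝ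
  have huf : ContDiffAt ℝ 2 (fun y => u (f y)) x := hu.comp x hfR
  have hf' : DifferentiableAt ℂ (fderiv ℂ f) x := hfa.fderiv.differentiableAt
  have key : ∀ w : E, fderiv ℝ (fderiv ℝ (fun y => u (f y))) x w w =
      fderiv ℝ (fderiv ℝ u) (f x) (fderiv ℂ f x w) (fderiv ℂ f x w) +
        fderiv ℝ u (f x) (fderiv ℂ (fderiv ℂ f) x w w) := by
    intro w
    rw [BergLevi.fderiv_fderiv_apply (differentiableAt_fderiv huf)]
    have hev : (fun y => fderiv ℝ (fun y => u (f y)) y w) =ᶠ[𝓝 x]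
        fun y => fderiv ℝ u (f y) (fderiv ℂ f y w) := by
      filter_upwards [hfc.eventually (hu.eventually (by simp)), hf] with y hy1 hy2
      have h1 : HasFDerivAt (fun y => u (f y))
          ((fderiv ℝ u (f y)).comp ((fderiv ℂ f y).restrictScalars ℝ)) y :=
        (hy1.differentiableAt (by norm_num)).hasFDerivAt.comp y
          (hy2.hasFDerivAt.restrictScalars ℝ)
      rw [h1.fderiv]
      rfl
    rw [hev.fderiv_eq]
    have h2 : HasFDerivAt (fun y => fderiv ℝ u (f y))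
        ((fderiv ℝ (fderiv ℝ u) (f x)).comp ((fderiv ℂ f x).restrictScalars ℝ)) x :=
      HasFDerivAt.comp x (g := fderiv ℝ u) (differentiableAt_fderiv hu).hasFDerivAt
        (hfa.differentiableAt.hasFDerivAt.restrictScalars ℝ)
    have h3 : HasFDerivAt (fun y => fderiv ℂ f y w)
        (((ContinuousLinearMap.apply ℂ E₂ w).comp (fderiv ℂ (fderiv ℂ f) x)).restrictScalars ℝ)
        x :=
      (HasFDerivAt.comp x (f := fderiv ℂ f) (g := ContinuousLinearMap.apply ℂ E₂ w)
        (ContinuousLinearMap.apply ℂ E₂ w).hasFDerivAt hf'.hasFDerivAt).restrictScalars ℝ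
    rw [(h2.clm_apply h3).fderiv]
    simp [add_comm]
  unfold Lev
  rw [key, key]
  have e1 : fderiv ℂ (fderiv ℂ f) x (I • ξ) (I • ξ) = -(fderiv ℂ (fderiv ℂ f) x ξ ξ) := by
    rw [map_smul, map_smul]
    change I • I • (fderiv ℂ (fderiv ℂ f) x ξ ξ) = _
    rw [smul_smul, I_mul_I, neg_smul, one_smul]
  rw [e1, map_neg, map_smul]
  ring

/-- (T2) `log ‖g‖` is pluriharmonic for holomorphic nonvanishing `g` -/
theorem Lev_log_norm [FiniteDimensional ℂ E] {g : E → ℂ} {D : Set E} (hD : IsOpen D)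
    (hg : DifferentiableOn ℂ g D) (h0 : ∀ x ∈ D, g x ≠ 0) {x : E} (hx : x ∈ D) (ξ : E) :
    ContDiffAt ℝ ∞ (fun y => Real.log ‖g y‖) x ∧ Lev (fun y => Real.log ‖g y‖) x ξ = 0 := by
  set F : E → (ℂ →L[ℂ] ℂ) := fun y => g y • ContinuousLinearMap.id ℂ ℂ with hFdef
  have hF : DifferentiableOn ℂ F D := hg.smul_const _
  have hF0 : ∀ x ∈ D, F x ≠ 0 := by
    intro y hy h
    apply h0 y hy
    have := congrArg (fun l : ℂ →L[ℂ] ℂ => l 1) h
    simpa [hFdef] using this
  have hFn : ∀ y, ‖F y‖ = ‖g y‖ := by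
    intro y
    rw [hFdef]
    simp [norm_smul]
  have hlog : ∀ y, Real.log ‖g y‖ = (1 / 2) * Real.log (‖F y‖ ^ 2) := by
    intro y
    rw [hFn, Real.log_pow]
    push_cast
    ring
  have hc : ContDiffAt ℝ ∞ (fun y => Real.log (‖F y‖ ^ 2)) x :=
    (BergLevi.contDiffOn_logNorm hD hF hF0).contDiffAt (hD.mem_nhds hx)
  have hfun : (fun y => Real.log ‖g y‖) = fun y => (1 / 2) * Real.log (‖F y‖ ^ 2) :=
    funext hlog
  refine ⟨?_, ?_⟩
  · rw [hfun]
    exact contDiffAt_const.mul hc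
  · rw [hfun, Lev_const_mul _ (hc.of_le (by norm_cast)) ξ,
      BergLevi.Lev_log_normSq_eq hD hF hF0 hx]
    have h1 : ‖⟪BergLevi.J (F x), BergLevi.J (fderiv ℂ F x ξ)⟫_ℂ‖ =
        ‖F x‖ * ‖fderiv ℂ F x ξ‖ := by
      rw [← BergLevi.norm_J (F x), ← BergLevi.norm_J (fderiv ℂ F x ξ)]
      simp [mul_comm]
    rw [h1]
    ring

end LevCalc

section Det

variable {n : ℕ}

lemma det_eq_matrix (A : (Fin n → ℂ) →L[ℂ] (Fin n → ℂ)) :
    A.det = (LinearMap.toMatrix' (A : (Fin n → ℂ) →ₗ[ℂ] (Fin n → ℂ))).det := by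
  rw [ContinuousLinearMap.det, LinearMap.det_toMatrix']

/-- the complex Jacobian determinant is holomorphic -/
theorem differentiableOn_det {f : (Fin n → ℂ) → (Fin n → ℂ)} {D : Set (Fin n → ℂ)}
    (hD : IsOpen D) (hf : DifferentiableOn ℂ f D) :
    DifferentiableOn ℂ (fun x => (fderiv ℂ f x).det) D := by
  have hf' : DifferentiableOn ℂ (fderiv ℂ f) D := by
    intro x hx
    exact ((R266.SCV.analyticOnNhd_of_differentiableOn hD hf) x
      hx).fderiv.differentiableAt.differentiableWithinAt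
  have h1 : (fun x => (fderiv ℂ f x).det) = fun x =>
      ∑ σ : Equiv.Perm (Fin n), ((σ.sign : ℤ) : ℂ) *
        ∏ i, (fderiv ℂ f x (Pi.single i 1)) (σ i) := by
    ext x
    rw [det_eq_matrix, Matrix.det_apply']
    rfl
  rw [h1]
  refine DifferentiableOn.fun_sum (fun σ _ => ?_)
  refine DifferentiableOn.const_mul ?_ _
  intro x hx
  have h2 : ∀ i, DifferentiableWithinAt ℂ (fun y => fderiv ℂ f y (Pi.single i 1) (σ i)) D x := by
    intro i
    have h3 : DifferentiableWithinAt ℂ (fun y => fderiv ℂ f y (Pi.single i 1)) D x :=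
      (hf' x hx).clm_apply (differentiableWithinAt_const _)
    exact (differentiableWithinAt_pi.1 h3) (σ i)
  exact (HasFDerivWithinAt.finsetProd (u := Finset.univ)
    (g := fun i y => fderiv ℂ f y (Pi.single i 1) (σ i))
    (fun i _ => (h2 i).hasFDerivWithinAt)).differentiableWithinAt

/-- the Jacobian determinants of an automorphism pair are inverse to each other -/
theorem det_mul_det {D : Set (Fin n → ℂ)} (hD : IsOpen D) {f h : (Fin n → ℂ) → (Fin n → ℂ)}
    (H : IsAutPair D f h) {x : Fin n → ℂ} (hx : x ∈ D) :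
    (fderiv ℂ h (f x)).det * (fderiv ℂ f x).det = 1 := by
  have h1 : HasFDerivAt (fun y => h (f y)) ((fderiv ℂ h (f x)).comp (fderiv ℂ f x)) x :=
    (H.dh.differentiableAt (hD.mem_nhds (H.mf hx))).hasFDerivAt.comp x
      (H.df.differentiableAt (hD.mem_nhds hx)).hasFDerivAt
  have h2 : HasFDerivAt (fun y => h (f y)) (ContinuousLinearMap.id ℂ (Fin n → ℂ)) x := by
    refine (hasFDerivAt_id x).congr_of_eventuallyEq ?_
    filter_upwards [hD.mem_nhds hx] with y hy using H.hf y hy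
  have h3 := h1.unique h2
  have h4 : ((fderiv ℂ h (f x)).comp (fderiv ℂ f x)).det = 1 := by
    rw [h3]
    simp [ContinuousLinearMap.det]
  rw [← h4]
  simp only [ContinuousLinearMap.det, ContinuousLinearMap.toLinearMap_comp, LinearMap.det_comp]

theorem det_ne_zero {D : Set (Fin n → ℂ)} (hD : IsOpen D) {f h : (Fin n → ℂ) → (Fin n → ℂ)}
    (H : IsAutPair D f h) {x : Fin n → ℂ} (hx : x ∈ D) : (fderiv ℂ f x).det ≠ 0 :=
  right_ne_zero_of_mul (a := (fderiv ℂ h (f x)).det) (by rw [det_mul_det hD H hx]; norm_num)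

/-- (T3) -/
theorem Lev_trans {D : Set (Fin n → ℂ)} (hD : IsOpen D) {u : (Fin n → ℂ) → ℝ}
    (hu : ContDiffOn ℝ ∞ u D) {f h : (Fin n → ℂ) → (Fin n → ℂ)} (H : IsAutPair D f h)
    (htr : ∀ x ∈ D, u (f x) = u x - 2 * Real.log ‖(fderiv ℂ f x).det‖)
    {x : Fin n → ℂ} (hx : x ∈ D) (ξ : Fin n → ℂ) :
    Lev u (f x) (fderiv ℂ f x ξ) = Lev u x ξ := by
  have hd := differentiableOn_det hD H.df
  have h0 : ∀ y ∈ D, (fderiv ℂ f y).det ≠ 0 := fun y hy => det_ne_zero hD H hy
  obtain ⟨hc, hL⟩ := Lev_log_norm hD hd h0 hx ξ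
  have hle : (2 : WithTop ℕ∞) ≤ ∞ := by norm_cast
  have hufx : ContDiffAt ℝ 2 u (f x) := (hu.contDiffAt (hD.mem_nhds (H.mf hx))).of_le hle
  have hux : ContDiffAt ℝ 2 u x := (hu.contDiffAt (hD.mem_nhds hx)).of_le hle
  rw [← Lev_comp hufx (by
    filter_upwards [hD.mem_nhds hx] with y hy
    exact H.df.differentiableAt (hD.mem_nhds hy))]
  have hev : (fun y => u (f y)) =ᶠ[𝓝 x] fun y => u y + (-2) * Real.log ‖(fderiv ℂ f y).det‖ := by
    filter_upwards [hD.mem_nhds hx] with y hy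
    rw [htr y hy]
    ring
  rw [Lev_congr hev, Lev_add hux (contDiffAt_const.mul (hc.of_le hle)),
    Lev_const_mul _ (hc.of_le hle), hL]
  ring

end Det

end Crest.Agent.R264.BergTrans
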