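import Crest.Agent.R264.Berg3
import Crest.Agent.R264.BergLevi
import Crest.Agent.R264.BergTrans
import Crest.Agent.R264.BergCov

/-!
Row 264, D5 (helper587): assembly, `berg : Berg.Stmt`.
-/

set_option autoImplicit false

open MeasureTheory Set Metric Filter
open scoped Real ContDiff Topology ENNReal InnerProductSpace

noncomputable section

namespace Crest.Agent.R264.Berg

variable {n : ℕ}

lemma cov_of_pair {D : Set (Fin n → ℂ)} (hD : IsOpen D) {f h : (Fin n → ℂ) → (Fin n → ℂ)}
    (H : IsAutPair D f h) : CoV D f := by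
  intro g _
  rw [← BergTrans.eLpNorm_aut hD H g]
  congr 1
  ext x
  ring

/-- D5: the Bergman potential of a bounded open set -/
theorem isBerg {D : Set (Fin n → ℂ)} (hD : IsOpen D) (hb : Bornology.IsBounded D) :
    IsBerg D (uB D) := by
  have hF : DifferentiableOn ℂ (ev D) D := (analyticOnNhd_ev hD).differentiableOn
  have h0 : ∀ x ∈ D, ev D x ≠ 0 := fun x hx => ev_ne_zero hD hb hx
  have hs : ContDiffOn ℝ ∞ (uB D) D := BergLevi.contDiffOn_logNorm hD hF h0
  have htr : ∀ f h, IsAutPair D f h → ∀ x ∈ D,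
      uB D (f x) = uB D x - 2 * Real.log ‖(fderiv ℂ f x).det‖ := fun f h H x hx =>
    uB_trans hD hb H (cov_of_pair hD H) (cov_of_pair hD H.symm) hx
  refine ⟨hs, fun x hx ξ hξ => ?_, htr, fun f h H x hx ξ => ?_⟩
  · exact BergLevi.Lev_log_normSq_pos hD hF h0 hx ξ
      (fun c hc => fderiv_ev_ne hD hb hx hξ ⟨c, hc⟩)
  · exact BergTrans.Lev_trans hD hs H (htr f h H) hx ξ

theorem berg : Stmt := fun _ D hD hb => ⟨uB D, isBerg hD hb⟩

end Crest.Agent.R264.Berg
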