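import Crest.Agent.R264.BshE1

/-! Row 264, Part B: the Bishop equation on a finite set of nodes (module BIS-E), fixed point. -/

set_option autoImplicit false

namespace Crest.Agent.R264.Bsh

open Finset Topology Filter

variable {ι : Type*} [Fintype ι] {W : Type*} [NormedAddCommGroup W]

/-- `T` does not increase the `n2` norm of differences (true for linear `T` with `n2 (T f) ≤ n2 f`). -/
def Contr (T : (ι → W) → (ι → W)) : Prop :=
  ∀ f g : ι → W, n2 (fun j => T f j - T g j) ≤ n2 (fun j => f j - g j)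

theorem Contr.of_linear [NormedSpace ℝ W] (T : (ι → W) →ₗ[ℝ] (ι → W))
    (hT : ∀ f, n2 (T f) ≤ n2 f) : Contr (fun f => T f) := by
  intro f g
  have h := hT (f - g)
  rw [map_sub] at h
  exact h

/-- `V` solves the equation `V j = Φ j ((T V) j)` -/
def IsSol (T : (ι → W) → (ι → W)) (Φ : ι → W → W) (V : ι → W) : Prop :=
  ∀ j, V j = Φ j (T V j)

/-- stability of solutions -/
theorem IsSol.stab {T : (ι → W) → (ι → W)} (hT : Contr T) {Φ Φ' : ι → W → W} {K : ℝ}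
    (hK : 0 ≤ K) (hK1 : K < 1) (hΦ : ∀ j x y, ‖Φ j x - Φ j y‖ ≤ K * ‖x - y‖)
    {V V' : ι → W} (hV : IsSol T Φ V) (hV' : IsSol T Φ' V') :
    n2 (fun j => V j - V' j) ≤
      (1 - K)⁻¹ * n2 (fun j => Φ j (T V' j) - Φ' j (T V' j)) := by
  have h1 : ∀ j, ‖V j - V' j‖ ≤ K * ‖T V j - T V' j‖ + ‖Φ j (T V' j) - Φ' j (T V' j)‖ := by
    intro j
    rw [hV j, hV' j]
    calc ‖Φ j (T V j) - Φ' j (T V' j)‖
        = ‖(Φ j (T V j) - Φ j (T V' j)) + (Φ j (T V' j) - Φ' j (T V' j))‖ := by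
          congr 1; abel
      _ ≤ ‖Φ j (T V j) - Φ j (T V' j)‖ + ‖Φ j (T V' j) - Φ' j (T V' j)‖ := norm_add_le _ _
      _ ≤ _ := by gcongr; exact hΦ j _ _
  have h2 := n2_le_of_le (e := fun j => T V j - T V' j) hK (fun j => norm_nonneg _) h1
  rw [n2_norm] at h2
  have h3 := hT V V'
  have h4 : (1 - K) * n2 (fun j => V j - V' j) ≤
      n2 (fun j => Φ j (T V' j) - Φ' j (T V' j)) := by
    nlinarith [mul_le_mul_of_nonneg_left h3 hK]
  rw [inv_mul_eq_div, le_div_iff₀ (by linarith)]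
  linarith

theorem n2_eq_zero [Nonempty ι] {f : ι → W} (h : n2 f = 0) : f = 0 := by
  ext j
  have h1 := norm_apply_le f j
  rw [h, mul_zero] at h1
  simpa using h1

theorem IsSol.unique [Nonempty ι] {T : (ι → W) → (ι → W)} (hT : Contr T) {Φ : ι → W → W} {K : ℝ}
    (hK : 0 ≤ K) (hK1 : K < 1) (hΦ : ∀ j x y, ‖Φ j x - Φ j y‖ ≤ K * ‖x - y‖)
    {V V' : ι → W} (hV : IsSol T Φ V) (hV' : IsSol T Φ V') : V = V' := by
  have h := hV.stab hT hK hK1 hΦ hV'
  simp only [sub_self] at h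
  rw [n2_zero, mul_zero] at h
  have h1 : n2 (fun j => V j - V' j) = 0 := le_antisymm h (n2_nonneg _)
  have h2 := n2_eq_zero h1
  ext j
  have := congrFun h2 j
  simpa [sub_eq_zero] using this

/-- existence of the solution -/
theorem exists_sol [Nonempty ι] [CompleteSpace W] {T : (ι → W) → (ι → W)} (hT : Contr T)
    {Φ : ι → W → W} {K : ℝ}
    (hK : 0 ≤ K) (hK1 : K < 1) (hΦ : ∀ j x y, ‖Φ j x - Φ j y‖ ≤ K * ‖x - y‖) :
    ∃ V, IsSol T Φ V := by
  have hN : (0 : ℝ) < Real.sqrt (Fintype.card ι : ℝ) := by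
    apply Real.sqrt_pos.2
    exact_mod_cast Fintype.card_pos
  let X := PiLp 2 (fun _ : ι => W)
  let F : X → X := fun x => WithLp.toLp 2 (fun j => Φ j (T (WithLp.ofLp x) j))
  let K' : NNReal := ⟨K, hK⟩
  have hF : ContractingWith K' F := by
    refine ⟨?_, ?_⟩
    · exact_mod_cast hK1
    · apply LipschitzWith.of_dist_le_mul
      intro x y
      rw [dist_eq_norm, dist_eq_norm]
      have h1 : n2 (fun j => Φ j (T (WithLp.ofLp x) j) - Φ j (T (WithLp.ofLp y) j)) ≤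
          K * n2 (fun j => (WithLp.ofLp x) j - (WithLp.ofLp y) j) := by
        have h2 := n2_le_of_le (f := fun j => Φ j (T (WithLp.ofLp x) j) - Φ j (T (WithLp.ofLp y) j))
          (e := fun j => T (WithLp.ofLp x) j - T (WithLp.ofLp y) j) (g := fun _ => 0) hK
          (fun _ => le_rfl) (fun j => by simpa using hΦ j _ _)
        rw [n2_zero, add_zero] at h2
        exact h2.trans (mul_le_mul_of_nonneg_left (hT _ _) hK)
      rw [n2_eq_lp, n2_eq_lp, ← mul_div_assoc, div_le_div_iff_of_pos_right hN] at h1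
      exact h1
  refine ⟨WithLp.ofLp (hF.fixedPoint F), ?_⟩
  intro j
  have h := hF.fixedPoint_isFixedPt
  have h2 : WithLp.ofLp (F (hF.fixedPoint F)) = WithLp.ofLp (hF.fixedPoint F) := by
    rw [h.eq]
  exact (congrFun h2 j).symm

/-- the solution (of a contraction) -/
noncomputable def sol [Nonempty ι] [CompleteSpace W] (T : (ι → W) → (ι → W)) (Φ : ι → W → W) :
    ι → W :=
  open Classical in
  if h : ∃ V, IsSol T Φ V then h.choose else 0

theorem sol_spec [Nonempty ι] [CompleteSpace W] {T : (ι → W) → (ι → W)} (hT : Contr T)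
    {Φ : ι → W → W} {K : ℝ}
    (hK : 0 ≤ K) (hK1 : K < 1) (hΦ : ∀ j x y, ‖Φ j x - Φ j y‖ ≤ K * ‖x - y‖) :
    IsSol T Φ (sol T Φ) := by
  have h := exists_sol hT hK hK1 hΦ
  unfold sol
  rw [dif_pos h]
  exact h.choose_spec

/-- `n2` of a family converging pointwise to zero converges to zero -/
theorem tendsto_n2_zero {X : Type*} {l : Filter X} {f : X → ι → W}
    (h : ∀ j, Tendsto (fun x => f x j) l (𝓝 0)) : Tendsto (fun x => n2 (f x)) l (𝓝 0) := by
  have h1 : Tendsto (fun x => (∑ j, ‖f x j‖ ^ 2) / (Fintype.card ι : ℝ)) l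
      (𝓝 ((∑ j : ι, ‖(0 : W)‖ ^ 2) / (Fintype.card ι : ℝ))) := by
    apply Tendsto.div_const
    apply tendsto_finsetSum
    intro j _
    exact ((h j).norm).pow 2
  have h2 := (Real.continuous_sqrt.tendsto _).comp h1
  simpa [n2, Function.comp_def] using h2

/-- continuity of the solution in parameters -/
theorem continuousAt_sol [Nonempty ι] [CompleteSpace W] {X : Type*} [TopologicalSpace X]
    {T : (ι → W) → (ι → W)} (hT : Contr T) {Φ : X → ι → W → W} {K : ℝ} {s : Set X}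
    (hK : 0 ≤ K) (hK1 : K < 1) (hΦ : ∀ p ∈ s, ∀ j x y, ‖Φ p j x - Φ p j y‖ ≤ K * ‖x - y‖)
    {p₀ : X} (hp₀ : p₀ ∈ s)
    (hc : ∀ j w, ContinuousWithinAt (fun p => Φ p j w) s p₀) :
    ContinuousWithinAt (fun p => sol T (Φ p)) s p₀ := by
  have hsol : ∀ p ∈ s, IsSol T (Φ p) (sol T (Φ p)) := fun p hp => sol_spec hT hK hK1 (hΦ p hp)
  have key : ∀ p ∈ s, n2 (fun j => sol T (Φ p) j - sol T (Φ p₀) j) ≤
      (1 - K)⁻¹ * n2 (fun j => Φ p j (T (sol T (Φ p₀)) j) - Φ p₀ j (T (sol T (Φ p₀)) j)) :=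
    fun p hp => (hsol p hp).stab hT hK hK1 (hΦ p hp) (hsol p₀ hp₀)
  rw [continuousWithinAt_pi]
  intro j
  rw [ContinuousWithinAt, tendsto_iff_norm_sub_tendsto_zero]
  have h1 : Tendsto (fun p => n2 (fun j => Φ p j (T (sol T (Φ p₀)) j) -
      Φ p₀ j (T (sol T (Φ p₀)) j))) (𝓝[s] p₀) (𝓝 0) := by
    apply tendsto_n2_zero
    intro i
    rw [← sub_self (Φ p₀ i (T (sol T (Φ p₀)) i))]
    exact (hc i _).tendsto.sub_const _
  have h2 : Tendsto (fun p => Real.sqrt (Fintype.card ι : ℝ) * ((1 - K)⁻¹ *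
      n2 (fun j => Φ p j (T (sol T (Φ p₀)) j) - Φ p₀ j (T (sol T (Φ p₀)) j)))) (𝓝[s] p₀)
      (𝓝 0) := by
    have := (h1.const_mul (1 - K)⁻¹).const_mul (Real.sqrt (Fintype.card ι : ℝ))
    simpa using this
  refine squeeze_zero' (Eventually.of_forall fun _ => norm_nonneg _) ?_ h2
  filter_upwards [self_mem_nhdsWithin] with p hp
  refine (norm_apply_le (fun j => sol T (Φ p) j - sol T (Φ p₀) j) j).trans ?_
  exact mul_le_mul_of_nonneg_left (key p hp) (Real.sqrt_nonneg _)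

theorem continuousOn_sol [Nonempty ι] [CompleteSpace W] {X : Type*} [TopologicalSpace X]
    {T : (ι → W) → (ι → W)} (hT : Contr T) {Φ : X → ι → W → W} {K : ℝ} {s : Set X}
    (hK : 0 ≤ K) (hK1 : K < 1) (hΦ : ∀ p ∈ s, ∀ j x y, ‖Φ p j x - Φ p j y‖ ≤ K * ‖x - y‖)
    (hc : ∀ j w, ContinuousOn (fun p => Φ p j w) s) :
    ContinuousOn (fun p => sol T (Φ p)) s :=
  fun p hp => continuousAt_sol hT hK hK1 hΦ hp fun j w => hc j w p hp

/-- shift difference: `σ` a permutation of the nodes commuting with `T` -/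
theorem IsSol.shift {T : (ι → W) → (ι → W)} (hT : Contr T) {Φ : ι → W → W} {K : ℝ}
    (hK : 0 ≤ K) (hK1 : K < 1) (hΦ : ∀ j x y, ‖Φ j x - Φ j y‖ ≤ K * ‖x - y‖) (σ : ι → ι)
    (hσ : ∀ f j, T (fun i => f (σ i)) j = T f (σ j))
    {V : ι → W} (hV : IsSol T Φ V) {g : ι → ℝ} (hg : ∀ j, 0 ≤ g j)
    (hg' : ∀ j, ‖Φ (σ j) (T V j) - Φ j (T V j)‖ ≤ g j) :
    n2 (fun j => V (σ j) - V j) ≤ (1 - K)⁻¹ * n2 g := by
  have hS : IsSol T (fun j => Φ (σ j)) (fun j => V (σ j)) := by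
    intro j
    rw [hσ V j]
    exact hV (σ j)
  have h := hS.stab hT hK hK1 (fun j => hΦ (σ j)) hV
  refine h.trans ?_
  apply mul_le_mul_of_nonneg_left _ (inv_nonneg.2 (by linarith))
  apply n2_mono
  intro j
  rw [Real.norm_of_nonneg (hg j)]
  exact hg' j

/-- absorbing: `|e_j| ≤ K |(T e')_j| + g_j`, `n2 (T e') ≤ n2 e` gives `n2 e ≤ (1-K)⁻¹ n2 g` -/
theorem n2_absorb {e e' : ι → W} {g : ι → ℝ} {K : ℝ} (hK : 0 ≤ K) (hK1 : K < 1)
    (hg : ∀ j, 0 ≤ g j) (h : ∀ j, ‖e j‖ ≤ K * ‖e' j‖ + g j) (he : n2 e' ≤ n2 e) :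
    n2 e ≤ (1 - K)⁻¹ * n2 g := by
  have h2 := n2_le_of_le hK hg h
  rw [inv_mul_eq_div, le_div_iff₀ (by linarith)]
  nlinarith [mul_le_mul_of_nonneg_left he hK]

end Crest.Agent.R264.Bsh
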