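import Crest.Agent.R264.BshIface
import Crest.Agent.R264.BshE2

/-! Row 264, Part B, module BIS-E (helper127): the Bishop equation on the finite cycle. -/

set_option autoImplicit false

namespace Crest.Agent.R264.Bsh

open Finset Topology Filter

variable {M k : ℕ}

theorem card_zm (M : ℕ) : (Fintype.card (ZMod (2 * M + 1)) : ℝ) = 2 * M + 1 := by
  rw [ZMod.card]
  push_cast
  ring

/-- pass to `EuclideanSpace` -/
noncomputable def toE (v : Fin k → ℝ) : EuclideanSpace ℝ (Fin k) := WithLp.toLp 2 v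

noncomputable def ofE (v : EuclideanSpace ℝ (Fin k)) : Fin k → ℝ := WithLp.ofLp v

@[simp] theorem ofE_toE (v : Fin k → ℝ) : ofE (toE v) = v := rfl
@[simp] theorem toE_ofE (v : EuclideanSpace ℝ (Fin k)) : toE (ofE v) = v := rfl

theorem toE_sub (v w : Fin k → ℝ) : toE (v - w) = toE v - toE w := rfl
theorem ofE_sub (v w : EuclideanSpace ℝ (Fin k)) : ofE (v - w) = ofE v - ofE w := rfl
theorem toE_add (v w : Fin k → ℝ) : toE (v + w) = toE v + toE w := rfl

theorem eu_eq (v : Fin k → ℝ) : eu v = ‖toE v‖ := by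
  rw [eu, toE, EuclideanSpace.norm_eq]
  simp

theorem eu_nonneg (v : Fin k → ℝ) : 0 ≤ eu v := Real.sqrt_nonneg _

theorem eu_sub_comm (v w : Fin k → ℝ) : eu (v - w) = eu (w - v) := by
  rw [eu_eq, eu_eq, toE_sub, toE_sub, norm_sub_rev]

theorem l2_eq (V : ZMod (2 * M + 1) → Fin k → ℝ) : l2 V = n2 (fun j => toE (V j)) := by
  rw [l2, n2, card_zm]
  congr 2
  apply Finset.sum_congr rfl
  intro j _
  rw [← eu_eq, eu, Real.sq_sqrt (Finset.sum_nonneg fun i _ => sq_nonneg _)]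

theorem l2s_eq (f : ZMod (2 * M + 1) → ℝ) : l2s f = n2 f := by
  rw [l2s, n2, card_zm]
  simp

theorem cj_sub (hT : BisT) (f g : ZMod (2 * M + 1) → ℝ) (j : ZMod (2 * M + 1)) :
    cj (fun j' => f j' - g j') j = cj f j - cj g j := by
  have h1 : (fun j' => f j' - g j') = f + (-1 : ℝ) • g := by
    ext j'
    simp [sub_eq_add_neg]
  rw [h1]
  unfold cj
  rw [hT.pd_add, hT.pd_smul]
  simp [sub_eq_add_neg]

theorem cjv_sub' (hT : BisT) (V W : ZMod (2 * M + 1) → Fin k → ℝ) :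
    cjv (V - W) = cjv V - cjv W := by
  ext j i
  exact cj_sub hT (fun j' => V j' i) (fun j' => W j' i) j

theorem cjv_le' (hT : BisT) (V : ZMod (2 * M + 1) → Fin k → ℝ) : l2 (cjv V) ≤ l2 V := by
  unfold l2
  apply Real.sqrt_le_sqrt
  apply div_le_div_of_nonneg_right _ (by positivity)
  have h1 : ∀ F : ZMod (2 * M + 1) → Fin k → ℝ,
      ∑ j, ∑ i, F j i ^ 2 = ∑ i, ∑ j, F j i ^ 2 := fun F => Finset.sum_comm
  rw [h1, h1]
  apply Finset.sum_le_sum
  intro i _
  exact hT.cj_l2 (fun j => V j i)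

/-- the conjugation on `EuclideanSpace`-valued functions -/
noncomputable def TE (f : ZMod (2 * M + 1) → EuclideanSpace ℝ (Fin k)) :
    ZMod (2 * M + 1) → EuclideanSpace ℝ (Fin k) :=
  fun j => toE (cjv (fun j' => ofE (f j')) j)

theorem TE_contr (hT : BisT) : Contr (TE (M := M) (k := k)) := by
  intro f g
  have h := cjv_le' hT ((fun j' => ofE (f j')) - (fun j' => ofE (g j')))
  rw [l2_eq, l2_eq] at h
  refine le_trans (le_of_eq ?_) (h.trans (le_of_eq ?_))
  · congr 1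
    ext1 j
    rw [cjv_sub' hT]
    rfl
  · rfl

theorem sol_iff {Φ : ZMod (2 * M + 1) → (Fin k → ℝ) → (Fin k → ℝ)} {u0 : Fin k → ℝ}
    {V : ZMod (2 * M + 1) → Fin k → ℝ} (hV : ∀ j, V j = Φ j (u0 - cjv V j)) :
    IsSol TE (fun j x => toE (Φ j (u0 - ofE x))) (fun j => toE (V j)) := by
  intro j
  have h := hV j
  change toE (V j) = toE (Φ j (u0 - cjv V j))
  rw [← h]

theorem lipE {Φ : ZMod (2 * M + 1) → (Fin k → ℝ) → (Fin k → ℝ)} {u0 : Fin k → ℝ} {q : ℝ}
    (hΦ : ∀ j u u', eu (Φ j u - Φ j u') ≤ q * eu (u - u')) (j : ZMod (2 * M + 1))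
    (x y : EuclideanSpace ℝ (Fin k)) :
    ‖toE (Φ j (u0 - ofE x)) - toE (Φ j (u0 - ofE y))‖ ≤ q * ‖x - y‖ := by
  rw [← toE_sub, ← eu_eq]
  refine (hΦ j _ _).trans (le_of_eq ?_)
  rw [eu_eq, ← norm_sub_rev y x]
  congr 2
  rw [sub_sub_sub_cancel_left]
  rfl

theorem bisE (hT : BisT) : BisE where
  exists_sol := by
    intro M k Φ q u0 hq hq1 hΦ
    obtain ⟨V, hV⟩ := exists_sol (T := TE) (TE_contr hT)
      (Φ := fun j x => toE (Φ j (u0 - ofE x))) hq hq1 (lipE hΦ)
    refine ⟨fun j => ofE (V j), fun j => ?_⟩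
    have h := hV j
    change V j = toE (Φ j (u0 - cjv (fun j' => ofE (V j')) j)) at h
    change ofE (V j) = _
    conv_lhs => rw [h]
    rfl
  diff := by
    intro M k Φ Φ' q u0 u0' V V' δ hq hq1 hΦ hV hV' hδ
    have hδ0 : ∀ j, 0 ≤ δ j := fun j => (eu_nonneg _).trans (hδ j)
    have hg0 : ∀ j, 0 ≤ q * eu (u0 - u0') + δ j := fun j =>
      add_nonneg (mul_nonneg hq (eu_nonneg _)) (hδ0 j)
    have h1 : ∀ j, ‖toE ((V - V') j)‖ ≤ q * ‖toE (cjv (V - V') j)‖ +
        (q * eu (u0 - u0') + δ j) := by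
      intro j
      have e1 : toE ((V - V') j) =
          (toE (Φ j (u0 - cjv V j)) - toE (Φ j (u0' - cjv V' j))) +
          (toE (Φ j (u0' - cjv V' j)) - toE (Φ' j (u0' - cjv V' j))) := by
        rw [Pi.sub_apply, toE_sub, ← hV j, ← hV' j]
        abel
      rw [e1]
      refine (norm_add_le _ _).trans ?_
      have e2 : ‖toE (Φ j (u0 - cjv V j)) - toE (Φ j (u0' - cjv V' j))‖ ≤
          q * (eu (u0 - u0') + ‖toE (cjv (V - V') j)‖) := by
        rw [← toE_sub, ← eu_eq]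
        refine (hΦ j _ _).trans ?_
        apply mul_le_mul_of_nonneg_left _ hq
        rw [eu_eq, eu_eq, cjv_sub' hT]
        have e3 : toE (u0 - cjv V j - (u0' - cjv V' j)) =
            toE (u0 - u0') - toE ((cjv V - cjv V') j) := by
          rw [← toE_sub]
          congr 1
          simp only [Pi.sub_apply]
          abel
        rw [e3]
        exact norm_sub_le _ _
      have e4 : ‖toE (Φ j (u0' - cjv V' j)) - toE (Φ' j (u0' - cjv V' j))‖ ≤ δ j := by
        rw [← toE_sub, ← eu_eq]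
        exact hδ j
      nlinarith [e2, e4]
    have h2 := n2_absorb hq hq1 hg0 h1 (by
      rw [← l2_eq, ← l2_eq]
      exact cjv_le' hT _)
    rw [← l2_eq] at h2
    have h3 : n2 (fun j : ZMod (2 * M + 1) => q * eu (u0 - u0') + δ j) ≤
        q * eu (u0 - u0') + l2s δ := by
      refine (n2_add_le (fun _ => q * eu (u0 - u0')) δ).trans ?_
      rw [n2_const, Real.norm_of_nonneg (mul_nonneg hq (eu_nonneg _)), l2s_eq]
    rw [div_eq_inv_mul]
    exact h2.trans (mul_le_mul_of_nonneg_left h3 (inv_nonneg.2 (by linarith)))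
  cjv_le := fun V => cjv_le' hT V
  cjv_sub := fun V W => cjv_sub' hT V W
  shift := by
    intro M k Φ q u0 V δ hq hq1 hΦ hV hδ
    have hδ0 : ∀ j, 0 ≤ δ j := fun j => (eu_nonneg _).trans (hδ j)
    have h := (sol_iff hV).shift (TE_contr hT) hq hq1 (lipE hΦ) (fun j => j + 1)
      (by
        intro f j
        unfold TE
        congr 1
        ext i
        exact hT.cj_shift (fun j' => ofE (f j') i) 1 j) hδ0
      (by
        intro j
        rw [← toE_sub, ← eu_eq]
        exact hδ j)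
    rw [l2_eq, l2s_eq, div_eq_inv_mul]
    exact h

end Crest.Agent.R264.Bsh
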