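import Crest.Agent.R264.BshIface

/-!
Row 264, Part B (helper747): calculus of the norms `eu`, `l2s`, `l2` of `BshIface`.
-/

set_option autoImplicit false

open Topology Filter Set

namespace Crest.Agent.R264.BshN

open Crest.Agent.R264.Bsh

section eu

variable {k : ℕ}

lemma eu_eq (v : Fin k → ℝ) : eu v = ‖(WithLp.toLp 2 v : EuclideanSpace ℝ (Fin k))‖ := by
  simp [eu, EuclideanSpace.norm_eq]

lemma eu_nonneg (v : Fin k → ℝ) : 0 ≤ eu v := Real.sqrt_nonneg _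

lemma eu_sq (v : Fin k → ℝ) : eu v ^ 2 = ∑ i, v i ^ 2 :=
  Real.sq_sqrt (Finset.sum_nonneg fun _ _ => sq_nonneg _)

@[simp] lemma eu_zero : eu (0 : Fin k → ℝ) = 0 := by simp [eu]

lemma eu_add_le (v w : Fin k → ℝ) : eu (v + w) ≤ eu v + eu w := by
  simp only [eu_eq, WithLp.toLp_add]
  exact norm_add_le _ _

lemma eu_sub_le (v w : Fin k → ℝ) : eu (v - w) ≤ eu v + eu w := by
  simp only [eu_eq, WithLp.toLp_sub]
  exact norm_sub_le _ _

lemma eu_neg (v : Fin k → ℝ) : eu (-v) = eu v := by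
  simp only [eu_eq, WithLp.toLp_neg]
  exact norm_neg _

lemma eu_sub_comm (v w : Fin k → ℝ) : eu (v - w) = eu (w - v) := by
  rw [← eu_neg, neg_sub]

lemma eu_smul (c : ℝ) (v : Fin k → ℝ) : eu (c • v) = |c| * eu v := by
  simp only [eu_eq, WithLp.toLp_smul]
  rw [norm_smul, Real.norm_eq_abs]

lemma norm_le_eu (v : Fin k → ℝ) : ‖v‖ ≤ eu v := by
  rw [pi_norm_le_iff_of_nonneg (eu_nonneg v)]
  intro i
  rw [Real.norm_eq_abs]
  apply Real.abs_le_sqrt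
  exact Finset.single_le_sum (f := fun i => v i ^ 2) (fun _ _ => sq_nonneg _) (Finset.mem_univ i)

lemma eu_le_norm (v : Fin k → ℝ) : eu v ≤ ((k : ℝ) + 1) * ‖v‖ := by
  apply Real.sqrt_le_iff.2
  refine ⟨by positivity, ?_⟩
  have h1 : ∑ i, v i ^ 2 ≤ ∑ _i : Fin k, ‖v‖ ^ 2 := by
    apply Finset.sum_le_sum
    intro i _
    have := norm_le_pi_norm v i
    rw [Real.norm_eq_abs] at this
    calc v i ^ 2 = |v i| ^ 2 := (sq_abs _).symm
      _ ≤ ‖v‖ ^ 2 := by gcongr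
  rw [Finset.sum_const, Finset.card_univ, Fintype.card_fin, nsmul_eq_mul] at h1
  have hk : (0 : ℝ) ≤ k := Nat.cast_nonneg k
  nlinarith [sq_nonneg ‖v‖, mul_nonneg hk (sq_nonneg ‖v‖), mul_nonneg (mul_nonneg hk hk) (sq_nonneg ‖v‖)]

end eu

section l2s

variable {M : ℕ}

lemma Npos (M : ℕ) : (0 : ℝ) < 2 * M + 1 := by positivity

lemma cardN (M : ℕ) : (Fintype.card (ZMod (2 * M + 1)) : ℝ) = 2 * M + 1 := by
  rw [ZMod.card]; push_cast; ring

lemma l2s_nonneg (f : ZMod (2 * M + 1) → ℝ) : 0 ≤ l2s f := Real.sqrt_nonneg _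

lemma l2s_sq (f : ZMod (2 * M + 1) → ℝ) : l2s f ^ 2 = (∑ j, f j ^ 2) / (2 * M + 1) :=
  Real.sq_sqrt (div_nonneg (Finset.sum_nonneg fun _ _ => sq_nonneg _) (Npos M).le)

lemma l2s_eq (f : ZMod (2 * M + 1) → ℝ) :
    l2s f = ‖(WithLp.toLp 2 f : EuclideanSpace ℝ (ZMod (2 * M + 1)))‖ / Real.sqrt (2 * M + 1) := by
  rw [l2s, Real.sqrt_div (Finset.sum_nonneg fun _ _ => sq_nonneg _)]
  simp [EuclideanSpace.norm_eq]

lemma l2s_mono {f g : ZMod (2 * M + 1) → ℝ} (h : ∀ j, |f j| ≤ g j) : l2s f ≤ l2s g := by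
  apply Real.sqrt_le_sqrt
  apply div_le_div_of_nonneg_right _ (Npos M).le
  apply Finset.sum_le_sum
  intro j _
  rw [← sq_abs (f j)]
  exact pow_le_pow_left₀ (abs_nonneg _) (h j) 2

lemma l2s_add_le (f g : ZMod (2 * M + 1) → ℝ) : l2s (fun j => f j + g j) ≤ l2s f + l2s g := by
  rw [l2s_eq, l2s_eq, l2s_eq, ← add_div]
  apply div_le_div_of_nonneg_right _ (Real.sqrt_nonneg _)
  exact norm_add_le (WithLp.toLp 2 f : EuclideanSpace ℝ (ZMod (2 * M + 1))) (WithLp.toLp 2 g)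

lemma l2s_smul (c : ℝ) (f : ZMod (2 * M + 1) → ℝ) : l2s (fun j => c * f j) = |c| * l2s f := by
  rw [l2s_eq, l2s_eq, ← mul_div_assoc]
  congr 1
  have := norm_smul c (WithLp.toLp 2 f : EuclideanSpace ℝ (ZMod (2 * M + 1)))
  rw [Real.norm_eq_abs] at this
  exact this

lemma l2s_const (c : ℝ) : l2s (fun _ : ZMod (2 * M + 1) => c) = |c| := by
  have h : (∑ _j : ZMod (2 * M + 1), c ^ 2) / (2 * M + 1) = c ^ 2 := by
    rw [Finset.sum_const, Finset.card_univ, nsmul_eq_mul, cardN]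
    field_simp
  rw [l2s, h, Real.sqrt_sq_eq_abs]

/-- Cauchy–Schwarz for means -/
lemma mean_mul_le (f g : ZMod (2 * M + 1) → ℝ) :
    (∑ j, f j * g j) / (2 * M + 1) ≤ l2s f * l2s g := by
  rw [div_le_iff₀ (Npos M)]
  have h := Real.sum_mul_le_sqrt_mul_sqrt Finset.univ f g
  refine h.trans (le_of_eq ?_)
  have e1 : Real.sqrt (∑ j, f j ^ 2) = l2s f * Real.sqrt (2 * M + 1) := by
    rw [l2s, ← Real.sqrt_mul (div_nonneg (Finset.sum_nonneg fun _ _ => sq_nonneg _) (Npos M).le)]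
    congr 1
    field_simp
  have e2 : Real.sqrt (∑ j, g j ^ 2) = l2s g * Real.sqrt (2 * M + 1) := by
    rw [l2s, ← Real.sqrt_mul (div_nonneg (Finset.sum_nonneg fun _ _ => sq_nonneg _) (Npos M).le)]
    congr 1
    field_simp
  rw [e1, e2]
  have := Real.mul_self_sqrt (Npos M).le
  calc _ = l2s f * l2s g * (Real.sqrt (2 * M + 1) * Real.sqrt (2 * M + 1)) := by ring
    _ = _ := by rw [this]

lemma mean_le (f : ZMod (2 * M + 1) → ℝ) : (∑ j, f j) / (2 * M + 1) ≤ l2s f := by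
  have := mean_mul_le f (fun _ => (1 : ℝ))
  simpa [l2s_const] using this

lemma abs_mean_le (f : ZMod (2 * M + 1) → ℝ) : |(∑ j, f j) / (2 * M + 1)| ≤ l2s f := by
  rw [abs_div, abs_of_pos (Npos M)]
  calc |∑ j, f j| / (2 * M + 1) ≤ (∑ j, |f j|) / (2 * M + 1) := by
        apply div_le_div_of_nonneg_right (Finset.abs_sum_le_sum_abs _ _) (Npos M).le
    _ ≤ l2s (fun j => |f j|) := mean_le _
    _ = l2s f := by simp [l2s, sq_abs]

lemma l2s_abs (f : ZMod (2 * M + 1) → ℝ) : l2s (fun j => |f j|) = l2s f := by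
  simp [l2s, sq_abs]

end l2s

section l2

variable {M k : ℕ}

lemma l2_nonneg (V : ZMod (2 * M + 1) → Fin k → ℝ) : 0 ≤ l2 V := Real.sqrt_nonneg _

lemma l2_eq (V : ZMod (2 * M + 1) → Fin k → ℝ) : l2 V = l2s (fun j => eu (V j)) := by
  simp [l2, l2s, eu_sq]

lemma l2_add_le (V W : ZMod (2 * M + 1) → Fin k → ℝ) : l2 (V + W) ≤ l2 V + l2 W := by
  rw [l2_eq, l2_eq, l2_eq]
  refine le_trans (l2s_mono fun j => ?_) (l2s_add_le _ _)
  rw [abs_of_nonneg (eu_nonneg _)]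
  exact eu_add_le _ _

lemma l2_neg (V : ZMod (2 * M + 1) → Fin k → ℝ) : l2 (-V) = l2 V := by
  simp [l2]

lemma l2_sub_le (V W : ZMod (2 * M + 1) → Fin k → ℝ) : l2 (V - W) ≤ l2 V + l2 W := by
  rw [sub_eq_add_neg, ← l2_neg W]
  exact l2_add_le _ _

lemma l2_const (v : Fin k → ℝ) : l2 (fun _ : ZMod (2 * M + 1) => v) = eu v := by
  rw [l2_eq, l2s_const, abs_of_nonneg (eu_nonneg _)]

/-- coordinates -/
lemma l2s_coord_le (V : ZMod (2 * M + 1) → Fin k → ℝ) (i : Fin k) :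
    l2s (fun j => V j i) ≤ l2 V := by
  rw [l2_eq]
  apply l2s_mono
  intro j
  exact (norm_le_pi_norm (V j) i).trans (norm_le_eu _)

lemma l2_le_of {V : ZMod (2 * M + 1) → Fin k → ℝ} {g : ZMod (2 * M + 1) → ℝ}
    (h : ∀ j, eu (V j) ≤ g j) : l2 V ≤ l2s g := by
  rw [l2_eq]
  apply l2s_mono
  intro j
  rw [abs_of_nonneg (eu_nonneg _)]
  exact h j

end l2

end Crest.Agent.R264.BshN
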