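import Crest.Agent.R264.BshDat
import Crest.Agent.R264.BshNorm

/-!
Row 264 (S0402), PART B: node density and the surjectivity step (6) (helper213).
-/

set_option autoImplicit false

open Topology Filter Set

namespace Crest.Agent.R264.BisNf

open Crest.Agent.R264.Bsh Crest.Agent.R264.BshN

theorem nd_int (M : ℕ) (i : ℤ) :
    nd M ((i : ℤ) : ZMod (2 * M + 1)) =
      Complex.exp ((2 * Real.pi * i / (2 * M + 1) : ℝ) * Complex.I) := by
  unfold nd
  rw [ZMod.stdAddChar_coe]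
  congr 1
  push_cast
  ring

theorem norm_nd (M : ℕ) (j : ZMod (2 * M + 1)) : ‖nd M j‖ = 1 := by
  have h : ((j.valMinAbs : ℤ) : ZMod (2 * M + 1)) = j := ZMod.coe_valMinAbs j
  rw [← h, nd_int]
  exact Complex.norm_exp_ofReal_mul_I _

/-- every point of the unit circle is within `π/(2M+1)` of a node -/
theorem node_dense (M : ℕ) (ζ : ℂ) (hζ : ‖ζ‖ = 1) :
    ∃ j : ZMod (2 * M + 1), ‖ζ - nd M j‖ ≤ Real.pi / (2 * M + 1) := by
  have hN := Npos M
  set θ : ℝ := Complex.arg ζ with hθ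
  have hζ' : ζ = Complex.exp ((θ : ℂ) * Complex.I) := by
    have := Complex.norm_mul_exp_arg_mul_I ζ
    rw [hζ] at this
    simpa using this.symm
  set i : ℤ := round (θ * (2 * M + 1) / (2 * Real.pi)) with hi
  refine ⟨((i : ℤ) : ZMod (2 * M + 1)), ?_⟩
  rw [nd_int, hζ']
  have hpi := Real.pi_pos
  have h1 : |θ * (2 * M + 1) / (2 * Real.pi) - i| ≤ 1 / 2 := abs_sub_round _
  have h2 : |θ - 2 * Real.pi * i / (2 * M + 1)| ≤ Real.pi / (2 * M + 1) := by
    have e : θ - 2 * Real.pi * i / (2 * M + 1) =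
        (2 * Real.pi / (2 * M + 1)) * (θ * (2 * M + 1) / (2 * Real.pi) - i) := by
      field_simp
    rw [e, abs_mul, abs_of_pos (by positivity)]
    calc 2 * Real.pi / (2 * M + 1) * |θ * (2 * M + 1) / (2 * Real.pi) - i|
        ≤ 2 * Real.pi / (2 * M + 1) * (1 / 2) := by gcongr
      _ = Real.pi / (2 * M + 1) := by ring
  refine le_trans ?_ h2
  have e3 : Complex.exp ((θ : ℂ) * Complex.I) -
      Complex.exp (((2 * Real.pi * i / (2 * M + 1) : ℝ) : ℂ) * Complex.I) =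
      Complex.exp (((2 * Real.pi * i / (2 * M + 1) : ℝ) : ℂ) * Complex.I) *
        (Complex.exp (Complex.I * ((θ - 2 * Real.pi * i / (2 * M + 1) : ℝ) : ℂ)) - 1) := by
    rw [mul_sub, mul_one, ← Complex.exp_add]
    congr 2
    push_cast
    ring
  rw [e3, norm_mul, Complex.norm_exp_ofReal_mul_I, one_mul]
  exact Real.norm_exp_I_mul_ofReal_sub_one_le

/-- a map close to `κ • id` in the Euclidean norm on a ball covers a ball -/
theorem surj_ball {k : ℕ} (f : (Fin k → ℝ) → (Fin k → ℝ)) (r κ : ℝ) (hr : 0 ≤ r) (hκ : 0 < κ)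
    (hf : ∀ b b', eu b ≤ r → eu b' ≤ r → eu (f b - f b' - κ • (b - b')) ≤ κ / 2 * eu (b - b'))
    (y : Fin k → ℝ) (hy : eu (y - f 0) ≤ κ * r / 2) : ∃ b, eu b ≤ r ∧ f b = y := by
  let g : EuclideanSpace ℝ (Fin k) → EuclideanSpace ℝ (Fin k) := fun b => b - κ⁻¹ • (WithLp.toLp 2 (f (WithLp.ofLp b) - y))
  let s : Set (EuclideanSpace ℝ (Fin k)) := Metric.closedBall 0 r
  have hs : IsComplete s := Metric.isClosed_closedBall.isComplete
  have key : ∀ b ∈ s, ∀ b' ∈ s, ‖g b - g b'‖ ≤ 1 / 2 * ‖b - b'‖ := by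
    intro b hb b' hb'
    have hb1 : eu (WithLp.ofLp b) ≤ r := by
      rw [eu_eq]; simpa [s] using hb
    have hb2 : eu (WithLp.ofLp b') ≤ r := by
      rw [eu_eq]; simpa [s] using hb'
    have h := hf _ _ hb1 hb2
    have e1 : g b - g b' = -(κ⁻¹ • (WithLp.toLp 2 (f (WithLp.ofLp b) - f (WithLp.ofLp b') -
        κ • (WithLp.ofLp b - WithLp.ofLp b')) : EuclideanSpace ℝ (Fin k))) := by
      ext i
      simp [g]
      field_simp
      ring
    rw [e1, norm_neg, norm_smul, ← eu_eq]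
    have e2 : eu (WithLp.ofLp b - WithLp.ofLp b') = ‖b - b'‖ := by
      rw [eu_eq]; simp
    rw [e2] at h
    rw [Real.norm_eq_abs, abs_of_pos (inv_pos.2 hκ)]
    calc κ⁻¹ * eu (f (WithLp.ofLp b) - f (WithLp.ofLp b') -
        κ • (WithLp.ofLp b - WithLp.ofLp b')) ≤ κ⁻¹ * (κ / 2 * ‖b - b'‖) := by
          gcongr
      _ = 1 / 2 * ‖b - b'‖ := by field_simp
  have h0 : (0 : EuclideanSpace ℝ (Fin k)) ∈ s := by simp [s, hr]
  have hg0 : ‖g 0‖ ≤ r / 2 := by
    have e : g 0 = κ⁻¹ • (WithLp.toLp 2 (y - f 0) : EuclideanSpace ℝ (Fin k)) := by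
      ext i
      simp [g]
      ring
    rw [e, norm_smul, ← eu_eq, Real.norm_eq_abs, abs_of_pos (inv_pos.2 hκ)]
    calc κ⁻¹ * eu (y - f 0) ≤ κ⁻¹ * (κ * r / 2) := by gcongr
      _ = r / 2 := by field_simp
  have hmaps : MapsTo g s s := by
    intro b hb
    have h1 := key b hb 0 h0
    rw [sub_zero] at h1
    have hb' : ‖b‖ ≤ r := by simpa [s] using hb
    have : ‖g b‖ ≤ ‖g b - g 0‖ + ‖g 0‖ := by
      calc ‖g b‖ = ‖(g b - g 0) + g 0‖ := by rw [sub_add_cancel]
        _ ≤ _ := norm_add_le _ _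
    have : ‖g b‖ ≤ r := by linarith
    simpa [s] using this
  have hcontr : ContractingWith (1/2 : NNReal) (hmaps.restrict g s s) := by
    refine ⟨by norm_num, ?_⟩
    refine LipschitzWith.of_dist_le_mul ?_
    rintro ⟨b, hb⟩ ⟨b', hb'⟩
    have := key b hb b' hb'
    rw [Subtype.dist_eq, Subtype.dist_eq, dist_eq_norm, dist_eq_norm]
    simpa using this
  obtain ⟨b, hb, hfix, -⟩ := hcontr.exists_fixedPoint' hs hmaps h0 (edist_ne_top _ _)
  refine ⟨WithLp.ofLp b, ?_, ?_⟩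
  · rw [eu_eq]; simpa [s] using hb
  · have h : g b = b := hfix
    have h2 : κ⁻¹ • (WithLp.toLp 2 (f (WithLp.ofLp b) - y) : EuclideanSpace ℝ (Fin k)) = 0 := by
      have : b - κ⁻¹ • (WithLp.toLp 2 (f (WithLp.ofLp b) - y) : EuclideanSpace ℝ (Fin k)) = b := h
      simpa using this
    rw [smul_eq_zero] at h2
    rcases h2 with h2 | h2
    · exact absurd h2 (inv_ne_zero hκ.ne')
    · have h3 : f (WithLp.ofLp b) - y = 0 := by
        have := congrArg WithLp.ofLp h2
        simpa using this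
      exact sub_eq_zero.1 h3

/-- sums over the cycle from any starting point -/
theorem sum_range_cycle {M : ℕ} (g : ZMod (2 * M + 1) → ℝ) (j : ZMod (2 * M + 1)) :
    ∑ i ∈ Finset.range (2 * M + 1), g (j + (i : ZMod (2 * M + 1))) = ∑ x, g x := by
  refine Finset.sum_bij' (fun i _ => j + (i : ZMod (2 * M + 1))) (fun x _ => (x - j).val)
    ?_ ?_ ?_ ?_ ?_
  · intro i _; exact Finset.mem_univ _
  · intro x _
    rw [Finset.mem_range]
    exact ZMod.val_lt _
  · intro i hi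
    rw [Finset.mem_range] at hi
    rw [add_sub_cancel_left, ZMod.val_natCast, Nat.mod_eq_of_lt hi]
  · intro x _
    rw [ZMod.natCast_zmod_val]
    ring
  · intro i _; rfl

theorem sub_le_var {M : ℕ} (a : ZMod (2 * M + 1) → ℝ) (j j' : ZMod (2 * M + 1)) :
    a j - a j' ≤ ∑ i : ZMod (2 * M + 1), |a (i + 1) - a i| := by
  have key : ∀ m : ℕ, a j - a (j + (m : ZMod (2 * M + 1))) ≤
      ∑ i ∈ Finset.range m, |a (j + (i : ZMod (2 * M + 1)) + 1) - a (j + (i : ZMod (2 * M + 1)))| := by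
    intro m
    induction m with
    | zero => simp
    | succ m ih =>
      rw [Finset.sum_range_succ]
      have e : j + ((m + 1 : ℕ) : ZMod (2 * M + 1)) = j + (m : ZMod (2 * M + 1)) + 1 := by
        push_cast; ring
      rw [e]
      have := neg_abs_le (a (j + (m : ZMod (2 * M + 1)) + 1) - a (j + (m : ZMod (2 * M + 1))))
      linarith
  have h := key (j' - j).val
  rw [ZMod.natCast_zmod_val, add_sub_cancel] at h
  refine h.trans ?_
  rw [← sum_range_cycle (fun i => |a (i + 1) - a i|) j]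
  refine Finset.sum_le_sum_of_subset_of_nonneg ?_ (fun _ _ _ => abs_nonneg _)
  intro i hi
  rw [Finset.mem_range] at hi ⊢
  exact hi.trans (ZMod.val_lt _)

/-- sup bound from the `ℓ²` norms of `f` and of its increments (no Fourier) -/
theorem sup_sq_le {M k : ℕ} (f : ZMod (2 * M + 1) → Fin k → ℝ) (j : ZMod (2 * M + 1)) :
    eu (f j) ^ 2 ≤ l2 f ^ 2 +
      2 * l2 f * ((2 * M + 1) * l2 (fun j : ZMod (2 * M + 1) => f (j + 1) - f j)) := by
  have hN := Npos M
  set a : ZMod (2 * M + 1) → ℝ := fun i => eu (f i) with ha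
  have h1 : ∀ j', eu (f j) ^ 2 ≤ a j' ^ 2 + ∑ i : ZMod (2 * M + 1), |a (i + 1) ^ 2 - a i ^ 2| := by
    intro j'
    have := sub_le_var (fun i => a i ^ 2) j j'
    simp only [ha] at this ⊢
    linarith
  have h2 : eu (f j) ^ 2 ≤ (∑ j', a j' ^ 2) / (2 * M + 1) +
      ∑ i : ZMod (2 * M + 1), |a (i + 1) ^ 2 - a i ^ 2| := by
    have h3 := Finset.sum_le_sum fun (j' : ZMod (2 * M + 1)) (_ : j' ∈ Finset.univ) => h1 j'
    rw [Finset.sum_const, Finset.sum_add_distrib, Finset.sum_const, Finset.card_univ,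
      nsmul_eq_mul, nsmul_eq_mul, cardN] at h3
    have h4 : (∑ j', a j' ^ 2) / (2 * M + 1) + ∑ i : ZMod (2 * M + 1), |a (i + 1) ^ 2 - a i ^ 2| =
        (∑ j', a j' ^ 2 + (2 * M + 1) * ∑ i : ZMod (2 * M + 1), |a (i + 1) ^ 2 - a i ^ 2|) /
          (2 * M + 1) := by
      field_simp
    rw [h4, le_div_iff₀ hN]
    linarith
  have h5 : (∑ j', a j' ^ 2) / (2 * M + 1) = l2 f ^ 2 := by
    rw [l2_eq, l2s_sq]
  rw [h5] at h2
  refine h2.trans ?_
  have h6 : ∀ i : ZMod (2 * M + 1), |a (i + 1) ^ 2 - a i ^ 2| ≤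
      eu (f (i + 1) - f i) * a (i + 1) + eu (f (i + 1) - f i) * a i := by
    intro i
    have e1 : a (i + 1) ^ 2 - a i ^ 2 = (a (i + 1) - a i) * (a (i + 1) + a i) := by ring
    have hp : 0 ≤ a (i + 1) + a i := add_nonneg (eu_nonneg _) (eu_nonneg _)
    rw [e1, abs_mul, abs_of_nonneg hp, ← mul_add]
    refine mul_le_mul_of_nonneg_right ?_ hp
    rw [abs_le]
    have h7 : a (i + 1) ≤ eu (f (i + 1) - f i) + a i := by
      have := eu_add_le (f (i + 1) - f i) (f i)
      rwa [sub_add_cancel] at this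
    have h8 : a i ≤ eu (f (i + 1) - f i) + a (i + 1) := by
      have := eu_add_le (f i - f (i + 1)) (f (i + 1))
      rw [sub_add_cancel, eu_sub_comm] at this
      exact this
    constructor <;> linarith
  have h9 := Finset.sum_le_sum fun (i : ZMod (2 * M + 1)) (_ : i ∈ Finset.univ) => h6 i
  rw [Finset.sum_add_distrib] at h9
  have h10 := mean_mul_le (fun i : ZMod (2 * M + 1) => eu (f (i + 1) - f i)) (fun i => a (i + 1))
  have h11 := mean_mul_le (fun i : ZMod (2 * M + 1) => eu (f (i + 1) - f i)) (fun i => a i)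
  have e2 : l2s (fun i : ZMod (2 * M + 1) => eu (f (i + 1) - f i)) =
      l2 (fun j : ZMod (2 * M + 1) => f (j + 1) - f j) := by
    rw [l2_eq]
  have e3 : l2s a = l2 f := by rw [l2_eq]
  have e4 : l2s (fun i : ZMod (2 * M + 1) => a (i + 1)) = l2 f := by
    rw [← e3]
    unfold l2s
    congr 2
    exact Fintype.sum_equiv (Equiv.addRight (1 : ZMod (2 * M + 1))) _ _ (fun _ => rfl)
  rw [e2, e4] at h10
  rw [e2, e3] at h11
  rw [div_le_iff₀ hN] at h10 h11
  calc l2 f ^ 2 + ∑ i : ZMod (2 * M + 1), |a (i + 1) ^ 2 - a i ^ 2|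
      ≤ l2 f ^ 2 + (l2 (fun j : ZMod (2 * M + 1) => f (j + 1) - f j) * l2 f * (2 * M + 1) +
        l2 (fun j : ZMod (2 * M + 1) => f (j + 1) - f j) * l2 f * (2 * M + 1)) := by linarith
    _ = _ := by ring

/-- the surjectivity step in the sup norm -/
theorem surj_sup {k : ℕ} (g : (Fin k → ℝ) → (Fin k → ℝ)) (R : ℝ) (hR : 0 ≤ R)
    (hg : ∀ b b', ‖b‖ ≤ R → ‖b'‖ ≤ R → ‖g b - g b' - (b - b')‖ ≤ 1 / 2 * ‖b - b'‖)
    (y : Fin k → ℝ) (hy : ‖y - g 0‖ ≤ 1 / 2 * R) : ∃ b, ‖b‖ ≤ R ∧ g b = y := by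
  let h : (Fin k → ℝ) → (Fin k → ℝ) := fun b => b - (g b - y)
  let s : Set (Fin k → ℝ) := Metric.closedBall 0 R
  have hs : IsComplete s := Metric.isClosed_closedBall.isComplete
  have key : ∀ b ∈ s, ∀ b' ∈ s, ‖h b - h b'‖ ≤ 1 / 2 * ‖b - b'‖ := by
    intro b hb b' hb'
    have hb1 : ‖b‖ ≤ R := by simpa [s] using hb
    have hb2 : ‖b'‖ ≤ R := by simpa [s] using hb'
    have h1 := hg b b' hb1 hb2
    have e1 : h b - h b' = -(g b - g b' - (b - b')) := by
      simp only [h]; abel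
    rw [e1, norm_neg]
    exact h1
  have h0 : (0 : Fin k → ℝ) ∈ s := by simp [s, hR]
  have hg0 : ‖h 0‖ ≤ 1 / 2 * R := by
    have e : h 0 = y - g 0 := by simp only [h]; abel
    rw [e]; exact hy
  have hmaps : MapsTo h s s := by
    intro b hb
    have h1 := key b hb 0 h0
    rw [sub_zero] at h1
    have hb' : ‖b‖ ≤ R := by simpa [s] using hb
    have : ‖h b‖ ≤ ‖h b - h 0‖ + ‖h 0‖ := by
      calc ‖h b‖ = ‖(h b - h 0) + h 0‖ := by rw [sub_add_cancel]
        _ ≤ _ := norm_add_le _ _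
    have : ‖h b‖ ≤ R := by linarith
    simpa [s] using this
  have hcontr : ContractingWith (1/2 : NNReal) (hmaps.restrict h s s) := by
    refine ⟨by norm_num, ?_⟩
    refine LipschitzWith.of_dist_le_mul ?_
    rintro ⟨b, hb⟩ ⟨b', hb'⟩
    have := key b hb b' hb'
    rw [Subtype.dist_eq, Subtype.dist_eq, dist_eq_norm, dist_eq_norm]
    simpa using this
  obtain ⟨b, hb, hfix, -⟩ := hcontr.exists_fixedPoint' hs hmaps h0 (edist_ne_top _ _)
  refine ⟨b, by simpa [s] using hb, ?_⟩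
  have h1 : b - (g b - y) = b := hfix
  have h2 : g b - y = 0 := by
    have := congrArg (fun x => b - x) h1
    simpa using this
  exact sub_eq_zero.1 h2

/-- MODULE BIS-N -/
theorem bisN : BisN where
  node := fun M ζ hζ => by
    obtain ⟨j, hj⟩ := node_dense M ζ hζ
    refine ⟨j, hj.trans ?_⟩
    exact div_le_div_of_nonneg_right Real.pi_le_four (Npos M).le
  surj := fun g R hR hg y hy => surj_sup g R hR hg y hy

end Crest.Agent.R264.BisNf
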