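import Crest.Agent.R264.BshDat
import Crest.Agent.R264.BshNorm

/-!
Row 264 (S0402), PART B: module BIS-P (profiles on the finite cycle), helper213.
-/

set_option autoImplicit false

open Topology Filter Set

namespace Crest.Agent.R264.BisPf

open Crest.Agent.R264.Bsh Crest.Agent.R264.BshN


theorem tri_nonneg {M : ℕ} (l : ℕ) (j : ZMod (2 * M + 1)) : 0 ≤ tri M l j := le_max_left _ _

theorem tri_le_one {M : ℕ} (l : ℕ) (j : ZMod (2 * M + 1)) : tri M l j ≤ 1 := by
  unfold tri
  refine max_le zero_le_one ?_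
  have : (0:ℝ) ≤ (jabs j : ℝ) / l := by positivity
  linarith

theorem tri_eq_zero {M : ℕ} {l : ℕ} (hl : 1 ≤ l) {j : ZMod (2 * M + 1)} (h : l ≤ jabs j) :
    tri M l j = 0 := by
  unfold tri
  refine max_eq_left ?_
  have hl' : (0:ℝ) < l := by exact_mod_cast hl
  have : (1:ℝ) ≤ (jabs j : ℝ) / l := by
    rw [le_div_iff₀ hl']
    have : (l:ℝ) ≤ (jabs j : ℝ) := by exact_mod_cast h
    linarith
  linarith

theorem jabs_lt_of_tri_pos {M : ℕ} {l : ℕ} (hl : 1 ≤ l) {j : ZMod (2 * M + 1)} (h : 0 < tri M l j) :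
    jabs j < l := by
  by_contra hc
  push Not at hc
  rw [tri_eq_zero hl hc] at h
  exact lt_irrefl _ h

/-- `chi > 0 ⟹ beta ≥ 3/4` -/
theorem tri_four {M : ℕ} {l : ℕ} (hl : 1 ≤ l) {j : ZMod (2 * M + 1)} (h : 0 < tri M l j) :
    3 / 4 ≤ tri M (4 * l) j := by
  have hlt := jabs_lt_of_tri_pos hl h
  have hl' : (0:ℝ) < l := by exact_mod_cast hl
  have h1 : (jabs j : ℝ) ≤ l := by exact_mod_cast hlt.le
  unfold tri
  refine le_max_of_le_right ?_
  have : (jabs j : ℝ) / ((4 * l : ℕ) : ℝ) ≤ 1 / 4 := by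
    rw [div_le_iff₀ (by push_cast; positivity)]
    push_cast
    linarith
  linarith

theorem jabs_succ_le {M : ℕ} (j : ZMod (2 * M + 1)) : jabs (j + 1) ≤ jabs j + 1 := by
  unfold jabs
  refine (ZMod.natAbs_valMinAbs_add_le j 1).trans ?_
  refine (Int.natAbs_add_le _ _).trans ?_
  have h1 : ((1 : ZMod (2 * M + 1)).valMinAbs).natAbs ≤ 1 := by
    rcases Nat.eq_zero_or_pos M with hM | hM
    · subst hM
      have h1 : (1 : ZMod (2 * 0 + 1)) = 0 := by decide
      rw [h1, ZMod.valMinAbs_zero]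
      simp
    · have h := ZMod.valMinAbs_natCast_of_le_half (n := 2 * M + 1) (a := 1) (by omega)
      rw [Nat.cast_one] at h
      rw [h]
      simp
  omega

theorem jabs_neg {M : ℕ} (j : ZMod (2 * M + 1)) : jabs (-j) = jabs j := by
  unfold jabs
  exact ZMod.natAbs_valMinAbs_neg j

theorem jabs_le_succ {M : ℕ} (j : ZMod (2 * M + 1)) : jabs j ≤ jabs (j + 1) + 1 := by
  have h := jabs_succ_le (-(j + 1))
  rw [jabs_neg] at h
  have : -(j + 1) + 1 = -j := by ring
  rw [this, jabs_neg] at h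
  exact h

/-- the tents vary by at most `1/l` per step -/
theorem tri_diff {M : ℕ} {l : ℕ} (hl : 1 ≤ l) (j : ZMod (2 * M + 1)) :
    |tri M l (j + 1) - tri M l j| ≤ 1 / l := by
  have hl' : (0:ℝ) < l := by exact_mod_cast hl
  unfold tri
  have h1 : (jabs (j + 1) : ℝ) ≤ jabs j + 1 := by exact_mod_cast jabs_succ_le j
  have h2 : (jabs j : ℝ) ≤ jabs (j + 1) + 1 := by exact_mod_cast jabs_le_succ j
  rw [max_comm (0:ℝ), max_comm (0:ℝ)]
  refine le_trans (abs_max_sub_max_le_abs _ _ _) ?_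
  have : (1 - (jabs (j + 1) : ℝ) / l) - (1 - (jabs j : ℝ) / l) = ((jabs j : ℝ) - jabs (j + 1)) / l := by
    ring
  rw [this, abs_div, abs_of_pos hl']
  refine div_le_div_of_nonneg_right ?_ hl'.le
  rw [abs_le]
  constructor <;> linarith

/-- sums over the cycle as sums over `Icc (-M) M` -/
theorem sum_cycle {M : ℕ} (f : ℤ → ℝ) :
    ∑ j : ZMod (2 * M + 1), f j.valMinAbs = ∑ i ∈ Finset.Icc (-(M:ℤ)) M, f i := by
  classical
  refine Finset.sum_bij' (fun j _ => j.valMinAbs) (fun i _ => (i : ZMod (2 * M + 1)))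
    ?_ ?_ ?_ ?_ ?_
  · intro j _
    have h := ZMod.valMinAbs_mem_Ioc j
    rw [Finset.mem_Icc]
    obtain ⟨h1, h2⟩ := h
    push_cast at h1 h2
    constructor <;> omega
  · intro i _
    exact Finset.mem_univ _
  · intro j _
    exact ZMod.coe_valMinAbs j
  · intro i hi
    rw [Finset.mem_Icc] at hi
    rw [ZMod.valMinAbs_spec]
    refine ⟨rfl, ?_, ?_⟩ <;> push_cast <;> omega
  · intro j _
    rfl

theorem sum_Icc_symm (M : ℕ) (g : ℕ → ℝ) :
    ∑ i ∈ Finset.Icc (-(M:ℤ)) M, g i.natAbs = g 0 + 2 * ∑ i ∈ Finset.range M, g (i + 1) := by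
  induction M with
  | zero => simp
  | succ n ih =>
    have h1 : Finset.Icc (-((n + 1 : ℕ) : ℤ)) ((n + 1 : ℕ) : ℤ) =
        insert (-((n + 1 : ℕ) : ℤ)) (insert ((n + 1 : ℕ) : ℤ) (Finset.Icc (-(n:ℤ)) n)) := by
      ext x
      simp only [Finset.mem_Icc, Finset.mem_insert]
      push_cast
      omega
    rw [h1, Finset.sum_insert, Finset.sum_insert, ih, Finset.sum_range_succ]
    · have e1 : (-((n + 1 : ℕ) : ℤ)).natAbs = n + 1 := by omega
      have e2 : (((n + 1 : ℕ) : ℤ)).natAbs = n + 1 := by omega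
      rw [e1, e2]
      ring
    · simp only [Finset.mem_Icc]
      push_cast
      omega
    · simp only [Finset.mem_Icc, Finset.mem_insert]
      push_cast
      omega

theorem sum_jabs {M : ℕ} (g : ℕ → ℝ) :
    ∑ j : ZMod (2 * M + 1), g (jabs j) = g 0 + 2 * ∑ i ∈ Finset.range M, g (i + 1) := by
  have := sum_cycle (M := M) (fun i => g i.natAbs)
  rw [sum_Icc_symm] at this
  exact this

theorem sum_tent (l : ℕ) (hl : 1 ≤ l) (M : ℕ) (hM : l ≤ M) :
    ∑ i ∈ Finset.range M, max 0 (1 - ((i + 1 : ℕ) : ℝ) / l) = ((l:ℝ) - 1) / 2 := by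
  have hl' : (0:ℝ) < l := by exact_mod_cast hl
  have key : ∀ n : ℕ, n ≤ l → ∑ i ∈ Finset.range n, max 0 (1 - ((i + 1 : ℕ) : ℝ) / l) =
      n - (n:ℝ) * (n + 1) / (2 * l) := by
    intro n
    induction n with
    | zero => simp
    | succ n ih =>
      intro hn
      rw [Finset.sum_range_succ, ih (by omega), max_eq_right]
      · push_cast
        field_simp
        ring
      · rw [sub_nonneg, div_le_one hl']
        exact_mod_cast hn
  rw [← Finset.sum_range_add_sum_Ico _ hM, key l le_rfl]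
  have hz : ∑ i ∈ Finset.Ico l M, max 0 (1 - ((i + 1 : ℕ) : ℝ) / l) = 0 := by
    refine Finset.sum_eq_zero ?_
    intro i hi
    rw [Finset.mem_Ico] at hi
    refine max_eq_left ?_
    rw [sub_nonpos, one_le_div hl']
    exact_mod_cast (by omega : l ≤ i + 1)
  rw [hz]
  field_simp
  ring

/-- `∑ tri M l = l` exactly -/
theorem tri_sum {M l : ℕ} (hl : 1 ≤ l) (hM : l ≤ M) :
    ∑ j : ZMod (2 * M + 1), tri M l j = l := by
  have h := sum_jabs (M := M) (fun i => max 0 (1 - (i : ℝ) / l))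
  have h2 := sum_tent l hl M hM
  have h3 : ∑ j : ZMod (2 * M + 1), tri M l j =
      ∑ j : ZMod (2 * M + 1), (fun i : ℕ => max 0 (1 - (i : ℝ) / l)) (jabs j) := rfl
  rw [h3, h]
  simp only [Nat.cast_zero, zero_div, sub_zero]
  rw [h2, max_eq_right zero_le_one]
  ring

theorem tri_sq_sum {M l : ℕ} (hl : 1 ≤ l) (hM : l ≤ M) :
    ∑ j : ZMod (2 * M + 1), tri M l j ^ 2 ≤ l := by
  rw [← tri_sum hl hM]
  refine Finset.sum_le_sum fun j _ => ?_
  have h0 := tri_nonneg l j
  have h1 := tri_le_one l j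
  nlinarith

/-- the number of nodes with `|j| < l` -/
theorem card_jabs_lt {M l : ℕ} :
    ((Finset.univ.filter fun j : ZMod (2 * M + 1) => jabs j < l).card : ℝ) ≤ 2 * l := by
  classical
  have h := sum_jabs (M := M) (fun i => if i < l then (1:ℝ) else 0)
  have h1 : ((Finset.univ.filter fun j : ZMod (2 * M + 1) => jabs j < l).card : ℝ) =
      ∑ j : ZMod (2 * M + 1), (if jabs j < l then (1:ℝ) else 0) := by
    rw [Finset.card_filter]
    push_cast
    rfl
  rw [h1]
  have h2 : ∑ j : ZMod (2 * M + 1), (if jabs j < l then (1:ℝ) else 0) =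
      ∑ j : ZMod (2 * M + 1), (fun i : ℕ => if i < l then (1:ℝ) else 0) (jabs j) := rfl
  rw [h2, h]
  have key : ∀ n : ℕ, ∑ i ∈ Finset.range n, (if i + 1 < l then (1:ℝ) else 0) ≤ (l:ℝ) - 1 ∨ l = 0 := by
    intro n
    rcases Nat.eq_zero_or_pos l with h0 | h0
    · right; exact h0
    · left
      have hs : ∑ i ∈ Finset.range n, (if i + 1 < l then (1:ℝ) else 0) ≤
          ∑ i ∈ Finset.range (l - 1), (1:ℝ) := by
        rw [← Finset.sum_filter]
        refine Finset.sum_le_sum_of_subset_of_nonneg ?_ (fun _ _ _ => zero_le_one)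
        intro i hi
        rw [Finset.mem_filter] at hi
        rw [Finset.mem_range]
        omega
      refine hs.trans ?_
      simp only [Finset.sum_const, Finset.card_range, nsmul_eq_mul, mul_one]
      rw [Nat.cast_sub h0]
      simp
  rcases key M with hk | hk
  · have : (if 0 < l then (1:ℝ) else 0) ≤ 1 := by split_ifs <;> norm_num
    simp only at *
    linarith
  · subst hk
    simp

/-- sum of squares of the increments -/
theorem tri_diff_sq_sum {M l : ℕ} (hl : 1 ≤ l) :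
    ∑ j : ZMod (2 * M + 1), (tri M l (j + 1) - tri M l j) ^ 2 ≤ 4 / l := by
  classical
  have hl' : (0:ℝ) < l := by exact_mod_cast hl
  set A := Finset.univ.filter fun j : ZMod (2 * M + 1) => jabs j < l with hA
  set B := Finset.univ.filter fun j : ZMod (2 * M + 1) => jabs (j + 1) < l with hB
  have hcB : (B.card : ℝ) ≤ 2 * l := by
    have : B.card = A.card := by
      refine Finset.card_bij' (fun j _ => j + 1) (fun j _ => j - 1) ?_ ?_ ?_ ?_
      · intro j hj
        simp only [hB, hA, Finset.mem_filter, Finset.mem_univ, true_and] at hj ⊢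
        exact hj
      · intro j hj
        simp only [hB, hA, Finset.mem_filter, Finset.mem_univ, true_and] at hj ⊢
        simpa using hj
      · intro j _; ring
      · intro j _; ring
    rw [this]
    exact card_jabs_lt
  have hcA : (A.card : ℝ) ≤ 2 * l := card_jabs_lt
  have h1 : ∑ j : ZMod (2 * M + 1), (tri M l (j + 1) - tri M l j) ^ 2 =
      ∑ j ∈ A ∪ B, (tri M l (j + 1) - tri M l j) ^ 2 := by
    symm
    refine Finset.sum_subset (Finset.subset_univ _) ?_
    intro j _ hj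
    simp only [hA, hB, Finset.mem_union, Finset.mem_filter, Finset.mem_univ, true_and,
      not_or, not_lt] at hj
    rw [tri_eq_zero hl hj.1, tri_eq_zero hl hj.2]
    simp
  rw [h1]
  calc ∑ j ∈ A ∪ B, (tri M l (j + 1) - tri M l j) ^ 2
      ≤ ∑ j ∈ A ∪ B, (1 / (l:ℝ)) ^ 2 := by
        refine Finset.sum_le_sum fun j _ => ?_
        rw [← sq_abs]
        exact pow_le_pow_left₀ (abs_nonneg _) (tri_diff hl j) 2
    _ = ((A ∪ B).card : ℝ) * (1 / (l:ℝ)) ^ 2 := by
        rw [Finset.sum_const, nsmul_eq_mul]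
    _ ≤ (4 * l) * (1 / (l:ℝ)) ^ 2 := by
        refine mul_le_mul_of_nonneg_right ?_ (by positivity)
        have : ((A ∪ B).card : ℝ) ≤ A.card + B.card := by
          exact_mod_cast Finset.card_union_le A B
        linarith
    _ = 4 / l := by
        field_simp


theorem supp_sq {M l : ℕ} (hl : 1 ≤ l) :
    ∑ j : ZMod (2 * M + 1), (if 0 < tri M l j then (1:ℝ) else 0) ^ 2 ≤ 2 * l := by
  have h3 : ∑ j : ZMod (2 * M + 1), (if 0 < tri M l j then (1:ℝ) else 0) ^ 2 ≤
      ((Finset.univ.filter fun j : ZMod (2 * M + 1) => jabs j < l).card : ℝ) := by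
    rw [Finset.card_filter]
    push_cast
    refine Finset.sum_le_sum fun j _ => ?_
    by_cases h : 0 < tri M l j
    · have := jabs_lt_of_tri_pos hl h
      simp [h, this]
    · simp only [h, if_false]
      split_ifs <;> norm_num
  exact h3.trans card_jabs_lt

theorem supp_l2' {M l : ℕ} (hl : 1 ≤ l) :
    l2s (fun j : ZMod (2 * M + 1) => if 0 < tri M l j then (1 : ℝ) else 0) ≤
      Real.sqrt (2 * ((l : ℝ) / (2 * M + 1))) := by
  unfold l2s
  apply Real.sqrt_le_sqrt
  calc _ ≤ (2 * (l:ℝ)) / (2 * M + 1) :=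
        div_le_div_of_nonneg_right (supp_sq hl) (Npos M).le
    _ = _ := by ring

theorem D_tri {M l : ℕ} (hl : 1 ≤ l) :
    (2 * M + 1) * l2s (fun j : ZMod (2 * M + 1) => tri M l (j + 1) - tri M l j) ≤
      2 / Real.sqrt ((l:ℝ) / (2 * M + 1)) := by
  have hN := Npos M
  have hl' : (0:ℝ) < l := by exact_mod_cast hl
  have hτ : (0:ℝ) < (l:ℝ) / (2 * M + 1) := by positivity
  have h1 : l2s (fun j : ZMod (2 * M + 1) => tri M l (j + 1) - tri M l j) ≤
      Real.sqrt (4 / l / (2 * M + 1)) := by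
    unfold l2s
    apply Real.sqrt_le_sqrt
    exact div_le_div_of_nonneg_right (tri_diff_sq_sum hl) hN.le
  rw [le_div_iff₀ (Real.sqrt_pos.2 hτ)]
  calc (2 * (M:ℝ) + 1) * l2s (fun j : ZMod (2 * M + 1) => tri M l (j + 1) - tri M l j) *
        Real.sqrt ((l:ℝ) / (2 * M + 1))
      ≤ (2 * (M:ℝ) + 1) * Real.sqrt (4 / l / (2 * M + 1)) * Real.sqrt ((l:ℝ) / (2 * M + 1)) := by
        gcongr
    _ = (2 * (M:ℝ) + 1) * Real.sqrt ((4 / l / (2 * M + 1)) * ((l:ℝ) / (2 * M + 1))) := by
        rw [mul_assoc, ← Real.sqrt_mul (by positivity)]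
    _ = (2 * (M:ℝ) + 1) * Real.sqrt ((2 / (2 * M + 1)) ^ 2) := by
        congr 2
        field_simp
        ring
    _ = 2 := by
        rw [Real.sqrt_sq (by positivity)]
        field_simp

/-- MODULE BIS-P -/
theorem bisP : BisP where
  tri_nonneg := fun M l j => tri_nonneg l j
  tri_le_one := fun M l j => tri_le_one l j
  bet_ge := fun M l j hl h => tri_four hl h
  mean := fun M l hl hM => by rw [tri_sum hl hM]
  l2_le := fun M l hl hM => by
    unfold l2s
    apply Real.sqrt_le_sqrt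
    exact div_le_div_of_nonneg_right (tri_sq_sum hl hM) (Npos M).le
  diff_le := fun M l hl _ => D_tri hl
  supp := fun M l g hl _ hg => by
    have h1 := mean_mul_le (fun j : ZMod (2 * M + 1) => if 0 < tri M l j then (1:ℝ) else 0) g
    have h2 : (∑ j : ZMod (2 * M + 1), if 0 < tri M l j then g j else 0) =
        ∑ j : ZMod (2 * M + 1), (if 0 < tri M l j then (1:ℝ) else 0) * g j := by
      refine Finset.sum_congr rfl fun j _ => ?_
      split_ifs <;> simp
    rw [h2]
    exact h1.trans (mul_le_mul_of_nonneg_right (supp_l2' hl) (l2s_nonneg g))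
  supp_l2 := fun M l hl _ => supp_l2' hl

end Crest.Agent.R264.BisPf
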