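import Crest.Agent.R264.BisS

/-! Row 264, Part B, module BIS-S (helper127): estimates (4), (5), (6) and `bisS`. -/

set_option autoImplicit false

open Topology Filter Set

namespace Crest.Agent.R264.BisS

open Crest.Agent.R264.Bsh Crest.Agent.R264.BshN

section

variable {Z : Type} [NormedAddCommGroup Z] {M l : ℕ} {k : ℕ} {om : ℝ → ℝ}
  {C₀ ε r s₁ ρ₀ c τ : ℝ} {Yt : Z → (Fin k → ℝ) → ℝ → (Fin k → ℝ)}

/-- numerical consequences of `ScOK` -/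
theorem num1 (hY : YOK Yt om C₀ ε r s₁) (hS : ScOK (k := k) om C₀ ε r s₁ ρ₀ c τ M l) :
    ((k : ℝ) + 1) * (C₀ * c) ≤ 1 / 100 := by
  have h := hS.c_C
  have h1 := hS.c_nonneg
  have hK : (0 : ℝ) ≤ (k : ℝ) + 1 := by positivity
  have h2 : 0 ≤ ((k : ℝ) + 1) * c := by positivity
  nlinarith

theorem num2 (hY : YOK Yt om C₀ ε r s₁) (hS : ScOK (k := k) om C₀ ε r s₁ ρ₀ c τ M l) :
    C₀ * (((k : ℝ) + 1) ^ 2 * (C₀ + 1) * s₁) ≤ 1 / 1000 := by
  have h := hS.s_C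
  have hC := hY.C₀_nonneg
  have hs := hY.s₁_pos
  have h2 : 0 ≤ ((k : ℝ) + 1) ^ 2 * (C₀ + 1) * s₁ := by positivity
  have e : 1000 * ((k : ℝ) + 1) ^ 2 * (C₀ + 1) ^ 2 * s₁ =
      1000 * (C₀ * (((k : ℝ) + 1) ^ 2 * (C₀ + 1) * s₁)) +
      1000 * (((k : ℝ) + 1) ^ 2 * (C₀ + 1) * s₁) := by ring
  rw [e] at h
  linarith

theorem lip (hE : BisE) (hP : BisP) {z : Z} {u₀ b b' : Fin k → ℝ}
    {V V' : ZMod (2 * M + 1) → Fin k → ℝ}
    (hY : YOK Yt om C₀ ε r s₁) (hS : ScOK (k := k) om C₀ ε r s₁ ρ₀ c τ M l)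
    (hb : ‖b‖ ≤ s₁) (hb' : ‖b'‖ ≤ s₁)
    (hz : ‖z‖ ≤ c * Real.sqrt τ) (hu : ‖u₀‖ ≤ c * τ)
    (hV : IsBis Yt s₁ ρ₀ M l z u₀ b 1 1 V) (hV' : IsBis Yt s₁ ρ₀ M l z u₀ b' 1 1 V') :
    ‖mv V - mv V' - τ • (b - b')‖ ≤ 1 / 2 * τ * ‖b - b'‖ := by
  have hs₁ := hY.s₁_pos
  have hC := hY.C₀_nonneg
  have hε := hY.ε_pos
  have hτ := τ_pos hS
  have hh : 0 < Real.sqrt τ := Real.sqrt_pos.2 hτ
  have hc := hS.c_nonneg
  have hρ := hS.ρ₀_nonneg
  have n1 := num1 hY hS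
  have n2 := num2 hY hS
  have hsz := (size hE hP hY hS zero_le_one le_rfl zero_le_one le_rfl hb hz hu hV).2.1
  have hsz' := (size hE hP hY hS zero_le_one le_rfl zero_le_one le_rfl hb' hz hu hV').2.1
  have homρ := hS.om_ρ₀
  have hom0 : 0 ≤ om ρ₀ := hY.om_nonneg ρ₀ hρ (by linarith [hS.ρ₀_le])
  set h := Real.sqrt τ with hh_def
  have hh2 : h ^ 2 = τ := Real.sq_sqrt hτ.le
  have hzr : ‖z‖ ≤ r := hz.trans hS.c_sqrt
  have hq := Kε_le hY
  have hq0 := Kε_nonneg hY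
  set K : ℝ := (k : ℝ) + 1 with hK
  have hK1 : 1 ≤ K := by rw [hK]; have : (0 : ℝ) ≤ k := Nat.cast_nonneg k; linarith
  -- brackets
  set E : ZMod (2 * M + 1) → Fin k → ℝ := fun j =>
    Yt z (u₀ - cjv V j) (1 * s₁ * tri M (4 * l) j + ρ₀) -
      Yt z (u₀ - cjv V' j) (1 * s₁ * tri M (4 * l) j + ρ₀) with hEdef
  have hVV : ∀ j, (V - V') j = E j + tri M l j • (b - b') := by
    intro j
    rw [Pi.sub_apply, hV j, hV' j, hEdef, smul_sub, one_mul (tri M l j)]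
    simp only
    abel
  have hdiff : ∀ j, u₀ - cjv V j - (u₀ - cjv V' j) = -(cjv (V - V') j) := by
    intro j
    rw [hE.cjv_sub, Pi.sub_apply]
    abel
  have k1 : ∀ j, ‖E j‖ ≤ ε * eu (cjv (V - V') j) := by
    intro j
    obtain ⟨m1, m2, -⟩ := lam_mem (M := M) (l := l) hP hs₁ hρ hS.ρ₀_le zero_le_one le_rfl j
    refine (hY.y1 z _ _ _ hzr m1 m2).trans ?_
    rw [hdiff j, norm_neg]
    gcongr
    exact norm_le_eu _
  have k2 : ∀ j, ¬ (0 < tri M (4 * l) j) → ‖E j‖ ≤ ((2 * C₀ * ‖z‖ + om ρ₀) +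
      C₀ * (eu (u₀ - cjv V j) + eu (u₀ - cjv V' j))) * eu (cjv (V - V') j) := by
    intro j hj
    obtain ⟨m1, m2, -⟩ := lam_mem (M := M) (l := l) hP hs₁ hρ hS.ρ₀_le zero_le_one le_rfl j
    have t0 : tri M (4 * l) j = 0 := le_antisymm (not_lt.1 hj) (hP.tri_nonneg _ _ _)
    simp only [hEdef]
    rw [t0, mul_zero, zero_add] at m1 m2 ⊢
    refine (hY.y1' z _ _ _ hzr m1 m2).trans ?_
    rw [hdiff j, norm_neg]
    have e1 := norm_le_eu (u₀ - cjv V j)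
    have e2 := norm_le_eu (u₀ - cjv V' j)
    have e3 := norm_le_eu (cjv (V - V') j)
    have e4 : C₀ * (2 * ‖z‖ + ‖u₀ - cjv V j‖ + ‖u₀ - cjv V' j‖) + om ρ₀ ≤
        (2 * C₀ * ‖z‖ + om ρ₀) + C₀ * (eu (u₀ - cjv V j) + eu (u₀ - cjv V' j)) := by
      nlinarith
    exact mul_le_mul e4 e3 (norm_nonneg _) (by
      have := eu_nonneg (u₀ - cjv V j)
      have := eu_nonneg (u₀ - cjv V' j)
      positivity)
  -- `l2 (V - V')`
  have k3 : l2 (V - V') ≤ 100 / 99 * (K * ‖b - b'‖ * h) := by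
    have e1 : ∀ j, eu ((V - V') j) ≤ K * ε * eu (cjv (V - V') j) + K * ‖b - b'‖ * tri M l j := by
      intro j
      rw [hVV j]
      refine (eu_add_le _ _).trans ?_
      have a1 := eu_le_norm (E j)
      rw [← hK] at a1
      have a2 := mul_le_mul_of_nonneg_left (k1 j) (by linarith : 0 ≤ K)
      have a3 : eu (tri M l j • (b - b')) ≤ K * ‖b - b'‖ * tri M l j := by
        rw [eu_smul, abs_of_nonneg (hP.tri_nonneg _ _ _), mul_comm]
        have := eu_le_norm (b - b')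
        rw [← hK] at this
        exact mul_le_mul_of_nonneg_right this (hP.tri_nonneg _ _ _)
      linarith
    have e2 := absorb hE hq0 hq (fun j => mul_nonneg (mul_nonneg (by linarith) (norm_nonneg _))
      (hP.tri_nonneg M l j)) e1
    rw [l2s_const_mul_nonneg (by positivity)] at e2
    refine e2.trans ?_
    gcongr
    exact l2_chi hP hS
  have k4 : l2 (cjv (V - V')) ≤ 100 / 99 * (K * ‖b - b'‖ * h) := (hE.cjv_le _).trans k3
  have k5 : mv V - mv V' - τ • (b - b') = mv E := by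
    have e1 : V - V' = E + (fun j => tri M l j • (b - b')) := funext fun j => by
      rw [hVV j]; rfl
    rw [← mv_sub, e1, mv_add, mv_smul, mean_chi hP hS]
    abel
  rw [k5]
  -- mean of `‖E‖`
  have k6 : (∑ j, ‖E j‖) / (2 * M + 1 : ℝ) ≤
      (3 * ε * h + (2 * C₀ * ‖z‖ + om ρ₀) + C₀ * (l2 (fun j => u₀ - cjv V j) +
        l2 (fun j => u₀ - cjv V' j))) * l2 (cjv (V - V')) := by
    set T : ZMod (2 * M + 1) → ℝ := fun j => eu (cjv (V - V') j) with hTdef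
    have hT0 : ∀ j, 0 ≤ T j := fun j => eu_nonneg _
    have e1 : ∀ j, ‖E j‖ ≤ ε * (if 0 < tri M (4 * l) j then T j else 0) +
        ((2 * C₀ * ‖z‖ + om ρ₀) * T j + (C₀ * (eu (u₀ - cjv V j) * T j) +
          C₀ * (eu (u₀ - cjv V' j) * T j))) := by
      intro j
      have p1 := hT0 j
      have p2 := eu_nonneg (u₀ - cjv V j)
      have p3 := eu_nonneg (u₀ - cjv V' j)
      by_cases hj : 0 < tri M (4 * l) j
      · rw [if_pos hj]
        have : 0 ≤ (2 * C₀ * ‖z‖ + om ρ₀) * T j + (C₀ * (eu (u₀ - cjv V j) * T j) +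
          C₀ * (eu (u₀ - cjv V' j) * T j)) := by positivity
        have := k1 j
        linarith
      · rw [if_neg hj, mul_zero, zero_add]
        refine (k2 j hj).trans (le_of_eq ?_)
        simp only [hTdef]
        ring
    refine (mean_mono e1).trans ?_
    rw [mean_add, mean_add, mean_add, mean_mul, mean_mul, mean_mul, mean_mul]
    have a1 := supp_mean hP hS T hT0
    have a2 := mean_le T
    have a3 := mean_mul_le (fun j => eu (u₀ - cjv V j)) T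
    have a4 := mean_mul_le (fun j => eu (u₀ - cjv V' j)) T
    have a5 : l2 (cjv (V - V')) = l2s T := l2_eq _
    have a6 : l2 (fun j => u₀ - cjv V j) = l2s (fun j => eu (u₀ - cjv V j)) := l2_eq _
    have a7 : l2 (fun j => u₀ - cjv V' j) = l2s (fun j => eu (u₀ - cjv V' j)) := l2_eq _
    rw [a5, a6, a7]
    have b1 := mul_le_mul_of_nonneg_left a1 hε.le
    have b2 := mul_le_mul_of_nonneg_left a2 (by positivity : 0 ≤ 2 * C₀ * ‖z‖ + om ρ₀)
    have b3 := mul_le_mul_of_nonneg_left a3 hC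
    have b4 := mul_le_mul_of_nonneg_left a4 hC
    rw [← hh_def] at b1
    linarith
  refine (norm_mv_le E).trans (k6.trans ?_)
  have hX : 0 ≤ ‖b - b'‖ := norm_nonneg _
  set F : ℝ := 3 * ε * h + (2 * C₀ * ‖z‖ + om ρ₀) + C₀ * (l2 (fun j => u₀ - cjv V j) +
        l2 (fun j => u₀ - cjv V' j)) with hF
  have hF0 : 0 ≤ F := by
    have := l2_nonneg (fun j => u₀ - cjv V j)
    have := l2_nonneg (fun j => u₀ - cjv V' j)
    positivity
  have q1 : K * F ≤ 11 / 100 * h := by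
    have e1 : K * (3 * ε * h) ≤ 3 / 100 * h := by
      have := mul_le_mul_of_nonneg_right hq hh.le
      linarith
    have e2 : K * (2 * C₀ * ‖z‖) ≤ 2 / 100 * h := by
      have a1 : K * (2 * C₀ * ‖z‖) ≤ K * (2 * C₀ * (c * h)) := by gcongr
      have a2 := mul_le_mul_of_nonneg_right n1 hh.le
      linarith
    have e3 : K * om ρ₀ ≤ 1 / 100 * h := by linarith
    have e4 : K * (C₀ * (l2 (fun j => u₀ - cjv V j) + l2 (fun j => u₀ - cjv V' j))) ≤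
        42 / 1000 * h := by
      have a1 : K * (C₀ * (l2 (fun j => u₀ - cjv V j) + l2 (fun j => u₀ - cjv V' j))) ≤
          K * (C₀ * (42 * K * (C₀ + 1) * s₁ * h)) := by
        gcongr
        linarith
      have a2 := mul_le_mul_of_nonneg_right n2 hh.le
      nlinarith
    rw [hF]
    linarith
  calc F * l2 (cjv (V - V')) ≤ F * (100 / 99 * (K * ‖b - b'‖ * h)) := by gcongr
    _ = (K * F) * (100 / 99 * (‖b - b'‖ * h)) := by ring
    _ ≤ (11 / 100 * h) * (100 / 99 * (‖b - b'‖ * h)) := by gcongr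
    _ = 11 / 99 * (h ^ 2 * ‖b - b'‖) := by ring
    _ ≤ 1 / 2 * τ * ‖b - b'‖ := by
        rw [hh2]
        have : 0 ≤ τ * ‖b - b'‖ := by positivity
        linarith

theorem dep (hE : BisE) (hP : BisP) {z : Z} {u₀ : Fin k → ℝ}
    {V V' : ZMod (2 * M + 1) → Fin k → ℝ}
    (hY : YOK Yt om C₀ ε r s₁) (hS : ScOK (k := k) om C₀ ε r s₁ ρ₀ c τ M l)
    (hz : ‖z‖ ≤ c * Real.sqrt τ) (hu : ‖u₀‖ ≤ c * τ)
    (hV : IsBis Yt s₁ ρ₀ M l z u₀ 0 1 1 V) (hV' : IsBis Yt s₁ ρ₀ M l 0 0 0 1 1 V') :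
    ‖mv V - mv V'‖ ≤ 4 * ((k : ℝ) + 1) * c * τ := by
  have hs₁ := hY.s₁_pos
  have hC := hY.C₀_nonneg
  have hε := hY.ε_pos
  have hτ := τ_pos hS
  have hh : 0 < Real.sqrt τ := Real.sqrt_pos.2 hτ
  have hc := hS.c_nonneg
  have hρ := hS.ρ₀_nonneg
  have n1 := num1 hY hS
  have n2 := num2 hY hS
  have hz0 : ‖(0 : Z)‖ ≤ c * Real.sqrt τ := by rw [norm_zero]; positivity
  have hu0 : ‖(0 : Fin k → ℝ)‖ ≤ c * τ := by rw [norm_zero]; positivity
  have hb0 : ‖(0 : Fin k → ℝ)‖ ≤ s₁ := by rw [norm_zero]; exact hs₁.le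
  have hsz' := (size hE hP hY hS zero_le_one le_rfl zero_le_one le_rfl hb0 hz0 hu0 hV').2.1
  have homρ := hS.om_ρ₀
  have hom0 : 0 ≤ om ρ₀ := hY.om_nonneg ρ₀ hρ (by linarith [hS.ρ₀_le])
  set h := Real.sqrt τ with hh_def
  have hh2 : h ^ 2 = τ := Real.sq_sqrt hτ.le
  have hzr : ‖z‖ ≤ r := hz.trans hS.c_sqrt
  have hq := Kε_le hY
  have hq0 := Kε_nonneg hY
  set K : ℝ := (k : ℝ) + 1 with hK
  have hK1 : 1 ≤ K := by rw [hK]; have : (0 : ℝ) ≤ k := Nat.cast_nonneg k; linarith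
  have hu' : eu u₀ ≤ K * (c * τ) := (eu_le_norm u₀).trans (by gcongr)
  set u' : ZMod (2 * M + 1) → Fin k → ℝ := fun j => 0 - cjv V' j with hu'def
  set g : ZMod (2 * M + 1) → ℝ := fun j =>
    (K * ε * (K * (c * τ)) + K * ((C₀ * ‖z‖ + om ρ₀) * ‖z‖)) +
      K * (2 * C₀ * ‖z‖) * eu (u' j) +
      K * ε * ‖z‖ * (if 0 < tri M (4 * l) j then 1 else 0) with hg
  have hg0 : ∀ j, 0 ≤ g j := by
    intro j
    have p1 := eu_nonneg (u' j)
    have p2 : (0 : ℝ) ≤ if 0 < tri M (4 * l) j then 1 else 0 := by split_ifs <;> norm_num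
    simp only [hg]
    positivity
  have k1 : ∀ j, eu ((V - V') j) ≤ K * ε * eu (cjv (V - V') j) + g j := by
    intro j
    obtain ⟨m1, m2, -⟩ := lam_mem (M := M) (l := l) hP hs₁ hρ hS.ρ₀_le zero_le_one le_rfl j
    set s : ℝ := 1 * s₁ * tri M (4 * l) j + ρ₀ with hs
    have e0 : (V - V') j = (Yt z (u₀ - cjv V j) s - Yt z (u' j) s) +
        (Yt z (u' j) s - Yt 0 (u' j) s) := by
      rw [Pi.sub_apply, hV j, hV' j]
      simp only [smul_zero, add_zero, ← hs, hu'def]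
      abel
    rw [e0]
    refine (eu_add_le _ _).trans ?_
    have a1 := eu_y1 hY (u := u₀ - cjv V j) (u' := u' j) hzr m1 m2
    rw [← hK] at a1
    have a2 : u₀ - cjv V j - u' j = u₀ - cjv (V - V') j := by
      rw [hE.cjv_sub, Pi.sub_apply]
      simp only [hu'def]
      abel
    rw [a2] at a1
    have a3 : eu (u₀ - cjv (V - V') j) ≤ K * (c * τ) + eu (cjv (V - V') j) :=
      (eu_sub_le _ _).trans (by linarith)
    have a4 := mul_le_mul_of_nonneg_left a3 hq0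
    have a5 := eu_le_norm (Yt z (u' j) s - Yt 0 (u' j) s)
    rw [← hK] at a5
    have a6 := hY.y3 z (u' j) s hzr m1 m2
    have a7 : om s ≤ om ρ₀ + ε * (if 0 < tri M (4 * l) j then 1 else 0) := by
      by_cases hj : 0 < tri M (4 * l) j
      · rw [if_pos hj, mul_one]
        have := hY.om_le s m1 m2
        linarith
      · rw [if_neg hj, mul_zero, add_zero]
        have t0 : tri M (4 * l) j = 0 := le_antisymm (not_lt.1 hj) (hP.tri_nonneg _ _ _)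
        rw [hs, t0, mul_zero, zero_add]
    have a8 : ‖Yt z (u' j) s - Yt 0 (u' j) s‖ ≤
        (C₀ * (‖z‖ + 2 * eu (u' j)) + (om ρ₀ + ε * (if 0 < tri M (4 * l) j then 1 else 0))) *
          ‖z‖ := by
      refine a6.trans ?_
      gcongr
      exact norm_le_eu _
    have a9 := mul_le_mul_of_nonneg_left a8 (by linarith : 0 ≤ K)
    simp only [hg]
    linarith
  have k2 := absorb hE hq0 hq hg0 k1
  have k3 : l2s g ≤ (K * ε * (K * (c * τ)) + K * ((C₀ * ‖z‖ + om ρ₀) * ‖z‖)) +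
      K * (2 * C₀ * ‖z‖) * l2 u' + K * ε * ‖z‖ * (3 * h) := by
    refine (l2s_add3 _ _ _).trans ?_
    rw [l2s_const, l2s_const_mul_nonneg (by positivity), l2s_const_mul_nonneg (by positivity),
      abs_of_nonneg (by positivity), ← l2_eq]
    gcongr
    exact supp_l2 hP hS
  -- numerics; unit `X = K c τ`
  have hX : 0 ≤ K * (c * τ) := by positivity
  have q1 : K * ε * (K * (c * τ)) ≤ 1 / 100 * (K * (c * τ)) := by gcongr
  have q2 : K * (C₀ * ‖z‖ * ‖z‖) ≤ 1 / 100 * (K * (c * τ)) := by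
    have a1 : C₀ * ‖z‖ * ‖z‖ ≤ C₀ * (c * h) * (c * h) := by gcongr
    have a2 : C₀ * (c * h) * (c * h) = (C₀ * c) * (c * τ) := by rw [← hh2]; ring
    have a3 : C₀ * c ≤ 1 / 100 := by
      have : 0 ≤ C₀ * c := by positivity
      nlinarith
    have a4 : C₀ * ‖z‖ * ‖z‖ ≤ 1 / 100 * (c * τ) := by
      rw [a2] at a1
      refine a1.trans ?_
      gcongr
    nlinarith
  have q3 : K * (om ρ₀ * ‖z‖) ≤ 1 / 100 * (K * (c * τ)) := by
    have a1 : om ρ₀ ≤ 1 / 100 * h := by nlinarith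
    have a2 : om ρ₀ * ‖z‖ ≤ (1 / 100 * h) * (c * h) := by gcongr
    have a3 : (1 / 100 * h) * (c * h) = 1 / 100 * (c * τ) := by rw [← hh2]; ring
    rw [a3] at a2
    nlinarith
  have q4 : K * (2 * C₀ * ‖z‖) * l2 u' ≤ 42 / 1000 * (K * (c * τ)) := by
    calc K * (2 * C₀ * ‖z‖) * l2 u' ≤
        K * (2 * C₀ * (c * h)) * (21 * K * (C₀ + 1) * s₁ * h) := by
          have := l2_nonneg u'
          gcongr
      _ = 42 * (C₀ * (K * (C₀ + 1) * s₁)) * (K * (c * (h ^ 2))) := by ring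
      _ ≤ 42 * (C₀ * (K ^ 2 * (C₀ + 1) * s₁)) * (K * (c * (h ^ 2))) := by
          gcongr
          nlinarith
      _ ≤ 42 * (1 / 1000) * (K * (c * (h ^ 2))) := by gcongr
      _ = 42 / 1000 * (K * (c * τ)) := by rw [hh2]; ring
  have q5 : K * ε * ‖z‖ * (3 * h) ≤ 3 / 100 * (K * (c * τ)) := by
    calc K * ε * ‖z‖ * (3 * h) ≤ (1 / 100) * (c * h) * (3 * h) := by gcongr
      _ = 3 / 100 * (c * h ^ 2) := by ring
      _ ≤ 3 / 100 * (K * (c * τ)) := by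
          rw [hh2]
          have : 0 ≤ c * τ := by positivity
          nlinarith
  have k4 : ‖mv V - mv V'‖ ≤ l2 (V - V') := by
    rw [← mv_sub]
    refine (norm_mv_le _).trans ((mean_mono fun j => norm_le_eu _).trans ?_)
    rw [l2_eq]
    exact mean_le _
  have k5 : K * ((C₀ * ‖z‖ + om ρ₀) * ‖z‖) = K * (C₀ * ‖z‖ * ‖z‖) + K * (om ρ₀ * ‖z‖) := by ring
  rw [k5] at k3
  have k6 : 4 * K * c * τ = 4 * (K * (c * τ)) := by ring
  rw [k6]
  linarith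

theorem cen (hE : BisE) (hP : BisP) {V' : ZMod (2 * M + 1) → Fin k → ℝ}
    (hY : YOK Yt om C₀ ε r s₁) (hS : ScOK (k := k) om C₀ ε r s₁ ρ₀ c τ M l)
    (hV' : IsBis Yt s₁ ρ₀ M l 0 0 0 1 1 V') :
    ‖mv V'‖ ≤ 1000 * ((k : ℝ) + 1) ^ 2 * (C₀ + 1) ^ 3 * τ := by
  have hs₁ := hY.s₁_pos
  have hC := hY.C₀_nonneg
  have hε := hY.ε_pos
  have hτ := τ_pos hS
  have hh : 0 < Real.sqrt τ := Real.sqrt_pos.2 hτ
  have hc := hS.c_nonneg
  have hρ := hS.ρ₀_nonneg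
  have n2 := num2 hY hS
  have hz0 : ‖(0 : Z)‖ ≤ c * Real.sqrt τ := by rw [norm_zero]; positivity
  have hu0 : ‖(0 : Fin k → ℝ)‖ ≤ c * τ := by rw [norm_zero]; positivity
  have hb0 : ‖(0 : Fin k → ℝ)‖ ≤ s₁ := by rw [norm_zero]; exact hs₁.le
  have hsz' := (size hE hP hY hS zero_le_one le_rfl zero_le_one le_rfl hb0 hz0 hu0 hV').2.1
  set h := Real.sqrt τ with hh_def
  have hh2 : h ^ 2 = τ := Real.sq_sqrt hτ.le
  set K : ℝ := (k : ℝ) + 1 with hK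
  have hK1 : 1 ≤ K := by rw [hK]; have : (0 : ℝ) ≤ k := Nat.cast_nonneg k; linarith
  have k1 : ∀ j, ‖V' j‖ ≤ C₀ * (eu (0 - cjv V' j) * eu (0 - cjv V' j)) +
      (C₀ * s₁ * tri M (4 * l) j + C₀ * ρ₀) := by
    intro j
    obtain ⟨m1, m2, -⟩ := lam_mem (M := M) (l := l) hP hs₁ hρ hS.ρ₀_le zero_le_one le_rfl j
    have e := hV' j
    rw [smul_zero, add_zero] at e
    have e1 := hY.y4' (0 - cjv V' j) _ m1 m2
    rw [← e] at e1
    refine e1.trans ?_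
    have e2 := norm_le_eu (0 - cjv V' j)
    have e3 : ‖0 - cjv V' j‖ ^ 2 ≤ eu (0 - cjv V' j) * eu (0 - cjv V' j) := by
      rw [pow_two]
      exact mul_le_mul e2 e2 (norm_nonneg _) (eu_nonneg _)
    have e4 := mul_le_mul_of_nonneg_left e3 hC
    linarith
  refine (norm_mv_le V').trans ((mean_mono k1).trans ?_)
  rw [mean_add, mean_add, mean_mul, mean_mul, mean_const, mean_bet hP hS]
  have a1 := mean_mul_le (fun j => eu (0 - cjv V' j)) (fun j => eu (0 - cjv V' j))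
  have a2 : l2 (fun j => 0 - cjv V' j) = l2s (fun j => eu (0 - cjv V' j)) := l2_eq _
  rw [← a2] at a1
  set L := l2 (fun j => 0 - cjv V' j) with hL
  have hL0 : 0 ≤ L := l2_nonneg _
  have a3 : L * L ≤ (21 * K * (C₀ + 1) * s₁ * h) * (21 * K * (C₀ + 1) * s₁ * h) :=
    mul_le_mul hsz' hsz' hL0 (by positivity)
  have hs1 : s₁ ≤ 1 := by
    have := hS.s_C
    have hK2 : 1 ≤ K ^ 2 := one_le_pow₀ hK1
    have hD2 : 1 ≤ (C₀ + 1) ^ 2 := one_le_pow₀ (by linarith)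
    have : 1 ≤ K ^ 2 * (C₀ + 1) ^ 2 := by nlinarith
    nlinarith
  have a4 : C₀ * ((21 * K * (C₀ + 1) * s₁ * h) * (21 * K * (C₀ + 1) * s₁ * h)) ≤
      441 * (K ^ 2 * (C₀ + 1) ^ 3 * τ) := by
    have e : C₀ * ((21 * K * (C₀ + 1) * s₁ * h) * (21 * K * (C₀ + 1) * s₁ * h)) =
        441 * (K ^ 2 * ((C₀ + 1) ^ 2 * C₀) * (h ^ 2)) * s₁ ^ 2 := by ring
    rw [e, hh2]
    have e1 : s₁ ^ 2 ≤ 1 := pow_le_one₀ hs₁.le hs1
    have e2 : (C₀ + 1) ^ 2 * C₀ ≤ (C₀ + 1) ^ 3 := by nlinarith [sq_nonneg (C₀ + 1)]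
    calc 441 * (K ^ 2 * ((C₀ + 1) ^ 2 * C₀) * τ) * s₁ ^ 2
        ≤ 441 * (K ^ 2 * ((C₀ + 1) ^ 3) * τ) * 1 := by gcongr
      _ = _ := by ring
  have a5 : C₀ * s₁ * (4 * τ) ≤ 4 * (K ^ 2 * (C₀ + 1) ^ 3 * τ) := by
    have hK2 : 1 ≤ K ^ 2 := one_le_pow₀ hK1
    have e1 : C₀ * s₁ ≤ K ^ 2 * (C₀ + 1) ^ 3 := by
      have : C₀ ≤ (C₀ + 1) ^ 3 := by nlinarith [sq_nonneg C₀, mul_nonneg hC hC, mul_nonneg (mul_nonneg hC hC) hC]
      have : C₀ * s₁ ≤ C₀ := by nlinarith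
      nlinarith [pow_nonneg (by linarith : 0 ≤ C₀ + 1) 3]
    nlinarith
  have a6 : C₀ * ρ₀ ≤ K ^ 2 * (C₀ + 1) ^ 3 * τ := by
    have hK2 : 1 ≤ K ^ 2 := one_le_pow₀ hK1
    have e1 : C₀ ≤ K ^ 2 * (C₀ + 1) ^ 3 := by
      have : C₀ ≤ (C₀ + 1) ^ 3 := by nlinarith [sq_nonneg C₀, mul_nonneg hC hC, mul_nonneg (mul_nonneg hC hC) hC]
      nlinarith [pow_nonneg (by linarith : 0 ≤ C₀ + 1) 3]
    have e2 := hS.ρ₀_τ
    exact mul_le_mul e1 e2 hρ (by positivity)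
  have a7 := mul_le_mul_of_nonneg_left (a1.trans a3) hC
  have a8 : 0 ≤ K ^ 2 * (C₀ + 1) ^ 3 * τ := by positivity
  have e9 : 1000 * K ^ 2 * (C₀ + 1) ^ 3 * τ = 1000 * (K ^ 2 * (C₀ + 1) ^ 3 * τ) := by ring
  rw [e9]
  linarith

end

theorem bisS (_hT : BisT) (hE : BisE) (hP : BisP) : BisS where
  exi := fun _ _ _ _ _ _ _ _ _ z u₀ b lam mu hY hz h0 h1 hl0 hl1 =>
    exi hE hP z u₀ b lam mu hY hz h0 h1 hl0 hl1
  size := fun _ _ _ _ _ _ _ _ _ _ _ _ _ _ _ _ _ hY hS hl0 hl1 hm0 hm1 hb hz hu hV =>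
    size hE hP hY hS hl0 hl1 hm0 hm1 hb hz hu hV
  lip := fun _ _ _ _ _ _ _ _ _ _ _ _ _ _ _ _ _ hY hS hb hb' hz hu hV hV' =>
    lip hE hP hY hS hb hb' hz hu hV hV'
  dep := fun _ _ _ _ _ _ _ _ _ _ _ _ _ _ _ hY hS hz hu hV hV' =>
    dep hE hP hY hS hz hu hV hV'
  cen := fun _ _ _ _ _ _ _ _ _ _ _ _ hY hS hV' => cen hE hP hY hS hV'

end Crest.Agent.R264.BisS
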