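import Mathlib

/-! Row 264, Part B: conjugation operator on the finite cycle `ZMod (2*M+1)` and polynomial discs. -/

set_option autoImplicit false

namespace Crest.Agent.R264.BisT

open Finset Complex

noncomputable section

variable {M : ℕ}

/-- the node `ω^j`, `ω = exp(2πi/N)`, `N = 2*M+1`. -/
def nd (j : ZMod (2 * M + 1)) : ℂ := ZMod.stdAddChar j

lemma nd_zero : nd (0 : ZMod (2 * M + 1)) = 1 := by
  simp [nd]

lemma nd_add (i j : ZMod (2 * M + 1)) : nd (i + j) = nd i * nd j := by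
  simp [nd, AddChar.map_add_eq_mul]

lemma nd_neg_mul (i : ZMod (2 * M + 1)) : nd (-i) * nd i = 1 := by
  rw [← nd_add]; simp [nd_zero]

lemma nd_norm (j : ZMod (2 * M + 1)) : ‖nd j‖ = 1 := by
  rw [nd, ZMod.stdAddChar_apply]
  exact Circle.norm_coe _

lemma nd_ne (j : ZMod (2 * M + 1)) : nd j ≠ 0 := by
  intro h
  have := nd_norm j
  rw [h] at this
  simp at this

lemma nd_conj (j : ZMod (2 * M + 1)) : (starRingEnd ℂ) (nd j) = nd (-j) := by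
  have h1 : (starRingEnd ℂ) (nd j) * nd j = 1 := by
    rw [mul_comm, Complex.mul_conj, Complex.normSq_eq_norm_sq, nd_norm]
    simp
  have h2 := nd_neg_mul j
  exact mul_right_cancel₀ (nd_ne j) (h1.trans h2.symm)

lemma nd_nat_mul (n : ℕ) (j : ZMod (2 * M + 1)) : nd ((n : ZMod (2 * M + 1)) * j) = nd j ^ n := by
  induction n with
  | zero => simp [nd_zero]
  | succ n ih =>
    rw [Nat.cast_succ, add_mul, nd_add, ih, one_mul, pow_succ]

lemma sum_nd_mul (t : ZMod (2 * M + 1)) :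
    ∑ j : ZMod (2 * M + 1), nd (t * j) = if t = 0 then ((2 * M + 1 : ℕ) : ℂ) else 0 := by
  split_ifs with h
  · simp [h, nd_zero, ZMod.card]
  · exact AddChar.sum_eq_zero_of_ne_one (ZMod.isPrimitive_stdAddChar (2 * M + 1) h)

lemma sum_zmod {β : Type*} [AddCommMonoid β] (G : ZMod (2 * M + 1) → β) :
    ∑ n : ZMod (2 * M + 1), G n = ∑ n ∈ range (2 * M + 1), G (n : ZMod (2 * M + 1)) := by
  refine Finset.sum_bij' (fun a _ => a.val) (fun n _ => (n : ZMod (2 * M + 1))) ?_ ?_ ?_ ?_ ?_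
  · intro a _
    exact mem_range.2 (ZMod.val_lt a)
  · intro n _; exact mem_univ _
  · intro a _; exact ZMod.natCast_zmod_val a
  · intro n hn; exact ZMod.val_cast_of_lt (mem_range.1 hn)
  · intro a _; rw [ZMod.natCast_zmod_val]

lemma sum_split {β : Type*} [AddCommMonoid β] (G : ZMod (2 * M + 1) → β) :
    ∑ n : ZMod (2 * M + 1), G n =
      G 0 + ∑ n ∈ range M, (G ((n + 1 : ℕ) : ZMod (2 * M + 1)) +
        G (-((n + 1 : ℕ) : ZMod (2 * M + 1)))) := by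
  rw [sum_zmod, Finset.sum_range_succ', add_comm]
  simp only [Nat.cast_zero]
  congr 1
  have hs : ∀ K : ℕ → β, ∑ k ∈ range (2 * M), K k = ∑ k ∈ range M, K k + ∑ k ∈ range M, K (M + k) := by
    intro K
    rw [two_mul, Finset.sum_range_add]
  rw [hs, Finset.sum_add_distrib]
  congr 1
  rw [← Finset.sum_range_reflect]
  refine Finset.sum_congr rfl fun n hn => ?_
  have hn' := mem_range.1 hn
  congr 1
  rw [eq_neg_iff_add_eq_zero, ← Nat.cast_add]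
  have : (M + (M - 1 - n) + 1) + (n + 1) = M + M + 1 := by omega
  rw [this, ← two_mul]
  exact ZMod.natCast_self (2 * M + 1)

/-- Fourier coefficient on the cycle. -/
def cf (f : ZMod (2 * M + 1) → ℝ) (n : ZMod (2 * M + 1)) : ℂ :=
  ((2 * M + 1 : ℕ) : ℂ)⁻¹ * ∑ j : ZMod (2 * M + 1), (f j : ℂ) * nd (-(n * j))

lemma N_ne : ((2 * M + 1 : ℕ) : ℂ) ≠ 0 := by
  exact_mod_cast Nat.succ_ne_zero (2 * M)

lemma N_pos : (0 : ℝ) < ((2 * M + 1 : ℕ) : ℝ) := by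
  exact_mod_cast Nat.succ_pos (2 * M)

lemma cf_conj (f : ZMod (2 * M + 1) → ℝ) (n : ZMod (2 * M + 1)) :
    (starRingEnd ℂ) (cf f n) = cf f (-n) := by
  simp only [cf, map_mul, map_sum, map_inv₀, Complex.conj_natCast, Complex.conj_ofReal, nd_conj,
    neg_neg, neg_mul]

lemma cf_inv (f : ZMod (2 * M + 1) → ℝ) (j : ZMod (2 * M + 1)) :
    ∑ n : ZMod (2 * M + 1), cf f n * nd (n * j) = (f j : ℂ) := by
  simp only [cf, Finset.mul_sum, Finset.sum_mul]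
  rw [Finset.sum_comm]
  have : ∀ i : ZMod (2 * M + 1), ∑ n : ZMod (2 * M + 1),
      ((2 * M + 1 : ℕ) : ℂ)⁻¹ * ((f i : ℂ) * nd (-(n * i))) * nd (n * j) =
      if i = j then (f j : ℂ) else 0 := by
    intro i
    have h1 : ∀ n : ZMod (2 * M + 1),
        ((2 * M + 1 : ℕ) : ℂ)⁻¹ * ((f i : ℂ) * nd (-(n * i))) * nd (n * j) =
        ((2 * M + 1 : ℕ) : ℂ)⁻¹ * (f i : ℂ) * nd ((j - i) * n) := by
      intro n
      have : (j - i) * n = -(n * i) + n * j := by ring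
      rw [this, nd_add]; ring
    simp only [h1]
    rw [← Finset.mul_sum, sum_nd_mul]
    split_ifs with h2 h3 h3
    · subst h3
      rw [mul_assoc, mul_comm (f i : ℂ), ← mul_assoc, inv_mul_cancel₀ N_ne, one_mul]
    · exact absurd (sub_eq_zero.1 h2).symm h3
    · exact absurd (by rw [h3]; exact sub_self j) h2
    · ring
  simp only [this]
  simp

/-- `g(ζ) = a_0 + 2 ∑_{n=1}^M a_n ζ^n`: the polynomial with real part `f` at the nodes. -/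
def g (f : ZMod (2 * M + 1) → ℝ) (ζ : ℂ) : ℂ :=
  cf f 0 + 2 * ∑ n ∈ range M, cf f ((n + 1 : ℕ) : ZMod (2 * M + 1)) * ζ ^ (n + 1)

/-- the mean of a function on the cycle -/
def mean (f : ZMod (2 * M + 1) → ℝ) : ℝ := ((2 * M + 1 : ℕ) : ℝ)⁻¹ * ∑ j, f j

/-- mean square -/
def ms (f : ZMod (2 * M + 1) → ℝ) : ℝ := ((2 * M + 1 : ℕ) : ℝ)⁻¹ * ∑ j, f j ^ 2

/-- conjugation operator on the cycle. -/
def T (f : ZMod (2 * M + 1) → ℝ) (j : ZMod (2 * M + 1)) : ℝ := (g f (nd j)).im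

lemma cf_zero (f : ZMod (2 * M + 1) → ℝ) : cf f 0 = (mean f : ℂ) := by
  simp only [cf, mean, zero_mul, neg_zero, nd_zero, mul_one]
  push_cast
  rfl

lemma g_zero (f : ZMod (2 * M + 1) → ℝ) : g f 0 = (mean f : ℂ) := by
  simp [g, cf_zero]

lemma g_re (f : ZMod (2 * M + 1) → ℝ) (j : ZMod (2 * M + 1)) : (g f (nd j)).re = f j := by
  have h := cf_inv f j
  rw [sum_split] at h
  have h2 : ∀ n : ℕ, cf f (n : ZMod (2 * M + 1)) * nd ((n : ZMod (2 * M + 1)) * j) +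
      cf f (-(n : ZMod (2 * M + 1))) * nd (-(n : ZMod (2 * M + 1)) * j) =
      ((2 * (cf f (n : ZMod (2 * M + 1)) * nd j ^ n).re : ℝ) : ℂ) := by
    intro n
    rw [← cf_conj, neg_mul, ← nd_conj, ← map_mul, Complex.add_conj, nd_nat_mul]
  simp only [h2, zero_mul, nd_zero, mul_one] at h
  have h3 := congrArg Complex.re h
  simp only [Complex.add_re, Complex.re_sum, Complex.ofReal_re] at h3
  rw [← h3]
  simp only [g, Complex.add_re]
  congr 1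
  rw [Finset.mul_sum, Complex.re_sum]
  refine Finset.sum_congr rfl fun n _ => ?_
  simp [Complex.mul_re]

lemma g_node (f : ZMod (2 * M + 1) → ℝ) (j : ZMod (2 * M + 1)) :
    g f (nd j) = (f j : ℂ) + (T f j : ℂ) * Complex.I := by
  apply Complex.ext <;> simp [g_re, T]

/-! ### linearity and shift -/

lemma cf_add (f f' : ZMod (2 * M + 1) → ℝ) (n : ZMod (2 * M + 1)) :
    cf (f + f') n = cf f n + cf f' n := by
  simp only [cf, Pi.add_apply, Complex.ofReal_add, add_mul, Finset.sum_add_distrib, mul_add]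

lemma cf_smul (c : ℝ) (f : ZMod (2 * M + 1) → ℝ) (n : ZMod (2 * M + 1)) :
    cf (c • f) n = c * cf f n := by
  simp only [cf, Pi.smul_apply, smul_eq_mul, Complex.ofReal_mul, Finset.mul_sum]
  refine Finset.sum_congr rfl fun j _ => by ring

lemma g_add (f f' : ZMod (2 * M + 1) → ℝ) (ζ : ℂ) : g (f + f') ζ = g f ζ + g f' ζ := by
  simp only [g, cf_add, add_mul, Finset.sum_add_distrib]
  ring

lemma g_smul (c : ℝ) (f : ZMod (2 * M + 1) → ℝ) (ζ : ℂ) : g (c • f) ζ = c * g f ζ := by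
  simp only [g, cf_smul, Finset.mul_sum, mul_add]
  congr 1
  refine Finset.sum_congr rfl fun j _ => by ring

lemma T_add (f f' : ZMod (2 * M + 1) → ℝ) : T (f + f') = T f + T f' := by
  funext j; simp [T, g_add]

lemma T_smul (c : ℝ) (f : ZMod (2 * M + 1) → ℝ) : T (c • f) = c • T f := by
  funext j; simp [T, g_smul, Complex.mul_im]

/-- `T` as a linear map -/
def TL : (ZMod (2 * M + 1) → ℝ) →ₗ[ℝ] (ZMod (2 * M + 1) → ℝ) where
  toFun := T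
  map_add' := T_add
  map_smul' := T_smul

@[simp] lemma TL_apply (f : ZMod (2 * M + 1) → ℝ) : TL f = T f := rfl

lemma T_sub (f f' : ZMod (2 * M + 1) → ℝ) : T (f - f') = T f - T f' :=
  TL.map_sub f f'

/-- the shift -/
def sh (f : ZMod (2 * M + 1) → ℝ) : ZMod (2 * M + 1) → ℝ := fun j => f (j + 1)

lemma cf_sh (f : ZMod (2 * M + 1) → ℝ) (n : ZMod (2 * M + 1)) :
    cf (sh f) n = nd n * cf f n := by
  have key : ∑ j : ZMod (2 * M + 1), (f (j + 1) : ℂ) * nd (-(n * j)) =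
      nd n * ∑ j : ZMod (2 * M + 1), (f j : ℂ) * nd (-(n * j)) := by
    rw [Finset.mul_sum]
    refine Fintype.sum_equiv (Equiv.addRight (1 : ZMod (2 * M + 1))) _ _ fun j => ?_
    have : -(n * j) = n + -(n * (j + 1)) := by ring
    simp only [Equiv.coe_addRight]
    rw [this, nd_add]
    ring
  simp only [cf, sh, key]
  ring

lemma g_sh (f : ZMod (2 * M + 1) → ℝ) (ζ : ℂ) :
    g (sh f) ζ = g f (nd (1 : ZMod (2 * M + 1)) * ζ) := by
  simp only [g, cf_sh, nd_zero, one_mul, mul_pow]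
  congr 1
  congr 1
  refine Finset.sum_congr rfl fun n _ => ?_
  have : nd ((n + 1 : ℕ) : ZMod (2 * M + 1)) = nd (1 : ZMod (2 * M + 1)) ^ (n + 1) := by
    rw [← nd_nat_mul, mul_one]
  rw [this]; ring

lemma T_sh (f : ZMod (2 * M + 1) → ℝ) : T (sh f) = sh (T f) := by
  funext j
  simp only [T, sh, g_sh]
  rw [← nd_add, add_comm]

/-! ### orthogonality -/

lemma sum_nd_pow (m : ℕ) (hm : m ≤ 2 * M) :
    ∑ j : ZMod (2 * M + 1), nd j ^ m = if m = 0 then ((2 * M + 1 : ℕ) : ℂ) else 0 := by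
  have h := sum_nd_mul (m : ZMod (2 * M + 1))
  simp only [nd_nat_mul] at h
  rw [h]
  have : ((m : ZMod (2 * M + 1)) = 0) ↔ m = 0 := by
    rw [ZMod.natCast_eq_zero_iff]
    constructor
    · intro h; exact Nat.eq_zero_of_dvd_of_lt h (by omega)
    · rintro rfl; exact dvd_zero _
  simp only [this]

lemma sum_nd_pow_conj (m n : ℕ) (hm : m ≤ M) (hn : n ≤ M) :
    ∑ j : ZMod (2 * M + 1), nd j ^ m * (starRingEnd ℂ) (nd j ^ n) =
      if m = n then ((2 * M + 1 : ℕ) : ℂ) else 0 := by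
  have h := sum_nd_mul ((m : ZMod (2 * M + 1)) - (n : ZMod (2 * M + 1)))
  have h1 : ∀ j : ZMod (2 * M + 1), nd (((m : ZMod (2 * M + 1)) - (n : ZMod (2 * M + 1))) * j) =
      nd j ^ m * (starRingEnd ℂ) (nd j ^ n) := by
    intro j
    rw [map_pow, nd_conj, ← nd_nat_mul, ← nd_nat_mul, ← nd_add]
    congr 1
    ring
  simp only [h1] at h
  rw [h]
  have : ((m : ZMod (2 * M + 1)) - (n : ZMod (2 * M + 1)) = 0) ↔ m = n := by
    rw [sub_eq_zero]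
    constructor
    · intro h
      have := congrArg ZMod.val h
      rwa [ZMod.val_cast_of_lt (by omega), ZMod.val_cast_of_lt (by omega)] at this
    · rintro rfl; rfl
  simp only [this]

/-- coefficients of `g` -/
def gc (f : ZMod (2 * M + 1) → ℝ) (n : ℕ) : ℂ :=
  if n = 0 then cf f 0 else 2 * cf f (n : ZMod (2 * M + 1))

lemma g_eq (f : ZMod (2 * M + 1) → ℝ) (ζ : ℂ) :
    g f ζ = ∑ n ∈ range (M + 1), gc f n * ζ ^ n := by
  rw [Finset.sum_range_succ', g, add_comm]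
  simp only [gc, Nat.succ_ne_zero, if_false, if_true, pow_zero, mul_one, Finset.mul_sum,
    add_comm]
  congr 1
  refine Finset.sum_congr rfl fun n _ => ?_
  ring

lemma sum_g_sq (f : ZMod (2 * M + 1) → ℝ) :
    ∑ j : ZMod (2 * M + 1), g f (nd j) ^ 2 = ((2 * M + 1 : ℕ) : ℂ) * cf f 0 ^ 2 := by
  have h1 : ∀ j : ZMod (2 * M + 1), g f (nd j) ^ 2 =
      ∑ n ∈ range (M + 1), ∑ m ∈ range (M + 1), gc f n * gc f m * nd j ^ (n + m) := by
    intro j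
    rw [g_eq, sq, Finset.sum_mul_sum]
    refine Finset.sum_congr rfl fun n _ => Finset.sum_congr rfl fun m _ => ?_
    rw [pow_add]; ring
  simp only [h1]
  rw [Finset.sum_comm]
  have h2 : ∀ n ∈ range (M + 1), ∑ j : ZMod (2 * M + 1), ∑ m ∈ range (M + 1),
      gc f n * gc f m * nd j ^ (n + m) =
      if n = 0 then ((2 * M + 1 : ℕ) : ℂ) * cf f 0 ^ 2 else 0 := by
    intro n hn
    rw [Finset.sum_comm]
    have h3 : ∀ m ∈ range (M + 1), ∑ j : ZMod (2 * M + 1), gc f n * gc f m * nd j ^ (n + m) =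
        if m = 0 then (if n = 0 then ((2 * M + 1 : ℕ) : ℂ) * cf f 0 ^ 2 else 0) else 0 := by
      intro m hm
      have := mem_range.1 hn
      have := mem_range.1 hm
      rw [← Finset.mul_sum, sum_nd_pow _ (by omega)]
      by_cases hm0 : m = 0
      · by_cases hn0 : n = 0
        · simp [hm0, hn0, gc]; ring
        · simp [hm0, hn0]
      · simp [hm0]
    rw [Finset.sum_congr rfl h3]
    simp
  rw [Finset.sum_congr rfl h2]
  simp

lemma sum_g_normSq (f : ZMod (2 * M + 1) → ℝ) :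
    ∑ j : ZMod (2 * M + 1), ‖g f (nd j)‖ ^ 2 =
      ((2 * M + 1 : ℕ) : ℝ) * ∑ n ∈ range (M + 1), ‖gc f n‖ ^ 2 := by
  have h1 : ∀ j : ZMod (2 * M + 1), ((‖g f (nd j)‖ ^ 2 : ℝ) : ℂ) =
      ∑ n ∈ range (M + 1), ∑ m ∈ range (M + 1), gc f n * (starRingEnd ℂ) (gc f m) *
        (nd j ^ n * (starRingEnd ℂ) (nd j ^ m)) := by
    intro j
    have : ((‖g f (nd j)‖ ^ 2 : ℝ) : ℂ) = g f (nd j) * (starRingEnd ℂ) (g f (nd j)) := by
      rw [Complex.mul_conj, Complex.normSq_eq_norm_sq]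
    rw [this, g_eq, map_sum, Finset.sum_mul_sum]
    refine Finset.sum_congr rfl fun n _ => Finset.sum_congr rfl fun m _ => ?_
    rw [map_mul]; ring
  have h2 : ∀ n ∈ range (M + 1), ∑ j : ZMod (2 * M + 1), ∑ m ∈ range (M + 1),
      gc f n * (starRingEnd ℂ) (gc f m) * (nd j ^ n * (starRingEnd ℂ) (nd j ^ m)) =
      ((2 * M + 1 : ℕ) : ℂ) * ((‖gc f n‖ ^ 2 : ℝ) : ℂ) := by
    intro n hn
    rw [Finset.sum_comm]
    have h3 : ∀ m ∈ range (M + 1), ∑ j : ZMod (2 * M + 1),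
        gc f n * (starRingEnd ℂ) (gc f m) * (nd j ^ n * (starRingEnd ℂ) (nd j ^ m)) =
        if n = m then ((2 * M + 1 : ℕ) : ℂ) * ((‖gc f n‖ ^ 2 : ℝ) : ℂ) else 0 := by
      intro m hm
      have := mem_range.1 hn
      have := mem_range.1 hm
      rw [← Finset.mul_sum, sum_nd_pow_conj _ _ (by omega) (by omega)]
      split_ifs with h
      · subst h
        rw [Complex.mul_conj, Complex.normSq_eq_norm_sq]; ring
      · ring
    rw [Finset.sum_congr rfl h3]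
    simp only [Finset.sum_ite_eq, hn, if_true]
  have h4 : ((∑ j : ZMod (2 * M + 1), ‖g f (nd j)‖ ^ 2 : ℝ) : ℂ) =
      ((((2 * M + 1 : ℕ) : ℝ) * ∑ n ∈ range (M + 1), ‖gc f n‖ ^ 2 : ℝ) : ℂ) := by
    rw [Complex.ofReal_sum, Finset.sum_congr rfl (fun j _ => h1 j), Finset.sum_comm,
      Finset.sum_congr rfl h2, ← Finset.mul_sum, Complex.ofReal_mul, Complex.ofReal_sum,
      Complex.ofReal_natCast]
  exact_mod_cast h4

lemma ms_T (f : ZMod (2 * M + 1) → ℝ) : ms (T f) = ms f - mean f ^ 2 := by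
  have h := congrArg Complex.re (sum_g_sq f)
  have h1 : ∀ j : ZMod (2 * M + 1), (g f (nd j) ^ 2).re = f j ^ 2 - T f j ^ 2 := by
    intro j
    rw [sq, Complex.mul_re, g_re, T]; ring
  rw [Complex.re_sum, Finset.sum_congr rfl (fun j _ => h1 j), Finset.sum_sub_distrib, cf_zero] at h
  have h2 : (((2 * M + 1 : ℕ) : ℂ) * (mean f : ℂ) ^ 2).re = ((2 * M + 1 : ℕ) : ℝ) * mean f ^ 2 := by
    rw [← Complex.ofReal_natCast, ← Complex.ofReal_pow, ← Complex.ofReal_mul, Complex.ofReal_re]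
  rw [h2] at h
  have hN : (((2 * M + 1 : ℕ) : ℝ))⁻¹ * ((2 * M + 1 : ℕ) : ℝ) = 1 := inv_mul_cancel₀ N_pos.ne'
  have h3 := congrArg (fun x => (((2 * M + 1 : ℕ) : ℝ))⁻¹ * x) h
  simp only [mul_sub, ← mul_assoc, hN, one_mul] at h3
  simp only [ms]
  linarith

lemma ms_nonneg (f : ZMod (2 * M + 1) → ℝ) : 0 ≤ ms f :=
  mul_nonneg (inv_nonneg.2 N_pos.le) (Finset.sum_nonneg fun _ _ => sq_nonneg _)

lemma ms_T_le (f : ZMod (2 * M + 1) → ℝ) : ms (T f) ≤ ms f := by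
  rw [ms_T]; linarith [sq_nonneg (mean f)]

lemma mean_sq_le (f : ZMod (2 * M + 1) → ℝ) : mean f ^ 2 ≤ ms f := by
  have := ms_nonneg (T f)
  rw [ms_T] at this; linarith

/-- Parseval. -/
lemma parseval (f : ZMod (2 * M + 1) → ℝ) :
    mean f ^ 2 + 2 * ∑ n ∈ range M, ‖cf f ((n + 1 : ℕ) : ZMod (2 * M + 1))‖ ^ 2 = ms f := by
  have h := sum_g_normSq f
  have h1 : ∀ j : ZMod (2 * M + 1), ‖g f (nd j)‖ ^ 2 = f j ^ 2 + T f j ^ 2 := by
    intro j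
    rw [← Complex.normSq_eq_norm_sq, Complex.normSq_apply, g_re, T]; ring
  rw [Finset.sum_congr rfl (fun j _ => h1 j), Finset.sum_add_distrib, Finset.sum_range_succ'] at h
  have hN : (((2 * M + 1 : ℕ) : ℝ))⁻¹ * ((2 * M + 1 : ℕ) : ℝ) = 1 := inv_mul_cancel₀ N_pos.ne'
  have h3 := congrArg (fun x => (((2 * M + 1 : ℕ) : ℝ))⁻¹ * x) h
  simp only [mul_add, ← mul_assoc, hN, one_mul] at h3
  have h4 : ms f + ms (T f) = ∑ n ∈ range M, ‖gc f (n + 1)‖ ^ 2 + ‖gc f 0‖ ^ 2 := h3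
  have h5 : ∀ n : ℕ, ‖gc f (n + 1)‖ ^ 2 = 4 * ‖cf f ((n + 1 : ℕ) : ZMod (2 * M + 1))‖ ^ 2 := by
    intro n
    simp only [gc, Nat.succ_ne_zero, if_false, norm_mul]
    norm_num
    ring
  have h6 : ‖gc f 0‖ ^ 2 = mean f ^ 2 := by
    simp [gc, cf_zero]
  rw [Finset.sum_congr rfl (fun n _ => h5 n), ← Finset.mul_sum, h6, ms_T] at h4
  linarith

/-! ### difference bound -/

lemma nd_nat (n : ℕ) : nd ((n : ℕ) : ZMod (2 * M + 1)) =
    Complex.exp (Complex.I * ((2 * Real.pi * n / ((2 * M + 1 : ℕ) : ℝ) : ℝ) : ℂ)) := by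
  rw [nd, ZMod.stdAddChar_apply, ZMod.toCircle_natCast]
  congr 1
  push_cast
  ring

lemma le_nd_sub_one (n : ℕ) (hn : n ≤ M) :
    4 * n / ((2 * M + 1 : ℕ) : ℝ) ≤ ‖nd ((n : ℕ) : ZMod (2 * M + 1)) - 1‖ := by
  rw [nd_nat, Complex.norm_exp_I_mul_ofReal_sub_one]
  have hN : (0 : ℝ) < ((2 * M + 1 : ℕ) : ℝ) := N_pos
  have hn' : (n : ℝ) ≤ M := by exact_mod_cast hn
  have hx : 2 * Real.pi * n / ((2 * M + 1 : ℕ) : ℝ) / 2 = Real.pi * n / ((2 * M + 1 : ℕ) : ℝ) := by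
    ring
  rw [hx]
  have h0 : 0 ≤ Real.pi * n / ((2 * M + 1 : ℕ) : ℝ) := by positivity
  have h1 : Real.pi * n / ((2 * M + 1 : ℕ) : ℝ) ≤ Real.pi / 2 := by
    rw [div_le_iff₀ hN]
    push_cast
    nlinarith [Real.pi_pos]
  have h2 := Real.mul_le_sin h0 h1
  rw [Real.norm_eq_abs]
  refine le_trans ?_ (le_abs_self _)
  have h3 : 2 / Real.pi * (Real.pi * n / ((2 * M + 1 : ℕ) : ℝ)) = 2 * n / ((2 * M + 1 : ℕ) : ℝ) := by
    field_simp
  rw [h3] at h2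
  have h4 : 4 * (n : ℝ) / ((2 * M + 1 : ℕ) : ℝ) = 2 * (2 * n / ((2 * M + 1 : ℕ) : ℝ)) := by ring
  rw [h4]
  linarith

/-- forward difference -/
def df (f : ZMod (2 * M + 1) → ℝ) : ZMod (2 * M + 1) → ℝ := fun j => f (j + 1) - f j

lemma cf_df (f : ZMod (2 * M + 1) → ℝ) (n : ZMod (2 * M + 1)) :
    cf (df f) n = (nd n - 1) * cf f n := by
  have h : sh f = df f + f := by funext j; simp [sh, df]
  have h2 := cf_sh f n
  rw [h, cf_add] at h2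
  linear_combination h2

lemma T_df (f : ZMod (2 * M + 1) → ℝ) : T (df f) = df (T f) := by
  have h : df f = sh f - f := by funext j; simp [sh, df]
  rw [h, T_sub, T_sh]
  funext j; simp [sh, df]

/-- Sobolev-type bound. -/
lemma sob (f : ZMod (2 * M + 1) → ℝ) :
    ∑ n ∈ range M, ((n : ℝ) + 1) ^ 2 * ‖cf f ((n + 1 : ℕ) : ZMod (2 * M + 1))‖ ^ 2 ≤
      ((2 * M + 1 : ℕ) : ℝ) ^ 2 * ms (df f) / 32 := by
  have hN : (0 : ℝ) < ((2 * M + 1 : ℕ) : ℝ) := N_pos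
  have h := parseval (df f)
  have h1 : ∀ n ∈ range M, 16 / ((2 * M + 1 : ℕ) : ℝ) ^ 2 *
      (((n : ℝ) + 1) ^ 2 * ‖cf f ((n + 1 : ℕ) : ZMod (2 * M + 1))‖ ^ 2) ≤
      ‖cf (df f) ((n + 1 : ℕ) : ZMod (2 * M + 1))‖ ^ 2 := by
    intro n hn
    rw [cf_df, norm_mul, mul_pow]
    have h2 := le_nd_sub_one (M := M) (n + 1) (by have := mem_range.1 hn; omega)
    have h3 : (4 * ((n + 1 : ℕ) : ℝ) / ((2 * M + 1 : ℕ) : ℝ)) ^ 2 ≤
        ‖nd (((n + 1 : ℕ) : ℕ) : ZMod (2 * M + 1)) - 1‖ ^ 2 :=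
      pow_le_pow_left₀ (by positivity) h2 2
    have h4 : 16 / ((2 * M + 1 : ℕ) : ℝ) ^ 2 *
      (((n : ℝ) + 1) ^ 2 * ‖cf f ((n + 1 : ℕ) : ZMod (2 * M + 1))‖ ^ 2) =
      (4 * ((n + 1 : ℕ) : ℝ) / ((2 * M + 1 : ℕ) : ℝ)) ^ 2 *
        ‖cf f ((n + 1 : ℕ) : ZMod (2 * M + 1))‖ ^ 2 := by
      rw [show ((n + 1 : ℕ) : ℝ) = (n : ℝ) + 1 by push_cast; ring]
      ring
    rw [h4]
    exact mul_le_mul_of_nonneg_right h3 (sq_nonneg _)
  have h5 := Finset.sum_le_sum h1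
  rw [← Finset.mul_sum] at h5
  have h6 := sq_nonneg (mean (df f))
  have h7 : 16 / ((2 * M + 1 : ℕ) : ℝ) ^ 2 *
      ∑ n ∈ range M, ((n : ℝ) + 1) ^ 2 * ‖cf f ((n + 1 : ℕ) : ZMod (2 * M + 1))‖ ^ 2 ≤
      ms (df f) / 2 := by linarith
  have h8 : 0 < ((2 * M + 1 : ℕ) : ℝ) ^ 2 := by positivity
  rw [div_mul_eq_mul_div, div_le_iff₀ h8] at h7
  linarith

/-! ### Hölder and Agmon bounds for the polynomial disc -/

lemma sum_min_le (K : ℕ) (δ : ℝ) (hδ : 0 < δ) (hδ2 : δ ≤ 2) :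
    ∑ n ∈ range K, (min 2 (((n : ℝ) + 1) * δ)) ^ 2 / ((n : ℝ) + 1) ^ 2 ≤ 8 * δ := by
  set s : ℝ := 2 / δ with hs
  have hs1 : 1 ≤ s := by rw [hs, le_div_iff₀ hδ]; linarith
  have hsd : δ = 2 / s := by rw [hs]; field_simp
  have key : ∀ n ∈ range K, (min 2 (((n : ℝ) + 1) * δ)) ^ 2 / ((n : ℝ) + 1) ^ 2 ≤
      16 / ((n : ℝ) + s) - 16 / (((n + 1 : ℕ) : ℝ) + s) := by
    intro n _
    have hn : (0 : ℝ) ≤ n := Nat.cast_nonneg n
    have hpos : (0 : ℝ) < (n : ℝ) + s := by linarith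
    have hpos2 : (0 : ℝ) < (n : ℝ) + 1 + s := by linarith
    have hn1 : (0 : ℝ) < (n : ℝ) + 1 := by linarith
    have e : 16 / ((n : ℝ) + s) - 16 / (((n + 1 : ℕ) : ℝ) + s) =
        16 / (((n : ℝ) + s) * ((n : ℝ) + 1 + s)) := by
      push_cast
      field_simp
      ring
    rw [e]
    rcases le_total ((n : ℝ) + 1) s with h | h
    · have h2 : min 2 (((n : ℝ) + 1) * δ) ≤ ((n : ℝ) + 1) * δ := min_le_right _ _
      have h0 : 0 ≤ min 2 (((n : ℝ) + 1) * δ) := le_min (by norm_num) (by positivity)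
      have h3 : (min 2 (((n : ℝ) + 1) * δ)) ^ 2 / ((n : ℝ) + 1) ^ 2 ≤ δ ^ 2 := by
        rw [div_le_iff₀ (by positivity)]
        calc (min 2 (((n : ℝ) + 1) * δ)) ^ 2 ≤ (((n : ℝ) + 1) * δ) ^ 2 := pow_le_pow_left₀ h0 h2 2
          _ = δ ^ 2 * ((n : ℝ) + 1) ^ 2 := by ring
      refine h3.trans ?_
      rw [hsd, div_pow, div_le_div_iff₀ (by positivity) (by positivity)]
      nlinarith
    · have h2 : min 2 (((n : ℝ) + 1) * δ) ≤ 2 := min_le_left _ _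
      have h0 : 0 ≤ min 2 (((n : ℝ) + 1) * δ) := le_min (by norm_num) (by positivity)
      have h3 : (min 2 (((n : ℝ) + 1) * δ)) ^ 2 / ((n : ℝ) + 1) ^ 2 ≤ 4 / ((n : ℝ) + 1) ^ 2 := by
        apply div_le_div_of_nonneg_right _ (by positivity)
        calc (min 2 (((n : ℝ) + 1) * δ)) ^ 2 ≤ 2 ^ 2 := pow_le_pow_left₀ h0 h2 2
          _ = 4 := by norm_num
      refine h3.trans ?_
      rw [div_le_div_iff₀ (by positivity) (by positivity)]
      nlinarith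
  refine (Finset.sum_le_sum key).trans ?_
  rw [Finset.sum_range_sub' (fun n : ℕ => 16 / ((n : ℝ) + s)) K]
  have : 0 ≤ 16 / ((K : ℝ) + s) := by positivity
  have e2 : 16 / (((0 : ℕ) : ℝ) + s) = 8 * δ := by
    rw [hsd]; push_cast; field_simp; ring
  rw [e2]
  linarith

lemma pow_sub_pow_le (n : ℕ) (ζ ζ' : ℂ) (h : ‖ζ‖ ≤ 1) (h' : ‖ζ'‖ ≤ 1) :
    ‖ζ ^ (n + 1) - ζ' ^ (n + 1)‖ ≤ min 2 (((n : ℝ) + 1) * ‖ζ - ζ'‖) := by
  refine le_min ?_ ?_
  · calc ‖ζ ^ (n + 1) - ζ' ^ (n + 1)‖ ≤ ‖ζ ^ (n + 1)‖ + ‖ζ' ^ (n + 1)‖ := norm_sub_le _ _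
      _ ≤ 1 + 1 := by
        rw [norm_pow, norm_pow]
        exact add_le_add (pow_le_one₀ (norm_nonneg _) h) (pow_le_one₀ (norm_nonneg _) h')
      _ = 2 := by norm_num
  · induction n with
    | zero => simp
    | succ n ih =>
      have e : ζ ^ (n + 1 + 1) - ζ' ^ (n + 1 + 1) =
          ζ * (ζ ^ (n + 1) - ζ' ^ (n + 1)) + (ζ - ζ') * ζ' ^ (n + 1) := by ring
      rw [e]
      calc ‖ζ * (ζ ^ (n + 1) - ζ' ^ (n + 1)) + (ζ - ζ') * ζ' ^ (n + 1)‖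
          ≤ ‖ζ‖ * ‖ζ ^ (n + 1) - ζ' ^ (n + 1)‖ + ‖ζ - ζ'‖ * ‖ζ'‖ ^ (n + 1) := by
            refine (norm_add_le _ _).trans ?_
            rw [norm_mul, norm_mul, norm_pow]
        _ ≤ 1 * (((n : ℝ) + 1) * ‖ζ - ζ'‖) + ‖ζ - ζ'‖ * 1 := by
            refine add_le_add ?_ ?_
            · exact mul_le_mul h ih (norm_nonneg _) zero_le_one
            · exact mul_le_mul_of_nonneg_left (pow_le_one₀ (norm_nonneg _) h') (norm_nonneg _)
        _ = (((n + 1 : ℕ) : ℝ) + 1) * ‖ζ - ζ'‖ := by push_cast; ring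

/-- weighted Cauchy–Schwarz -/
lemma cs (K : ℕ) (a : ℕ → ℂ) (x w : ℕ → ℝ) (hw : ∀ n, 0 < w n) :
    (∑ n ∈ range K, ‖a n‖ * x n) ^ 2 ≤
      (∑ n ∈ range K, w n * ‖a n‖ ^ 2) * (∑ n ∈ range K, x n ^ 2 / w n) := by
  refine Finset.sum_sq_le_sum_mul_sum_of_sq_le_mul _ ?_ ?_ ?_
  · intro i _
    exact mul_nonneg (hw i).le (sq_nonneg _)
  · intro i _
    exact div_nonneg (sq_nonneg _) (hw i).le
  · intro i _
    have := (hw i).ne'
    rw [mul_pow]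
    apply le_of_eq
    field_simp

/-- Hölder bound (exponent 1/2) for the polynomial disc. -/
lemma holder (f : ZMod (2 * M + 1) → ℝ) (ζ ζ' : ℂ) (h : ‖ζ‖ ≤ 1) (h' : ‖ζ'‖ ≤ 1) :
    ‖g f ζ - g f ζ'‖ ^ 2 ≤ ((2 * M + 1 : ℕ) : ℝ) ^ 2 * ms (df f) * ‖ζ - ζ'‖ := by
  rcases eq_or_ne ζ ζ' with rfl | hne
  · simp
  have hδ : 0 < ‖ζ - ζ'‖ := norm_pos_iff.2 (sub_ne_zero.2 hne)
  have hδ2 : ‖ζ - ζ'‖ ≤ 2 := by
    calc ‖ζ - ζ'‖ ≤ ‖ζ‖ + ‖ζ'‖ := norm_sub_le _ _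
      _ ≤ 2 := by linarith
  have e : g f ζ - g f ζ' = 2 * ∑ n ∈ range M, cf f ((n + 1 : ℕ) : ZMod (2 * M + 1)) *
      (ζ ^ (n + 1) - ζ' ^ (n + 1)) := by
    simp only [g, mul_sub, Finset.sum_sub_distrib]
    ring
  have h1 : ‖g f ζ - g f ζ'‖ ≤ 2 * ∑ n ∈ range M, ‖cf f ((n + 1 : ℕ) : ZMod (2 * M + 1))‖ *
      min 2 (((n : ℝ) + 1) * ‖ζ - ζ'‖) := by
    rw [e, norm_mul]
    simp only [Complex.norm_ofNat]
    refine mul_le_mul_of_nonneg_left ?_ (by norm_num)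
    refine (norm_sum_le _ _).trans (Finset.sum_le_sum fun n _ => ?_)
    rw [norm_mul]
    exact mul_le_mul_of_nonneg_left (pow_sub_pow_le n ζ ζ' h h') (norm_nonneg _)
  have h2 := cs M (fun n => cf f ((n + 1 : ℕ) : ZMod (2 * M + 1)))
    (fun n => min 2 (((n : ℝ) + 1) * ‖ζ - ζ'‖)) (fun n => ((n : ℝ) + 1) ^ 2)
    (fun n => by positivity)
  have h3 := sum_min_le M ‖ζ - ζ'‖ hδ hδ2
  have h4 := sob f
  have h5 : (0 : ℝ) ≤ ∑ n ∈ range M, ((n : ℝ) + 1) ^ 2 *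
      ‖cf f ((n + 1 : ℕ) : ZMod (2 * M + 1))‖ ^ 2 := by positivity
  calc ‖g f ζ - g f ζ'‖ ^ 2 ≤ (2 * ∑ n ∈ range M, ‖cf f ((n + 1 : ℕ) : ZMod (2 * M + 1))‖ *
      min 2 (((n : ℝ) + 1) * ‖ζ - ζ'‖)) ^ 2 := pow_le_pow_left₀ (norm_nonneg _) h1 2
    _ = 4 * (∑ n ∈ range M, ‖cf f ((n + 1 : ℕ) : ZMod (2 * M + 1))‖ *
      min 2 (((n : ℝ) + 1) * ‖ζ - ζ'‖)) ^ 2 := by ring
    _ ≤ 4 * ((((2 * M + 1 : ℕ) : ℝ) ^ 2 * ms (df f) / 32) * (8 * ‖ζ - ζ'‖)) := by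
      refine mul_le_mul_of_nonneg_left ?_ (by norm_num)
      refine h2.trans ?_
      exact mul_le_mul h4 h3 (by positivity) (le_trans h5 h4)
    _ = ((2 * M + 1 : ℕ) : ℝ) ^ 2 * ms (df f) * ‖ζ - ζ'‖ := by ring

lemma sum_agmon (K : ℕ) (s : ℝ) (hs : 0 < s) :
    ∑ n ∈ range K, (1 : ℝ) ^ 2 / (s + ((n : ℝ) + 1) ^ 2 / s) ≤ 2 := by
  have key : ∀ n ∈ range K, (1 : ℝ) ^ 2 / (s + ((n : ℝ) + 1) ^ 2 / s) ≤
      2 * s / ((n : ℝ) + s) - 2 * s / (((n + 1 : ℕ) : ℝ) + s) := by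
    intro n _
    have hn : (0 : ℝ) ≤ n := Nat.cast_nonneg n
    have hpos : (0 : ℝ) < (n : ℝ) + s := by linarith
    have hpos2 : (0 : ℝ) < (n : ℝ) + 1 + s := by linarith
    have e : 2 * s / ((n : ℝ) + s) - 2 * s / (((n + 1 : ℕ) : ℝ) + s) =
        2 * s / (((n : ℝ) + s) * ((n : ℝ) + 1 + s)) := by
      push_cast
      field_simp
      ring
    have e2 : (1 : ℝ) ^ 2 / (s + ((n : ℝ) + 1) ^ 2 / s) = s / (s ^ 2 + ((n : ℝ) + 1) ^ 2) := by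
      field_simp
    rw [e, e2, div_le_div_iff₀ (by positivity) (by positivity)]
    have h3 : ((n : ℝ) + s) * ((n : ℝ) + 1 + s) ≤ 2 * (s ^ 2 + ((n : ℝ) + 1) ^ 2) := by
      nlinarith [sq_nonneg (s - ((n : ℝ) + 1))]
    nlinarith
  refine (Finset.sum_le_sum key).trans ?_
  rw [Finset.sum_range_sub' (fun n : ℕ => 2 * s / ((n : ℝ) + s)) K]
  have : 0 ≤ 2 * s / ((K : ℝ) + s) := by positivity
  have e2 : 2 * s / (((0 : ℕ) : ℝ) + s) = 2 := by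
    push_cast; field_simp; ring
  rw [e2]
  linarith

/-- Agmon bound: `‖g f ζ - g f 0‖² ≤ 4 ms f / τ + τ N² ms (df f) / 4`. -/
lemma agmon (f : ZMod (2 * M + 1) → ℝ) (ζ : ℂ) (h : ‖ζ‖ ≤ 1) (τ : ℝ) (hτ : 0 < τ) :
    ‖g f ζ - g f 0‖ ^ 2 ≤
      4 * ms f / τ + τ * (((2 * M + 1 : ℕ) : ℝ) ^ 2 * ms (df f)) / 4 := by
  set s : ℝ := 1 / τ with hs
  have hs0 : 0 < s := by positivity
  have hst : τ = 1 / s := by rw [hs]; field_simp
  have e : g f ζ - g f 0 = 2 * ∑ n ∈ range M, cf f ((n + 1 : ℕ) : ZMod (2 * M + 1)) *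
      ζ ^ (n + 1) := by
    rw [g_zero, g, cf_zero]; ring
  have h1 : ‖g f ζ - g f 0‖ ≤ 2 * ∑ n ∈ range M, ‖cf f ((n + 1 : ℕ) : ZMod (2 * M + 1))‖ * 1 := by
    rw [e, norm_mul]
    simp only [Complex.norm_ofNat]
    refine mul_le_mul_of_nonneg_left ?_ (by norm_num)
    refine (norm_sum_le _ _).trans (Finset.sum_le_sum fun n _ => ?_)
    rw [norm_mul, norm_pow]
    exact mul_le_mul_of_nonneg_left (pow_le_one₀ (norm_nonneg _) h) (norm_nonneg _)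
  have h2 := cs M (fun n => cf f ((n + 1 : ℕ) : ZMod (2 * M + 1)))
    (fun n => 1) (fun n => s + ((n : ℝ) + 1) ^ 2 / s)
    (fun n => by positivity)
  have h3 := sum_agmon M s hs0
  have h4 := sob f
  have h5 := parseval f
  have h6 := sq_nonneg (mean f)
  have h7 : ∑ n ∈ range M, (s + ((n : ℝ) + 1) ^ 2 / s) *
      ‖cf f ((n + 1 : ℕ) : ZMod (2 * M + 1))‖ ^ 2 ≤
      s * (ms f / 2) + (((2 * M + 1 : ℕ) : ℝ) ^ 2 * ms (df f) / 32) / s := by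
    have : ∑ n ∈ range M, (s + ((n : ℝ) + 1) ^ 2 / s) *
        ‖cf f ((n + 1 : ℕ) : ZMod (2 * M + 1))‖ ^ 2 =
        s * ∑ n ∈ range M, ‖cf f ((n + 1 : ℕ) : ZMod (2 * M + 1))‖ ^ 2 +
        (∑ n ∈ range M, ((n : ℝ) + 1) ^ 2 *
          ‖cf f ((n + 1 : ℕ) : ZMod (2 * M + 1))‖ ^ 2) / s := by
      rw [Finset.mul_sum, Finset.sum_div, ← Finset.sum_add_distrib]
      refine Finset.sum_congr rfl fun n _ => by ring
    rw [this]
    refine add_le_add ?_ ?_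
    · exact mul_le_mul_of_nonneg_left (by linarith) hs0.le
    · exact div_le_div_of_nonneg_right h4 hs0.le
  have h8 : 0 ≤ s * (ms f / 2) + (((2 * M + 1 : ℕ) : ℝ) ^ 2 * ms (df f) / 32) / s := by
    have := ms_nonneg f
    have := ms_nonneg (df f)
    positivity
  calc ‖g f ζ - g f 0‖ ^ 2 ≤ (2 * ∑ n ∈ range M,
      ‖cf f ((n + 1 : ℕ) : ZMod (2 * M + 1))‖ * 1) ^ 2 := pow_le_pow_left₀ (norm_nonneg _) h1 2
    _ = 4 * (∑ n ∈ range M, ‖cf f ((n + 1 : ℕ) : ZMod (2 * M + 1))‖ * 1) ^ 2 := by ring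
    _ ≤ 4 * ((s * (ms f / 2) + (((2 * M + 1 : ℕ) : ℝ) ^ 2 * ms (df f) / 32) / s) * 2) := by
      refine mul_le_mul_of_nonneg_left ?_ (by norm_num)
      refine h2.trans ?_
      exact mul_le_mul h7 h3 (Finset.sum_nonneg fun n _ => div_nonneg (sq_nonneg _)
        (add_nonneg hs0.le (div_nonneg (sq_nonneg _) hs0.le))) h8
    _ = 4 * ms f / τ + τ * (((2 * M + 1 : ℕ) : ℝ) ^ 2 * ms (df f)) / 4 := by
      generalize ((2 * M + 1 : ℕ) : ℝ) ^ 2 * ms (df f) = B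
      rw [hst]; field_simp; ring

end

end Crest.Agent.R264.BisT
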