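import Crest.Agent.R264.BshIface
import Crest.Agent.R264.BisT0

/-! Row 264, Part B, module BIS-T (helper464): `theorem bisT : BisT`. -/

set_option autoImplicit false

namespace Crest.Agent.R264.Bsh

open Finset Complex

variable {M : ℕ}

lemma nd_eq (j : ZMod (2 * M + 1)) : nd M j = Crest.Agent.R264.BisT.nd j := rfl

lemma cf_eq (f : ZMod (2 * M + 1) → ℝ) (n : ℕ) :
    cf f n = Crest.Agent.R264.BisT.cf f (n : ZMod (2 * M + 1)) := by
  have h : ∀ j : ZMod (2 * M + 1), (starRingEnd ℂ) (nd M j) ^ n =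
      Crest.Agent.R264.BisT.nd (-((n : ZMod (2 * M + 1)) * j)) := by
    intro j
    rw [nd_eq, ← Crest.Agent.R264.BisT.nd_conj, Crest.Agent.R264.BisT.nd_nat_mul, map_pow]
  simp only [cf, Crest.Agent.R264.BisT.cf, h]
  rw [div_eq_inv_mul]
  push_cast
  rfl

lemma pd_eq (f : ZMod (2 * M + 1) → ℝ) (ζ : ℂ) : pd f ζ = Crest.Agent.R264.BisT.g f ζ := by
  rw [pd, Crest.Agent.R264.BisT.g, Finset.range_eq_Ico, Finset.sum_Ico_add'
    (fun n => Crest.Agent.R264.BisT.cf f ((n : ℕ) : ZMod (2 * M + 1)) * ζ ^ n) 0 M 1]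
  have : Finset.Icc 1 M = Finset.Ico (0 + 1) (M + 1) := by
    ext x; simp [Finset.mem_Icc, Finset.mem_Ico]
  rw [this]
  simp only [cf_eq, Nat.cast_zero]

lemma cj_eq (f : ZMod (2 * M + 1) → ℝ) : cj f = Crest.Agent.R264.BisT.T f := by
  funext j
  rw [cj, pd_eq]
  rfl

lemma ms_eq (f : ZMod (2 * M + 1) → ℝ) :
    Crest.Agent.R264.BisT.ms f = (∑ j, f j ^ 2) / (2 * M + 1) := by
  rw [Crest.Agent.R264.BisT.ms, div_eq_inv_mul]
  push_cast
  rfl

lemma l2s_eq_sqrt (f : ZMod (2 * M + 1) → ℝ) :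
    l2s f = Real.sqrt (Crest.Agent.R264.BisT.ms f) := by
  rw [l2s, ms_eq]

lemma N_eq : (((2 * M + 1 : ℕ) : ℝ)) = 2 * M + 1 := by push_cast; rfl

theorem bisT : BisT where
  pd_add f g ζ := by simp only [pd_eq]; exact Crest.Agent.R264.BisT.g_add f g ζ
  pd_smul c f ζ := by simp only [pd_eq]; exact Crest.Agent.R264.BisT.g_smul c f ζ
  pd_const := by
    intro M c ζ
    have h0 : Crest.Agent.R264.BisT.mean (fun _ : ZMod (2 * M + 1) => c) = c := by
      simp only [Crest.Agent.R264.BisT.mean, Finset.sum_const, Finset.card_univ, ZMod.card,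
        nsmul_eq_mul]
      rw [← mul_assoc, inv_mul_cancel₀ Crest.Agent.R264.BisT.N_pos.ne', one_mul]
    have h1 : Crest.Agent.R264.BisT.ms (Crest.Agent.R264.BisT.df
        (fun _ : ZMod (2 * M + 1) => c)) = 0 := by
      simp [Crest.Agent.R264.BisT.ms, Crest.Agent.R264.BisT.df]
    have h2 := Crest.Agent.R264.BisT.sob (fun _ : ZMod (2 * M + 1) => c)
    rw [h1] at h2
    have h3 : ∀ n ∈ range M, Crest.Agent.R264.BisT.cf (fun _ : ZMod (2 * M + 1) => c)
        ((n + 1 : ℕ) : ZMod (2 * M + 1)) = 0 := by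
      have h4 : ∑ n ∈ range M, ((n : ℝ) + 1) ^ 2 *
          ‖Crest.Agent.R264.BisT.cf (fun _ : ZMod (2 * M + 1) => c)
            ((n + 1 : ℕ) : ZMod (2 * M + 1))‖ ^ 2 = 0 :=
        le_antisymm (by simpa using h2) (Finset.sum_nonneg fun _ _ => by positivity)
      intro n hn
      have h5 := (Finset.sum_eq_zero_iff_of_nonneg (fun n _ => by positivity)).1 h4 n hn
      have h6 : ((n : ℝ) + 1) ^ 2 ≠ 0 := by positivity
      have h7 := (mul_eq_zero.1 h5).resolve_left h6
      exact norm_eq_zero.1 (pow_eq_zero_iff (two_ne_zero) |>.1 h7)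
    rw [pd_eq, Crest.Agent.R264.BisT.g, Crest.Agent.R264.BisT.cf_zero, h0,
      Finset.sum_eq_zero (fun n hn => by rw [h3 n hn, zero_mul])]
    simp
  pd_zero f := by
    rw [pd_eq, Crest.Agent.R264.BisT.g_zero, Crest.Agent.R264.BisT.mean, div_eq_inv_mul, N_eq]
  re_pd f j := by rw [pd_eq, nd_eq]; exact Crest.Agent.R264.BisT.g_re f j
  cj_l2 := by
    intro M f
    have h := Crest.Agent.R264.BisT.ms_T_le f
    rw [ms_eq, ms_eq, ← cj_eq] at h
    have hN : (0 : ℝ) < 2 * M + 1 := by positivity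
    exact (div_le_div_iff_of_pos_right hN).1 h
  cj_shift := by
    intro M f a j
    have key : ∀ (n : ℕ) (j : ZMod (2 * M + 1)),
        cj (fun j' : ZMod (2 * M + 1) => f (j' + (n : ZMod (2 * M + 1)))) j =
          cj f (j + (n : ZMod (2 * M + 1))) := by
      intro n
      induction n with
      | zero => intro j; simp
      | succ n ih =>
        intro j
        have h1 : (fun j' : ZMod (2 * M + 1) => f (j' + ((n + 1 : ℕ) : ZMod (2 * M + 1)))) =
            Crest.Agent.R264.BisT.sh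
              (fun j' : ZMod (2 * M + 1) => f (j' + (n : ZMod (2 * M + 1)))) := by
          funext j'
          simp only [Crest.Agent.R264.BisT.sh]
          congr 1
          push_cast
          ring
        rw [h1, cj_eq, Crest.Agent.R264.BisT.T_sh]
        simp only [Crest.Agent.R264.BisT.sh]
        rw [← cj_eq, ih]
        congr 1
        push_cast
        ring
    have := key a.val j
    rwa [ZMod.natCast_zmod_val] at this
  holder := by
    refine ⟨1, one_pos, ?_⟩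
    intro M f ζ ζ' h h'
    have hh := Crest.Agent.R264.BisT.holder f ζ ζ' h h'
    rw [pd_eq, pd_eq, one_mul, l2s_eq_sqrt]
    have hN : (0 : ℝ) ≤ 2 * (M : ℝ) + 1 := by positivity
    refine (Real.le_sqrt_of_sq_le hh).trans (le_of_eq ?_)
    rw [Real.sqrt_mul, Real.sqrt_mul, Real.sqrt_sq, N_eq]
    · rfl
    · rw [N_eq]; exact hN
    · positivity
    · exact mul_nonneg (by positivity) (Crest.Agent.R264.BisT.ms_nonneg _)
  agmon := by
    refine ⟨2, two_pos, ?_⟩
    intro M f ζ τ h hτ _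
    have hh := Crest.Agent.R264.BisT.agmon f ζ h τ hτ
    rw [pd_eq, pd_eq, l2s_eq_sqrt, l2s_eq_sqrt]
    have hN : (0 : ℝ) ≤ 2 * (M : ℝ) + 1 := by positivity
    have hdf : (fun j : ZMod (2 * M + 1) => f (j + 1) - f j) = Crest.Agent.R264.BisT.df f := rfl
    rw [hdf]
    have m1 := Crest.Agent.R264.BisT.ms_nonneg f
    have m2 := Crest.Agent.R264.BisT.ms_nonneg (Crest.Agent.R264.BisT.df f)
    set a := Real.sqrt (Crest.Agent.R264.BisT.ms f) with ha
    set b := Real.sqrt (Crest.Agent.R264.BisT.ms (Crest.Agent.R264.BisT.df f)) with hb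
    set t := Real.sqrt τ with ht
    have ht0 : 0 < t := Real.sqrt_pos.2 hτ
    have e1 : Crest.Agent.R264.BisT.ms f = a ^ 2 := (Real.sq_sqrt m1).symm
    have e2 : Crest.Agent.R264.BisT.ms (Crest.Agent.R264.BisT.df f) = b ^ 2 :=
      (Real.sq_sqrt m2).symm
    have e3 : τ = t ^ 2 := (Real.sq_sqrt hτ.le).symm
    rw [e1, e2, e3, N_eq] at hh
    have a0 : 0 ≤ a := Real.sqrt_nonneg _
    have b0 : 0 ≤ b := Real.sqrt_nonneg _
    refine abs_le_of_sq_le_sq' ?_ ?_ |>.2
    · refine hh.trans ?_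
      have x0 : 0 ≤ a / t := by positivity
      have y0 : 0 ≤ (2 * (M : ℝ) + 1) * b * t := by positivity
      have : 4 * a ^ 2 / t ^ 2 + t ^ 2 * ((2 * (M : ℝ) + 1) ^ 2 * b ^ 2) / 4 =
          4 * (a / t) ^ 2 + ((2 * (M : ℝ) + 1) * b * t) ^ 2 / 4 := by
        field_simp
      rw [this]
      nlinarith [mul_nonneg x0 y0]
    · positivity

end Crest.Agent.R264.Bsh
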