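import Crest.Agent.R264.BshIface

/-!
Row 264, Part B (helper747): the data of the Bishop family at one scale, and the frozen statements
of the estimates (2), (4), (5) (owner 127), profiles (owner 213).

`K = k + 1` compares the norms: `‖v‖ ≤ eu v ≤ (k+1) ‖v‖`.
-/

set_option autoImplicit false

open Topology Filter Set

namespace Crest.Agent.R264.Bsh

/-- distance to `0` in the cycle -/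
def jabs {M : ℕ} (j : ZMod (2 * M + 1)) : ℕ := j.valMinAbs.natAbs

/-- triangular profile of half-width `l` -/
noncomputable def tri (M l : ℕ) (j : ZMod (2 * M + 1)) : ℝ := max 0 (1 - (jabs j : ℝ) / l)

/-- MODULE BIS-P (profiles, helper213): `chi = tri M l`, `bet = tri M (4*l)`. -/
structure BisP : Prop where
  tri_nonneg : ∀ (M l : ℕ) (j : ZMod (2 * M + 1)), 0 ≤ tri M l j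
  tri_le_one : ∀ (M l : ℕ) (j : ZMod (2 * M + 1)), tri M l j ≤ 1
  bet_ge : ∀ (M l : ℕ) (j : ZMod (2 * M + 1)), 0 < l → 0 < tri M l j → 3 / 4 ≤ tri M (4 * l) j
  mean : ∀ (M l : ℕ), 0 < l → l ≤ M → (∑ j, tri M l j) / (2 * M + 1) = (l : ℝ) / (2 * M + 1)
  l2_le : ∀ (M l : ℕ), 0 < l → l ≤ M → l2s (tri M l) ≤ Real.sqrt ((l : ℝ) / (2 * M + 1))
  diff_le : ∀ (M l : ℕ), 0 < l → l ≤ M →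
    (2 * M + 1) * l2s (fun j : ZMod (2 * M + 1) => tri M l (j + 1) - tri M l j) ≤
      2 / Real.sqrt ((l : ℝ) / (2 * M + 1))
  supp : ∀ (M l : ℕ) (g : ZMod (2 * M + 1) → ℝ), 0 < l → l ≤ M → (∀ j, 0 ≤ g j) →
    (∑ j, if 0 < tri M l j then g j else 0) / (2 * M + 1) ≤
      Real.sqrt (2 * ((l : ℝ) / (2 * M + 1))) * l2s g
  supp_l2 : ∀ (M l : ℕ), 0 < l → l ≤ M →
    l2s (fun j : ZMod (2 * M + 1) => if 0 < tri M l j then (1 : ℝ) else 0) ≤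
      Real.sqrt (2 * ((l : ℝ) / (2 * M + 1)))

/-- node density and surjectivity (helper213) -/
structure BisN : Prop where
  node : ∀ (M : ℕ) (ζ : ℂ), ‖ζ‖ = 1 → ∃ j : ZMod (2 * M + 1), ‖ζ - nd M j‖ ≤ 4 / (2 * M + 1)
  surj : ∀ {k : ℕ} (g : (Fin k → ℝ) → (Fin k → ℝ)) (R : ℝ), 0 ≤ R →
    (∀ b b', ‖b‖ ≤ R → ‖b'‖ ≤ R → ‖g b - g b' - (b - b')‖ ≤ 1 / 2 * ‖b - b'‖) →
    ∀ y, ‖y - g 0‖ ≤ 1 / 2 * R → ∃ b, ‖b‖ ≤ R ∧ g b = y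

/-- The function `Yt(z,u,s) = Y(z, clamp u, s)` of the Bishop equation, with all bounds that are
used; they hold for ALL `u`. -/
structure YOK {Z : Type*} [NormedAddCommGroup Z] {k : ℕ}
    (Yt : Z → (Fin k → ℝ) → ℝ → (Fin k → ℝ)) (om : ℝ → ℝ) (C₀ ε r s₁ : ℝ) : Prop where
  C₀_nonneg : 0 ≤ C₀
  ε_pos : 0 < ε
  ε_le : 100 * ((k : ℝ) + 1) * ε ≤ 1
  r_pos : 0 < r
  s₁_pos : 0 < s₁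
  om_nonneg : ∀ s, 0 ≤ s → s ≤ 2 * s₁ → 0 ≤ om s
  om_le : ∀ s, 0 ≤ s → s ≤ 2 * s₁ → om s ≤ ε
  y1 : ∀ z u u' s, ‖z‖ ≤ r → 0 ≤ s → s ≤ 2 * s₁ → ‖Yt z u s - Yt z u' s‖ ≤ ε * ‖u - u'‖
  y1' : ∀ z u u' s, ‖z‖ ≤ r → 0 ≤ s → s ≤ 2 * s₁ →
    ‖Yt z u s - Yt z u' s‖ ≤ (C₀ * (2 * ‖z‖ + ‖u‖ + ‖u'‖) + om s) * ‖u - u'‖
  y2 : ∀ z u s s', ‖z‖ ≤ r → 0 ≤ s → s ≤ 2 * s₁ → 0 ≤ s' → s' ≤ 2 * s₁ →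
    ‖Yt z u s - Yt z u s'‖ ≤ C₀ * |s - s'|
  y3 : ∀ z u s, ‖z‖ ≤ r → 0 ≤ s → s ≤ 2 * s₁ →
    ‖Yt z u s - Yt 0 u s‖ ≤ (C₀ * (‖z‖ + 2 * ‖u‖) + om s) * ‖z‖
  y4 : ∀ z u s, ‖z‖ ≤ r → 0 ≤ s → s ≤ 2 * s₁ →
    ‖Yt z u s‖ ≤ 2 * C₀ * ‖z‖ ^ 2 + ε * ‖u‖ + C₀ * s
  y4' : ∀ u s, 0 ≤ s → s ≤ 2 * s₁ → ‖Yt 0 u s‖ ≤ C₀ * ‖u‖ ^ 2 + C₀ * s

/-- `V` solves the Bishop equation with parameters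
`(z, u₀, b, lam, mu)`, profiles of half-width `l` and `4 l`, ground level `ρ₀`. -/
def IsBis {Z : Type*} {k : ℕ} (Yt : Z → (Fin k → ℝ) → ℝ → (Fin k → ℝ)) (s₁ ρ₀ : ℝ)
    (M l : ℕ) (z : Z) (u₀ b : Fin k → ℝ) (lam mu : ℝ) (V : ZMod (2 * M + 1) → Fin k → ℝ) : Prop :=
  ∀ j, V j = Yt z (u₀ - cjv V j) (lam * s₁ * tri M (4 * l) j + ρ₀) + (mu * tri M l j) • b

/-- mean value (vector) -/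
noncomputable def mv {M k : ℕ} (V : ZMod (2 * M + 1) → Fin k → ℝ) : Fin k → ℝ :=
  fun i => (∑ j, V j i) / (2 * M + 1)

/-- the scale conditions under which the estimates hold; `τ = l / (2M+1)`. -/
structure ScOK {k : ℕ} (om : ℝ → ℝ) (C₀ ε r s₁ ρ₀ c τ : ℝ) (M l : ℕ) : Prop where
  l_pos : 0 < l
  l_le : 4 * l ≤ M
  τ_eq : τ = (l : ℝ) / (2 * M + 1)
  c_nonneg : 0 ≤ c
  ρ₀_nonneg : 0 ≤ ρ₀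
  ρ₀_le : ρ₀ ≤ s₁
  /-- smallness -/
  c_sqrt : c * Real.sqrt τ ≤ r
  c_sq : c ^ 2 * τ ≤ s₁ * Real.sqrt τ
  c_tau : c * τ ≤ s₁ * Real.sqrt τ
  ρ₀_s : ρ₀ ≤ s₁ * Real.sqrt τ
  ρ₀_τ : ρ₀ ≤ τ
  om_ρ₀ : 100 * ((k : ℝ) + 1) * om ρ₀ ≤ Real.sqrt τ
  c_C : 100 * ((k : ℝ) + 1) * (C₀ + 1) * c ≤ 1
  s_C : 1000 * ((k : ℝ) + 1) ^ 2 * (C₀ + 1) ^ 2 * s₁ ≤ 1

/-- MODULE BIS-S (sizes and estimates, helper127). `C₁ = 20 (k+1) (C₀+1)`. -/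
structure BisS : Prop where
  /-- existence (any parameters with `|lam| ≤ 1`) -/
  exi : ∀ {Z : Type} [NormedAddCommGroup Z] {k : ℕ} (Yt : Z → (Fin k → ℝ) → ℝ → (Fin k → ℝ))
    (om : ℝ → ℝ) (C₀ ε r s₁ ρ₀ : ℝ) (M l : ℕ) (z : Z) (u₀ b : Fin k → ℝ) (lam mu : ℝ),
    YOK Yt om C₀ ε r s₁ → ‖z‖ ≤ r → 0 ≤ ρ₀ → ρ₀ ≤ s₁ → 0 ≤ lam → lam ≤ 1 →
    ∃ V, IsBis Yt s₁ ρ₀ M l z u₀ b lam mu V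
  /-- (1) regularity and (2) sizes -/
  size : ∀ {Z : Type} [NormedAddCommGroup Z] {k : ℕ} (Yt : Z → (Fin k → ℝ) → ℝ → (Fin k → ℝ))
    (om : ℝ → ℝ) (C₀ ε r s₁ ρ₀ c τ : ℝ) (M l : ℕ) (z : Z) (u₀ b : Fin k → ℝ) (lam mu : ℝ)
    (V : ZMod (2 * M + 1) → Fin k → ℝ),
    YOK Yt om C₀ ε r s₁ → ScOK (k := k) om C₀ ε r s₁ ρ₀ c τ M l →
    0 ≤ lam → lam ≤ 1 → 0 ≤ mu → mu ≤ 1 → ‖b‖ ≤ s₁ → ‖z‖ ≤ c * Real.sqrt τ → ‖u₀‖ ≤ c * τ →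
    IsBis Yt s₁ ρ₀ M l z u₀ b lam mu V →
    l2 V ≤ 20 * ((k : ℝ) + 1) * (C₀ + 1) * s₁ * Real.sqrt τ ∧
    l2 (fun j => u₀ - cjv V j) ≤ 21 * ((k : ℝ) + 1) * (C₀ + 1) * s₁ * Real.sqrt τ ∧
    (2 * M + 1) * l2 (fun j : ZMod (2 * M + 1) => V (j + 1) - V j) ≤
      20 * ((k : ℝ) + 1) * (C₀ + 1) * s₁ / Real.sqrt τ
  /-- (4) Lipschitz in `b` -/
  lip : ∀ {Z : Type} [NormedAddCommGroup Z] {k : ℕ} (Yt : Z → (Fin k → ℝ) → ℝ → (Fin k → ℝ))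
    (om : ℝ → ℝ) (C₀ ε r s₁ ρ₀ c τ : ℝ) (M l : ℕ) (z : Z) (u₀ b b' : Fin k → ℝ)
    (V V' : ZMod (2 * M + 1) → Fin k → ℝ),
    YOK Yt om C₀ ε r s₁ → ScOK (k := k) om C₀ ε r s₁ ρ₀ c τ M l →
    ‖b‖ ≤ s₁ → ‖b'‖ ≤ s₁ → ‖z‖ ≤ c * Real.sqrt τ → ‖u₀‖ ≤ c * τ →
    IsBis Yt s₁ ρ₀ M l z u₀ b 1 1 V → IsBis Yt s₁ ρ₀ M l z u₀ b' 1 1 V' →
    ‖mv V - mv V' - τ • (b - b')‖ ≤ 1 / 2 * τ * ‖b - b'‖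
  /-- (5) dependence on `(z, u₀)` -/
  dep : ∀ {Z : Type} [NormedAddCommGroup Z] {k : ℕ} (Yt : Z → (Fin k → ℝ) → ℝ → (Fin k → ℝ))
    (om : ℝ → ℝ) (C₀ ε r s₁ ρ₀ c τ : ℝ) (M l : ℕ) (z : Z) (u₀ : Fin k → ℝ)
    (V V' : ZMod (2 * M + 1) → Fin k → ℝ),
    YOK Yt om C₀ ε r s₁ → ScOK (k := k) om C₀ ε r s₁ ρ₀ c τ M l →
    ‖z‖ ≤ c * Real.sqrt τ → ‖u₀‖ ≤ c * τ →
    IsBis Yt s₁ ρ₀ M l z u₀ 0 1 1 V → IsBis Yt s₁ ρ₀ M l 0 0 0 1 1 V' →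
    ‖mv V - mv V'‖ ≤ 4 * ((k : ℝ) + 1) * c * τ
  /-- size of the central mean -/
  cen : ∀ {Z : Type} [NormedAddCommGroup Z] {k : ℕ} (Yt : Z → (Fin k → ℝ) → ℝ → (Fin k → ℝ))
    (om : ℝ → ℝ) (C₀ ε r s₁ ρ₀ c τ : ℝ) (M l : ℕ) (V' : ZMod (2 * M + 1) → Fin k → ℝ),
    YOK Yt om C₀ ε r s₁ → ScOK (k := k) om C₀ ε r s₁ ρ₀ c τ M l →
    IsBis Yt s₁ ρ₀ M l 0 0 0 1 1 V' →
    ‖mv V'‖ ≤ 1000 * ((k : ℝ) + 1) ^ 2 * (C₀ + 1) ^ 3 * τ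

end Crest.Agent.R264.Bsh
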