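import Mathlib

/-! Row 264, Part B: the Bishop equation on a finite set of nodes (module BIS-E), abstract part. -/

set_option autoImplicit false

namespace Crest.Agent.R264.Bsh

open Finset

variable {ι : Type*} [Fintype ι] {W : Type*} [NormedAddCommGroup W]

/-- normalised `L2` norm of a function on the nodes -/
noncomputable def n2 (f : ι → W) : ℝ := Real.sqrt ((∑ j, ‖f j‖ ^ 2) / (Fintype.card ι : ℝ))

/-- mean value of a real function on the nodes -/
noncomputable def mn (f : ι → ℝ) : ℝ := (∑ j, f j) / (Fintype.card ι : ℝ)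

theorem n2_nonneg (f : ι → W) : 0 ≤ n2 f := Real.sqrt_nonneg _

theorem n2_sq (f : ι → W) : n2 f ^ 2 = (∑ j, ‖f j‖ ^ 2) / (Fintype.card ι : ℝ) :=
  Real.sq_sqrt (by positivity)

theorem n2_norm (f : ι → W) : n2 (fun j => ‖f j‖) = n2 f := by
  simp [n2]

theorem n2_mono {W' : Type*} [NormedAddCommGroup W'] (f : ι → W) (g : ι → W')
    (h : ∀ j, ‖f j‖ ≤ ‖g j‖) : n2 f ≤ n2 g := by
  unfold n2
  apply Real.sqrt_le_sqrt
  gcongr with j _
  exact h j

theorem n2_zero : n2 (fun _ : ι => (0 : W)) = 0 := by simp [n2]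

theorem n2_neg (f : ι → W) : n2 (fun j => - f j) = n2 f := by simp [n2]

theorem n2_sub_comm (f g : ι → W) : n2 (fun j => f j - g j) = n2 (fun j => g j - f j) := by
  simp [n2, norm_sub_rev]

theorem n2_eq_lp (f : ι → W) :
    n2 f = ‖(WithLp.toLp 2 f : PiLp 2 (fun _ : ι => W))‖ / Real.sqrt (Fintype.card ι : ℝ) := by
  rw [PiLp.norm_eq_of_L2, n2, Real.sqrt_div (by positivity)]

theorem n2_add_le (f g : ι → W) : n2 (fun j => f j + g j) ≤ n2 f + n2 g := by
  rw [n2_eq_lp, n2_eq_lp, n2_eq_lp, ← add_div]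
  apply div_le_div_of_nonneg_right _ (Real.sqrt_nonneg _)
  exact norm_add_le (WithLp.toLp 2 f : PiLp 2 (fun _ : ι => W)) (WithLp.toLp 2 g)

theorem n2_sub_le (f g : ι → W) : n2 (fun j => f j - g j) ≤ n2 f + n2 g := by
  have h := n2_add_le f (fun j => - g j)
  rw [n2_neg] at h
  simpa [sub_eq_add_neg] using h

theorem n2_mul_const (c : ℝ) (hc : 0 ≤ c) (f : ι → ℝ) : n2 (fun j => c * f j) = c * n2 f := by
  have h1 : n2 (fun j => c * f j) ^ 2 = (c * n2 f) ^ 2 := by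
    rw [mul_pow, n2_sq, n2_sq, ← mul_div_assoc, Finset.mul_sum]
    congr 1
    apply Finset.sum_congr rfl
    intro j _
    rw [norm_mul, mul_pow, Real.norm_eq_abs c, sq_abs]
  exact (pow_left_inj₀ (n2_nonneg _) (mul_nonneg hc (n2_nonneg _)) two_ne_zero).1 h1

theorem n2_smul [NormedSpace ℝ W] (c : ℝ) (f : ι → W) :
    n2 (fun j => c • f j) = |c| * n2 f := by
  rw [← n2_norm, ← n2_norm f, ← n2_mul_const _ (abs_nonneg c)]
  simp [norm_smul]

theorem n2_const [Nonempty ι] (w : W) : n2 (fun _ : ι => w) = ‖w‖ := by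
  have h : (Fintype.card ι : ℝ) ≠ 0 := by
    exact_mod_cast Fintype.card_ne_zero
  unfold n2
  rw [Finset.sum_const, Finset.card_univ, nsmul_eq_mul, mul_div_cancel_left₀ _ h]
  exact Real.sqrt_sq (norm_nonneg _)

/-- pointwise linear bound gives an `n2` bound -/
theorem n2_le_of_le {W' : Type*} [NormedAddCommGroup W'] {f : ι → W} {e : ι → W'} {g : ι → ℝ}
    {K : ℝ} (hK : 0 ≤ K) (hg : ∀ j, 0 ≤ g j) (h : ∀ j, ‖f j‖ ≤ K * ‖e j‖ + g j) :
    n2 f ≤ K * n2 e + n2 g := by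
  have h1 : n2 f ≤ n2 (fun j => K * ‖e j‖ + g j) := by
    apply n2_mono
    intro j
    rw [Real.norm_of_nonneg (add_nonneg (mul_nonneg hK (norm_nonneg _)) (hg j))]
    exact h j
  have h2 := n2_add_le (fun j => K * ‖e j‖) g
  rw [n2_mul_const K hK, n2_norm] at h2
  exact h1.trans h2

/-- Cauchy-Schwarz -/
theorem mn_mul_le {W' : Type*} [NormedAddCommGroup W'] (f : ι → W) (g : ι → W') :
    mn (fun j => ‖f j‖ * ‖g j‖) ≤ n2 f * n2 g := by
  rcases isEmpty_or_nonempty ι with hι | hι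
  · simp [mn, n2]
  have hN : (0 : ℝ) < (Fintype.card ι : ℝ) := by exact_mod_cast Fintype.card_pos
  have h := Finset.sum_mul_sq_le_sq_mul_sq (Finset.univ : Finset ι) (fun j => ‖f j‖) (fun j => ‖g j‖)
  have h1 : mn (fun j => ‖f j‖ * ‖g j‖) ^ 2 ≤ (n2 f * n2 g) ^ 2 := by
    rw [mul_pow, n2_sq, n2_sq, mn, div_pow, div_mul_div_comm, ← pow_two]
    exact div_le_div_of_nonneg_right h (by positivity)
  exact le_of_sq_le_sq h1 (mul_nonneg (n2_nonneg _) (n2_nonneg _))
where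
  le_of_sq_le_sq {a b : ℝ} (h : a ^ 2 ≤ b ^ 2) (hb : 0 ≤ b) : a ≤ b :=
    abs_le_of_sq_le_sq' h hb |>.2

theorem mn_norm_le (f : ι → W) : mn (fun j => ‖f j‖) ≤ n2 f := by
  rcases isEmpty_or_nonempty ι with hι | hι
  · simp [mn, n2]
  have h := mn_mul_le f (fun _ : ι => (1 : ℝ))
  rw [n2_const] at h
  simpa using h

theorem mn_mono {f g : ι → ℝ} (h : ∀ j, f j ≤ g j) : mn f ≤ mn g := by
  unfold mn
  gcongr with j _
  exact h j

theorem mn_add (f g : ι → ℝ) : mn (fun j => f j + g j) = mn f + mn g := by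
  simp [mn, Finset.sum_add_distrib, add_div]

theorem mn_mul_const (c : ℝ) (f : ι → ℝ) : mn (fun j => c * f j) = c * mn f := by
  simp [mn, ← Finset.mul_sum, mul_div_assoc]

theorem mn_nonneg {f : ι → ℝ} (h : ∀ j, 0 ≤ f j) : 0 ≤ mn f :=
  div_nonneg (Finset.sum_nonneg fun j _ => h j) (by positivity)

/-- Cauchy-Schwarz on a subset of the nodes -/
theorem mn_indicator_le (A : Finset ι) (f : ι → W) [DecidablePred (· ∈ A)] :
    mn (fun j => if j ∈ A then ‖f j‖ else 0) ≤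
      Real.sqrt ((A.card : ℝ) / (Fintype.card ι : ℝ)) * n2 f := by
  have h := mn_mul_le (fun j : ι => if j ∈ A then (1 : ℝ) else 0) f
  have h1 : n2 (fun j : ι => if j ∈ A then (1 : ℝ) else 0) =
      Real.sqrt ((A.card : ℝ) / (Fintype.card ι : ℝ)) := by
    unfold n2
    congr 2
    have : ∀ j : ι, ‖(if j ∈ A then (1 : ℝ) else 0)‖ ^ 2 = if j ∈ A then 1 else 0 := by
      intro j
      split_ifs <;> simp
    simp only [this]
    simp
  rw [h1] at h
  refine le_trans (le_of_eq ?_) h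
  congr 1
  ext j
  split_ifs <;> simp

theorem norm_mean_le [NormedSpace ℝ W] (f : ι → W) :
    ‖(1 / (Fintype.card ι : ℝ)) • ∑ j, f j‖ ≤ mn (fun j => ‖f j‖) := by
  rw [norm_smul, mn, Real.norm_of_nonneg (by positivity), one_div, div_eq_inv_mul]
  gcongr
  exact norm_sum_le _ _

theorem norm_mean_le_n2 [NormedSpace ℝ W] (f : ι → W) :
    ‖(1 / (Fintype.card ι : ℝ)) • ∑ j, f j‖ ≤ n2 f :=
  (norm_mean_le f).trans (mn_norm_le f)

/-- one coordinate is controlled by the `n2` norm -/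
theorem norm_apply_le (f : ι → W) (j : ι) :
    ‖f j‖ ≤ Real.sqrt (Fintype.card ι : ℝ) * n2 f := by
  have hN : (0 : ℝ) < (Fintype.card ι : ℝ) := by
    have : Nonempty ι := ⟨j⟩
    exact_mod_cast Fintype.card_pos
  unfold n2
  rw [← Real.sqrt_mul hN.le, mul_div_cancel₀ _ hN.ne']
  apply Real.le_sqrt_of_sq_le
  exact Finset.single_le_sum (f := fun j => ‖f j‖ ^ 2) (fun i _ => by positivity)
    (Finset.mem_univ j)

end Crest.Agent.R264.Bsh
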