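import Crest.Agent.R264.BshE2

/-! Row 264, Part B: the estimates (2), (4), (5) on solutions of the Bishop equation on a finite
set of nodes (helper127), with explicit constants (list of helper213). -/

set_option autoImplicit false

namespace Crest.Agent.R264.Bsh

open Finset Topology Filter

variable {ι : Type*} [Fintype ι] {W : Type*} [NormedAddCommGroup W] [NormedSpace ℝ W]
  {Z : Type*} [NormedAddCommGroup Z]

/-- profiles: `β`, `χ` on the nodes, `A` contains the support of `β`; `t = √τ`. -/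
structure Prof (σ : ι → ι) (β χ : ι → ℝ) (A : Finset ι) (t : ℝ) : Prop where
  β0 : ∀ j, 0 ≤ β j
  β1 : ∀ j, β j ≤ 1
  χ0 : ∀ j, 0 ≤ χ j
  χ1 : ∀ j, χ j ≤ 1
  mnχ : mn χ = t ^ 2 / 4
  n2χ : n2 χ ≤ t / 2
  mnβ : mn β ≤ t ^ 2
  n2β : n2 β ≤ t
  cardA : Real.sqrt ((A.card : ℝ) / (Fintype.card ι : ℝ)) ≤ 3 / 2 * t
  offA : ∀ j, j ∉ A → β j = 0
  dβ : (Fintype.card ι : ℝ) * n2 (fun j => β (σ j) - β j) ≤ 2 / t
  dχ : (Fintype.card ι : ℝ) * n2 (fun j => χ (σ j) - χ j) ≤ 4 / t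

/-- hypotheses on `Ỹ(z,u,s) = Y(z, π u, s)`, for all `u`. -/
structure YHyp (Yt : Z → W → ℝ → W) (C0 rz S : ℝ) (om : ℝ → ℝ) : Prop where
  lip : ∀ z u u' s, ‖z‖ ≤ rz → 0 ≤ s → s ≤ S →
    ‖Yt z u s - Yt z u' s‖ ≤ 1 / 64 * ‖u - u'‖
  lip' : ∀ z u u' s, ‖z‖ ≤ rz → 0 ≤ s → s ≤ S →
    ‖Yt z u s - Yt z u' s‖ ≤ (C0 * (2 * ‖z‖ + ‖u‖ + ‖u'‖) + om s) * ‖u - u'‖
  lips : ∀ z u s s', ‖z‖ ≤ rz → 0 ≤ s → s ≤ S → 0 ≤ s' → s' ≤ S →
    ‖Yt z u s - Yt z u s'‖ ≤ C0 * |s - s'|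
  lipz : ∀ z u s, ‖z‖ ≤ rz → 0 ≤ s → s ≤ S →
    ‖Yt z u s - Yt 0 u s‖ ≤ (C0 * (‖z‖ + 2 * ‖u‖) + om s) * ‖z‖
  size : ∀ z u s, ‖z‖ ≤ rz → 0 ≤ s → s ≤ S →
    ‖Yt z u s‖ ≤ 2 * C0 * ‖z‖ ^ 2 + 1 / 64 * ‖u‖ + C0 * s
  size0 : ∀ u s, 0 ≤ s → s ≤ S → ‖Yt 0 u s‖ ≤ C0 * ‖u‖ ^ 2 + C0 * s
  om_nonneg : ∀ s, 0 ≤ s → s ≤ S → 0 ≤ om s
  om_le : ∀ s, 0 ≤ s → s ≤ S → om s ≤ 1 / 64

/-- constants -/
structure CHyp (C0 s1 t c r0 rz : ℝ) (om : ℝ → ℝ) : Prop where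
  one_le : 1 ≤ C0
  s1_pos : 0 < s1
  s1_small : 300 * C0 ^ 2 * s1 ≤ 1
  t_pos : 0 < t
  t_le_s1 : t ≤ s1
  c_nonneg : 0 ≤ c
  c_le_s1 : c ≤ s1
  r0_nonneg : 0 ≤ r0
  r0_le_t4 : r0 ≤ t ^ 4
  om_r0 : om r0 ≤ s1 * t
  ct_le : c * t ≤ rz

/-- `V` solves the Bishop equation with parameters `z0 u0 b lam mu`. -/
def BSol (T : (ι → W) → (ι → W)) (Yt : Z → W → ℝ → W) (β χ : ι → ℝ) (s1 r0 : ℝ)
    (z0 : Z) (u0 b : W) (lam mu : ℝ) (V : ι → W) : Prop :=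
  ∀ j, V j = Yt z0 (u0 - T V j) (lam * s1 * β j + r0) + (mu * χ j) • b

theorem CHyp.s1_le {C0 s1 t c r0 rz : ℝ} {om : ℝ → ℝ} (h : CHyp C0 s1 t c r0 rz om) :
    s1 ≤ 1 / 300 := by
  have h1 := h.one_le
  have h2 := h.s1_small
  have h3 := h.s1_pos
  nlinarith [mul_pos h3 h3, mul_le_mul_of_nonneg_right (one_le_pow₀ h1 (n := 2)) h3.le]

theorem CHyp.C0s1_le {C0 s1 t c r0 rz : ℝ} {om : ℝ → ℝ} (h : CHyp C0 s1 t c r0 rz om) :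
    C0 * s1 ≤ 1 / 300 := by
  have h1 := h.one_le
  have h2 := h.s1_small
  have h3 := h.s1_pos
  nlinarith [mul_pos h3 h3, mul_le_mul_of_nonneg_right h1 (mul_nonneg (by linarith : 0 ≤ C0) h3.le)]

theorem CHyp.t_le {C0 s1 t c r0 rz : ℝ} {om : ℝ → ℝ} (h : CHyp C0 s1 t c r0 rz om) :
    t ≤ 1 / 300 := h.t_le_s1.trans h.s1_le

theorem CHyp.r0_le {C0 s1 t c r0 rz : ℝ} {om : ℝ → ℝ} (h : CHyp C0 s1 t c r0 rz om) :
    r0 ≤ s1 := by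
  have h1 := h.t_pos
  have h2 := h.t_le
  have h3 := h.t_le_s1
  have h4 : t ^ 4 ≤ t := by
    have : t ^ 3 ≤ 1 := pow_le_one₀ h1.le (by linarith)
    nlinarith
  linarith [h.r0_le_t4]

section

variable {T : (ι → W) → (ι → W)} {Yt : Z → W → ℝ → W} {β χ : ι → ℝ} {A : Finset ι}
  {σ : ι → ι} {C0 s1 t c r0 rz : ℝ} {om : ℝ → ℝ} {z0 : Z} {u0 b : W} {lam mu : ℝ} {V : ι → W}

theorem s_mem (hP : Prof σ β χ A t) (hC : CHyp C0 s1 t c r0 rz om) (hl : lam ∈ Set.Icc (0 : ℝ) 1)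
    (j : ι) : 0 ≤ lam * s1 * β j + r0 ∧ lam * s1 * β j + r0 ≤ 2 * s1 ∧
      lam * s1 * β j + r0 ≤ s1 * β j + r0 := by
  have h1 := hP.β0 j
  have h2 := hP.β1 j
  have h3 := hC.s1_pos
  have h4 := hC.r0_nonneg
  have h5 := hC.r0_le
  have h6 : 0 ≤ lam * s1 * β j := mul_nonneg (mul_nonneg hl.1 h3.le) h1
  have h7 : lam * s1 * β j ≤ s1 * β j := by
    apply mul_le_mul_of_nonneg_right _ h1
    nlinarith [hl.2]
  have h8 : s1 * β j ≤ s1 := by nlinarith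
  exact ⟨by linarith, by linarith, by linarith⟩

omit [NormedSpace ℝ W] in
theorem Contr.le (hT : Contr T) (hT0 : T 0 = 0) (V : ι → W) : n2 (T V) ≤ n2 V := by
  have h := hT V 0
  simpa [hT0] using h

/-- (2) size of `V` -/
theorem size_V [Nonempty ι] (hT : Contr T) (hT0 : T 0 = 0) (hP : Prof σ β χ A t)
    (hY : YHyp Yt C0 rz (2 * s1) om) (hC : CHyp C0 s1 t c r0 rz om)
    (hz : ‖z0‖ ≤ c * t) (hu : ‖u0‖ ≤ c * t ^ 2) (hb : ‖b‖ ≤ s1)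
    (hl : lam ∈ Set.Icc (0 : ℝ) 1) (hm : mu ∈ Set.Icc (0 : ℝ) 1)
    (hV : BSol T Yt β χ s1 r0 z0 u0 b lam mu V) : n2 V ≤ 2 * C0 * s1 * t := by
  have hC0 := hC.one_le
  have hs1 := hC.s1_pos
  have ht := hC.t_pos
  have hs1' := hC.s1_le
  have ht' := hC.t_le
  have hc := hC.c_nonneg
  have hc' := hC.c_le_s1
  set K1 : ℝ := 2 * C0 * (c * t) ^ 2 + 1 / 64 * (c * t ^ 2) + C0 * t ^ 4 with hK1
  have hK1n : 0 ≤ K1 := by positivity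
  have h1 : ∀ j, ‖V j‖ ≤ 1 / 64 * ‖T V j‖ + (K1 + (C0 * s1 * β j + s1 * χ j)) := by
    intro j
    obtain ⟨m1, m2, m3⟩ := s_mem hP hC hl j
    rw [hV j]
    refine (norm_add_le _ _).trans ?_
    have e1 := hY.size z0 (u0 - T V j) _ (hz.trans hC.ct_le) m1 m2
    have e2 : ‖(mu * χ j) • b‖ ≤ s1 * χ j := by
      rw [norm_smul, Real.norm_of_nonneg (mul_nonneg hm.1 (hP.χ0 j))]
      calc mu * χ j * ‖b‖ ≤ 1 * χ j * s1 := by
            gcongr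
            · exact mul_nonneg zero_le_one (hP.χ0 j)
            · exact hP.χ0 j
            · exact hm.2
        _ = s1 * χ j := by ring
    have e3 : ‖u0 - T V j‖ ≤ c * t ^ 2 + ‖T V j‖ := (norm_sub_le _ _).trans (by linarith)
    have e4 : 2 * C0 * ‖z0‖ ^ 2 ≤ 2 * C0 * (c * t) ^ 2 := by
      have := pow_le_pow_left₀ (norm_nonneg z0) hz 2
      nlinarith
    have e5 : C0 * (lam * s1 * β j + r0) ≤ C0 * s1 * β j + C0 * t ^ 4 := by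
      have := hC.r0_le_t4
      nlinarith
    rw [hK1]
    linarith
  have hg : ∀ j, 0 ≤ K1 + (C0 * s1 * β j + s1 * χ j) := fun j => by
    have := hP.β0 j
    have := hP.χ0 j
    positivity
  have h2 := n2_absorb (by norm_num : (0 : ℝ) ≤ 1 / 64) (by norm_num) hg h1 (hT.le hT0 V)
  have h3 : n2 (fun j => K1 + (C0 * s1 * β j + s1 * χ j)) ≤ K1 + (C0 * s1 * t + s1 * (t / 2)) := by
    refine (n2_add_le (fun _ : ι => K1) _).trans ?_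
    rw [n2_const, Real.norm_of_nonneg hK1n]
    gcongr
    refine (n2_add_le _ _).trans ?_
    rw [n2_mul_const _ (by positivity), n2_mul_const _ hs1.le]
    gcongr
    · exact hP.n2β
    · exact hP.n2χ
  have h4 : K1 ≤ 3 / 100 * (C0 * s1 * t) := by
    have a1 : (c * t) ^ 2 ≤ s1 * t * (1 / 300) := by
      have b1 : c * t ≤ s1 * t := by gcongr
      have b2 : c * t ≤ 1 / 300 := by nlinarith
      nlinarith [mul_nonneg hc ht.le]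
    have a2 : c * t ^ 2 ≤ s1 * t * (1 / 300) := by
      have b1 : c * t ≤ s1 * t := by gcongr
      nlinarith [mul_nonneg hc ht.le]
    have a3 : t ^ 4 ≤ s1 * t * (1 / 300) := by
      have b0 : t ≤ s1 := hC.t_le_s1
      have b1 : t ^ 2 ≤ 1 / 300 := by nlinarith
      have b2 : t ^ 2 ≤ s1 * t := by nlinarith
      nlinarith [sq_nonneg t]
    have a4 : s1 * t ≤ C0 * s1 * t := by nlinarith [mul_pos hs1 ht]
    have a5 : 2 * C0 * (c * t) ^ 2 ≤ 2 * C0 * (s1 * t * (1 / 300)) := by gcongr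
    have a6 : C0 * t ^ 4 ≤ C0 * (s1 * t * (1 / 300)) := by gcongr
    rw [hK1]
    nlinarith [mul_pos hs1 ht]
  have h5 : 0 < C0 * s1 * t := by positivity
  have h6 : s1 * t ≤ C0 * s1 * t := by nlinarith [mul_pos hs1 ht]
  have h7 : (1 - 1 / 64 : ℝ)⁻¹ = 64 / 63 := by norm_num
  rw [h7] at h2
  nlinarith

/-- (2) size of `u` -/
theorem size_u [Nonempty ι] (hT : Contr T) (hT0 : T 0 = 0) (hP : Prof σ β χ A t)
    (hY : YHyp Yt C0 rz (2 * s1) om) (hC : CHyp C0 s1 t c r0 rz om)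
    (hz : ‖z0‖ ≤ c * t) (hu : ‖u0‖ ≤ c * t ^ 2) (hb : ‖b‖ ≤ s1)
    (hl : lam ∈ Set.Icc (0 : ℝ) 1) (hm : mu ∈ Set.Icc (0 : ℝ) 1)
    (hV : BSol T Yt β χ s1 r0 z0 u0 b lam mu V) :
    n2 (fun j => u0 - T V j) ≤ 3 * C0 * s1 * t := by
  have h1 := size_V hT hT0 hP hY hC hz hu hb hl hm hV
  have h2 := n2_sub_le (fun _ : ι => u0) (T V)
  rw [n2_const] at h2
  have h3 := hT.le hT0 V
  have hs1 := hC.s1_pos
  have ht := hC.t_pos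
  have h4 : c * t ^ 2 ≤ C0 * s1 * t := by
    have b1 : c * t ≤ s1 * t := by
      have := hC.c_le_s1
      gcongr
    have b2 : s1 * t ≤ C0 * s1 * t := by nlinarith [mul_pos hs1 ht, hC.one_le]
    have b3 := hC.t_le
    have b4 := mul_nonneg hC.c_nonneg ht.le
    nlinarith
  linarith

end

end Crest.Agent.R264.Bsh
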