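import Crest.Agent.R264.BshEst

/-! Row 264, Part B: estimates (1) shift, sup bound, (4), (5), (6) (helper127). -/

set_option autoImplicit false

namespace Crest.Agent.R264.Bsh

open Finset Topology Filter

/-- mean value of a vector valued function on the nodes -/
noncomputable def mv {ι : Type*} [Fintype ι] {W : Type*} [NormedAddCommGroup W] [NormedSpace ℝ W]
    (f : ι → W) : W := (1 / (Fintype.card ι : ℝ)) • ∑ j, f j

section

variable {ι : Type*} [Fintype ι] {W : Type*} [NormedAddCommGroup W] [NormedSpace ℝ W]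
  {Z : Type*} [NormedAddCommGroup Z]

theorem norm_mv_le (f : ι → W) : ‖mv f‖ ≤ mn (fun j => ‖f j‖) := norm_mean_le f

theorem mv_sub (f g : ι → W) : mv (fun j => f j - g j) = mv f - mv g := by
  simp [mv, Finset.sum_sub_distrib, smul_sub]

theorem mv_add (f g : ι → W) : mv (fun j => f j + g j) = mv f + mv g := by
  simp [mv, Finset.sum_add_distrib, smul_add]

theorem mv_smul_const (a : ι → ℝ) (w : W) : mv (fun j => a j • w) = mn a • w := by
  rw [mv, ← Finset.sum_smul, smul_smul, mn]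
  congr 1
  ring

variable {T : (ι → W) → (ι → W)} {Yt : Z → W → ℝ → W} {β χ : ι → ℝ} {A : Finset ι}
  {σ : ι → ι} {C0 s1 t c r0 rz : ℝ} {om : ℝ → ℝ} {z0 : Z} {u0 b : W} {lam mu : ℝ} {V : ι → W}

/-- (1) shift bound -/
theorem shift_V [Nonempty ι] (hT : Contr T) (hP : Prof σ β χ A t)
    (hσT : ∀ f j, T (fun i => f (σ i)) j = T f (σ j))
    (hY : YHyp Yt C0 rz (2 * s1) om) (hC : CHyp C0 s1 t c r0 rz om)
    (hz : ‖z0‖ ≤ c * t) (hb : ‖b‖ ≤ s1)
    (hl : lam ∈ Set.Icc (0 : ℝ) 1) (hm : mu ∈ Set.Icc (0 : ℝ) 1)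
    (hV : BSol T Yt β χ s1 r0 z0 u0 b lam mu V) :
    (Fintype.card ι : ℝ) * n2 (fun j => V (σ j) - V j) ≤ 7 * C0 * s1 / t := by
  have hC0 := hC.one_le
  have hs1 := hC.s1_pos
  have ht := hC.t_pos
  have hN : (0 : ℝ) < (Fintype.card ι : ℝ) := by exact_mod_cast Fintype.card_pos
  set g : ι → ℝ := fun j => C0 * s1 * |β (σ j) - β j| + s1 * |χ (σ j) - χ j| with hg
  have hg0 : ∀ j, 0 ≤ g j := fun j => by simp only [hg]; positivity
  have h1 := IsSol.shift (T := T) (Φ := fun j x => Yt z0 (u0 - x) (lam * s1 * β j + r0) +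
      (mu * χ j) • b) (K := 1 / 64) (V := V) hT (by norm_num) (by norm_num) (by
        intro j x y
        rw [add_sub_add_right_eq_sub]
        obtain ⟨m1, m2, m3⟩ := s_mem hP hC hl j
        refine (hY.lip z0 _ _ _ (hz.trans hC.ct_le) m1 m2).trans (le_of_eq ?_)
        rw [sub_sub_sub_cancel_left, norm_sub_rev]) σ hσT hV hg0 (by
        intro j
        obtain ⟨m1, m2, m3⟩ := s_mem hP hC hl j
        obtain ⟨n1, n2, n3⟩ := s_mem hP hC hl (σ j)
        have e0 : Yt z0 (u0 - T V j) (lam * s1 * β (σ j) + r0) + (mu * χ (σ j)) • b -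
            (Yt z0 (u0 - T V j) (lam * s1 * β j + r0) + (mu * χ j) • b) =
            (Yt z0 (u0 - T V j) (lam * s1 * β (σ j) + r0) -
              Yt z0 (u0 - T V j) (lam * s1 * β j + r0)) + (mu * (χ (σ j) - χ j)) • b := by
          rw [mul_sub, sub_smul]
          abel
        rw [e0]
        refine (norm_add_le _ _).trans ?_
        have e1 := hY.lips z0 (u0 - T V j) _ _ (hz.trans hC.ct_le) n1 n2 m1 m2
        have e2 : |lam * s1 * β (σ j) + r0 - (lam * s1 * β j + r0)| ≤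
            s1 * |β (σ j) - β j| := by
          have : lam * s1 * β (σ j) + r0 - (lam * s1 * β j + r0) =
              (lam * s1) * (β (σ j) - β j) := by ring
          rw [this, abs_mul, abs_of_nonneg (mul_nonneg hl.1 hs1.le)]
          gcongr
          nlinarith [hl.2]
        have e3 : ‖(mu * (χ (σ j) - χ j)) • b‖ ≤ s1 * |χ (σ j) - χ j| := by
          rw [norm_smul, norm_mul, Real.norm_of_nonneg hm.1, Real.norm_eq_abs]
          calc mu * |χ (σ j) - χ j| * ‖b‖ ≤ 1 * |χ (σ j) - χ j| * s1 := by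
                gcongr
                exact hm.2
            _ = s1 * |χ (σ j) - χ j| := by ring
        have e4 : C0 * |lam * s1 * β (σ j) + r0 - (lam * s1 * β j + r0)| ≤
            C0 * s1 * |β (σ j) - β j| := by
          have := mul_le_mul_of_nonneg_left e2 (by linarith : 0 ≤ C0)
          linarith
        simp only [hg]
        linarith)
  have h2 : n2 g ≤ C0 * s1 * n2 (fun j => β (σ j) - β j) + s1 * n2 (fun j => χ (σ j) - χ j) := by
    refine (n2_add_le _ _).trans ?_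
    rw [n2_mul_const _ (by positivity), n2_mul_const _ hs1.le]
    have e1 := n2_norm (fun j => β (σ j) - β j)
    have e2 := n2_norm (fun j => χ (σ j) - χ j)
    simp only [Real.norm_eq_abs] at e1 e2
    rw [e1, e2]
  have h3 : (Fintype.card ι : ℝ) * n2 g ≤ C0 * s1 * (2 / t) + s1 * (4 / t) := by
    have a1 := mul_le_mul_of_nonneg_left h2 hN.le
    have a2 := mul_le_mul_of_nonneg_left hP.dβ (mul_nonneg (by linarith : 0 ≤ C0) hs1.le)
    have a3 := mul_le_mul_of_nonneg_left hP.dχ hs1.le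
    nlinarith
  have h4 : C0 * s1 * (2 / t) + s1 * (4 / t) ≤ 6 * (C0 * s1 / t) := by
    have : s1 / t ≤ C0 * s1 / t := by
      gcongr
      nlinarith
    have e : C0 * s1 * (2 / t) + s1 * (4 / t) = 2 * (C0 * s1 / t) + 4 * (s1 / t) := by ring
    rw [e]
    linarith
  have h5 := mul_le_mul_of_nonneg_left h1 hN.le
  have h6 : (1 - 1 / 64 : ℝ)⁻¹ = 64 / 63 := by norm_num
  rw [h6] at h5
  have h7 : 0 < C0 * s1 / t := by positivity
  have h8 : 7 * C0 * s1 / t = 7 * (C0 * s1 / t) := by ring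
  rw [h8]
  nlinarith

omit [NormedSpace ℝ W] in
/-- the bracket `Y(z,u,s) - Y(z,u',s)` in mean -/
theorem mn_E_le [Nonempty ι] (hP : Prof σ β χ A t)
    (hC : CHyp C0 s1 t c r0 rz om) (E e u u' : ι → W) (a : ℝ) (ha : 0 ≤ a)
    (h1 : ∀ j, ‖E j‖ ≤ 1 / 64 * ‖e j‖)
    (h2 : ∀ j, j ∉ A → ‖E j‖ ≤ (a + C0 * (‖u j‖ + ‖u' j‖)) * ‖e j‖) :
    mn (fun j => ‖E j‖) ≤ (1 / 64 * (3 / 2 * t) + a + C0 * (n2 u + n2 u')) * n2 e := by
  classical
  have hC0 : 0 ≤ C0 := by linarith [hC.one_le]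
  have h3 : ∀ j, ‖E j‖ ≤ (1 / 64 * (if j ∈ A then ‖e j‖ else 0)) +
      (a * ‖e j‖ + (C0 * (‖u j‖ * ‖e j‖) + C0 * (‖u' j‖ * ‖e j‖))) := by
    intro j
    by_cases hj : j ∈ A
    · rw [if_pos hj]
      have := h1 j
      have : 0 ≤ a * ‖e j‖ + (C0 * (‖u j‖ * ‖e j‖) + C0 * (‖u' j‖ * ‖e j‖)) := by positivity
      linarith [h1 j]
    · rw [if_neg hj]
      refine (h2 j hj).trans (le_of_eq ?_)
      ring
  refine (mn_mono h3).trans ?_
  rw [mn_add, mn_add, mn_add, mn_mul_const, mn_mul_const, mn_mul_const, mn_mul_const]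
  have a1 := mn_indicator_le A e
  have a2 := mn_norm_le e
  have a3 := mn_mul_le u e
  have a4 := mn_mul_le u' e
  have a5 := n2_nonneg e
  have a6 : Real.sqrt ((A.card : ℝ) / (Fintype.card ι : ℝ)) * n2 e ≤ 3 / 2 * t * n2 e :=
    mul_le_mul_of_nonneg_right hP.cardA a5
  have a7 := mul_le_mul_of_nonneg_left a3 hC0
  have a8 := mul_le_mul_of_nonneg_left a4 hC0
  have a9 := mul_le_mul_of_nonneg_left a2 ha
  nlinarith

/-- (4) dependence on `b` -/
theorem lip_b [Nonempty ι] (hT : Contr T) (hT0 : T 0 = 0) (hP : Prof σ β χ A t)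
    (hY : YHyp Yt C0 rz (2 * s1) om) (hC : CHyp C0 s1 t c r0 rz om)
    (hz : ‖z0‖ ≤ c * t) (hu : ‖u0‖ ≤ c * t ^ 2) {b b' : W} (hb : ‖b‖ ≤ s1) (hb' : ‖b'‖ ≤ s1)
    {V V' : ι → W} (hV : BSol T Yt β χ s1 r0 z0 u0 b 1 1 V)
    (hV' : BSol T Yt β χ s1 r0 z0 u0 b' 1 1 V') :
    ‖mv V - mv V' - (t ^ 2 / 4) • (b - b')‖ ≤ t ^ 2 / 8 * ‖b - b'‖ := by
  have hC0 := hC.one_le
  have hs1 := hC.s1_pos
  have ht := hC.t_pos
  have h01 : (1 : ℝ) ∈ Set.Icc (0 : ℝ) 1 := ⟨zero_le_one, le_rfl⟩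
  set E : ι → W := fun j => Yt z0 (u0 - T V j) (1 * s1 * β j + r0) -
    Yt z0 (u0 - T V' j) (1 * s1 * β j + r0) with hE
  have hVV : ∀ j, V j - V' j = E j + χ j • (b - b') := by
    intro j
    rw [hV j, hV' j, hE, smul_sub, one_mul (χ j)]
    simp only
    abel
  have k1 : ∀ j, ‖E j‖ ≤ 1 / 64 * ‖T V j - T V' j‖ := by
    intro j
    obtain ⟨m1, m2, m3⟩ := s_mem hP hC h01 j
    refine (hY.lip z0 _ _ _ (hz.trans hC.ct_le) m1 m2).trans (le_of_eq ?_)
    rw [sub_sub_sub_cancel_left, norm_sub_rev]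
  have k2 : ∀ j, j ∉ A → ‖E j‖ ≤ ((2 * C0 * ‖z0‖ + om r0) +
      C0 * (‖u0 - T V j‖ + ‖u0 - T V' j‖)) * ‖T V j - T V' j‖ := by
    intro j hj
    obtain ⟨m1, m2, m3⟩ := s_mem hP hC h01 j
    have hs : 1 * s1 * β j + r0 = r0 := by rw [hP.offA j hj]; ring
    simp only [hE]
    rw [hs] at m1 m2 ⊢
    refine (hY.lip' z0 _ _ _ (hz.trans hC.ct_le) m1 m2).trans (le_of_eq ?_)
    rw [sub_sub_sub_cancel_left, norm_sub_rev (T V' j)]
    ring
  have hom : 0 ≤ om r0 := hY.om_nonneg r0 hC.r0_nonneg (by linarith [hC.r0_le])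
  have ha : 0 ≤ 2 * C0 * ‖z0‖ + om r0 := by positivity
  have k3 := mn_E_le hP hC E (fun j => T V j - T V' j) (fun j => u0 - T V j)
    (fun j => u0 - T V' j) _ ha k1 k2
  have k4 := size_u hT hT0 hP hY hC hz hu hb h01 h01 hV
  have k5 := size_u hT hT0 hP hY hC hz hu hb' h01 h01 hV'
  -- `n2 (V - V')`
  have k6 : n2 (fun j => V j - V' j) ≤ 64 / 63 * (‖b - b'‖ * (t / 2)) := by
    have e1 : ∀ j, ‖(fun j => V j - V' j) j‖ ≤ 1 / 64 * ‖(fun j => T V j - T V' j) j‖ +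
        ‖b - b'‖ * χ j := by
      intro j
      simp only
      rw [hVV j]
      refine (norm_add_le _ _).trans ?_
      have := k1 j
      rw [norm_smul, Real.norm_of_nonneg (hP.χ0 j), mul_comm (χ j)]
      linarith
    have e2 := n2_absorb (by norm_num : (0 : ℝ) ≤ 1 / 64) (by norm_num)
      (fun j => mul_nonneg (norm_nonneg _) (hP.χ0 j)) e1 (hT V V')
    have e3 : (1 - 1 / 64 : ℝ)⁻¹ = 64 / 63 := by norm_num
    rw [e3, n2_mul_const _ (norm_nonneg _)] at e2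
    refine e2.trans ?_
    gcongr
    exact hP.n2χ
  have k7 := hT V V'
  have k8 : mv V - mv V' - (t ^ 2 / 4) • (b - b') = mv E := by
    rw [← mv_sub]
    have : (fun j => V j - V' j) = fun j => E j + χ j • (b - b') := funext hVV
    rw [this, mv_add, mv_smul_const, hP.mnχ]
    abel
  rw [k8]
  refine (norm_mv_le E).trans (k3.trans ?_)
  have q1 : 2 * C0 * ‖z0‖ ≤ 2 / 300 * t := by
    have : C0 * c ≤ 1 / 300 := (mul_le_mul_of_nonneg_left hC.c_le_s1 (by linarith)).trans hC.C0s1_le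
    have h' : 2 * C0 * ‖z0‖ ≤ 2 * C0 * (c * t) := by gcongr
    nlinarith
  have q2 : om r0 ≤ 1 / 300 * t := hC.om_r0.trans (by have := hC.s1_le; gcongr)
  have q3 : C0 * (n2 (fun j => u0 - T V j) + n2 (fun j => u0 - T V' j)) ≤ 6 / 300 * t := by
    have e1 : C0 * (n2 (fun j => u0 - T V j) + n2 (fun j => u0 - T V' j)) ≤
        C0 * (6 * C0 * s1 * t) := by
      gcongr
      linarith
    have e2 : C0 * (6 * C0 * s1 * t) = 6 * (C0 ^ 2 * s1) * t := by ring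
    have e3 : C0 ^ 2 * s1 ≤ 1 / 300 := by
      have := hC.s1_small
      linarith
    rw [e2] at e1
    nlinarith
  have q4 : 0 ≤ ‖b - b'‖ := norm_nonneg _
  have q5 : n2 (fun j => T V j - T V' j) ≤ 64 / 63 * (‖b - b'‖ * (t / 2)) := k7.trans k6
  have q6 := n2_nonneg (fun j => T V j - T V' j)
  calc (1 / 64 * (3 / 2 * t) + (2 * C0 * ‖z0‖ + om r0) +
        C0 * (n2 (fun j => u0 - T V j) + n2 (fun j => u0 - T V' j))) *
        n2 (fun j => T V j - T V' j)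
      ≤ (1 / 10 * t) * (64 / 63 * (‖b - b'‖ * (t / 2))) := by
        apply mul_le_mul _ q5 q6 (by positivity)
        linarith
    _ ≤ t ^ 2 / 8 * ‖b - b'‖ := by
        have : 0 ≤ ‖b - b'‖ * t ^ 2 := by positivity
        nlinarith

/-- (5) dependence on `(z0, u0)` -/
theorem dep_zu [Nonempty ι] (hT : Contr T) (hT0 : T 0 = 0) (hP : Prof σ β χ A t)
    (hY : YHyp Yt C0 rz (2 * s1) om) (hC : CHyp C0 s1 t c r0 rz om)
    (hz : ‖z0‖ ≤ c * t) (hu : ‖u0‖ ≤ c * t ^ 2) {b : W} (hb : ‖b‖ ≤ s1)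
    {V V' : ι → W} (hV : BSol T Yt β χ s1 r0 z0 u0 b 1 1 V)
    (hV' : BSol T Yt β χ s1 r0 0 0 b 1 1 V') :
    ‖mv V - mv V'‖ ≤ c * t ^ 2 := by
  classical
  have hC0 := hC.one_le
  have hs1 := hC.s1_pos
  have ht := hC.t_pos
  have hc := hC.c_nonneg
  have h01 : (1 : ℝ) ∈ Set.Icc (0 : ℝ) 1 := ⟨zero_le_one, le_rfl⟩
  have hrz : 0 ≤ rz := (mul_nonneg hc ht.le).trans hC.ct_le
  have hz' : ‖(0 : Z)‖ ≤ c * t := by rw [norm_zero]; positivity
  have hu' : ‖(0 : W)‖ ≤ c * t ^ 2 := by rw [norm_zero]; positivity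
  have hom : 0 ≤ om r0 := hY.om_nonneg r0 hC.r0_nonneg (by linarith [hC.r0_le])
  have k4 := size_u hT hT0 hP hY hC hz' hu' hb h01 h01 hV'
  set u' : ι → W := fun j => (0 : W) - T V' j with hu'def
  set g : ι → ℝ := fun j => (1 / 64 * ‖u0‖ + C0 * ‖z0‖ ^ 2 + om r0 * ‖z0‖) +
    (2 * C0 * ‖z0‖ * ‖u' j‖ + 1 / 64 * ‖z0‖ * (if j ∈ A then 1 else 0)) with hg
  have hg0 : ∀ j, 0 ≤ g j := by
    intro j
    have : (0 : ℝ) ≤ if j ∈ A then 1 else 0 := by split_ifs <;> norm_num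
    simp only [hg]
    positivity
  have k1 : ∀ j, ‖(fun j => V j - V' j) j‖ ≤ 1 / 64 * ‖(fun j => T V j - T V' j) j‖ + g j := by
    intro j
    simp only
    obtain ⟨m1, m2, m3⟩ := s_mem hP hC h01 j
    have e0 : V j - V' j = (Yt z0 (u0 - T V j) (1 * s1 * β j + r0) -
        Yt z0 (u' j) (1 * s1 * β j + r0)) +
        (Yt z0 (u' j) (1 * s1 * β j + r0) - Yt 0 (u' j) (1 * s1 * β j + r0)) := by
      rw [hV j, hV' j]
      abel
    rw [e0]
    refine (norm_add_le _ _).trans ?_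
    have e1 := hY.lip z0 (u0 - T V j) (u' j) _ (hz.trans hC.ct_le) m1 m2
    have e2 := hY.lipz z0 (u' j) _ (hz.trans hC.ct_le) m1 m2
    have e3 : ‖u0 - T V j - u' j‖ ≤ ‖u0‖ + ‖T V j - T V' j‖ := by
      have : u0 - T V j - u' j = u0 - (T V j - T V' j) := by
        simp only [hu'def]
        abel
      rw [this]
      exact norm_sub_le _ _
    have e4 : om (1 * s1 * β j + r0) * ‖z0‖ ≤
        om r0 * ‖z0‖ + 1 / 64 * ‖z0‖ * (if j ∈ A then 1 else 0) := by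
      by_cases hj : j ∈ A
      · rw [if_pos hj]
        have := mul_le_mul_of_nonneg_right (hY.om_le _ m1 m2) (norm_nonneg z0)
        have := mul_nonneg hom (norm_nonneg z0)
        linarith
      · have hs : 1 * s1 * β j + r0 = r0 := by rw [hP.offA j hj]; ring
        rw [if_neg hj, hs]
        linarith
    have e5 : (C0 * (‖z0‖ + 2 * ‖u' j‖) + om (1 * s1 * β j + r0)) * ‖z0‖ =
        C0 * ‖z0‖ ^ 2 + 2 * C0 * ‖z0‖ * ‖u' j‖ + om (1 * s1 * β j + r0) * ‖z0‖ := by ring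
    rw [e5] at e2
    simp only [hg]
    linarith
  have k2 := n2_absorb (by norm_num : (0 : ℝ) ≤ 1 / 64) (by norm_num) hg0 k1 (hT V V')
  have e3 : (1 - 1 / 64 : ℝ)⁻¹ = 64 / 63 := by norm_num
  rw [e3] at k2
  have k3 : n2 g ≤ (1 / 64 * ‖u0‖ + C0 * ‖z0‖ ^ 2 + om r0 * ‖z0‖) +
      (2 * C0 * ‖z0‖ * n2 u' + 1 / 64 * ‖z0‖ * (3 / 2 * t)) := by
    have hcn : 0 ≤ 1 / 64 * ‖u0‖ + C0 * ‖z0‖ ^ 2 + om r0 * ‖z0‖ := by positivity
    refine (n2_add_le (fun _ : ι => 1 / 64 * ‖u0‖ + C0 * ‖z0‖ ^ 2 + om r0 * ‖z0‖) _).trans ?_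
    rw [n2_const, Real.norm_of_nonneg hcn]
    gcongr
    refine (n2_add_le _ _).trans ?_
    rw [n2_mul_const _ (by positivity), n2_mul_const _ (by positivity), n2_norm]
    gcongr
    have : n2 (fun j : ι => if j ∈ A then (1 : ℝ) else 0) =
        Real.sqrt ((A.card : ℝ) / (Fintype.card ι : ℝ)) := by
      unfold n2
      congr 2
      have : ∀ j : ι, ‖(if j ∈ A then (1 : ℝ) else 0)‖ ^ 2 = if j ∈ A then 1 else 0 := by
        intro j
        split_ifs <;> simp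
      simp only [this]
      simp
    rw [this]
    exact hP.cardA
  have k5 : ‖mv V - mv V'‖ ≤ n2 (fun j => V j - V' j) := by
    rw [← mv_sub]
    exact norm_mean_le_n2 _
  -- numerics
  have q1 : C0 * ‖z0‖ ^ 2 ≤ 1 / 300 * (c * t ^ 2) := by
    have a1 : ‖z0‖ ^ 2 ≤ (c * t) ^ 2 := pow_le_pow_left₀ (norm_nonneg z0) hz 2
    have a2 : C0 * c ≤ 1 / 300 := (mul_le_mul_of_nonneg_left hC.c_le_s1 (by linarith)).trans hC.C0s1_le
    have a3 : C0 * ‖z0‖ ^ 2 ≤ C0 * (c * t) ^ 2 := by gcongr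
    have a4 : C0 * (c * t) ^ 2 = (C0 * c) * (c * t ^ 2) := by ring
    rw [a4] at a3
    have a5 : 0 ≤ c * t ^ 2 := by positivity
    nlinarith
  have q2 : om r0 * ‖z0‖ ≤ 1 / 300 * (c * t ^ 2) := by
    have a1 : om r0 ≤ 1 / 300 * t := hC.om_r0.trans (by have := hC.s1_le; gcongr)
    calc om r0 * ‖z0‖ ≤ (1 / 300 * t) * (c * t) := by
          apply mul_le_mul a1 hz (norm_nonneg _) (by positivity)
      _ = 1 / 300 * (c * t ^ 2) := by ring
  have q3 : 2 * C0 * ‖z0‖ * n2 u' ≤ 6 / 300 * (c * t ^ 2) := by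
    calc 2 * C0 * ‖z0‖ * n2 u' ≤ 2 * C0 * (c * t) * (3 * C0 * s1 * t) := by
          apply mul_le_mul _ k4 (n2_nonneg _) (by positivity)
          gcongr
      _ = 6 * (C0 ^ 2 * s1) * (c * t ^ 2) := by ring
      _ ≤ 6 / 300 * (c * t ^ 2) := by
          have e3 : C0 ^ 2 * s1 ≤ 1 / 300 := by
            have := hC.s1_small
            linarith
          have a5 : 0 ≤ c * t ^ 2 := by positivity
          nlinarith
  have q4 : 1 / 64 * ‖z0‖ * (3 / 2 * t) ≤ 3 / 128 * (c * t ^ 2) := by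
    calc 1 / 64 * ‖z0‖ * (3 / 2 * t) ≤ 1 / 64 * (c * t) * (3 / 2 * t) := by gcongr
      _ = 3 / 128 * (c * t ^ 2) := by ring
  have q5 : 0 ≤ c * t ^ 2 := by positivity
  linarith

/-- (6) size of the centre `mean V[0,0,0]` -/
theorem mv_zero_le [Nonempty ι] (hT : Contr T) (hT0 : T 0 = 0) (hP : Prof σ β χ A t)
    (hY : YHyp Yt C0 rz (2 * s1) om) (hC : CHyp C0 s1 t c r0 rz om)
    {V : ι → W} (hV : BSol T Yt β χ s1 r0 0 0 0 1 1 V) :
    ‖mv V‖ ≤ C0 * t ^ 2 := by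
  have hC0 := hC.one_le
  have hs1 := hC.s1_pos
  have ht := hC.t_pos
  have hc := hC.c_nonneg
  have h01 : (1 : ℝ) ∈ Set.Icc (0 : ℝ) 1 := ⟨zero_le_one, le_rfl⟩
  have hz' : ‖(0 : Z)‖ ≤ c * t := by rw [norm_zero]; positivity
  have hu' : ‖(0 : W)‖ ≤ c * t ^ 2 := by rw [norm_zero]; positivity
  have hb' : ‖(0 : W)‖ ≤ s1 := by rw [norm_zero]; exact hs1.le
  have k4 := size_u hT hT0 hP hY hC hz' hu' hb' h01 h01 hV
  have k1 : ∀ j, ‖V j‖ ≤ C0 * (‖(0 : W) - T V j‖ * ‖(0 : W) - T V j‖) + (C0 * s1 * β j + C0 * r0) := by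
    intro j
    obtain ⟨m1, m2, m3⟩ := s_mem hP hC h01 j
    have e := hV j
    rw [smul_zero, add_zero] at e
    rw [e]
    refine (hY.size0 _ _ m1 m2).trans (le_of_eq ?_)
    ring
  refine (norm_mv_le V).trans ((mn_mono k1).trans ?_)
  rw [mn_add, mn_add, mn_mul_const, mn_mul_const]
  have a1 := mn_mul_le (fun j => (0 : W) - T V j) (fun j => (0 : W) - T V j)
  have a2 : mn (fun _ : ι => C0 * r0) = C0 * r0 := by
    have hN : (Fintype.card ι : ℝ) ≠ 0 := by exact_mod_cast Fintype.card_ne_zero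
    simp [mn, hN]
  rw [a2]
  have a3 : n2 (fun j => (0 : W) - T V j) * n2 (fun j => (0 : W) - T V j) ≤
      (3 * C0 * s1 * t) * (3 * C0 * s1 * t) :=
    mul_le_mul k4 k4 (n2_nonneg _) (by positivity)
  have a4 : C0 * mn (fun j => ‖(0 : W) - T V j‖ * ‖(0 : W) - T V j‖) ≤
      C0 * ((3 * C0 * s1 * t) * (3 * C0 * s1 * t)) := by
    gcongr
    exact a1.trans a3
  have a5 : C0 * s1 * mn β ≤ C0 * s1 * t ^ 2 := by
    gcongr
    exact hP.mnβ
  have a6 : C0 * r0 ≤ C0 * t ^ 4 := by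
    have := hC.r0_le_t4
    gcongr
  have b1 : (C0 * s1) ^ 2 ≤ 1 / 300 * (1 / 300) := by
    have := hC.C0s1_le
    have h0 : 0 ≤ C0 * s1 := by positivity
    nlinarith
  have b2 : C0 * ((3 * C0 * s1 * t) * (3 * C0 * s1 * t)) = 9 * (C0 * s1) ^ 2 * (C0 * t ^ 2) := by
    ring
  have b3 : C0 * s1 * t ^ 2 ≤ 1 / 300 * (C0 * t ^ 2) := by
    have := hC.s1_le
    have h0 : 0 ≤ C0 * t ^ 2 := by positivity
    nlinarith
  have b4 : C0 * t ^ 4 ≤ 1 / 300 * (C0 * t ^ 2) := by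
    have := hC.t_le
    have h0 : 0 ≤ C0 * t ^ 2 := by positivity
    have h1 : t ^ 2 ≤ 1 / 300 := by nlinarith
    have h2 : C0 * t ^ 4 = t ^ 2 * (C0 * t ^ 2) := by ring
    rw [h2]
    nlinarith
  have b5 : 0 ≤ C0 * t ^ 2 := by positivity
  rw [b2] at a4
  nlinarith

end

end Crest.Agent.R264.Bsh
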