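import Crest.Agent.R264.BshDat

/-!
Row 264, Part B (helper747): `clamp` and the proof of `YOK`.
-/

set_option autoImplicit false

open Topology Filter Set

namespace Crest.Agent.R264.BshM

open Crest.Agent.R264.Bsh

variable {k : ℕ}

/-- coordinatewise clamp to `[-r, r]` -/
noncomputable def clamp (r : ℝ) (u : Fin k → ℝ) : Fin k → ℝ := fun i => max (-r) (min r (u i))

lemma clamp_norm_le {r : ℝ} (hr : 0 ≤ r) (u : Fin k → ℝ) : ‖clamp r u‖ ≤ r := by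
  rw [pi_norm_le_iff_of_nonneg hr]
  intro i
  rw [Real.norm_eq_abs, abs_le]
  constructor
  · exact le_max_left _ _
  · exact max_le (by linarith) (min_le_left _ _)

lemma abs_clamp1 (r x y : ℝ) : |max (-r) (min r x) - max (-r) (min r y)| ≤ |x - y| := by
  have h1 : |max (-r) (min r x) - max (-r) (min r y)| ≤ |min r x - min r y| := by
    have := abs_max_sub_max_le_max (-r) (min r x) (-r) (min r y)
    simpa using this
  have h2 : |min r x - min r y| ≤ |x - y| := by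
    have := abs_min_sub_min_le_max r x r y
    simpa using this
  exact h1.trans h2

lemma clamp_sub_le (r : ℝ) (u u' : Fin k → ℝ) : ‖clamp r u - clamp r u'‖ ≤ ‖u - u'‖ := by
  rw [pi_norm_le_iff_of_nonneg (norm_nonneg _)]
  intro i
  have := norm_le_pi_norm (u - u') i
  rw [Real.norm_eq_abs] at this ⊢
  exact (abs_clamp1 r (u i) (u' i)).trans this

lemma clamp_zero {r : ℝ} (hr : 0 ≤ r) : clamp r (0 : Fin k → ℝ) = 0 := by
  ext i
  simp [clamp, hr]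

lemma clamp_norm_le' {r : ℝ} (hr : 0 ≤ r) (u : Fin k → ℝ) : ‖clamp r u‖ ≤ ‖u‖ := by
  have := clamp_sub_le r u 0
  rwa [clamp_zero hr, sub_zero, sub_zero] at this

lemma clamp_eq {r : ℝ} {u : Fin k → ℝ} (hu : ‖u‖ ≤ r) : clamp r u = u := by
  ext i
  have h := (norm_le_pi_norm u i).trans hu
  rw [Real.norm_eq_abs, abs_le] at h
  simp [clamp, h.1, h.2]

lemma clamp_lt {r ρ : ℝ} (hr : 0 ≤ r) (hrρ : r < ρ) (u : Fin k → ℝ) : ‖clamp r u‖ < ρ :=
  (clamp_norm_le hr u).trans_lt hrρ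

lemma yok_of {Z : Type*} [NormedAddCommGroup Z]
    (H : Z → (Fin k → ℝ) → (Fin k → ℝ))
    (vv : Z → (Fin k → ℝ) → ℝ → (Fin k → ℝ)) (om : ℝ → ℝ) (ρ s₀ C₀ ε r s₁ : ℝ)
    (hρ : 0 < ρ) (hC₀ : 0 ≤ C₀)
    (hH0 : H 0 0 = 0)
    (hH : ∀ z z' u u', ‖z‖ < ρ → ‖z'‖ < ρ → ‖u‖ < ρ → ‖u'‖ < ρ →
      ‖H z u - H z' u'‖ ≤ C₀ * (‖z‖ + ‖z'‖ + ‖u‖ + ‖u'‖) * (‖z - z'‖ + ‖u - u'‖))
    (hv0 : ∀ z u, ‖z‖ < ρ → ‖u‖ < ρ → vv z u 0 = 0)
    (hv1 : ∀ z z' u u' s, ‖z‖ < ρ → ‖z'‖ < ρ → ‖u‖ < ρ → ‖u'‖ < ρ → 0 ≤ s → s ≤ s₀ →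
      ‖vv z u s - vv z' u' s‖ ≤ om s * (‖z - z'‖ + ‖u - u'‖))
    (hv2 : ∀ z u s s', ‖z‖ < ρ → ‖u‖ < ρ → 0 ≤ s → s ≤ s₀ → 0 ≤ s' → s' ≤ s₀ →
      ‖vv z u s - vv z u s'‖ ≤ C₀ * |s - s'|)
    (hε : 0 < ε) (hε' : 100 * ((k : ℝ) + 1) * ε ≤ 1) (hr : 0 < r) (hrρ : r < ρ)
    (hrC : 8 * C₀ * r ≤ ε) (hs₁ : 0 < s₁) (hs₁' : 2 * s₁ ≤ s₀)
    (hom : ∀ s, 0 ≤ s → s ≤ 2 * s₁ → om s ≤ ε / 2) :
    YOK (fun z u s => H z (clamp r u) + vv z (clamp r u) s) (fun s => max (om s) 0)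
      C₀ ε r s₁ := by
  have hom' : ∀ s, 0 ≤ s → s ≤ 2 * s₁ → max (om s) 0 ≤ ε / 2 := fun s h1 h2 =>
    max_le (hom s h1 h2) (by linarith)
  -- basic difference estimate
  have key : ∀ z z' u u' s, ‖z‖ ≤ r → ‖z'‖ ≤ r → 0 ≤ s → s ≤ 2 * s₁ →
      ‖(H z (clamp r u) + vv z (clamp r u) s) - (H z' (clamp r u') + vv z' (clamp r u') s)‖ ≤
        (C₀ * (‖z‖ + ‖z'‖ + ‖clamp r u‖ + ‖clamp r u'‖) + max (om s) 0) *
          (‖z - z'‖ + ‖clamp r u - clamp r u'‖) := by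
    intro z z' u u' s hz hz' h0 h1
    have e1 := hH z z' (clamp r u) (clamp r u') (by linarith) (by linarith)
      (clamp_lt hr.le hrρ u) (clamp_lt hr.le hrρ u')
    have e2 := hv1 z z' (clamp r u) (clamp r u') s (by linarith) (by linarith)
      (clamp_lt hr.le hrρ u) (clamp_lt hr.le hrρ u') h0 (by linarith)
    have e3 : om s * (‖z - z'‖ + ‖clamp r u - clamp r u'‖) ≤
        max (om s) 0 * (‖z - z'‖ + ‖clamp r u - clamp r u'‖) :=
      mul_le_mul_of_nonneg_right (le_max_left _ _) (by positivity)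
    have e4 : (H z (clamp r u) + vv z (clamp r u) s) - (H z' (clamp r u') + vv z' (clamp r u') s) =
        (H z (clamp r u) - H z' (clamp r u')) + (vv z (clamp r u) s - vv z' (clamp r u') s) := by
      abel
    rw [e4]
    refine (norm_add_le _ _).trans ?_
    nlinarith [e1, e2, e3]
  refine ⟨hC₀, hε, hε', hr, hs₁, fun s _ _ => le_max_right _ _, fun s h1 h2 => ?_, ?_, ?_, ?_, ?_,
    ?_, ?_⟩
  · exact (hom' s h1 h2).trans (by linarith)
  · intro z u u' s hz h0 h1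
    have h := key z z u u' s hz hz h0 h1
    rw [sub_self, norm_zero, zero_add] at h
    have c1 := clamp_norm_le hr.le u
    have c2 := clamp_norm_le hr.le u'
    have c3 := clamp_sub_le r u u'
    have c4 := hom' s h0 h1
    refine h.trans ?_
    have c5 : C₀ * (‖z‖ + ‖z‖ + ‖clamp r u‖ + ‖clamp r u'‖) ≤ C₀ * (4 * r) :=
      mul_le_mul_of_nonneg_left (by linarith) hC₀
    have c6 : C₀ * (‖z‖ + ‖z‖ + ‖clamp r u‖ + ‖clamp r u'‖) + max (om s) 0 ≤ ε := by linarith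
    exact mul_le_mul c6 c3 (norm_nonneg _) hε.le
  · intro z u u' s hz h0 h1
    have h := key z z u u' s hz hz h0 h1
    rw [sub_self, norm_zero, zero_add] at h
    have c1 := clamp_norm_le' hr.le u
    have c2 := clamp_norm_le' hr.le u'
    have c3 := clamp_sub_le r u u'
    refine h.trans ?_
    have c5 : C₀ * (‖z‖ + ‖z‖ + ‖clamp r u‖ + ‖clamp r u'‖) ≤ C₀ * (2 * ‖z‖ + ‖u‖ + ‖u'‖) :=
      mul_le_mul_of_nonneg_left (by linarith) hC₀
    have c7 : 0 ≤ C₀ * (2 * ‖z‖ + ‖u‖ + ‖u'‖) + max (om s) 0 := by positivity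
    exact mul_le_mul (by linarith) c3 (norm_nonneg _) c7
  · intro z u s s' hz h0 h1 h0' h1'
    have e := hv2 z (clamp r u) s s' (by linarith) (clamp_lt hr.le hrρ u) h0 (by linarith) h0'
      (by linarith)
    have e4 : (H z (clamp r u) + vv z (clamp r u) s) - (H z (clamp r u) + vv z (clamp r u) s') =
        vv z (clamp r u) s - vv z (clamp r u) s' := by abel
    show ‖(H z (clamp r u) + vv z (clamp r u) s) - (H z (clamp r u) + vv z (clamp r u) s')‖ ≤ _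
    rw [e4]
    exact e
  · intro z u s hz h0 h1
    have h := key z 0 u u s hz (by simpa using hr.le) h0 h1
    rw [sub_self, norm_zero, sub_zero] at h
    have c1 := clamp_norm_le' hr.le u
    refine h.trans ?_
    have c5 : C₀ * (‖z‖ + 0 + ‖clamp r u‖ + ‖clamp r u‖) ≤ C₀ * (‖z‖ + 2 * ‖u‖) :=
      mul_le_mul_of_nonneg_left (by linarith) hC₀
    rw [norm_zero, add_zero]
    apply mul_le_mul_of_nonneg_right _ (norm_nonneg _)
    rw [add_zero] at c5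
    linarith
  · intro z u s hz h0 h1
    have c0 := clamp_norm_le hr.le u
    have c1 := clamp_norm_le' hr.le u
    have e1 := hH z 0 (clamp r u) 0 (by linarith) (by simpa using hρ)
      (clamp_lt hr.le hrρ u) (by simpa using hρ)
    rw [hH0, sub_zero, sub_zero, sub_zero, norm_zero, norm_zero] at e1
    have e2 := hv2 z (clamp r u) s 0 (by linarith) (clamp_lt hr.le hrρ u) h0 (by linarith) le_rfl
      (by linarith)
    rw [hv0 z (clamp r u) (by linarith) (clamp_lt hr.le hrρ u), sub_zero, sub_zero,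
      abs_of_nonneg h0] at e2
    show ‖H z (clamp r u) + vv z (clamp r u) s‖ ≤ _
    refine (norm_add_le _ _).trans ?_
    have c6 : ‖clamp r u‖ ^ 2 ≤ r * ‖u‖ := by
      rw [pow_two]; exact mul_le_mul c0 c1 (norm_nonneg _) hr.le
    have c7 : 2 * C₀ * ‖clamp r u‖ ^ 2 ≤ ε * ‖u‖ := by
      calc 2 * C₀ * ‖clamp r u‖ ^ 2 ≤ 2 * C₀ * (r * ‖u‖) :=
            mul_le_mul_of_nonneg_left c6 (by positivity)
        _ = (2 * C₀ * r) * ‖u‖ := by ring
        _ ≤ ε * ‖u‖ := by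
            apply mul_le_mul_of_nonneg_right _ (norm_nonneg _)
            nlinarith [mul_nonneg hC₀ hr.le]
    have c8 : C₀ * (‖z‖ + 0 + ‖clamp r u‖ + 0) * (‖z‖ + ‖clamp r u‖) ≤
        2 * C₀ * ‖z‖ ^ 2 + 2 * C₀ * ‖clamp r u‖ ^ 2 := by
      nlinarith [mul_nonneg hC₀ (sq_nonneg (‖z‖ - ‖clamp r u‖))]
    linarith
  · intro u s h0 h1
    have c1 := clamp_norm_le' hr.le u
    have e1 := hH 0 0 (clamp r u) 0 (by simpa using hρ) (by simpa using hρ)
      (clamp_lt hr.le hrρ u) (by simpa using hρ)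
    rw [hH0, sub_zero, sub_zero, sub_zero, norm_zero, norm_zero] at e1
    have e2 := hv2 0 (clamp r u) s 0 (by simpa using hρ) (clamp_lt hr.le hrρ u) h0 (by linarith)
      le_rfl (by linarith)
    rw [hv0 0 (clamp r u) (by simpa using hρ) (clamp_lt hr.le hrρ u), sub_zero, sub_zero,
      abs_of_nonneg h0] at e2
    show ‖H 0 (clamp r u) + vv 0 (clamp r u) s‖ ≤ _
    refine (norm_add_le _ _).trans ?_
    have c6 : ‖clamp r u‖ ^ 2 ≤ ‖u‖ ^ 2 := pow_le_pow_left₀ (norm_nonneg _) c1 2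
    have c7 : C₀ * ‖clamp r u‖ ^ 2 ≤ C₀ * ‖u‖ ^ 2 := mul_le_mul_of_nonneg_left c6 hC₀
    nlinarith [e1, e2, c7]

end Crest.Agent.R264.BshM
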