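import Crest.Agent.R264.BshDat
import Crest.Agent.R264.BshNorm

/-!
Row 264, Part B (helper747): the polynomial discs.
-/

set_option autoImplicit false

open Topology Filter Set

namespace Crest.Agent.R264.BshM

open Crest.Agent.R264.Bsh Crest.Agent.R264.BshN

variable {M k : ℕ}

/-- the disc `ζ ↦ u₀ + i P_V(ζ)` -/
noncomputable def disc (u₀ : Fin k → ℝ) (V : ZMod (2 * M + 1) → Fin k → ℝ) (ζ : ℂ) : Fin k → ℂ :=
  fun i => (u₀ i : ℂ) + Complex.I * pd (fun j => V j i) ζ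

lemma disc_nd (hT : BisT) (u₀ : Fin k → ℝ) (V : ZMod (2 * M + 1) → Fin k → ℝ)
    (j : ZMod (2 * M + 1)) :
    disc u₀ V (nd M j) = fun i => (((u₀ - cjv V j) i : ℝ) : ℂ) + Complex.I * ((V j i : ℝ) : ℂ) := by
  ext i
  have h1 : pd (fun j => V j i) (nd M j) = ((V j i : ℝ) : ℂ) + ((cjv V j i : ℝ) : ℂ) * Complex.I := by
    apply Complex.ext
    · simp [hT.re_pd]
    · simp [cjv, cj]
  have h2 : Complex.I * Complex.I = -1 := Complex.I_mul_I
  simp only [disc, h1, Pi.sub_apply, Complex.ofReal_sub]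
  linear_combination (cjv V j i : ℂ) * h2

lemma disc_zero (hT : BisT) (u₀ : Fin k → ℝ) (V : ZMod (2 * M + 1) → Fin k → ℝ) :
    disc u₀ V 0 = fun i => (u₀ i : ℂ) + Complex.I * ((mv V i : ℝ) : ℂ) := by
  ext i
  simp only [disc, hT.pd_zero, mv]

lemma disc_const (hT : BisT) (u₀ v : Fin k → ℝ) (ζ : ℂ) :
    disc u₀ (fun _ : ZMod (2 * M + 1) => v) ζ = fun i => (u₀ i : ℂ) + Complex.I * ((v i : ℝ) : ℂ) := by
  ext i
  simp only [disc, hT.pd_const]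

lemma disc_differentiable (u₀ : Fin k → ℝ) (V : ZMod (2 * M + 1) → Fin k → ℝ) :
    Differentiable ℂ (disc u₀ V) := by
  unfold disc pd
  fun_prop

lemma disc_continuous {X : Type*} [TopologicalSpace X] (u₀ : Fin k → ℝ)
    (V : X → ZMod (2 * M + 1) → Fin k → ℝ) (hV : ∀ j i, Continuous (fun x => V x j i)) :
    Continuous (fun p : X × ℂ => disc u₀ (V p.1) p.2) := by
  have hV' : ∀ j i, Continuous (fun p : X × ℂ => V p.1 j i) := fun j i =>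
    (hV j i).comp continuous_fst
  unfold disc pd cf
  fun_prop

lemma disc_norm_le (hT : BisT) {CA : ℝ}
    (hA : ∀ {M : ℕ} (f : ZMod (2 * M + 1) → ℝ) (ζ : ℂ) (τ : ℝ), ‖ζ‖ ≤ 1 →
      0 < τ → τ ≤ 1 → ‖pd f ζ - pd f 0‖ ≤
      CA * (l2s f / Real.sqrt τ +
        (2 * M + 1) * l2s (fun j : ZMod (2 * M + 1) => f (j + 1) - f j) * Real.sqrt τ))
    (hCA : 0 < CA) (u₀ : Fin k → ℝ) (V : ZMod (2 * M + 1) → Fin k → ℝ) (ζ : ℂ) (hζ : ‖ζ‖ ≤ 1)
    {τ : ℝ} (hτ : 0 < τ) (hτ1 : τ ≤ 1) :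
    ‖disc u₀ V ζ‖ ≤ ‖u₀‖ + l2 V + CA * (l2 V / Real.sqrt τ +
      (2 * M + 1) * l2 (fun j : ZMod (2 * M + 1) => V (j + 1) - V j) * Real.sqrt τ) := by
  have hs : 0 < Real.sqrt τ := Real.sqrt_pos.2 hτ
  have hN := Npos M
  have hnn : 0 ≤ ‖u₀‖ + l2 V + CA * (l2 V / Real.sqrt τ +
      (2 * M + 1) * l2 (fun j : ZMod (2 * M + 1) => V (j + 1) - V j) * Real.sqrt τ) := by
    have := l2_nonneg V
    have := l2_nonneg (fun j : ZMod (2 * M + 1) => V (j + 1) - V j)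
    positivity
  rw [pi_norm_le_iff_of_nonneg hnn]
  intro i
  have h1 := hA (fun j => V j i) ζ τ hζ hτ hτ1
  have h2 : ‖pd (fun j => V j i) (0 : ℂ)‖ ≤ l2 V := by
    rw [hT.pd_zero, Complex.norm_real, Real.norm_eq_abs]
    exact (abs_mean_le _).trans (l2s_coord_le V i)
  have h3 := l2s_coord_le V i
  have h4 := l2s_coord_le (fun j : ZMod (2 * M + 1) => V (j + 1) - V j) i
  have h5 : ‖pd (fun j => V j i) ζ‖ ≤ l2 V + CA * (l2 V / Real.sqrt τ +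
      (2 * M + 1) * l2 (fun j : ZMod (2 * M + 1) => V (j + 1) - V j) * Real.sqrt τ) := by
    calc ‖pd (fun j => V j i) ζ‖
        = ‖pd (fun j => V j i) 0 + (pd (fun j => V j i) ζ - pd (fun j => V j i) 0)‖ := by
          congr 1; ring
      _ ≤ ‖pd (fun j => V j i) (0 : ℂ)‖ + ‖pd (fun j => V j i) ζ - pd (fun j => V j i) 0‖ :=
          norm_add_le _ _
      _ ≤ l2 V + CA * (l2 V / Real.sqrt τ +
          (2 * M + 1) * l2 (fun j : ZMod (2 * M + 1) => V (j + 1) - V j) * Real.sqrt τ) := by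
          refine add_le_add h2 (h1.trans ?_)
          apply mul_le_mul_of_nonneg_left _ hCA.le
          apply add_le_add
          · exact div_le_div_of_nonneg_right h3 hs.le
          · apply mul_le_mul_of_nonneg_right _ hs.le
            exact mul_le_mul_of_nonneg_left h4 hN.le
  have h6 : ‖(u₀ i : ℂ)‖ ≤ ‖u₀‖ := by
    rw [Complex.norm_real]; exact norm_le_pi_norm u₀ i
  calc ‖disc u₀ V ζ i‖ ≤ ‖(u₀ i : ℂ)‖ + ‖Complex.I * pd (fun j => V j i) ζ‖ := norm_add_le _ _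
    _ ≤ ‖u₀‖ + (l2 V + CA * (l2 V / Real.sqrt τ +
      (2 * M + 1) * l2 (fun j : ZMod (2 * M + 1) => V (j + 1) - V j) * Real.sqrt τ)) := by
        rw [norm_mul, Complex.norm_I, one_mul]
        exact add_le_add h6 h5
    _ = _ := by ring

lemma disc_holder {CH : ℝ}
    (hH : ∀ {M : ℕ} (f : ZMod (2 * M + 1) → ℝ) (ζ ζ' : ℂ), ‖ζ‖ ≤ 1 → ‖ζ'‖ ≤ 1 →
      ‖pd f ζ - pd f ζ'‖ ≤ CH * ((2 * M + 1) *
        l2s (fun j : ZMod (2 * M + 1) => f (j + 1) - f j)) * Real.sqrt ‖ζ - ζ'‖)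
    (hCH : 0 < CH) (u₀ : Fin k → ℝ) (V : ZMod (2 * M + 1) → Fin k → ℝ) (ζ ζ' : ℂ) (hζ : ‖ζ‖ ≤ 1)
    (hζ' : ‖ζ'‖ ≤ 1) :
    ‖disc u₀ V ζ - disc u₀ V ζ'‖ ≤ CH * ((2 * M + 1) *
      l2 (fun j : ZMod (2 * M + 1) => V (j + 1) - V j)) * Real.sqrt ‖ζ - ζ'‖ := by
  have hN := Npos M
  have hl := l2_nonneg (fun j : ZMod (2 * M + 1) => V (j + 1) - V j)
  rw [pi_norm_le_iff_of_nonneg (by positivity)]
  intro i
  have h1 := hH (fun j => V j i) ζ ζ' hζ hζ'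
  have h4 := l2s_coord_le (fun j : ZMod (2 * M + 1) => V (j + 1) - V j) i
  have e : (disc u₀ V ζ - disc u₀ V ζ') i =
      Complex.I * (pd (fun j => V j i) ζ - pd (fun j => V j i) ζ') := by
    simp only [disc, Pi.sub_apply]; ring
  rw [e, norm_mul, Complex.norm_I, one_mul]
  refine h1.trans ?_
  apply mul_le_mul_of_nonneg_right _ (Real.sqrt_nonneg _)
  apply mul_le_mul_of_nonneg_left _ hCH.le
  exact mul_le_mul_of_nonneg_left h4 hN.le

end Crest.Agent.R264.BshM
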