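import Crest.Agent.R264.BshM1
import Crest.Agent.R264.BshM2

/-!
Row 264, Part B (helper747): the family of discs and the Kontinuitaetssatz sweep (step (3)).
-/

set_option autoImplicit false

open Topology Filter Set

namespace Crest.Agent.R264.BshM

open Crest.Agent.R264.Bsh Crest.Agent.R264.BshN

/-- first stage parameter -/
noncomputable def lamF (x : ℝ) : ℝ := min 1 (max 0 (2 * x))
/-- second stage parameter -/
noncomputable def muF (x : ℝ) : ℝ := min 1 (max 0 (2 * x - 1))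

lemma lamF_nonneg (x : ℝ) : 0 ≤ lamF x := le_min zero_le_one (le_max_left _ _)
lemma lamF_le (x : ℝ) : lamF x ≤ 1 := min_le_left _ _
lemma muF_nonneg (x : ℝ) : 0 ≤ muF x := le_min zero_le_one (le_max_left _ _)
lemma muF_le (x : ℝ) : muF x ≤ 1 := min_le_left _ _
lemma lamF_zero : lamF 0 = 0 := by simp [lamF]
lemma muF_zero : muF 0 = 0 := by simp [muF]
lemma lamF_one : lamF 1 = 1 := by norm_num [lamF]
lemma muF_one : muF 1 = 1 := by norm_num [muF]

lemma lamF_eq_one {x : ℝ} (h : 0 < muF x) : lamF x = 1 := by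
  have h1 : 0 < 2 * x - 1 := by
    by_contra hc
    push Not at hc
    have : muF x = 0 := by rw [muF, max_eq_left hc]; simp
    linarith
  rw [lamF]
  apply min_eq_left
  exact le_max_of_le_right (by linarith)

lemma lamF_lip (x y : ℝ) : |lamF x - lamF y| ≤ 2 * |x - y| := by
  have h1 : |min 1 (max 0 (2 * x)) - min 1 (max 0 (2 * y))| ≤ |max 0 (2 * x) - max 0 (2 * y)| := by
    have := abs_min_sub_min_le_max 1 (max 0 (2 * x)) 1 (max 0 (2 * y))
    simpa using this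
  have h2 : |max 0 (2 * x) - max 0 (2 * y)| ≤ |2 * x - 2 * y| := by
    have := abs_max_sub_max_le_max 0 (2 * x) 0 (2 * y)
    simpa using this
  refine (h1.trans h2).trans (le_of_eq ?_)
  rw [← mul_sub, abs_mul]; norm_num

lemma muF_lip (x y : ℝ) : |muF x - muF y| ≤ 2 * |x - y| := by
  have h1 : |min 1 (max 0 (2 * x - 1)) - min 1 (max 0 (2 * y - 1))| ≤
      |max 0 (2 * x - 1) - max 0 (2 * y - 1)| := by
    have := abs_min_sub_min_le_max 1 (max 0 (2 * x - 1)) 1 (max 0 (2 * y - 1))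
    simpa using this
  have h2 : |max 0 (2 * x - 1) - max 0 (2 * y - 1)| ≤ |(2 * x - 1) - (2 * y - 1)| := by
    have := abs_max_sub_max_le_max 0 (2 * x - 1) 0 (2 * y - 1)
    simpa using this
  refine (h1.trans h2).trans (le_of_eq ?_)
  rw [show (2 * x - 1) - (2 * y - 1) = 2 * (x - y) by ring, abs_mul]; norm_num

variable {M k : ℕ}

lemma eu_le_l2 (V : ZMod (2 * M + 1) → Fin k → ℝ) (j : ZMod (2 * M + 1)) :
    eu (V j) ≤ Real.sqrt (2 * M + 1) * l2 V := by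
  rw [l2, ← Real.sqrt_mul (Npos M).le, mul_div_cancel₀ _ (Npos M).ne']
  apply Real.le_sqrt_of_sq_le
  rw [eu_sq]
  exact Finset.single_le_sum (f := fun j => ∑ i, V j i ^ 2)
    (fun j _ => Finset.sum_nonneg fun _ _ => sq_nonneg _) (Finset.mem_univ j)

section

variable {Z : Type} [NormedAddCommGroup Z]
  {Yt : Z → (Fin k → ℝ) → ℝ → (Fin k → ℝ)} {om : ℝ → ℝ} {C₀ ε r s₁ : ℝ}

/-- right-hand side of the Bishop equation -/
noncomputable def Phi (Yt : Z → (Fin k → ℝ) → ℝ → (Fin k → ℝ)) (s₁ ρ₀ : ℝ) (M L : ℕ) (z : Z)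
    (b : Fin k → ℝ) (lam mu : ℝ) (j : ZMod (2 * M + 1)) (u : Fin k → ℝ) : Fin k → ℝ :=
  Yt z u (lam * s₁ * tri M (4 * L) j + ρ₀) + (mu * tri M L j) • b

lemma srange (hP : BisP) (hs : 0 < s₁) {ρ₀ lam : ℝ} (h0 : 0 ≤ ρ₀) (h1 : ρ₀ ≤ s₁) (hl : 0 ≤ lam)
    (hl1 : lam ≤ 1) (L : ℕ) (j : ZMod (2 * M + 1)) :
    ρ₀ ≤ lam * s₁ * tri M (4 * L) j + ρ₀ ∧ lam * s₁ * tri M (4 * L) j + ρ₀ ≤ 2 * s₁ := by
  have a1 := hP.tri_nonneg M (4 * L) j
  have a2 := hP.tri_le_one M (4 * L) j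
  have a3 : 0 ≤ lam * s₁ * tri M (4 * L) j := by positivity
  have a4 : lam * s₁ * tri M (4 * L) j ≤ 1 * s₁ * 1 := by
    apply mul_le_mul _ a2 a1 (by positivity)
    exact mul_le_mul_of_nonneg_right hl1 hs.le
  constructor <;> linarith

lemma Phi_lip (hY : YOK Yt om C₀ ε r s₁) (hP : BisP) {ρ₀ lam mu : ℝ} (h0 : 0 ≤ ρ₀)
    (h1 : ρ₀ ≤ s₁) (hl : 0 ≤ lam) (hl1 : lam ≤ 1) (L : ℕ) {z : Z} (hz : ‖z‖ ≤ r)
    (b : Fin k → ℝ) (j : ZMod (2 * M + 1)) (u u' : Fin k → ℝ) :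
    eu (Phi Yt s₁ ρ₀ M L z b lam mu j u - Phi Yt s₁ ρ₀ M L z b lam mu j u') ≤
      (((k : ℝ) + 1) * ε) * eu (u - u') := by
  have hs := srange (M := M) hP hY.s₁_pos h0 h1 hl hl1 L j
  have e : Phi Yt s₁ ρ₀ M L z b lam mu j u - Phi Yt s₁ ρ₀ M L z b lam mu j u' =
      Yt z u (lam * s₁ * tri M (4 * L) j + ρ₀) - Yt z u' (lam * s₁ * tri M (4 * L) j + ρ₀) := by
    simp only [Phi]; abel
  rw [e]
  have h2 := hY.y1 z u u' _ hz (h0.trans hs.1) hs.2
  have hk : (0 : ℝ) ≤ (k : ℝ) + 1 := by positivity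
  calc eu (Yt z u (lam * s₁ * tri M (4 * L) j + ρ₀) - Yt z u' (lam * s₁ * tri M (4 * L) j + ρ₀))
      ≤ ((k : ℝ) + 1) * ‖Yt z u (lam * s₁ * tri M (4 * L) j + ρ₀) -
          Yt z u' (lam * s₁ * tri M (4 * L) j + ρ₀)‖ := eu_le_norm _
    _ ≤ ((k : ℝ) + 1) * (ε * ‖u - u'‖) := mul_le_mul_of_nonneg_left h2 hk
    _ ≤ ((k : ℝ) + 1) * (ε * eu (u - u')) := by
        apply mul_le_mul_of_nonneg_left _ hk
        exact mul_le_mul_of_nonneg_left (norm_le_eu _) hY.ε_pos.le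
    _ = _ := by ring

lemma q_bounds (hY : YOK Yt om C₀ ε r s₁) :
    0 ≤ ((k : ℝ) + 1) * ε ∧ ((k : ℝ) + 1) * ε ≤ 1 / 100 := by
  have := hY.ε_pos
  have := hY.ε_le
  constructor
  · positivity
  · nlinarith

/-- uniqueness -/
lemma bis_unique (hE : BisE) (hY : YOK Yt om C₀ ε r s₁) (hP : BisP) {ρ₀ lam mu : ℝ} (h0 : 0 ≤ ρ₀)
    (h1 : ρ₀ ≤ s₁) (hl : 0 ≤ lam) (hl1 : lam ≤ 1) {L : ℕ} {z : Z} (hz : ‖z‖ ≤ r)
    {u₀ b : Fin k → ℝ} {V V' : ZMod (2 * M + 1) → Fin k → ℝ}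
    (hV : IsBis Yt s₁ ρ₀ M L z u₀ b lam mu V) (hV' : IsBis Yt s₁ ρ₀ M L z u₀ b lam mu V') :
    V = V' := by
  have hq := q_bounds hY
  have h := hE.diff (Phi Yt s₁ ρ₀ M L z b lam mu) (Phi Yt s₁ ρ₀ M L z b lam mu)
    (((k : ℝ) + 1) * ε) u₀ u₀ V V' (fun _ => 0) hq.1 (by linarith)
    (Phi_lip hY hP h0 h1 hl hl1 L hz b) hV hV' (fun j => by simp)
  rw [sub_self, eu_zero, mul_zero, l2s_const, abs_zero, add_zero, zero_div] at h
  funext j
  have h2 := eu_le_l2 (V - V') j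
  have h3 : Real.sqrt (2 * M + 1) * l2 (V - V') ≤ 0 := by
    apply mul_nonpos_of_nonneg_of_nonpos (Real.sqrt_nonneg _) h
  have h4 : ‖(V - V') j‖ ≤ 0 := (norm_le_eu _).trans (h2.trans h3)
  have h5 : (V - V') j = 0 := norm_le_zero_iff.1 h4
  simpa [sub_eq_zero] using h5

/-- Lipschitz dependence on the family parameter -/
lemma bis_cont (hE : BisE) (hY : YOK Yt om C₀ ε r s₁) (hP : BisP) {ρ₀ : ℝ} (h0 : 0 ≤ ρ₀)
    (h1 : ρ₀ ≤ s₁) {L : ℕ} {z : Z} (hz : ‖z‖ ≤ r) {u₀ b : Fin k → ℝ}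
    {V : ℝ → ZMod (2 * M + 1) → Fin k → ℝ}
    (hV : ∀ x, IsBis Yt s₁ ρ₀ M L z u₀ b (lamF x) (muF x) (V x)) (j : ZMod (2 * M + 1))
    (i : Fin k) : Continuous (fun x => V x j i) := by
  have hq := q_bounds hY
  have hs := hY.s₁_pos
  have hC := hY.C₀_nonneg
  have hk : (0 : ℝ) ≤ (k : ℝ) + 1 := by positivity
  set A : ℝ := ((k : ℝ) + 1) * (2 * C₀ * s₁ + 2 * ‖b‖) with hA
  have hA0 : 0 ≤ A := by positivity
  have key : ∀ x y, |V x j i - V y j i| ≤ (Real.sqrt (2 * M + 1) * (2 * A)) * |x - y| := by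
    intro x y
    have h := hE.diff (Phi Yt s₁ ρ₀ M L z b (lamF x) (muF x))
      (Phi Yt s₁ ρ₀ M L z b (lamF y) (muF y))
      (((k : ℝ) + 1) * ε) u₀ u₀ (V x) (V y) (fun _ => A * |x - y|) hq.1 (by linarith)
      (Phi_lip hY hP h0 h1 (lamF_nonneg x) (lamF_le x) L hz b) (hV x) (hV y) (fun j => ?_)
    · rw [sub_self, eu_zero, mul_zero, l2s_const, zero_add, abs_of_nonneg (by positivity)] at h
      have h2 := eu_le_l2 (V x - V y) j
      have h3 : |V x j i - V y j i| ≤ eu ((V x - V y) j) :=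
        (norm_le_pi_norm ((V x - V y) j) i).trans (norm_le_eu _)
      refine (h3.trans h2).trans ?_
      rw [mul_assoc]
      apply mul_le_mul_of_nonneg_left _ (Real.sqrt_nonneg _)
      refine h.trans ?_
      rw [div_le_iff₀ (by linarith)]
      have h4 : 0 ≤ A * |x - y| := by positivity
      nlinarith
    · have a1 := srange (M := M) hP hs h0 h1 (lamF_nonneg x) (lamF_le x) L j
      have a2 := srange (M := M) hP hs h0 h1 (lamF_nonneg y) (lamF_le y) L j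
      have t1 := hP.tri_nonneg M (4 * L) j
      have t2 := hP.tri_le_one M (4 * L) j
      have t3 := hP.tri_nonneg M L j
      have t4 := hP.tri_le_one M L j
      set u := u₀ - cjv (V y) j
      have e : Phi Yt s₁ ρ₀ M L z b (lamF x) (muF x) j u - Phi Yt s₁ ρ₀ M L z b (lamF y) (muF y) j u =
          (Yt z u (lamF x * s₁ * tri M (4 * L) j + ρ₀) -
            Yt z u (lamF y * s₁ * tri M (4 * L) j + ρ₀)) + ((muF x - muF y) * tri M L j) • b := by
        simp only [Phi]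
        rw [sub_mul, sub_smul]
        abel
      rw [e]
      refine (eu_le_norm _).trans ?_
      rw [hA, mul_assoc ((k : ℝ) + 1)]
      apply mul_le_mul_of_nonneg_left _ hk
      refine (norm_add_le _ _).trans ?_
      have b1 := hY.y2 z u _ _ hz (h0.trans a1.1) a1.2 (h0.trans a2.1) a2.2
      have b2 : |lamF x * s₁ * tri M (4 * L) j + ρ₀ - (lamF y * s₁ * tri M (4 * L) j + ρ₀)| ≤
          2 * |x - y| * s₁ := by
        rw [show lamF x * s₁ * tri M (4 * L) j + ρ₀ - (lamF y * s₁ * tri M (4 * L) j + ρ₀) =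
          (lamF x - lamF y) * (s₁ * tri M (4 * L) j) by ring, abs_mul,
          abs_of_nonneg (by positivity : 0 ≤ s₁ * tri M (4 * L) j)]
        apply mul_le_mul (lamF_lip x y) _ (by positivity) (by positivity)
        nlinarith
      have b3 : ‖((muF x - muF y) * tri M L j) • b‖ ≤ 2 * |x - y| * ‖b‖ := by
        rw [norm_smul, Real.norm_eq_abs, abs_mul, abs_of_nonneg t3]
        apply mul_le_mul_of_nonneg_right _ (norm_nonneg _)
        calc |muF x - muF y| * tri M L j ≤ 2 * |x - y| * 1 :=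
              mul_le_mul (muF_lip x y) t4 t3 (by positivity)
          _ = 2 * |x - y| := by ring
      have b4 : C₀ * |lamF x * s₁ * tri M (4 * L) j + ρ₀ - (lamF y * s₁ * tri M (4 * L) j + ρ₀)| ≤
          C₀ * (2 * |x - y| * s₁) := mul_le_mul_of_nonneg_left b2 hC
      calc _ ≤ C₀ * (2 * |x - y| * s₁) + 2 * |x - y| * ‖b‖ := add_le_add (b1.trans b4) b3
        _ = _ := by ring
  have hK0 : 0 ≤ Real.sqrt (2 * M + 1) * (2 * A) := by positivity
  refine (LipschitzWith.of_dist_le_mul (K := ⟨_, hK0⟩) fun x y => ?_).continuous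
  rw [Real.dist_eq, Real.dist_eq]
  exact key x y

end

end Crest.Agent.R264.BshM
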