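import Crest.Agent.R264.BshM3

/-!
Row 264, Part B (helper747): the sweep (step (3)).
-/

set_option autoImplicit false

open Topology Filter Set

namespace Crest.Agent.R264.BshM

open Crest.Agent.R264.Bsh Crest.Agent.R264.BshN

variable {k : ℕ} {Z : Type} [NormedAddCommGroup Z] [NormedSpace ℂ Z]

/-- the point `u + i y` -/
noncomputable def cpt (u y : Fin k → ℝ) : Fin k → ℂ :=
  fun i => (u i : ℂ) + Complex.I * ((y i : ℝ) : ℂ)

/-- STEP (3). -/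
lemma sweep (hT : BisT) (hE : BisE) (hP : BisP) (hN : BisN) (hS : BisS)
    {CA CH : ℝ} (hCA : 0 < CA) (hCH : 0 < CH)
    (hA : ∀ {M : ℕ} (f : ZMod (2 * M + 1) → ℝ) (ζ : ℂ) (τ : ℝ), ‖ζ‖ ≤ 1 →
      0 < τ → τ ≤ 1 → ‖pd f ζ - pd f 0‖ ≤
      CA * (l2s f / Real.sqrt τ +
        (2 * M + 1) * l2s (fun j : ZMod (2 * M + 1) => f (j + 1) - f j) * Real.sqrt τ))
    (hH : ∀ {M : ℕ} (f : ZMod (2 * M + 1) → ℝ) (ζ ζ' : ℂ), ‖ζ‖ ≤ 1 → ‖ζ'‖ ≤ 1 →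
      ‖pd f ζ - pd f ζ'‖ ≤ CH * ((2 * M + 1) *
        l2s (fun j : ZMod (2 * M + 1) => f (j + 1) - f j)) * Real.sqrt ‖ζ - ζ'‖)
    {Y : Z → (Fin k → ℝ) → ℝ → (Fin k → ℝ)} {om : ℝ → ℝ}
    {C₀ ε r s₁ ρ₀ c τ ρ₁ rb δ C₁ : ℝ} {M L : ℕ}
    (hY : YOK (fun z u s => Y z (clamp r u) s) om C₀ ε r s₁)
    (hSc : ScOK (k := k) om C₀ ε r s₁ ρ₀ c τ M L) (hρ₀ : 0 < ρ₀) (hτ1 : τ ≤ 1)
    (hC₁ : C₁ = 20 * ((k : ℝ) + 1) * (C₀ + 1))
    (hsup : (1 + C₁ + CA * (C₁ + C₁)) * s₁ ≤ r)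
    (hsup' : (1 + C₁ + CA * (C₁ + C₁)) * s₁ < ρ₁) (hrρ₁ : r < ρ₁)
    (hdel : CH * (C₁ * s₁ / Real.sqrt τ) * Real.sqrt (4 / (2 * M + 1)) ≤ δ)
    {UU Q : Set (Z × (Fin k → ℂ))} (hKS : KSHyp UU ρ₁) (hQ : IsCompact Q) (hQU : Q ⊆ UU)
    (hU : ∀ z u s, ‖z‖ ≤ r → ‖u‖ ≤ r → 0 < s → s ≤ 2 * s₁ → (z, cpt u (Y z u s)) ∈ UU)
    (hQ1 : ∀ z u s b' w', ‖z‖ ≤ r → ‖u‖ ≤ r → ρ₀ ≤ s → s ≤ 2 * s₁ → ‖b'‖ ≤ rb →
      (b' = 0 ∨ s₁ / 2 ≤ s) → ‖w' - cpt u (Y z u s + b')‖ ≤ δ → (z, w') ∈ Q)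
    (hrb : 0 ≤ rb) (hrb' : rb ≤ s₁)
    {z : Z} {u₀ b : Fin k → ℝ} (hz : ‖z‖ ≤ c * Real.sqrt τ) (hu₀ : ‖u₀‖ ≤ c * τ)
    (hb : ‖b‖ ≤ rb) {V : ZMod (2 * M + 1) → Fin k → ℝ}
    (hV : IsBis (fun z u s => Y z (clamp r u) s) s₁ ρ₀ M L z u₀ b 1 1 V) :
    (z, cpt u₀ (mv V)) ∈ UU := by
  have hτ : 0 < τ := by
    rw [hSc.τ_eq]
    have := hSc.l_pos
    have := Npos M
    positivity
  have hst : 0 < Real.sqrt τ := Real.sqrt_pos.2 hτ
  have hst1 : Real.sqrt τ ≤ 1 := Real.sqrt_le_one.2 hτ1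
  have hk : (0 : ℝ) < (k : ℝ) + 1 := by positivity
  have hC := hY.C₀_nonneg
  have hs := hY.s₁_pos
  have hC₁0 : 0 < C₁ := by rw [hC₁]; positivity
  have hzr : ‖z‖ ≤ r := hz.trans hSc.c_sqrt
  have hq := q_bounds hY
  have h0 := hρ₀.le
  have h1 := hSc.ρ₀_le
  -- the family
  have hex : ∀ x : ℝ, ∃ V, IsBis (fun z u s => Y z (clamp r u) s) s₁ ρ₀ M L z u₀ b
      (lamF x) (muF x) V := fun x =>
    hS.exi _ om C₀ ε r s₁ ρ₀ M L z u₀ b _ _ hY hzr h0 h1 (lamF_nonneg x) (lamF_le x)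
  choose W hW using hex
  have hW1 : W 1 = V := by
    have h := hW 1
    rw [lamF_one, muF_one] at h
    exact bis_unique hE hY hP h0 h1 zero_le_one le_rfl hzr h hV
  have hW0 : W 0 = fun _ => Y z (clamp r u₀) ρ₀ := by
    have h := hW 0
    rw [lamF_zero, muF_zero] at h
    refine bis_unique hE hY hP h0 h1 le_rfl zero_le_one hzr h ?_
    intro j
    have hc : cjv (fun _ : ZMod (2 * M + 1) => Y z (clamp r u₀) ρ₀) j = 0 := by
      ext i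
      simp [cjv, cj, hT.pd_const]
    simp [hc]
  -- sizes
  have hsz : ∀ x, l2 (W x) ≤ C₁ * s₁ * Real.sqrt τ ∧
      (2 * M + 1) * l2 (fun j : ZMod (2 * M + 1) => W x (j + 1) - W x j) ≤
        C₁ * s₁ / Real.sqrt τ := by
    intro x
    have h := hS.size _ om C₀ ε r s₁ ρ₀ c τ M L z u₀ b _ _ (W x) hY hSc (lamF_nonneg x) (lamF_le x)
      (muF_nonneg x) (muF_le x) (hb.trans hrb') hz hu₀ (hW x)
    rw [hC₁]
    exact ⟨h.1, h.2.2⟩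
  have hu₀s : ‖u₀‖ ≤ s₁ := by
    refine hu₀.trans (hSc.c_tau.trans ?_)
    nlinarith
  have hsupx : ∀ x (ζ : ℂ), ‖ζ‖ ≤ 1 → ‖disc u₀ (W x) ζ‖ ≤ (1 + C₁ + CA * (C₁ + C₁)) * s₁ := by
    intro x ζ hζ
    obtain ⟨a1, a2⟩ := hsz x
    refine (disc_norm_le hT hA hCA u₀ (W x) ζ hζ hτ hτ1).trans ?_
    have b1 : l2 (W x) ≤ C₁ * s₁ := by
      refine a1.trans ?_
      have : 0 ≤ C₁ * s₁ := by positivity
      nlinarith
    have b2 : l2 (W x) / Real.sqrt τ ≤ C₁ * s₁ := by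
      rw [div_le_iff₀ hst]; exact a1
    have b3 : (2 * M + 1) * l2 (fun j : ZMod (2 * M + 1) => W x (j + 1) - W x j) * Real.sqrt τ ≤
        C₁ * s₁ := by
      rw [le_div_iff₀ hst] at a2; exact a2
    have b4 : CA * (l2 (W x) / Real.sqrt τ +
        (2 * M + 1) * l2 (fun j : ZMod (2 * M + 1) => W x (j + 1) - W x j) * Real.sqrt τ) ≤
        CA * (C₁ * s₁ + C₁ * s₁) := mul_le_mul_of_nonneg_left (add_le_add b2 b3) hCA.le
    calc _ ≤ s₁ + C₁ * s₁ + CA * (C₁ * s₁ + C₁ * s₁) := add_le_add (add_le_add hu₀s b1) b4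
      _ = _ := by ring
  -- the nodes
  have hnd1 : ∀ j : ZMod (2 * M + 1), ‖nd M j‖ = 1 := by
    intro j
    simp [nd, ZMod.stdAddChar_apply]
  have hnode : ∀ x (j : ZMod (2 * M + 1)), ∃ u s b', ‖u‖ ≤ r ∧ ρ₀ ≤ s ∧ s ≤ 2 * s₁ ∧ ‖b'‖ ≤ rb ∧
      (b' = 0 ∨ s₁ / 2 ≤ s) ∧ disc u₀ (W x) (nd M j) = cpt u (Y z u s + b') := by
    intro x j
    have e := disc_nd hT u₀ (W x) j
    set u := u₀ - cjv (W x) j with hu
    have hur : ‖u‖ ≤ r := by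
      have h2 := (hsupx x (nd M j) (hnd1 j).le).trans hsup
      rw [e] at h2
      rw [pi_norm_le_iff_of_nonneg hY.r_pos.le]
      intro i
      have h3 := (norm_le_pi_norm (fun i => (((u i : ℝ) : ℂ) + Complex.I * ((W x j i : ℝ) : ℂ))) i).trans h2
      refine le_trans ?_ h3
      have h4 := Complex.abs_re_le_norm (((u i : ℝ) : ℂ) + Complex.I * ((W x j i : ℝ) : ℂ))
      simpa using h4
    have hsr := srange (M := M) hP hs h0 h1 (lamF_nonneg x) (lamF_le x) L j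
    have hWj := hW x j
    rw [← hu] at hWj
    simp only [clamp_eq hur] at hWj
    refine ⟨u, lamF x * s₁ * tri M (4 * L) j + ρ₀, (muF x * tri M L j) • b, hur, hsr.1, hsr.2,
      ?_, ?_, ?_⟩
    · rw [norm_smul, Real.norm_eq_abs, abs_of_nonneg (mul_nonneg (muF_nonneg x)
        (hP.tri_nonneg M L j))]
      have a1 : muF x * tri M L j ≤ 1 * 1 :=
        mul_le_mul (muF_le x) (hP.tri_le_one M L j) (hP.tri_nonneg M L j) zero_le_one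
      calc muF x * tri M L j * ‖b‖ ≤ 1 * ‖b‖ := by
            apply mul_le_mul_of_nonneg_right _ (norm_nonneg _)
            linarith
        _ ≤ rb := by rw [one_mul]; exact hb
    · by_cases h3 : muF x * tri M L j = 0
      · left; rw [h3, zero_smul]
      · right
        have h4 : 0 < muF x := lt_of_le_of_ne (muF_nonneg x) (fun h => h3 (by rw [← h, zero_mul]))
        have h5 : 0 < tri M L j := lt_of_le_of_ne (hP.tri_nonneg M L j)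
          (fun h => h3 (by rw [← h, mul_zero]))
        have h6 := hP.bet_ge M L j hSc.l_pos h5
        rw [lamF_eq_one h4, one_mul]
        nlinarith
    · rw [e, hWj]
      rfl
  -- application of KS
  have hfin := hKS z (fun x ζ => disc u₀ (W x) ζ) (hzr.trans_lt hrρ₁)
    (disc_continuous u₀ W (fun j i => bis_cont hE hY hP h0 h1 hzr hW j i))
    (fun x => disc_differentiable u₀ (W x))
    (fun x _ ζ hζ => (hsupx x ζ (by simpa using hζ)).trans_lt hsup') Q hQ hQU ?_ ?_ 0 (by simp)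
  · rw [hW1] at hfin
    rw [disc_zero hT] at hfin
    exact hfin
  · intro x _ ζ hζ
    have hζ1 : ‖ζ‖ = 1 := by simpa using hζ
    obtain ⟨j, hj⟩ := hN.node M ζ hζ1
    obtain ⟨u, s, b', hu, hs0, hs1, hb', hor, he⟩ := hnode x j
    refine hQ1 z u s b' _ hzr hu hs0 hs1 hb' hor ?_
    rw [← he]
    refine (disc_holder hH hCH u₀ (W x) ζ (nd M j) hζ1.le (hnd1 j).le).trans (le_trans ?_ hdel)
    have a1 : CH * ((2 * M + 1) * l2 (fun j : ZMod (2 * M + 1) => W x (j + 1) - W x j)) ≤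
        CH * (C₁ * s₁ / Real.sqrt τ) := mul_le_mul_of_nonneg_left (hsz x).2 hCH.le
    apply mul_le_mul a1 (Real.sqrt_le_sqrt hj) (Real.sqrt_nonneg _)
    positivity
  · intro ζ _
    rw [hW0, disc_const hT]
    have hu₀r : ‖u₀‖ ≤ r := by
      refine hu₀s.trans (le_trans ?_ hsup)
      have : 0 ≤ C₁ + CA * (C₁ + C₁) := by positivity
      nlinarith
    rw [clamp_eq hu₀r]
    exact hU z u₀ ρ₀ hzr hu₀r hρ₀ (by linarith)

end Crest.Agent.R264.BshM
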