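import Crest.Agent.R264.BshM4

/-!
Row 264, Part B (helper747): THEOREM B from the modules `BisT, BisE, BisP, BisN, BisS`.
-/

set_option autoImplicit false

open Topology Filter Set

namespace Crest.Agent.R264.BshM

open Crest.Agent.R264.Bsh Crest.Agent.R264.BshN

lemma cpt_add_sub {k : ℕ} (u y b : Fin k → ℝ) : ‖cpt u (y + b) - cpt u y‖ ≤ ‖b‖ := by
  rw [pi_norm_le_iff_of_nonneg (norm_nonneg _)]
  intro i
  have e : (cpt u (y + b) - cpt u y) i = Complex.I * ((b i : ℝ) : ℂ) := by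
    simp only [cpt, Pi.sub_apply, Pi.add_apply, Complex.ofReal_add]; ring
  rw [e, norm_mul, Complex.norm_I, one_mul, Complex.norm_real]
  exact norm_le_pi_norm b i

lemma cpt_continuous {k : ℕ} : Continuous (fun p : (Fin k → ℝ) × (Fin k → ℝ) => cpt p.1 p.2) := by
  unfold cpt
  fun_prop

/-- continuity of `Y` on the domain -/
lemma Y_contOn {Z : Type} [NormedAddCommGroup Z] {k : ℕ}
    {H : Z → (Fin k → ℝ) → (Fin k → ℝ)} {vv : Z → (Fin k → ℝ) → ℝ → (Fin k → ℝ)}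
    {om : ℝ → ℝ} {ρ s₀ C₀ : ℝ} (hρ : 0 < ρ) (hC₀ : 0 ≤ C₀) 
    (hH : ∀ z z' u u', ‖z‖ < ρ → ‖z'‖ < ρ → ‖u‖ < ρ → ‖u'‖ < ρ →
      ‖H z u - H z' u'‖ ≤ C₀ * (‖z‖ + ‖z'‖ + ‖u‖ + ‖u'‖) * (‖z - z'‖ + ‖u - u'‖))
    (hv1 : ∀ z z' u u' s, ‖z‖ < ρ → ‖z'‖ < ρ → ‖u‖ < ρ → ‖u'‖ < ρ → 0 ≤ s → s ≤ s₀ →
      ‖vv z u s - vv z' u' s‖ ≤ om s * (‖z - z'‖ + ‖u - u'‖))
    (homm : ∀ s s', 0 ≤ s → s ≤ s' → s' ≤ s₀ → om s ≤ om s')
    (hv2 : ∀ z u s s', ‖z‖ < ρ → ‖u‖ < ρ → 0 ≤ s → s ≤ s₀ → 0 ≤ s' → s' ≤ s₀ →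
      ‖vv z u s - vv z u s'‖ ≤ C₀ * |s - s'|) :
    ContinuousOn (fun p : Z × (Fin k → ℝ) × ℝ => H p.1 p.2.1 + vv p.1 p.2.1 p.2.2)
      {p | ‖p.1‖ < ρ ∧ ‖p.2.1‖ < ρ ∧ 0 ≤ p.2.2 ∧ p.2.2 ≤ s₀} := by
  set om' : ℝ := max (om s₀) 0
  have hom' : 0 ≤ om' := le_max_right _ _
  have hK0 : 0 ≤ C₀ * (4 * ρ) * 2 + om' * 2 + C₀ := by positivity
  refine (LipschitzOnWith.of_dist_le_mul (K := ⟨_, hK0⟩) ?_).continuousOn
  rintro ⟨z, u, s⟩ ⟨hz, hu, h0, h1⟩ ⟨z', u', s'⟩ ⟨hz', hu', h0', h1'⟩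
  simp only at hz hu h0 h1 hz' hu' h0' h1'
  have d1 : ‖z - z'‖ ≤ dist ((z, u, s) : Z × (Fin k → ℝ) × ℝ) (z', u', s') := by
    rw [← dist_eq_norm]; exact le_max_left _ _
  have d2 : ‖u - u'‖ ≤ dist ((z, u, s) : Z × (Fin k → ℝ) × ℝ) (z', u', s') := by
    rw [← dist_eq_norm]; exact (le_max_left _ _).trans (le_max_right _ _)
  have d3 : |s - s'| ≤ dist ((z, u, s) : Z × (Fin k → ℝ) × ℝ) (z', u', s') := by
    rw [← Real.dist_eq]; exact (le_max_right _ _).trans (le_max_right _ _)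
  set d := dist ((z, u, s) : Z × (Fin k → ℝ) × ℝ) (z', u', s') with hd
  have hd0 : 0 ≤ d := dist_nonneg
  have e1 := hH z z' u u' hz hz' hu hu'
  have e2 := hv1 z z' u u' s hz hz' hu hu' h0 h1
  have e3 := hv2 z' u' s s' hz' hu' h0 h1 h0' h1'
  have o1 : om s ≤ om' := (homm s s₀ h0 h1 le_rfl).trans (le_max_left _ _)
  rw [dist_eq_norm]
  show ‖(H z u + vv z u s) - (H z' u' + vv z' u' s')‖ ≤ (C₀ * (4 * ρ) * 2 + om' * 2 + C₀) * d
  have e4 : (H z u + vv z u s) - (H z' u' + vv z' u' s') =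
      (H z u - H z' u') + (vv z u s - vv z' u' s) + (vv z' u' s - vv z' u' s') := by abel
  rw [e4]
  have f1 : C₀ * (‖z‖ + ‖z'‖ + ‖u‖ + ‖u'‖) * (‖z - z'‖ + ‖u - u'‖) ≤ C₀ * (4 * ρ) * (2 * d) := by
    apply mul_le_mul _ (by linarith) (by positivity) (by positivity)
    exact mul_le_mul_of_nonneg_left (by linarith) hC₀
  have f2 : om s * (‖z - z'‖ + ‖u - u'‖) ≤ om' * (2 * d) := by
    calc om s * (‖z - z'‖ + ‖u - u'‖) ≤ om' * (‖z - z'‖ + ‖u - u'‖) :=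
          mul_le_mul_of_nonneg_right o1 (by positivity)
      _ ≤ om' * (2 * d) := mul_le_mul_of_nonneg_left (by linarith) hom'
  have f3 : C₀ * |s - s'| ≤ C₀ * d := mul_le_mul_of_nonneg_left d3 hC₀
  calc _ ≤ ‖H z u - H z' u'‖ + ‖vv z u s - vv z' u' s‖ + ‖vv z' u' s - vv z' u' s'‖ :=
        norm_add₃_le
    _ ≤ C₀ * (4 * ρ) * (2 * d) + om' * (2 * d) + C₀ * d := by
        refine add_le_add (add_le_add (e1.trans f1) (e2.trans f2)) (e3.trans f3)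
    _ = _ := by ring

/-- THEOREM B. -/
theorem thmB (hT : BisT) (hE : BisE) (hP : BisP) (hN : BisN) (hS : BisS) : ThmB := by
  intro Z _ _ _ k UU H vv om ρ s₀ C₀ ρ₁ hUo hρ hs₀ hρ₁ hC₀ hH0 hH hv0 hv1 homm homt hv2 hUU hKS
  obtain ⟨CH, hCH, hHol⟩ := hT.holder
  obtain ⟨CA, hCA, hAg⟩ := hT.agmon
  obtain ⟨K, hK⟩ : ∃ K : ℝ, K = (k : ℝ) + 1 := ⟨_, rfl⟩
  have hK1 : 1 ≤ K := by
    have : (0 : ℝ) ≤ k := Nat.cast_nonneg k
    linarith
  have hK0 : 0 < K := by linarith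
  obtain ⟨ε, hε⟩ : ∃ ε : ℝ, ε = 1 / (100 * K) := ⟨_, rfl⟩
  have hε0 : 0 < ε := by rw [hε]; positivity
  have hε1 : 100 * K * ε ≤ 1 := by
    rw [hε]; apply le_of_eq; field_simp
  -- r
  obtain ⟨r, hr0, hr1, hr2, hr3⟩ : ∃ r : ℝ, 0 < r ∧ r < ρ ∧ r < ρ₁ ∧ 8 * C₀ * r ≤ ε := by
    refine ⟨min (min (ρ / 2) (ρ₁ / 2)) (ε / (8 * (C₀ + 1))), ?_, ?_, ?_, ?_⟩
    · positivity
    · exact ((min_le_left _ _).trans (min_le_left _ _)).trans_lt (by linarith)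
    · exact ((min_le_left _ _).trans (min_le_right _ _)).trans_lt (by linarith)
    · have h := min_le_right (min (ρ / 2) (ρ₁ / 2)) (ε / (8 * (C₀ + 1)))
      set x := min (min (ρ / 2) (ρ₁ / 2)) (ε / (8 * (C₀ + 1)))
      have hx : 0 ≤ x := by positivity
      rw [le_div_iff₀ (by positivity)] at h
      linarith
  obtain ⟨C₁, hC₁⟩ : ∃ C₁ : ℝ, C₁ = 20 * K * (C₀ + 1) := ⟨_, rfl⟩
  have hC₁0 : 0 < C₁ := by rw [hC₁]; positivity
  obtain ⟨C₃, hC₃⟩ : ∃ C₃ : ℝ, C₃ = 1 + C₁ + CA * (C₁ + C₁) := ⟨_, rfl⟩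
  have hC₃0 : 0 < C₃ := by rw [hC₃]; positivity
  have homsm : ∀ η : ℝ, 0 < η → ∃ δ : ℝ, 0 < δ ∧ ∀ s, 0 < s → s < δ → om s ≤ η := by
    intro η hη
    have h1 : ∀ᶠ s in 𝓝[>] (0 : ℝ), om s < η := homt.eventually (gt_mem_nhds hη)
    rw [eventually_nhdsWithin_iff, Metric.eventually_nhds_iff] at h1
    obtain ⟨δ, hδ, h2⟩ := h1
    refine ⟨δ, hδ, fun s hs hs' => (h2 ?_ hs).le⟩
    rw [Real.dist_eq, sub_zero, abs_of_pos hs]
    exact hs'
  -- s₁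
  obtain ⟨s₁, hs₁, hs₁0, hs₁C, hs₁r, hs₁ρ, hs₁om⟩ : ∃ s₁ : ℝ, 0 < s₁ ∧ 2 * s₁ ≤ s₀ ∧
      1000 * K ^ 2 * (C₀ + 1) ^ 2 * s₁ ≤ 1 ∧ C₃ * s₁ ≤ r ∧ C₃ * s₁ < ρ₁ ∧
      ∀ s, 0 ≤ s → s ≤ 2 * s₁ → om s ≤ ε / 2 := by
    obtain ⟨δ, hδ, h2⟩ := homsm (ε / 2) (by positivity)
    obtain ⟨x, hx⟩ : ∃ x : ℝ, x = min (min (s₀ / 2) (δ / 4))
      (min (1 / (1000 * K ^ 2 * (C₀ + 1) ^ 2)) (r / C₃)) := ⟨_, rfl⟩
    have hx0 : 0 < x := by rw [hx]; positivity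
    have x1 : x ≤ s₀ / 2 := by rw [hx]; exact (min_le_left _ _).trans (min_le_left _ _)
    have x2 : x ≤ δ / 4 := by rw [hx]; exact (min_le_left _ _).trans (min_le_right _ _)
    have x3 : x ≤ 1 / (1000 * K ^ 2 * (C₀ + 1) ^ 2) := by
      rw [hx]; exact (min_le_right _ _).trans (min_le_left _ _)
    have x4 : x ≤ r / C₃ := by rw [hx]; exact (min_le_right _ _).trans (min_le_right _ _)
    rw [le_div_iff₀ (by positivity)] at x3 x4
    refine ⟨x, hx0, by linarith, by linarith, by linarith, by linarith, ?_⟩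
    intro s h0 h1
    exact (homm s (2 * x) h0 h1 (by linarith)).trans (h2 (2 * x) (by linarith) (by linarith))
  -- Y and YOK
  set Y : Z → (Fin k → ℝ) → ℝ → (Fin k → ℝ) := fun z u s => H z u + vv z u s with hYdef
  have hYOK : YOK (fun z u s => Y z (clamp r u) s) (fun s => max (om s) 0) C₀ ε r s₁ :=
    yok_of H vv om ρ s₀ C₀ ε r s₁ hρ hC₀ hH0 hH hv0 hv1 hv2 hε0 (by rw [← hK]; exact hε1) hr0 hr1
      hr3 hs₁ hs₁0 hs₁om
  have hU : ∀ z u s, ‖z‖ ≤ r → ‖u‖ ≤ r → 0 < s → s ≤ 2 * s₁ → (z, cpt u (Y z u s)) ∈ UU := by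
    intro z u s hz hu h0 h1
    exact hUU z u s (hz.trans_lt hr1) (hu.trans_lt hr1) h0 (h1.trans hs₁0)
  -- the map G and its images
  set G : Z × (Fin k → ℝ) × ℝ → Z × (Fin k → ℂ) := fun p => (p.1, cpt p.2.1 (Y p.1 p.2.1 p.2.2))
    with hG
  have hGc : ContinuousOn G {p | ‖p.1‖ < ρ ∧ ‖p.2.1‖ < ρ ∧ 0 ≤ p.2.2 ∧ p.2.2 ≤ s₀} := by
    have h1 := Y_contOn hρ hC₀ hH hv1 homm hv2
    apply ContinuousOn.prodMk continuousOn_fst
    have h2 : ContinuousOn (fun p : Z × (Fin k → ℝ) × ℝ => (p.2.1, Y p.1 p.2.1 p.2.2))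
        {p | ‖p.1‖ < ρ ∧ ‖p.2.1‖ < ρ ∧ 0 ≤ p.2.2 ∧ p.2.2 ≤ s₀} :=
      ContinuousOn.prodMk (continuous_fst.comp continuous_snd).continuousOn h1
    exact cpt_continuous.comp_continuousOn h2
  have hcomp : ∀ a : ℝ, 0 < a → IsCompact (G '' (Metric.closedBall (0 : Z) r ×ˢ
      (Metric.closedBall (0 : Fin k → ℝ) r ×ˢ Icc a (2 * s₁)))) ∧
      G '' (Metric.closedBall (0 : Z) r ×ˢ
      (Metric.closedBall (0 : Fin k → ℝ) r ×ˢ Icc a (2 * s₁))) ⊆ UU := by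
    intro a ha
    constructor
    · apply IsCompact.image_of_continuousOn
      · exact (isCompact_closedBall _ _).prod ((isCompact_closedBall _ _).prod isCompact_Icc)
      · apply hGc.mono
        rintro ⟨z, u, s⟩ ⟨hz, hu, hs⟩
        simp only [Metric.mem_closedBall, dist_zero_right] at hz hu
        exact ⟨hz.trans_lt hr1, hu.trans_lt hr1, ha.le.trans hs.1, hs.2.trans hs₁0⟩
    · rintro _ ⟨⟨z, u, s⟩, ⟨hz, hu, hs⟩, rfl⟩
      simp only [Metric.mem_closedBall, dist_zero_right] at hz hu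
      exact hU z u s hz hu (ha.trans_le hs.1) hs.2
  -- rb
  obtain ⟨δ₂, hδ₂, hδ₂'⟩ := (hcomp (s₁ / 2) (by positivity)).1.exists_cthickening_subset_open hUo
    (hcomp (s₁ / 2) (by positivity)).2
  obtain ⟨rb, hrb0, hrb1, hrb2⟩ : ∃ rb : ℝ, 0 < rb ∧ rb ≤ s₁ ∧ rb ≤ δ₂ :=
    ⟨min s₁ δ₂, by positivity, min_le_left _ _, min_le_right _ _⟩
  -- cS
  obtain ⟨cS, hc0, hcr, hcs, hc1, hcC, hcb⟩ : ∃ cS : ℝ, 0 < cS ∧ cS ≤ r ∧ cS ≤ s₁ ∧ cS ≤ 1 ∧
      100 * K * (C₀ + 1) * cS ≤ 1 ∧ 10 * K * cS ≤ rb := by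
    obtain ⟨x, hx⟩ : ∃ x : ℝ, x = min (min r s₁)
      (min 1 (min (1 / (100 * K * (C₀ + 1))) (rb / (10 * K)))) := ⟨_, rfl⟩
    have hx0 : 0 < x := by rw [hx]; positivity
    have x1 : x ≤ r := by rw [hx]; exact (min_le_left _ _).trans (min_le_left _ _)
    have x2 : x ≤ s₁ := by rw [hx]; exact (min_le_left _ _).trans (min_le_right _ _)
    have x3 : x ≤ 1 := by rw [hx]; exact (min_le_right _ _).trans (min_le_left _ _)
    have x4 : x ≤ 1 / (100 * K * (C₀ + 1)) := by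
      rw [hx]; exact (min_le_right _ _).trans ((min_le_right _ _).trans (min_le_left _ _))
    have x5 : x ≤ rb / (10 * K) := by
      rw [hx]; exact (min_le_right _ _).trans ((min_le_right _ _).trans (min_le_right _ _))
    rw [le_div_iff₀ (by positivity)] at x4 x5
    exact ⟨x, hx0, x1, x2, x3, by linarith, by linarith⟩
  refine ⟨cS / 2, 1000 * K ^ 2 * (C₀ + 1) ^ 3, 1 / 16, by positivity, by norm_num, ?_⟩
  intro t ht0 ht1
  have hst : 0 < Real.sqrt (t / 2) := Real.sqrt_pos.2 (by positivity)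
  -- ρ₀
  obtain ⟨ρ₀, hρ₀, hρ₀s, hρ₀t, hρ₀st, hρ₀om⟩ : ∃ ρ₀ : ℝ, 0 < ρ₀ ∧ ρ₀ ≤ s₁ ∧ ρ₀ ≤ t / 2 ∧
      ρ₀ ≤ s₁ * Real.sqrt (t / 2) ∧ 100 * K * max (om ρ₀) 0 ≤ Real.sqrt (t / 2) := by
    obtain ⟨δ, hδ, h2⟩ := homsm (Real.sqrt (t / 2) / (100 * K)) (by positivity)
    obtain ⟨x, hx⟩ : ∃ x : ℝ, x = min (min s₁ (t / 2))
      (min (s₁ * Real.sqrt (t / 2)) (δ / 2)) := ⟨_, rfl⟩
    have hx0 : 0 < x := by rw [hx]; positivity
    have x1 : x ≤ s₁ := by rw [hx]; exact (min_le_left _ _).trans (min_le_left _ _)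
    have x2 : x ≤ t / 2 := by rw [hx]; exact (min_le_left _ _).trans (min_le_right _ _)
    have x3 : x ≤ s₁ * Real.sqrt (t / 2) := by
      rw [hx]; exact (min_le_right _ _).trans (min_le_left _ _)
    have x4 : x ≤ δ / 2 := by rw [hx]; exact (min_le_right _ _).trans (min_le_right _ _)
    have x5 : max (om x) 0 ≤ Real.sqrt (t / 2) / (100 * K) :=
      max_le (h2 x hx0 (by linarith)) (by positivity)
    rw [le_div_iff₀ (by positivity)] at x5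
    exact ⟨x, hx0, x1, x2, x3, by linarith⟩
  -- the compact set
  set Q1 : Set (Z × (Fin k → ℂ)) := (G '' (Metric.closedBall (0 : Z) r ×ˢ
      (Metric.closedBall (0 : Fin k → ℝ) r ×ˢ Icc ρ₀ (2 * s₁)))) ∪
      Metric.cthickening rb (G '' (Metric.closedBall (0 : Z) r ×ˢ
      (Metric.closedBall (0 : Fin k → ℝ) r ×ˢ Icc (s₁ / 2) (2 * s₁)))) with hQ1def
  have hQ1c : IsCompact Q1 :=
    (hcomp ρ₀ hρ₀).1.union (hcomp (s₁ / 2) (by positivity)).1.cthickening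
  have hQ1U : Q1 ⊆ UU := union_subset (hcomp ρ₀ hρ₀).2
    ((Metric.cthickening_mono hrb2 _).trans hδ₂')
  obtain ⟨δ, hδ, hδ'⟩ := hQ1c.exists_cthickening_subset_open hUo hQ1U
  -- N
  obtain ⟨M, hM1, hM2⟩ : ∃ M : ℕ, 2 ≤ t * (2 * M + 1) ∧
      CH * (C₁ * s₁ / Real.sqrt (t / 2)) * Real.sqrt (4 / (2 * M + 1)) ≤ δ := by
    obtain ⟨a, ha⟩ := exists_nat_ge (2 / t)
    set B : ℝ := CH * (C₁ * s₁ / Real.sqrt (t / 2)) with hB
    have hB0 : 0 < B := by positivity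
    obtain ⟨b, hb⟩ := exists_nat_ge (4 * (B / δ) ^ 2)
    have hb' : (4 * (B / δ) ^ 2) ≤ (2 * ((a + b : ℕ) : ℝ) + 1) := by
      push_cast
      have : (0 : ℝ) ≤ a := Nat.cast_nonneg a
      have : (0 : ℝ) ≤ b := Nat.cast_nonneg b
      linarith
    refine ⟨a + b, ?_, ?_⟩
    · rw [div_le_iff₀ ht0] at ha
      push_cast
      have hbt : (0 : ℝ) ≤ b * t := mul_nonneg (Nat.cast_nonneg b) ht0.le
      linarith
    · have hNp : (0 : ℝ) < 2 * ((a + b : ℕ) : ℝ) + 1 := Npos _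
      have h3 : Real.sqrt (4 / (2 * ((a + b : ℕ) : ℝ) + 1)) ≤ δ / B := by
        apply Real.sqrt_le_iff.2
        refine ⟨by positivity, ?_⟩
        rw [div_le_iff₀ hNp]
        calc (4 : ℝ) = (δ / B) ^ 2 * (4 * (B / δ) ^ 2) := by
              field_simp
          _ ≤ (δ / B) ^ 2 * (2 * ((a + b : ℕ) : ℝ) + 1) :=
              mul_le_mul_of_nonneg_left hb' (by positivity)
      calc B * Real.sqrt (4 / (2 * ((a + b : ℕ) : ℝ) + 1)) ≤ B * (δ / B) :=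
            mul_le_mul_of_nonneg_left h3 hB0.le
        _ = δ := by field_simp
  have hNp : (0 : ℝ) < 2 * (M : ℝ) + 1 := Npos M
  obtain ⟨L, hLdef⟩ : ∃ L : ℕ, L = ⌊t * (2 * (M : ℝ) + 1)⌋₊ := ⟨_, rfl⟩
  have hL1 : (L : ℝ) ≤ t * (2 * M + 1) := by
    rw [hLdef]; exact Nat.floor_le (by positivity)
  have hL2 : t * (2 * M + 1) < L + 1 := by
    rw [hLdef]; exact Nat.lt_floor_add_one _
  have hL3 : t * (2 * M + 1) / 2 ≤ L := by linarith
  have hLpos : 0 < L := by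
    have : (0 : ℝ) < L := by linarith
    exact_mod_cast this
  have hM0 : 1 ≤ M := by
    by_contra hc
    have : M = 0 := by omega
    rw [this] at hM1
    norm_num at hM1
    linarith
  have hL4 : 4 * L ≤ M := by
    have hM0' : (1 : ℝ) ≤ M := by exact_mod_cast hM0
    have : (4 : ℝ) * L ≤ M := by
      have h5 : t * (2 * (M : ℝ) + 1) ≤ 1 / 16 * (2 * M + 1) :=
        mul_le_mul_of_nonneg_right ht1.le hNp.le
      linarith
    exact_mod_cast this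
  obtain ⟨τ, hτdef⟩ : ∃ τ : ℝ, τ = (L : ℝ) / (2 * M + 1) := ⟨_, rfl⟩
  have hτt : τ ≤ t := by rw [hτdef, div_le_iff₀ hNp]; exact hL1
  have htτ : t / 2 ≤ τ := by rw [hτdef, le_div_iff₀ hNp]; linarith
  have hτ0 : 0 < τ := by linarith
  have hτ1 : τ ≤ 1 := by linarith
  have hsτ : 0 < Real.sqrt τ := Real.sqrt_pos.2 hτ0
  have hsτ1 : Real.sqrt τ ≤ 1 := Real.sqrt_le_one.2 hτ1
  have hsτ2 : Real.sqrt (t / 2) ≤ Real.sqrt τ := Real.sqrt_le_sqrt htτ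
  have hττ : τ ≤ Real.sqrt τ := by
    calc τ = Real.sqrt τ * Real.sqrt τ := (Real.mul_self_sqrt hτ0.le).symm
      _ ≤ Real.sqrt τ * 1 := mul_le_mul_of_nonneg_left hsτ1 hsτ.le
      _ = Real.sqrt τ := mul_one _
  have hSc : ScOK (k := k) (fun s => max (om s) 0) C₀ ε r s₁ ρ₀ cS τ M L := by
    refine ⟨hLpos, hL4, hτdef, hc0.le, hρ₀.le, hρ₀s, ?_, ?_, ?_, ?_, ?_, ?_, ?_, ?_⟩
    · exact (mul_le_of_le_one_right hc0.le hsτ1).trans hcr
    · calc cS ^ 2 * τ ≤ s₁ * τ := by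
            apply mul_le_mul_of_nonneg_right _ hτ0.le
            rw [pow_two]
            exact (mul_le_of_le_one_right hc0.le hc1).trans hcs
        _ ≤ s₁ * Real.sqrt τ := mul_le_mul_of_nonneg_left hττ hs₁.le
    · calc cS * τ ≤ s₁ * τ := mul_le_mul_of_nonneg_right hcs hτ0.le
        _ ≤ s₁ * Real.sqrt τ := mul_le_mul_of_nonneg_left hττ hs₁.le
    · exact hρ₀st.trans (mul_le_mul_of_nonneg_left hsτ2 hs₁.le)
    · linarith
    · rw [← hK]; exact hρ₀om.trans hsτ2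
    · rw [← hK]; exact hcC
    · rw [← hK]; exact hs₁C
  -- central solution
  obtain ⟨V0, hV0⟩ := hS.exi (fun z u s => Y z (clamp r u) s) (fun s => max (om s) 0) C₀ ε r s₁ ρ₀
    M L (0 : Z) 0 0 1 1 hYOK (by simpa using hr0.le) hρ₀.le hρ₀s zero_le_one le_rfl
  refine ⟨t⁻¹ • mv V0, ?_, ?_⟩
  · rw [norm_smul, Real.norm_of_nonneg (by positivity)]
    have h := hS.cen _ _ C₀ ε r s₁ ρ₀ cS τ M L V0 hYOK hSc hV0
    rw [← hK] at h
    calc t⁻¹ * ‖mv V0‖ ≤ t⁻¹ * (1000 * K ^ 2 * (C₀ + 1) ^ 3 * τ) :=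
          mul_le_mul_of_nonneg_left h (by positivity)
      _ ≤ t⁻¹ * (1000 * K ^ 2 * (C₀ + 1) ^ 3 * t) := by
          apply mul_le_mul_of_nonneg_left _ (by positivity)
          exact mul_le_mul_of_nonneg_left hτt (by positivity)
      _ = _ := by field_simp
  · intro z w hz hw
    set u₀ : Fin k → ℝ := fun i => (w i).re with hu₀def
    set v : Fin k → ℝ := fun i => (w i).im with hvdef
    have hct : 0 < cS / 2 * t := by positivity
    have hu₀ : ‖u₀‖ ≤ cS / 2 * t := by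
      rw [pi_norm_le_iff_of_nonneg hct.le]
      intro i
      refine le_trans ?_ ((norm_le_pi_norm _ i).trans hw.le)
      refine le_trans (le_of_eq ?_) (Complex.abs_re_le_norm _)
      simp [hu₀def]
    have hv : ‖v - mv V0‖ ≤ cS / 2 * t := by
      rw [pi_norm_le_iff_of_nonneg hct.le]
      intro i
      refine le_trans ?_ ((norm_le_pi_norm _ i).trans hw.le)
      refine le_trans (le_of_eq ?_) (Complex.abs_im_le_norm _)
      have : t * (t⁻¹ * mv V0 i) = mv V0 i := by field_simp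
      simp [hvdef, this]
    have hzc : ‖z‖ ≤ cS * Real.sqrt τ := by
      refine hz.le.trans ?_
      have h1 : Real.sqrt t ≤ 2 * Real.sqrt τ := by
        apply Real.sqrt_le_iff.2
        refine ⟨by positivity, ?_⟩
        rw [mul_pow, Real.sq_sqrt hτ0.le]
        linarith
      calc cS / 2 * Real.sqrt t ≤ cS / 2 * (2 * Real.sqrt τ) :=
            mul_le_mul_of_nonneg_left h1 (by positivity)
        _ = cS * Real.sqrt τ := by ring
    have hu₀c : ‖u₀‖ ≤ cS * τ := by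
      refine hu₀.trans ?_
      calc cS / 2 * t = cS * (t / 2) := by ring
        _ ≤ cS * τ := mul_le_mul_of_nonneg_left htτ hc0.le
    have hzr : ‖z‖ ≤ r := hzc.trans hSc.c_sqrt
    have hex : ∀ b : Fin k → ℝ, ∃ V, IsBis (fun z u s => Y z (clamp r u) s) s₁ ρ₀ M L z u₀ b
        1 1 V := fun b =>
      hS.exi _ (fun s => max (om s) 0) C₀ ε r s₁ ρ₀ M L z u₀ b 1 1 hYOK hzr hρ₀.le hρ₀s
        zero_le_one le_rfl
    choose Vf hVf using hex
    obtain ⟨b, hb, hgb⟩ := hN.surj (fun b => τ⁻¹ • mv (Vf b)) rb hrb0.le (by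
      intro b b' hb hb'
      have h := hS.lip _ _ C₀ ε r s₁ ρ₀ cS τ M L z u₀ b b' (Vf b) (Vf b') hYOK hSc
        (hb.trans hrb1) (hb'.trans hrb1) hzc hu₀c (hVf b) (hVf b')
      have e : τ⁻¹ • mv (Vf b) - τ⁻¹ • mv (Vf b') - (b - b') =
          τ⁻¹ • (mv (Vf b) - mv (Vf b') - τ • (b - b')) := by
        rw [smul_sub, smul_sub, smul_smul, inv_mul_cancel₀ hτ0.ne', one_smul]
      show ‖τ⁻¹ • mv (Vf b) - τ⁻¹ • mv (Vf b') - (b - b')‖ ≤ _
      rw [e, norm_smul, Real.norm_of_nonneg (by positivity)]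
      calc τ⁻¹ * ‖mv (Vf b) - mv (Vf b') - τ • (b - b')‖ ≤ τ⁻¹ * (1 / 2 * τ * ‖b - b'‖) :=
            mul_le_mul_of_nonneg_left h (by positivity)
        _ = 1 / 2 * ‖b - b'‖ := by field_simp)
      (τ⁻¹ • v) (by
      have h := hS.dep _ _ C₀ ε r s₁ ρ₀ cS τ M L z u₀ (Vf 0) V0 hYOK hSc hzc hu₀c (hVf 0) hV0
      rw [← hK] at h
      have h2 : ‖v - mv (Vf 0)‖ ≤ cS * τ + 4 * K * cS * τ := by
        have e : v - mv (Vf 0) = (v - mv V0) - (mv (Vf 0) - mv V0) := by abel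
        rw [e]
        refine (norm_sub_le _ _).trans (add_le_add (hv.trans ?_) h)
        calc cS / 2 * t = cS * (t / 2) := by ring
          _ ≤ cS * τ := mul_le_mul_of_nonneg_left htτ hc0.le
      show ‖τ⁻¹ • v - τ⁻¹ • mv (Vf 0)‖ ≤ _
      rw [← smul_sub, norm_smul, Real.norm_of_nonneg (by positivity)]
      calc τ⁻¹ * ‖v - mv (Vf 0)‖ ≤ τ⁻¹ * (cS * τ + 4 * K * cS * τ) :=
            mul_le_mul_of_nonneg_left h2 (by positivity)
        _ = cS + 4 * K * cS := by field_simp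
        _ ≤ 1 / 2 * rb := by
            have h6 : 1 * cS ≤ K * cS := mul_le_mul_of_nonneg_right hK1 hc0.le
            linarith)
    have hmv : mv (Vf b) = v := by
      have h3 : τ • (τ⁻¹ • mv (Vf b)) = τ • (τ⁻¹ • v) := by
        have : (fun b => τ⁻¹ • mv (Vf b)) b = τ⁻¹ • v := hgb
        exact congrArg (fun x => τ • x) this
      rwa [smul_smul, smul_smul, mul_inv_cancel₀ hτ0.ne', one_smul, one_smul] at h3
    have hsw := sweep hT hE hP hN hS hCA hCH hAg hHol (Y := Y) (om := fun s => max (om s) 0)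
      (C₀ := C₀) (ε := ε) (r := r) (s₁ := s₁) (ρ₀ := ρ₀) (c := cS) (τ := τ) (ρ₁ := ρ₁) (rb := rb)
      (δ := δ) (C₁ := C₁) (M := M) (L := L) hYOK hSc hρ₀ hτ1 (by rw [hC₁, hK])
      (by rw [← hC₃]; exact hs₁r) (by rw [← hC₃]; exact hs₁ρ) hr2
      (by
        refine le_trans ?_ hM2
        apply mul_le_mul_of_nonneg_right _ (Real.sqrt_nonneg _)
        apply mul_le_mul_of_nonneg_left _ hCH.le
        exact div_le_div_of_nonneg_left (by positivity) hst hsτ2)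
      (UU := UU) (Q := Metric.cthickening δ Q1) hKS hQ1c.cthickening hδ' hU
      (by
        intro z u s b' w' hz hu h0 h1 hb' hor hw'
        have hmem : (z, cpt u (Y z u s + b')) ∈ Q1 := by
          rcases hor with h2 | h2
          · left
            rw [h2, add_zero]
            exact ⟨(z, u, s), ⟨by simpa using hz, by simpa using hu, h0, h1⟩, rfl⟩
          · right
            apply Metric.mem_cthickening_of_dist_le (z, cpt u (Y z u s + b')) (G (z, u, s)) rb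
            · exact ⟨(z, u, s), ⟨by simpa using hz, by simpa using hu, h2, h1⟩, rfl⟩
            · rw [Prod.dist_eq]
              apply max_le
              · simp [hG, hrb0.le]
              · rw [dist_eq_norm]
                exact (cpt_add_sub _ _ _).trans hb'
        apply Metric.mem_cthickening_of_dist_le (z, w') _ δ _ hmem
        rw [Prod.dist_eq]
        apply max_le
        · simp [hδ.le]
        · rw [dist_eq_norm]; exact hw')
      hrb0.le hrb1 hzc hu₀c hb (hVf b)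
    rw [hmv] at hsw
    have hwe : cpt u₀ v = w := by
      ext i
      simp only [cpt, hu₀def, hvdef]
      rw [mul_comm]
      exact Complex.re_add_im (w i)
    rwa [hwe] at hsw

end Crest.Agent.R264.BshM
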