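import Crest.Agent.R264.BshMain
import Crest.Agent.R264.BisT
import Crest.Agent.R264.BisE
import Crest.Agent.R264.BisP
import Crest.Agent.R264.BisN
import Crest.Agent.R264.BisS2
import Crest.Agent.R264.BisS

/-! Row 264, Part B (helper747, helper127, helper213, helper464): THEOREM B. -/

set_option autoImplicit false

namespace Crest.Agent.R264.BshM

/-- THEOREM B (unconditional). -/
theorem thmB_final : Bsh.ThmB :=
  thmB Bsh.bisT (Bsh.bisE Bsh.bisT) BisPf.bisP BisNf.bisN
    (BisS.bisS Bsh.bisT (Bsh.bisE Bsh.bisT) BisPf.bisP)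

end Crest.Agent.R264.BshM
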