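import Crest.Agent.R264.CI2

/-!
Row 264 (S0402), Part C, module C3 (helper648): the nondegenerate injective limit.
-/

set_option autoImplicit false
set_option linter.unusedSectionVars false

open Topology Filter Set Metric

namespace Crest.Agent.R264.CI

open Crest.Agent.R266.SCV

section Main

variable {N n : ℕ} {E : Type*} [NormedAddCommGroup E] [NormedSpace ℂ E] [FiniteDimensional ℂ E]
variable {U : Set (Fin N → ℂ)} {F : ℕ → U → E} {G : ℕ → E → U} {S : ℕ → Set U} {R : ℕ → Set E}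
variable {Φ : U → E} {x₀ : Fin N → ℂ}

/-- on small closed balls of a chart the maps `F j` are eventually holomorphic -/
lemma ev_diff (B : BihSeq U F G S R) (c : LocChart n U x₀) {w : Fin n → ℂ} (hw : w ∈ c.W) :
    ∃ r > 0, closedBall w r ⊆ c.W ∧ ∀ᶠ j in atTop, ∀ w' ∈ closedBall w r,
      (∃ hw' : w' ∈ c.W, cps c w' hw' ∈ S j) ∧ DifferentiableAt ℂ (loc c (F j)) w' := by
  obtain ⟨r, hr, hrW⟩ := Metric.nhds_basis_closedBall.mem_iff.1 (c.hW.mem_nhds hw)
  refine ⟨r, hr, hrW, ?_⟩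
  have hK := isCompact_cps c (isCompact_closedBall w r) hrW
  filter_upwards [B.exh _ hK] with j hj w' hw'
  have h1 : cps c w' (hrW hw') ∈ S j := hj ⟨w', hrW hw', hw', rfl⟩
  exact ⟨⟨hrW hw', h1⟩, differentiableAt_loc c (B.S_open j) (B.holF j) (hrW hw') h1⟩

lemma diff_lim (B : BihSeq U F G S R) (hlim : TendstoLocallyUniformly F Φ atTop)
    (c : LocChart n U x₀) : DifferentiableOn ℂ (loc c Φ) c.W := by
  intro w hw
  obtain ⟨r, hr, hrW, hev⟩ := ev_diff B c hw
  have h1 := analyticOnNhd_of_tendstoLocallyUniformlyOn (isOpen_ball (x := w) (ε := r))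
    ((tlu_loc c hlim).mono (ball_subset_closedBall.trans hrW))
    (hev.mono (fun j hj w' hw' =>
      (hj w' (ball_subset_closedBall hw')).2.differentiableWithinAt))
  exact (h1 w (mem_ball_self hr)).differentiableAt.differentiableWithinAt

lemma holU_lim (hU : IsSubmfd n U) (B : BihSeq U F G S R)
    (hlim : TendstoLocallyUniformly F Φ atTop) : HolU U Φ :=
  holU_of_loc (n := n) (fun x => ⟨(hU x x.2).some, diff_lim B hlim _⟩)

/-- the maps `F j` are immersions -/
lemma inj_fderiv (B : BihSeq U F G S R) (c : LocChart n U x₀) {j : ℕ} {w : Fin n → ℂ}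
    (hw : w ∈ c.W) (hwS : cps c w hw ∈ S j) :
    Function.Injective (fderiv ℂ (loc c (F j)) w) := by
  have h1 : DifferentiableAt ℂ (loc c (F j)) w :=
    differentiableAt_loc c (B.S_open j) (B.holF j) hw hwS
  have h0 : loc c (F j) w = F j (cps c w hw) := loc_apply c _ hw
  have hR : loc c (F j) w ∈ R j := by rw [h0]; exact B.mapsF j hwS
  have h2 : DifferentiableAt ℂ (fun z => (G j z : Fin N → ℂ)) (loc c (F j) w) :=
    (B.holG j).differentiableAt ((B.R_open j).mem_nhds hR)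
  have h3 : (G j (loc c (F j) w) : Fin N → ℂ) = c.ψ w := by
    rw [h0, B.left j _ hwS]; rfl
  have h4 : DifferentiableAt ℂ c.π (G j (loc c (F j) w) : Fin N → ℂ) := by
    rw [h3]
    exact c.hπ.differentiableAt (c.hO.mem_nhds (c.ψ_mem w hw).2)
  have h5 : (fun w' => c.π (G j (loc c (F j) w') : Fin N → ℂ)) =ᶠ[𝓝 w] fun w' => w' := by
    filter_upwards [eventually_cps c hw ((B.S_open j).mem_nhds hwS)] with w' ⟨h6, h7⟩
    rw [loc_apply c _ h6, B.left j _ h7]
    exact c.π_ψ w' h6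
  have h8 := (h4.hasFDerivAt.comp (loc c (F j) w) h2.hasFDerivAt).comp w h1.hasFDerivAt
  have h9 : HasFDerivAt (fun w' : Fin n → ℂ => w') (ContinuousLinearMap.id ℂ (Fin n → ℂ)) w :=
    hasFDerivAt_id w
  have h10 := (h9.congr_of_eventuallyEq h5).unique h8
  intro u v huv
  have e1 := congrArg (fun L : (Fin n → ℂ) →L[ℂ] (Fin n → ℂ) => L u) h10
  have e2 := congrArg (fun L : (Fin n → ℂ) →L[ℂ] (Fin n → ℂ) => L v) h10
  simp only [ContinuousLinearMap.id_apply, ContinuousLinearMap.comp_apply] at e1 e2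
  rw [e1, e2, huv]

/-- near every point the limit is nondegenerate everywhere or nowhere (Hurwitz) -/
lemma dichotomy (hn : Module.finrank ℂ E = n) (B : BihSeq U F G S R)
    (hlim : TendstoLocallyUniformly F Φ atTop) (hΦ : HolU U Φ) (hU : IsSubmfd n U) (x : U) :
    ∃ V ∈ 𝓝 x, (∀ y ∈ V, Nd n Φ y) ∨ (∀ y ∈ V, ¬ Nd n Φ y) := by
  obtain ⟨c⟩ := hU x x.2
  have hx : c.π x ∈ c.W := c.π_mem x x.2 c.mem
  obtain ⟨r, hr, hrW, hev⟩ := ev_diff B c hx
  have hEn : Module.finrank ℂ E = Module.finrank ℂ (Fin n → ℂ) := by simp [hn]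
  let A : E ≃L[ℂ] (Fin n → ℂ) := ContinuousLinearEquiv.ofFinrankEq hEn
  let h : ((Fin n → ℂ) →L[ℂ] E) → ℂ := fun L => ((A : E →L[ℂ] (Fin n → ℂ)).comp L).det
  have hh : Differentiable ℂ h := by
    have h1 : Differentiable ℂ (fun L : (Fin n → ℂ) →L[ℂ] E =>
        (A : E →L[ℂ] (Fin n → ℂ)).comp L) :=
      (ContinuousLinearMap.compL ℂ (Fin n → ℂ) E (Fin n → ℂ)
        (A : E →L[ℂ] (Fin n → ℂ))).differentiable
    exact differentiable_det.comp h1
  have hball : ball (c.π x) r ⊆ c.W := ball_subset_closedBall.trans hrW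
  have hdΦ : DifferentiableOn ℂ (loc c Φ) (ball (c.π x) r) :=
    (differentiableOn_loc c hΦ).mono hball
  have haΦ := analyticOnNhd_of_differentiableOn isOpen_ball hdΦ
  have h2 := tlu_fderiv isOpen_ball ((tlu_loc c hlim).mono hball)
    (hev.mono (fun j hj w' hw' =>
      (hj w' (ball_subset_closedBall hw')).2.differentiableWithinAt)) hdΦ
  have h3 := comp_tlu (h := h) h2 haΦ.fderiv.continuousOn
    (fun w _ => hh.continuous.continuousAt)
  have h4 := hurwitz (p := atTop) isOpen_ball (convex_ball (c.π x) r).isPreconnected h3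
    (by
      intro w hw
      refine ⟨ball (c.π x) r, isOpen_ball.mem_nhds hw, ?_⟩
      filter_upwards [hev] with j hj
      have hdj : DifferentiableOn ℂ (loc c (F j)) (ball (c.π x) r) := fun w' hw' =>
        (hj w' (ball_subset_closedBall hw')).2.differentiableWithinAt
      have haj := analyticOnNhd_of_differentiableOn isOpen_ball hdj
      constructor
      · intro w' hw'
        exact (hh.differentiableAt.comp w' (haj.fderiv w' hw').differentiableAt
          ).differentiableWithinAt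
      · intro w' hw'
        obtain ⟨⟨h5, h6⟩, _⟩ := hj w' (ball_subset_closedBall hw')
        apply det_ne_zero_of_injective
        have := inj_fderiv B c h5 h6
        exact A.injective.comp this)
    (fun w hw => (hh.differentiableAt.comp w (haΦ.fderiv w hw).differentiableAt
      ).differentiableWithinAt)
  have hV := eventually_pi c (y := x) c.mem (isOpen_ball.mem_nhds (mem_ball_self hr))
  refine ⟨_, hV, ?_⟩
  rcases h4 with h4 | h4
  · right
    rintro y ⟨hyO, hyb⟩ hnd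
    have h5 := hnd x c hyO
    have h6 := h4 _ hyb
    have h7 : Function.Injective (fderiv ℂ (loc c Φ) (c.π y)) := by
      have := (LinearMap.injective_iff_surjective_of_finrank_eq_finrank
        (f := (fderiv ℂ (loc c Φ) (c.π y) : (Fin n → ℂ) →ₗ[ℂ] E)) hEn.symm).2 h5
      exact this
    exact det_ne_zero_of_injective (A.injective.comp h7) h6
  · left
    rintro y ⟨hyO, hyb⟩
    refine nd_of hΦ c hyO ?_
    have h5 := surjective_of_det_ne_zero (h4 _ hyb)
    intro v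
    obtain ⟨u, hu⟩ := h5 (A v)
    exact ⟨u, A.injective hu⟩

/-- **Step A**: the limit is nondegenerate at `x'` -/
lemma nd_start (hn : Module.finrank ℂ E = n) (hbd : Bornology.IsBounded U)
    (B : BihSeq U F G S R) (hlim : TendstoLocallyUniformly F Φ atTop) (hΦ : HolU U Φ)
    (hU : IsSubmfd n U) {x : ℕ → U} {x' : U} (hx : Tendsto x atTop (𝓝 x')) {r : ℝ} (hr : 0 < r)
    (hball : ∀ᶠ j in atTop, ball (F j (x j)) r ⊆ R j) : Nd n Φ x' := by
  obtain ⟨c⟩ := hU x' x'.2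
  have hx'W : c.π x' ∈ c.W := c.π_mem x' x'.2 c.mem
  obtain ⟨r1, hr1, hr1W, hev⟩ := ev_diff B c hx'W
  refine nd_of hΦ c c.mem ?_
  -- bound for `U`
  obtain ⟨M, hM⟩ := hbd.exists_norm_le
  have hM0 : 0 ≤ M := (norm_nonneg _).trans (hM x' x'.2)
  -- small ball in the ambient space
  have hπc : ContinuousAt c.π (x' : Fin N → ℂ) := pi_continuousAt c c.mem
  have h1 : ∀ᶠ y in 𝓝 (x' : Fin N → ℂ), y ∈ c.O ∧ ‖c.π y‖ ≤ ‖c.π x'‖ + 1 := by
    have h0 : ∀ᶠ y in 𝓝 (x' : Fin N → ℂ), y ∈ c.O := c.hO.mem_nhds c.mem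
    refine h0.and ?_
    have := hπc.norm.eventually (ge_mem_nhds (lt_add_one ‖c.π x'‖))
    filter_upwards [this] with y hy
    exact hy
  obtain ⟨s, hs, hsO⟩ := Metric.eventually_nhds_iff_ball.1 h1
  set M' : ℝ := ‖c.π x'‖ + 1 with hM'
  set C1 : ℝ := M / (r / 2) with hC1
  have hC1' : 0 ≤ C1 := by positivity
  set ρ : ℝ := min (r / 2) (s / 2 / (C1 + 1)) with hρ
  have hρ0 : 0 < ρ := by positivity
  have hρr : ρ ≤ r / 2 := min_le_left _ _
  have hρs : C1 * ρ ≤ s / 2 := by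
    have : ρ ≤ s / 2 / (C1 + 1) := min_le_right _ _
    rw [le_div_iff₀ (by positivity)] at this
    nlinarith
  -- `x j` is eventually close to `x'`
  have hxs : ∀ᶠ j in atTop, dist (x j : Fin N → ℂ) x' < s / 2 := by
    have : Tendsto (fun j => (x j : Fin N → ℂ)) atTop (𝓝 x') :=
      (continuous_subtype_val.tendsto x').comp hx
    exact Metric.tendsto_nhds.1 this _ (by positivity)
  have hw : Tendsto (fun j => c.π (x j : Fin N → ℂ)) atTop (𝓝 (c.π x')) := by
    have : Tendsto (fun j => (x j : Fin N → ℂ)) atTop (𝓝 x') :=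
      (continuous_subtype_val.tendsto x').comp hx
    exact hπc.tendsto.comp this
  have hwb : ∀ᶠ j in atTop, c.π (x j : Fin N → ℂ) ∈ closedBall (c.π (x' : Fin N → ℂ)) r1 :=
    hw (closedBall_mem_nhds _ hr1)
  have key : ∀ᶠ j in atTop, ∀ v : E, ∃ u : Fin n → ℂ, ‖u‖ ≤ M' / ρ * ‖v‖ ∧
      fderiv ℂ (loc c (F j)) (c.π (x j)) u = v := by
    filter_upwards [hxs, hwb, hev, hball] with j h2 h3 h4 h5
    have hxO : (x j : Fin N → ℂ) ∈ c.O := (hsO _ (by rw [mem_ball]; linarith)).1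
    obtain ⟨⟨h6, h7⟩, h8⟩ := h4 _ h3
    rw [cps_pi c hxO] at h7
    have hGe : G j (F j (x j)) = x j := B.left j _ h7
    -- Lipschitz estimate
    have hdiff : DifferentiableOn ℂ (fun z => (G j z : Fin N → ℂ)) (ball (F j (x j)) r) :=
      (B.holG j).mono h5
    have hlip : ∀ z ∈ ball (F j (x j)) (r / 2),
        ‖(G j z : Fin N → ℂ) - (G j (F j (x j)) : Fin N → ℂ)‖ ≤ C1 * ‖z - F j (x j)‖ := by
      intro z hz
      refine (convex_ball (F j (x j)) (r / 2)).norm_image_sub_le_of_norm_fderiv_le (𝕜 := ℂ)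
        (f := fun z => (G j z : Fin N → ℂ)) ?_ ?_ (mem_ball_self (by positivity)) hz
      · intro y hy
        exact hdiff.differentiableAt (isOpen_ball.mem_nhds (ball_subset_ball (by linarith) hy))
      · intro y hy
        have hyr : ball y (r / 2) ⊆ ball (F j (x j)) r := by
          intro y' hy'
          rw [mem_ball] at hy hy' ⊢
          calc dist y' (F j (x j)) ≤ dist y' y + dist y (F j (x j)) := dist_triangle _ _ _
            _ < r := by linarith
        exact norm_fderiv_le_of_ball (by positivity) (hdiff.mono hyr)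
          (fun y' _ => hM _ (G j y').2)
    have hin : ∀ z ∈ ball (F j (x j)) ρ, (G j z : Fin N → ℂ) ∈ ball (x' : Fin N → ℂ) s := by
      intro z hz
      have h9 := hlip z (ball_subset_ball hρr hz)
      rw [hGe] at h9
      rw [mem_ball, dist_eq_norm] at hz
      have h10 : C1 * ‖z - F j (x j)‖ ≤ s / 2 :=
        (mul_le_mul_of_nonneg_left hz.le hC1').trans hρs
      rw [mem_ball]
      calc dist (G j z : Fin N → ℂ) x' ≤ dist (G j z : Fin N → ℂ) (x j) + dist (x j : Fin N → ℂ) x' :=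
            dist_triangle _ _ _
        _ < s := by rw [dist_eq_norm]; linarith
    set P : E → (Fin n → ℂ) := fun z => c.π (G j z : Fin N → ℂ) with hP
    have hPd : DifferentiableOn ℂ P (ball (F j (x j)) ρ) := by
      refine c.hπ.comp (hdiff.mono (ball_subset_ball (by linarith))) ?_
      intro z hz
      exact (hsO _ (hin z hz)).1
    have hPn : ‖fderiv ℂ P (F j (x j))‖ ≤ M' / ρ :=
      norm_fderiv_le_of_ball hρ0 hPd (fun y hy => (hsO _ (hin y hy)).2)
    have hPat : DifferentiableAt ℂ P (F j (x j)) :=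
      hPd.differentiableAt (isOpen_ball.mem_nhds (mem_ball_self hρ0))
    have hPe : P (F j (x j)) = c.π (x j) := by rw [hP]; simp only [hGe]
    have hid : (fun z => loc c (F j) (P z)) =ᶠ[𝓝 (F j (x j))] fun z => z := by
      filter_upwards [isOpen_ball.mem_nhds (mem_ball_self hρ0)] with z hz
      simp only [hP]
      rw [loc_pi c (F j) (hsO _ (hin z hz)).1]
      exact B.right j z (h5 (ball_subset_ball (by linarith) hz))
    have h8' : DifferentiableAt ℂ (loc c (F j)) (P (F j (x j))) := by rw [hPe]; exact h8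
    have h11 := h8'.hasFDerivAt.comp (F j (x j)) hPat.hasFDerivAt
    have h12 := ((hasFDerivAt_id (𝕜 := ℂ) (F j (x j))).congr_of_eventuallyEq hid).unique h11
    intro v
    refine ⟨fderiv ℂ P (F j (x j)) v, ?_, ?_⟩
    · exact ((fderiv ℂ P (F j (x j))).le_opNorm v).trans
        (mul_le_mul_of_nonneg_right hPn (norm_nonneg _))
    · have h13 := congrArg (fun L : E →L[ℂ] E => L v) h12
      simp only [ContinuousLinearMap.comp_apply, ContinuousLinearMap.id_apply, hPe] at h13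
      exact h13.symm
  -- convergence of the derivatives
  have hb1 : ball (c.π (x' : Fin N → ℂ)) r1 ⊆ c.W := ball_subset_closedBall.trans hr1W
  have hdΦ : DifferentiableOn ℂ (loc c Φ) (ball (c.π (x' : Fin N → ℂ)) r1) :=
    (differentiableOn_loc c hΦ).mono hb1
  have haΦ := analyticOnNhd_of_differentiableOn isOpen_ball hdΦ
  have h2 := tlu_fderiv isOpen_ball ((tlu_loc c hlim).mono hb1)
    (hev.mono (fun j hj w' hw' =>
      (hj w' (ball_subset_closedBall hw')).2.differentiableWithinAt)) hdΦ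
  have hmem : c.π (x' : Fin N → ℂ) ∈ ball (c.π (x' : Fin N → ℂ)) r1 := mem_ball_self hr1
  have h3 : Tendsto (fun j => fderiv ℂ (loc c (F j)) (c.π (x j))) atTop
      (𝓝 (fderiv ℂ (loc c Φ) (c.π x'))) := by
    refine h2.tendsto_comp (haΦ.fderiv.continuousOn _ hmem) hmem ?_
    rw [isOpen_ball.nhdsWithin_eq hmem]
    exact hw
  intro v
  have hcl : IsClosed (LinearMap.range (fderiv ℂ (loc c Φ) (c.π x') : (Fin n → ℂ) →ₗ[ℂ] E) : Set E) :=
    Submodule.closed_of_finiteDimensional _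
  have hex : ∀ j, ∃ u : Fin n → ℂ, (∀ v' : E, True) ∧
      ((∀ v : E, ∃ u : Fin n → ℂ, ‖u‖ ≤ M' / ρ * ‖v‖ ∧
        fderiv ℂ (loc c (F j)) (c.π (x j)) u = v) → ‖u‖ ≤ M' / ρ * ‖v‖ ∧
        fderiv ℂ (loc c (F j)) (c.π (x j)) u = v) := by
    intro j
    by_cases h : (∀ v : E, ∃ u : Fin n → ℂ, ‖u‖ ≤ M' / ρ * ‖v‖ ∧
        fderiv ℂ (loc c (F j)) (c.π (x j)) u = v)
    · obtain ⟨u, hu⟩ := h v
      exact ⟨u, fun _ => trivial, fun _ => hu⟩
    · exact ⟨0, fun _ => trivial, fun h' => absurd h' h⟩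
  choose u _ hu using hex
  have hu' : ∀ᶠ j in atTop, ‖u j‖ ≤ M' / ρ * ‖v‖ ∧ fderiv ℂ (loc c (F j)) (c.π (x j)) (u j) = v := by
    filter_upwards [key] with j hj
    exact hu j hj
  have h4 : Tendsto (fun j => fderiv ℂ (loc c Φ) (c.π x') (u j)) atTop (𝓝 v) := by
    rw [tendsto_iff_norm_sub_tendsto_zero]
    have h5 : Tendsto (fun j => ‖fderiv ℂ (loc c Φ) (c.π x') - fderiv ℂ (loc c (F j)) (c.π (x j))‖
        * (M' / ρ * ‖v‖)) atTop (𝓝 (0 * (M' / ρ * ‖v‖))) := by
      refine Tendsto.mul_const _ ?_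
      have := (tendsto_const_nhds (x := fderiv ℂ (loc c Φ) (c.π x'))).sub h3
      simpa using this.norm
    rw [zero_mul] at h5
    refine squeeze_zero' (Eventually.of_forall fun j => norm_nonneg _) ?_ h5
    filter_upwards [hu'] with j ⟨h6, h7⟩
    have h8 : fderiv ℂ (loc c Φ) (c.π x') (u j) - v =
        (fderiv ℂ (loc c Φ) (c.π x') - fderiv ℂ (loc c (F j)) (c.π (x j))) (u j) := by
      rw [_root_.sub_apply, h7]
    rw [h8]
    exact (ContinuousLinearMap.le_opNorm _ _).trans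
      (mul_le_mul_of_nonneg_left h6 (norm_nonneg _))
  have h5 : v ∈ (LinearMap.range (fderiv ℂ (loc c Φ) (c.π x') : (Fin n → ℂ) →ₗ[ℂ] E) : Set E) :=
    hcl.mem_of_tendsto h4 (Eventually.of_forall fun j => ⟨u j, rfl⟩)
  obtain ⟨u0, hu0⟩ := h5
  exact ⟨u0, hu0⟩

/-- **Step B**: nondegenerate everywhere -/
lemma nd_all (hn : Module.finrank ℂ E = n) (hbd : Bornology.IsBounded U)
    (hconn : IsConnected U)
    (B : BihSeq U F G S R) (hlim : TendstoLocallyUniformly F Φ atTop) (hΦ : HolU U Φ)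
    (hU : IsSubmfd n U) {x : ℕ → U} {x' : U} (hx : Tendsto x atTop (𝓝 x')) {r : ℝ} (hr : 0 < r)
    (hball : ∀ᶠ j in atTop, ball (F j (x j)) r ⊆ R j) (y : U) : Nd n Φ y := by
  have : PreconnectedSpace U := isPreconnected_iff_preconnectedSpace.1 hconn.isPreconnected
  have h1 : IsClopen {y : U | Nd n Φ y} := by
    constructor
    · rw [← isOpen_compl_iff, isOpen_iff_mem_nhds]
      intro y hy
      obtain ⟨V, hV, h | h⟩ := dichotomy hn B hlim hΦ hU y
      · exact absurd (h y (mem_of_mem_nhds hV)) hy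
      · exact Filter.mem_of_superset hV h
    · rw [isOpen_iff_mem_nhds]
      intro y hy
      obtain ⟨V, hV, h | h⟩ := dichotomy hn B hlim hΦ hU y
      · exact Filter.mem_of_superset hV h
      · exact absurd hy (h y (mem_of_mem_nhds hV))
  have h2 := h1.eq_univ ⟨x', nd_start hn hbd B hlim hΦ hU hx hr hball⟩
  have h3 : y ∈ {y : U | Nd n Φ y} := by rw [h2]; exact mem_univ _
  exact h3

/-- the derivative as a continuous linear equivalence -/
lemma exists_equiv (hn : Module.finrank ℂ E = n) (c : LocChart n U x₀) {y : U}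
    (hy : (y : Fin N → ℂ) ∈ c.O) (hnd : Nd n Φ y) :
    ∃ A : (Fin n → ℂ) ≃L[ℂ] E, (A : (Fin n → ℂ) →L[ℂ] E) = fderiv ℂ (loc c Φ) (c.π y) := by
  have hEn : Module.finrank ℂ (Fin n → ℂ) = Module.finrank ℂ E := by simp [hn]
  have hs : Function.Surjective (fderiv ℂ (loc c Φ) (c.π y)) := hnd _ c hy
  have hi : Function.Injective (fderiv ℂ (loc c Φ) (c.π y)) :=
    (LinearMap.injective_iff_surjective_of_finrank_eq_finrank
      (f := (fderiv ℂ (loc c Φ) (c.π y) : (Fin n → ℂ) →ₗ[ℂ] E)) hEn).2 hs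
  let A := LinearEquiv.ofBijective (fderiv ℂ (loc c Φ) (c.π y) : (Fin n → ℂ) →ₗ[ℂ] E) ⟨hi, hs⟩
  refine ⟨A.toContinuousLinearEquiv, ?_⟩
  ext v
  rfl

/-- **Step C**: kernel property -/
lemma ker_lim (hn : Module.finrank ℂ E = n) (hU : IsSubmfd n U)
    (B : BihSeq U F G S R) (hlim : TendstoLocallyUniformly F Φ atTop) (hΦ : HolU U Φ)
    {y : U} (hnd : Nd n Φ y) {V : Set U} (hV : V ∈ 𝓝 y) :
    ∃ ρ > 0, ∀ᶠ j in atTop, ball (Φ y) ρ ⊆ F j '' (V ∩ S j) := by
  obtain ⟨c⟩ := hU y y.2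
  have hyW : c.π y ∈ c.W := c.π_mem y y.2 c.mem
  obtain ⟨A, hA⟩ := exists_equiv (Φ := Φ) hn c c.mem hnd
  obtain ⟨r, hr, hrW, hev⟩ := ev_diff B c hyW
  have hb : ball (c.π (y : Fin N → ℂ)) r ⊆ c.W := ball_subset_closedBall.trans hrW
  have hdΦ : DifferentiableOn ℂ (loc c Φ) (ball (c.π (y : Fin N → ℂ)) r) :=
    (differentiableOn_loc c hΦ).mono hb
  have hV' : {w | w ∈ ball (c.π (y : Fin N → ℂ)) r ∧ ∃ hw : w ∈ c.W, cps c w hw ∈ V}
      ∈ 𝓝 (c.π (y : Fin N → ℂ)) := by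
    refine inter_mem (ball_mem_nhds _ hr) ?_
    refine eventually_cps c hyW ?_
    rw [cps_pi c c.mem]
    exact hV
  obtain ⟨ρ, hρ, h1⟩ := eventually_ball_subset_image (p := atTop) isOpen_ball
    (mem_ball_self hr) ((tlu_loc c hlim).mono hb)
    (hev.mono (fun j hj w' hw' =>
      (hj w' (ball_subset_closedBall hw')).2.differentiableWithinAt)) hdΦ A hA hV'
  refine ⟨ρ, hρ, ?_⟩
  filter_upwards [h1, hev] with j h2 h3 z hz
  rw [loc_pi c Φ c.mem] at h2
  obtain ⟨w, ⟨hwb, hwW, hwV⟩, hwz⟩ := h2 hz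
  obtain ⟨⟨h4, h5⟩, _⟩ := h3 w (ball_subset_closedBall hwb)
  refine ⟨cps c w hwW, ⟨hwV, h5⟩, ?_⟩
  rw [← hwz, loc_apply c (F j) hwW]

/-- **Step D**: injectivity -/
lemma inj_lim (B : BihSeq U F G S R)
    (hker : ∀ y : U, ∀ V ∈ 𝓝 y, ∃ ρ > 0, ∀ᶠ j in atTop, ball (Φ y) ρ ⊆ F j '' (V ∩ S j)) :
    Function.Injective Φ := by
  intro y y' h
  by_contra hne
  obtain ⟨V, V', hV, hV', hd⟩ := t2_separation_nhds hne
  obtain ⟨ρ, hρ, h1⟩ := hker y V hV
  obtain ⟨ρ', hρ', h2⟩ := hker y' V' hV'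
  obtain ⟨j, h3, h4⟩ := (h1.and h2).exists
  obtain ⟨a, ⟨ha, haS⟩, ha'⟩ := h3 (mem_ball_self hρ)
  obtain ⟨b, ⟨hb, hbS⟩, hb'⟩ := h4 (mem_ball_self hρ')
  have hab : a = b := by
    rw [← B.left j a haS, ← B.left j b hbS, ha', hb', h]
  rw [hab] at ha
  exact Set.disjoint_left.1 hd ha hb

/-- **Step E**: local inverse -/
lemma local_inv (hn : Module.finrank ℂ E = n) (hU : IsSubmfd n U) (hΦ : HolU U Φ)
    {y : U} (hnd : Nd n Φ y) :
    ∃ T : Set E, IsOpen T ∧ Φ y ∈ T ∧ T ⊆ range Φ ∧ ∃ θ : E → (Fin N → ℂ),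
      DifferentiableOn ℂ θ T ∧ ∀ z ∈ T, ∃ x : U, Φ x = z ∧ θ z = x := by
  obtain ⟨c⟩ := hU y y.2
  have hyW : c.π y ∈ c.W := c.π_mem y y.2 c.mem
  obtain ⟨A, hA⟩ := exists_equiv (Φ := Φ) hn c c.mem hnd
  have hdΦ : DifferentiableOn ℂ (loc c Φ) c.W := differentiableOn_loc c hΦ
  have haΦ := analyticOnNhd_of_differentiableOn c.hW hdΦ
  obtain ⟨e, he1, he2, he3, he4, he5⟩ := exists_analytic_openPartialHomeomorph
    (haΦ _ hyW) A (by rw [hA]; exact (haΦ _ hyW).differentiableAt.hasFDerivAt)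
    (c.hW.mem_nhds hyW)
  have hcW : ∀ z ∈ e.target, e.symm z ∈ c.W := fun z hz => he2 (e.map_target hz)
  have hval : ∀ z (hz : z ∈ e.target), Φ (cps c (e.symm z) (hcW z hz)) = z := by
    intro z hz
    rw [← loc_apply c Φ (hcW z hz), ← he3, e.right_inv hz]
  refine ⟨e.target, e.open_target, ?_, ?_, fun z => c.ψ (e.symm z), ?_, ?_⟩
  · have := e.map_source he1
    rw [he3, loc_pi c Φ c.mem] at this
    exact this
  · intro z hz
    exact ⟨_, hval z hz⟩
  · exact c.hψ.comp he5.differentiableOn hcW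
  · intro z hz
    exact ⟨cps c (e.symm z) (hcW z hz), hval z hz, rfl⟩

end Main

/-- **Module C3.** -/
theorem c3 : C3Stmt := by
  intro N n E _ _ _ U F G S R Φ x x' r hn hU hconn hbd B hlim hx hr hball
  have hΦ : HolU U Φ := holU_lim hU B hlim
  have hnd : ∀ y, Nd n Φ y := nd_all hn hbd hconn B hlim hΦ hU hx hr hball
  have hker : ∀ y : U, ∀ V ∈ 𝓝 y, ∃ ρ > 0, ∀ᶠ j in atTop, ball (Φ y) ρ ⊆ F j '' (V ∩ S j) :=
    fun y V hV => ker_lim hn hU B hlim hΦ (hnd y) hV
  have hinj : Function.Injective Φ := inj_lim B hker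
  have hloc := fun y => local_inv hn hU hΦ (hnd y)
  refine ⟨hΦ, hinj, ?_, ?_, hker⟩
  · rw [isOpen_iff_mem_nhds]
    rintro _ ⟨y, rfl⟩
    obtain ⟨T, hT, hyT, hTr, _⟩ := hloc y
    exact Filter.mem_of_superset (hT.mem_nhds hyT) hTr
  · classical
    refine ⟨fun z => if h : ∃ y : U, Φ y = z then ((h.choose : U) : Fin N → ℂ) else 0, ?_, ?_⟩
    · rintro _ ⟨y, rfl⟩
      obtain ⟨T, hT, hyT, hTr, θ, hθ, hθT⟩ := hloc y
      have h1 : DifferentiableAt ℂ θ (Φ y) := hθ.differentiableAt (hT.mem_nhds hyT)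
      refine (h1.congr_of_eventuallyEq ?_).differentiableWithinAt
      filter_upwards [hT.mem_nhds hyT] with z hz
      obtain ⟨x1, hx1, hx2⟩ := hθT z hz
      have h2 : ∃ y : U, Φ y = z := ⟨x1, hx1⟩
      rw [dif_pos h2, hx2]
      have h3 : h2.choose = x1 := hinj (h2.choose_spec.trans hx1.symm)
      rw [h3]
    · intro y
      have h2 : ∃ y' : U, Φ y' = Φ y := ⟨y, rfl⟩
      simp only [dif_pos h2]
      rw [hinj h2.choose_spec]

end Crest.Agent.R264.CI
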