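import Crest.Agent.R266.SCV

/-!
Row 264 (S0402), Part C, module C3 (helper648): several complex variables toolbox for sequences.

* `comp_tlu`      : composition of a locally uniform limit with a map continuous at the limit values
* `tlu_fderiv`    : derivatives of locally uniformly convergent holomorphic maps converge
* `hurwitz_ball`, `hurwitz` : Hurwitz' theorem (zero free functions) in several variables
* `eventually_approx`, `eventually_injOn`, `eventually_ball_subset_image` : inverse function theorem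
  for sequences
-/

set_option autoImplicit false

open Topology Filter Set Metric
open scoped NNReal

namespace Crest.Agent.R264.CI

open Crest.Agent.R266.SCV

section Conv

variable {ι : Type*} {p : Filter ι}

/-- composition with a map continuous at the limit values -/
theorem comp_tlu {α β γ : Type*} [TopologicalSpace α] [PseudoMetricSpace β] [PseudoMetricSpace γ]
    {F : ι → α → β} {g : α → β} {h : β → γ} {s : Set α}
    (hF : TendstoLocallyUniformlyOn F g p s) (hg : ContinuousOn g s)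
    (hh : ∀ x ∈ s, ContinuousAt h (g x)) :
    TendstoLocallyUniformlyOn (fun n x => h (F n x)) (fun x => h (g x)) p s := by
  rw [Metric.tendstoLocallyUniformlyOn_iff] at hF ⊢
  intro ε hε x hx
  obtain ⟨δ, hδ, h1⟩ := Metric.continuousAt_iff.1 (hh x hx) (ε / 2) (by positivity)
  obtain ⟨t, ht, h2⟩ := hF (δ / 2) (by positivity) x hx
  have h3 : ∀ᶠ y in 𝓝[s] x, dist (g y) (g x) < δ / 2 :=
    Metric.tendsto_nhds.1 (hg x hx) (δ / 2) (by positivity)
  refine ⟨t ∩ {y | dist (g y) (g x) < δ / 2}, inter_mem ht h3, ?_⟩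
  filter_upwards [h2] with n hn y hy
  have a1 := hn y hy.1
  have a2 : dist (g y) (g x) < δ / 2 := hy.2
  have a3 : dist (F n y) (g x) < δ := by
    have := dist_triangle_left (F n y) (g x) (g y)
    linarith
  have a4 := h1 a3
  have a5 := h1 (show dist (g y) (g x) < δ by linarith)
  have a6 := dist_triangle_right (h (g y)) (h (F n y)) (h (g x))
  linarith

variable {E : Type*} [NormedAddCommGroup E] [NormedSpace ℂ E]
variable {F : Type*} [NormedAddCommGroup F] [NormedSpace ℂ F]

/-- derivatives of locally uniformly convergent holomorphic maps converge locally uniformly -/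
theorem tlu_fderiv [FiniteDimensional ℂ E] {f : ι → E → F} {g : E → F} {U : Set E}
    (hU : IsOpen U) (h : TendstoLocallyUniformlyOn f g p U)
    (hf : ∀ᶠ n in p, DifferentiableOn ℂ (f n) U) (hg : DifferentiableOn ℂ g U) :
    TendstoLocallyUniformlyOn (fun n => fderiv ℂ (f n)) (fderiv ℂ g) p U := by
  have : ProperSpace E := FiniteDimensional.proper ℂ E
  rw [Metric.tendstoLocallyUniformlyOn_iff]
  intro ε hε x hx
  obtain ⟨R, hR, hRU⟩ := Metric.nhds_basis_closedBall.mem_iff.1 (hU.mem_nhds hx)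
  have hK := (tendstoLocallyUniformlyOn_iff_forall_isCompact hU).1 h (closedBall x R) hRU
    (isCompact_closedBall x R)
  rw [Metric.tendstoUniformlyOn_iff] at hK
  refine ⟨ball x (R / 2), mem_nhdsWithin_of_mem_nhds (ball_mem_nhds x (by positivity)), ?_⟩
  filter_upwards [hK (ε * R / 4) (by positivity), hf] with n hn hfn y hy
  have hsub : ball y (R / 2) ⊆ closedBall x R := by
    intro z hz
    rw [mem_ball] at hz hy
    rw [mem_closedBall]
    have := dist_triangle z y x
    linarith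
  have hyU : y ∈ U := hRU (hsub (mem_ball_self (by positivity)))
  have h1 : DifferentiableOn ℂ (fun z => g z - f n z) (ball y (R / 2)) :=
    (hg.mono (hsub.trans hRU)).sub (hfn.mono (hsub.trans hRU))
  have h2 := norm_fderiv_le_of_ball (by positivity : 0 < R / 2) h1 (M := ε * R / 4) (by
    intro z hz
    have := hn z (hsub hz)
    rw [dist_eq_norm] at this
    exact this.le)
  have h3 : fderiv ℂ (fun z => g z - f n z) y = fderiv ℂ g y - fderiv ℂ (f n) y :=
    fderiv_fun_sub (hg.differentiableAt (hU.mem_nhds hyU)) (hfn.differentiableAt (hU.mem_nhds hyU))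
  rw [h3] at h2
  rw [dist_eq_norm]
  have h4 : ε * R / 4 / (R / 2) = ε / 2 := by field_simp; norm_num
  rw [h4] at h2
  linarith

end Conv

section Hurwitz

variable {ι : Type*} {p : Filter ι} [p.NeBot]

/-- Hurwitz in one variable -/
theorem hurwitz_disc {F : ι → ℂ → ℂ} {g : ℂ → ℂ} {b : ℂ} {r : ℝ} (hr : 0 < r)
    (h : TendstoUniformlyOn F g p (closedBall b r))
    (hF : ∀ᶠ n in p, DifferentiableOn ℂ (F n) (closedBall b r))
    (nz : ∀ᶠ n in p, ∀ z ∈ closedBall b r, F n z ≠ 0)
    (hgc : ContinuousOn g (sphere b r)) (hg : ∀ z ∈ sphere b r, g z ≠ 0) : g b ≠ 0 := by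
  obtain ⟨m, hm, hmz⟩ : ∃ m > 0, ∀ z ∈ sphere b r, m ≤ ‖g z‖ := by
    have hnes : (sphere b r).Nonempty := (NormedSpace.sphere_nonempty).2 hr.le
    obtain ⟨z0, hz0, hmin⟩ := (isCompact_sphere b r).exists_isMinOn hnes hgc.norm
    exact ⟨‖g z0‖, norm_pos_iff.2 (hg z0 hz0), fun z hz => hmin hz⟩
  have hev := Metric.tendstoUniformlyOn_iff.1 h (m / 4) (by positivity)
  obtain ⟨n, hn, hFn, hnz⟩ := (hev.and (hF.and nz)).exists
  have hsph : ∀ z ∈ sphere b r, ‖(F n z)⁻¹‖ ≤ (m / 2)⁻¹ := by
    intro z hz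
    rw [norm_inv]
    apply inv_anti₀ (by positivity)
    have h1 := hmz z hz
    have h2 := hn z (sphere_subset_closedBall hz)
    rw [dist_eq_norm] at h2
    have h3 := norm_sub_norm_le (g z) (F n z)
    linarith
  have hdiffinv : DiffContOnCl ℂ (fun z => (F n z)⁻¹) (ball b r) := by
    apply DifferentiableOn.diffContOnCl
    rw [closure_ball b hr.ne']
    intro z hz
    exact (hFn z hz).inv (hnz z hz)
  have hmax := Complex.norm_le_of_forall_mem_frontier_norm_le isBounded_ball hdiffinv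
    (C := (m / 2)⁻¹) (by
      intro z hz
      rw [frontier_ball b hr.ne'] at hz
      exact hsph z hz) (subset_closure (mem_ball_self hr))
  rw [norm_inv] at hmax
  have hpos : 0 < ‖F n b‖ := norm_pos_iff.2 (hnz b (mem_closedBall_self hr.le))
  have h6 : m / 2 ≤ ‖F n b‖ := by
    rwa [inv_le_inv₀ hpos (by positivity)] at hmax
  have h9 := hn b (mem_closedBall_self hr.le)
  intro h0
  rw [h0, dist_eq_norm, zero_sub, norm_neg] at h9
  linarith

variable {E : Type*} [NormedAddCommGroup E] [NormedSpace ℂ E]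

/-- Hurwitz on a ball in several variables -/
theorem hurwitz_ball {f : ι → E → ℂ} {g : E → ℂ} {x : E} {R : ℝ}
    (h : TendstoLocallyUniformlyOn f g p (ball x R))
    (hf : ∀ᶠ n in p, DifferentiableOn ℂ (f n) (ball x R))
    (nz : ∀ᶠ n in p, ∀ y ∈ ball x R, f n y ≠ 0) (hg : DifferentiableOn ℂ g (ball x R))
    (hx : g x = 0) : ∀ y ∈ ball x R, g y = 0 := by
  intro y hy
  by_contra hgy
  set L : ℂ → E := fun z => x + z • (y - x) with hL
  have hLc : Continuous L := by rw [hL]; fun_prop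
  have hLd : Differentiable ℂ L := by rw [hL]; fun_prop
  set W : Set ℂ := L ⁻¹' (ball x R) with hW
  have hWo : IsOpen W := isOpen_ball.preimage hLc
  have hWc : IsPreconnected W := by
    have : Convex ℝ W := by
      intro z hz w hw a b ha hb hab
      have h1 : L (a • z + b • w) = a • L z + b • L w := by
        simp only [hL, smul_add, add_smul, smul_assoc]
        have : x = a • x + b • x := by rw [← add_smul, hab, one_smul]
        nth_rw 1 [this]
        abel
      show L (a • z + b • w) ∈ ball x R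
      rw [h1]
      exact convex_ball x R hz hw ha hb hab
    exact this.isPreconnected
  have h0W : (0 : ℂ) ∈ W := by
    show L 0 ∈ ball x R
    have : (0 : ℝ) < R := lt_of_le_of_lt dist_nonneg hy
    simp [hL, this]
  have h1W : (1 : ℂ) ∈ W := by
    show L 1 ∈ ball x R
    simpa [hL] using hy
  have hGd : DifferentiableOn ℂ (fun z => g (L z)) W :=
    hg.comp hLd.differentiableOn (fun z hz => hz)
  have hGa : AnalyticOnNhd ℂ (fun z => g (L z)) W := hGd.analyticOnNhd hWo
  have hG0 : g (L 0) = 0 := by simpa [hL] using hx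
  have hG1 : g (L 1) ≠ 0 := by simpa [hL] using hgy
  rcases (hGa 0 h0W).eventually_eq_zero_or_eventually_ne_zero with hz | hnz
  · exact hG1 (hGa.eqOn_zero_of_preconnected_of_eventuallyEq_zero hWc h0W hz h1W)
  obtain ⟨r, hr, hrW, hrz⟩ : ∃ r > 0, closedBall (0 : ℂ) r ⊆ W ∧
      ∀ z ∈ closedBall (0 : ℂ) r, z ≠ 0 → g (L z) ≠ 0 := by
    rw [eventually_nhdsWithin_iff] at hnz
    obtain ⟨r, hr, h1⟩ := Metric.nhds_basis_closedBall.mem_iff.1
      (inter_mem (hWo.mem_nhds h0W) hnz)
    exact ⟨r, hr, fun z hz => (h1 hz).1, fun z hz hz0 => (h1 hz).2 hz0⟩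
  have hcomp : TendstoLocallyUniformlyOn (fun n => f n ∘ L) (g ∘ L) p W :=
    h.comp L (fun z hz => hz) hLc.continuousOn
  have hK := (tendstoLocallyUniformlyOn_iff_forall_isCompact hWo).1 hcomp (closedBall 0 r) hrW
    (isCompact_closedBall 0 r)
  refine hurwitz_disc hr hK ?_ ?_ ?_ ?_ hG0
  · filter_upwards [hf] with n hn
    exact (hn.comp hLd.differentiableOn (fun z hz => hz)).mono hrW
  · filter_upwards [nz] with n hn z hz
    exact hn (L z) (hrW hz)
  · exact (hGd.continuousOn.mono hrW).mono sphere_subset_closedBall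
  · intro z hz
    apply hrz z (sphere_subset_closedBall hz)
    intro h0
    rw [h0, mem_sphere, dist_self] at hz
    exact hr.ne hz

/-- Hurwitz in several variables: the limit of zero free holomorphic functions on a preconnected
open set vanishes identically or nowhere. -/
theorem hurwitz {f : ι → E → ℂ} {g : E → ℂ} {U : Set E} (hU : IsOpen U) (hc : IsPreconnected U)
    (h : TendstoLocallyUniformlyOn f g p U)
    (hf : ∀ x ∈ U, ∃ V ∈ 𝓝 x, ∀ᶠ n in p, DifferentiableOn ℂ (f n) V ∧ ∀ y ∈ V, f n y ≠ 0)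
    (hg : DifferentiableOn ℂ g U) : (∀ x ∈ U, g x = 0) ∨ (∀ x ∈ U, g x ≠ 0) := by
  have key : ∀ x ∈ U, g x = 0 → ∀ᶠ y in 𝓝 x, g y = 0 := by
    intro x hx hgx
    obtain ⟨V, hV, hVf⟩ := hf x hx
    obtain ⟨R, hR, hRU⟩ := Metric.mem_nhds_iff.1 (inter_mem (hU.mem_nhds hx) hV)
    have h1 := hurwitz_ball (p := p) (f := f) (g := g) (x := x) (R := R)
      (h.mono (fun y hy => (hRU hy).1))
      (hVf.mono (fun n hn => hn.1.mono (fun y hy => (hRU hy).2)))
      (hVf.mono (fun n hn y hy => hn.2 y (hRU hy).2)) (hg.mono (fun y hy => (hRU hy).1)) hgx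
    filter_upwards [ball_mem_nhds x hR] with y hy
    exact h1 y hy
  by_contra hcon
  push Not at hcon
  obtain ⟨⟨a, ha, hga⟩, b, hb, hgb⟩ := hcon
  have hu : IsOpen {x | x ∈ U ∧ ∀ᶠ y in 𝓝 x, g y = 0} :=
    hU.inter isOpen_setOfPred_eventually_nhds
  have hv : IsOpen (U ∩ g ⁻¹' {0}ᶜ) :=
    hg.continuousOn.isOpen_inter_preimage hU isOpen_compl_singleton
  obtain ⟨z, hz⟩ := hc _ _ hu hv (by
    intro x hx
    by_cases hgx : g x = 0
    · exact Or.inl ⟨hx, key x hx hgx⟩
    · exact Or.inr ⟨hx, hgx⟩) ⟨b, hb, hb, key b hb hgb⟩ ⟨a, ha, ha, hga⟩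
  exact hz.2.2.2 hz.2.1.2.self_of_nhds

end Hurwitz

section Inverse

variable {ι : Type*} {p : Filter ι}
variable {E : Type*} [NormedAddCommGroup E] [NormedSpace ℂ E] [FiniteDimensional ℂ E]
variable {F : Type*} [NormedAddCommGroup F] [NormedSpace ℂ F] [CompleteSpace F]

/-- the maps `f n` are uniformly close to the derivative of the limit near `x` -/
theorem eventually_approx {f : ι → E → F} {g : E → F} {U : Set E} (hU : IsOpen U) {x : E}
    (hx : x ∈ U) (h : TendstoLocallyUniformlyOn f g p U)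
    (hf : ∀ᶠ n in p, DifferentiableOn ℂ (f n) U) (hg : DifferentiableOn ℂ g U)
    {c : ℝ≥0} (hc : 0 < c) :
    ∃ r > 0, ball x r ⊆ U ∧
      ∀ᶠ n in p, ApproximatesLinearOn (f n) (fderiv ℂ g x) (ball x r) c := by
  have h1 := tlu_fderiv hU h hf hg
  rw [Metric.tendstoLocallyUniformlyOn_iff] at h1
  have hc' : (0 : ℝ) < c := hc
  obtain ⟨t, ht, h2⟩ := h1 (c / 2) (by positivity) x hx
  rw [hU.nhdsWithin_eq hx] at ht
  have hga : AnalyticAt ℂ g x :=
    analyticOnNhd_of_differentiableOn hU hg x hx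
  have h3 : ∀ᶠ y in 𝓝 x, dist (fderiv ℂ g y) (fderiv ℂ g x) < c / 2 :=
    Metric.tendsto_nhds.1 hga.fderiv.continuousAt (c / 2) (by positivity)
  obtain ⟨r, hr, hrt⟩ := Metric.mem_nhds_iff.1 (inter_mem (inter_mem ht h3) (hU.mem_nhds hx))
  refine ⟨r, hr, fun y hy => (hrt hy).2, ?_⟩
  filter_upwards [h2, hf] with n hn hfn
  intro y hy z hz
  refine (convex_ball x r).norm_image_sub_le_of_norm_fderiv_le' (𝕜 := ℂ) ?_ ?_ hz hy
  · intro w hw
    exact hfn.differentiableAt (hU.mem_nhds (hrt hw).2)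
  · intro w hw
    have a1 := hn w (hrt hw).1.1
    have a2 : dist (fderiv ℂ g w) (fderiv ℂ g x) < c / 2 := (hrt hw).1.2
    have a3 := dist_triangle_left (fderiv ℂ (f n) w) (fderiv ℂ g x) (fderiv ℂ g w)
    rw [← dist_eq_norm]
    linarith

/-- uniform local injectivity -/
theorem eventually_injOn {f : ι → E → F} {g : E → F} {U : Set E} (hU : IsOpen U) {x : E}
    (hx : x ∈ U) (h : TendstoLocallyUniformlyOn f g p U)
    (hf : ∀ᶠ n in p, DifferentiableOn ℂ (f n) U) (hg : DifferentiableOn ℂ g U)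
    (A : E ≃L[ℂ] F) (hA : (A : E →L[ℂ] F) = fderiv ℂ g x) :
    ∃ r > 0, ball x r ⊆ U ∧ ∀ᶠ n in p, InjOn (f n) (ball x r) := by
  by_cases hE : Subsingleton E
  · obtain ⟨r, hr, hrU⟩ := Metric.mem_nhds_iff.1 (hU.mem_nhds hx)
    exact ⟨r, hr, hrU, Eventually.of_forall (fun n y _ z _ _ => Subsingleton.elim y z)⟩
  have hN : 0 < ‖(A.symm : F →L[ℂ] E)‖₊ := by
    rw [not_subsingleton_iff_nontrivial] at hE
    exact A.nnnorm_symm_pos
  obtain ⟨r, hr, hrU, hev⟩ := eventually_approx hU hx h hf hg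
    (c := ‖(A.symm : F →L[ℂ] E)‖₊⁻¹ / 2) (by positivity)
  refine ⟨r, hr, hrU, hev.mono (fun n hn => ?_)⟩
  rw [← hA] at hn
  refine hn.injOn (Or.inr ?_)
  exact NNReal.half_lt_self (by positivity)

/-- the images of a neighbourhood of `x` contain a fixed ball -/
theorem eventually_ball_subset_image {f : ι → E → F} {g : E → F} {U : Set E} (hU : IsOpen U)
    {x : E} (hx : x ∈ U) (h : TendstoLocallyUniformlyOn f g p U)
    (hf : ∀ᶠ n in p, DifferentiableOn ℂ (f n) U) (hg : DifferentiableOn ℂ g U)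
    (A : E ≃L[ℂ] F) (hA : (A : E →L[ℂ] F) = fderiv ℂ g x) {V : Set E} (hV : V ∈ 𝓝 x) :
    ∃ ρ > 0, ∀ᶠ n in p, ball (g x) ρ ⊆ f n '' V := by
  have hN' : (0 : ℝ) ≤ ‖(A.symm : F →L[ℂ] E)‖ := norm_nonneg _
  set N : ℝ≥0 := ‖(A.symm : F →L[ℂ] E)‖₊ + 1 with hN
  have hN0 : 0 < N := by positivity
  obtain ⟨r, hr, hrU, hev⟩ := eventually_approx hU hx h hf hg (c := N⁻¹ / 2) (by positivity)
  obtain ⟨s, hs, hsV⟩ := Metric.mem_nhds_iff.1 hV
  set t : ℝ := min r s / 2 with ht
  have ht0 : 0 < t := by positivity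
  have htr : closedBall x t ⊆ ball x r := by
    apply closedBall_subset_ball
    have : min r s ≤ r := min_le_left _ _
    have : 0 < min r s := by positivity
    linarith
  have hts : closedBall x t ⊆ V := by
    refine (closedBall_subset_ball ?_).trans hsV
    have : min r s ≤ s := min_le_right _ _
    have : 0 < min r s := by positivity
    linarith
  have hlim : Tendsto (fun n => f n x) p (𝓝 (g x)) :=
    h.tendsto_at hx
  have hNr : (0 : ℝ) < (N : ℝ)⁻¹ := by positivity
  refine ⟨(N : ℝ)⁻¹ / 2 * t / 2, by positivity, ?_⟩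
  filter_upwards [hev, Metric.tendsto_nhds.1 hlim ((N : ℝ)⁻¹ / 2 * t / 2) (by positivity)]
    with n hn hn'
  rw [← hA] at hn
  -- a nonlinear right inverse with norm `N`
  let R : ContinuousLinearMap.NonlinearRightInverse (A : E →L[ℂ] F) :=
    { toFun := A.symm
      nnnorm := N
      bound' := by
        intro y
        have h1 := (A.symm : F →L[ℂ] E).le_opNorm y
        have h2 : ‖(A.symm : F →L[ℂ] E)‖ ≤ (N : ℝ) := by
          rw [hN]; push_cast; simp
        exact h1.trans (by gcongr)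
      right_inv' := A.apply_symm_apply }
  have h5 := hn.surjOn_closedBall_of_nonlinearRightInverse R ht0.le htr
  have h6 : (((R.nnnorm : ℝ)⁻¹ - ((N⁻¹ / 2 : ℝ≥0) : ℝ)) * t) = (N : ℝ)⁻¹ / 2 * t := by
    have : R.nnnorm = N := rfl
    rw [this]; push_cast; ring
  rw [h6] at h5
  intro y hy
  have hy' : y ∈ closedBall (f n x) ((N : ℝ)⁻¹ / 2 * t) := by
    rw [mem_closedBall]
    rw [mem_ball] at hy
    have := dist_triangle_right y (f n x) (g x)
    linarith
  obtain ⟨z, hz, hzy⟩ := h5 hy'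
  exact ⟨z, hts hz, hzy⟩

end Inverse

end Crest.Agent.R264.CI
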