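import Mathlib
import Crest.Agent.R264.TopDefs

/-!
Row 264 (S0402), Part C, module C3 (helper648): definitions.

* `HolU U f`   : `f : U → F` is holomorphic (for `F = Fin M → ℂ` this is `IsHolomorphicMap`).
* `BihSeq`     : a sequence of biholomorphisms `F j : S j → R j` with inverse `G j`, where the
                 open sets `S j ⊆ U` exhaust `U`.
-/

set_option autoImplicit false

open Topology Filter Set Metric

namespace Crest.Agent.R264.CI

/-- `f` is holomorphic on the subset `U` of `ℂ^N`. -/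
def HolU {N : ℕ} {F : Type*} [NormedAddCommGroup F] [NormedSpace ℂ F] (U : Set (Fin N → ℂ))
    (f : U → F) : Prop :=
  ∀ x : U, ∃ O : Set (Fin N → ℂ), IsOpen O ∧ (x : Fin N → ℂ) ∈ O ∧
    ∃ g : (Fin N → ℂ) → F, DifferentiableOn ℂ g O ∧ ∀ y : U, (y : Fin N → ℂ) ∈ O → f y = g y

/-- `f` is holomorphic on the (relatively open) piece `S` of `U`. -/
def HolS {N : ℕ} {F : Type*} [NormedAddCommGroup F] [NormedSpace ℂ F] {U : Set (Fin N → ℂ)}
    (S : Set U) (f : U → F) : Prop :=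
  ∀ x ∈ S, ∃ O : Set (Fin N → ℂ), IsOpen O ∧ (x : Fin N → ℂ) ∈ O ∧
    ∃ g : (Fin N → ℂ) → F, DifferentiableOn ℂ g O ∧
      ∀ y ∈ S, (y : Fin N → ℂ) ∈ O → f y = g y

/-- `F j : S j → R j` is biholomorphic with inverse `G j`, and the open sets `S j` exhaust `U`. -/
structure BihSeq {N : ℕ} {E : Type*} [NormedAddCommGroup E] [NormedSpace ℂ E]
    (U : Set (Fin N → ℂ)) (F : ℕ → U → E) (G : ℕ → E → U) (S : ℕ → Set U) (R : ℕ → Set E) :
    Prop where
  S_open : ∀ j, IsOpen (S j)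
  R_open : ∀ j, IsOpen (R j)
  holF : ∀ j, HolS (S j) (F j)
  holG : ∀ j, DifferentiableOn ℂ (fun z => (G j z : Fin N → ℂ)) (R j)
  mapsF : ∀ j, MapsTo (F j) (S j) (R j)
  mapsG : ∀ j, MapsTo (G j) (R j) (S j)
  left : ∀ j, ∀ x ∈ S j, G j (F j x) = x
  right : ∀ j, ∀ z ∈ R j, F j (G j z) = z
  exh : ∀ K : Set U, IsCompact K → ∀ᶠ j in atTop, K ⊆ S j

/-- MODULE C3 (the conclusion). -/
structure C3Out {N : ℕ} {E : Type*} [NormedAddCommGroup E] [NormedSpace ℂ E]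
    (U : Set (Fin N → ℂ)) (F : ℕ → U → E) (S : ℕ → Set U) (Φ : U → E) : Prop where
  hol : HolU U Φ
  inj : Function.Injective Φ
  isOpen : IsOpen (range Φ)
  /-- the inverse is holomorphic -/
  inv : ∃ Θ : E → (Fin N → ℂ), DifferentiableOn ℂ Θ (range Φ) ∧
    ∀ x : U, Θ (Φ x) = (x : Fin N → ℂ)
  /-- kernel property: images of neighbourhoods of `x` under `F j` contain a fixed ball -/
  ker : ∀ x : U, ∀ V ∈ 𝓝 x, ∃ ρ > 0, ∀ᶠ j in atTop, ball (Φ x) ρ ⊆ F j '' (V ∩ S j)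

/-- MODULE C3 (the statement). -/
def C3Stmt : Prop :=
  ∀ (N n : ℕ) (E : Type) [NormedAddCommGroup E] [NormedSpace ℂ E] [FiniteDimensional ℂ E]
    (U : Set (Fin N → ℂ)) (F : ℕ → U → E) (G : ℕ → E → U) (S : ℕ → Set U) (R : ℕ → Set E)
    (Φ : U → E) (x : ℕ → U) (x' : U) (r : ℝ),
    Module.finrank ℂ E = n → IsSubmfd n U → IsConnected U → Bornology.IsBounded U →
    BihSeq U F G S R → TendstoLocallyUniformly F Φ atTop →
    Tendsto x atTop (𝓝 x') → 0 < r → (∀ᶠ j in atTop, ball (F j (x j)) r ⊆ R j) →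
    C3Out U F S Φ

end Crest.Agent.R264.CI
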