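import Crest.Agent.R264.CI0
import Crest.Agent.R264.CIDefs

/-!
Row 264 (S0402), Part C, module C3 (helper648): maps on a complex submanifold read in a chart.
-/

set_option autoImplicit false

open Topology Filter Set Metric

namespace Crest.Agent.R264.CI

open Crest.Agent.R266.SCV

section Chart

variable {N n : ℕ} {U : Set (Fin N → ℂ)} {x₀ : Fin N → ℂ}

/-- the chart as a map into the subtype -/
noncomputable def cps (c : LocChart n U x₀) (w : Fin n → ℂ) (hw : w ∈ c.W) : U :=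
  ⟨c.ψ w, (c.ψ_mem w hw).1⟩

variable (c : LocChart n U x₀)

lemma cps_coe {w : Fin n → ℂ} (hw : w ∈ c.W) : ((cps c w hw : U) : Fin N → ℂ) = c.ψ w := rfl

lemma cps_pi {y : U} (hy : (y : Fin N → ℂ) ∈ c.O) :
    cps c (c.π y) (c.π_mem y y.2 hy) = y := Subtype.ext (c.ψ_π y y.2 hy)

lemma cps_eq_of {w w' : Fin n → ℂ} (h : w = w') (hw : w ∈ c.W) (hw' : w' ∈ c.W) :
    cps c w hw = cps c w' hw' := by subst h; rfl

lemma psi_continuousAt {w : Fin n → ℂ} (hw : w ∈ c.W) : ContinuousAt c.ψ w :=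
  (c.hψ.differentiableAt (c.hW.mem_nhds hw)).continuousAt

lemma pi_continuousAt {y : Fin N → ℂ} (hy : y ∈ c.O) : ContinuousAt c.π y :=
  (c.hπ.differentiableAt (c.hO.mem_nhds hy)).continuousAt

/-- pull back of a neighbourhood in `U` -/
lemma eventually_cps {w : Fin n → ℂ} (hw : w ∈ c.W) {V : Set U} (hV : V ∈ 𝓝 (cps c w hw)) :
    ∀ᶠ w' in 𝓝 w, ∃ hw' : w' ∈ c.W, cps c w' hw' ∈ V := by
  rw [mem_nhds_subtype] at hV
  obtain ⟨O', hO', hOV⟩ := hV
  have h1 : ∀ᶠ w' in 𝓝 w, c.ψ w' ∈ O' := (psi_continuousAt c hw) hO'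
  filter_upwards [h1, c.hW.mem_nhds hw] with w' h2 h3
  exact ⟨h3, hOV h2⟩

/-- image of a neighbourhood in `W` -/
lemma eventually_pi {y : U} (hy : (y : Fin N → ℂ) ∈ c.O) {V : Set (Fin n → ℂ)}
    (hV : V ∈ 𝓝 (c.π y)) :
    ∀ᶠ y' : U in 𝓝 y, (y' : Fin N → ℂ) ∈ c.O ∧ c.π y' ∈ V := by
  have h1 : ContinuousAt (fun y' : U => c.π (y' : Fin N → ℂ)) y :=
    (pi_continuousAt c hy).comp continuousAt_subtype_val
  have h2 : ∀ᶠ y' : U in 𝓝 y, (y' : Fin N → ℂ) ∈ c.O :=
    continuousAt_subtype_val (c.hO.mem_nhds hy)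
  exact h2.and (h1 hV)

lemma continuous_cps : Continuous (fun w : c.W => cps c (w : Fin n → ℂ) w.2) := by
  refine Continuous.subtype_mk ?_ _
  exact c.hψ.continuousOn.domRestrict

/-- images of compact subsets of `W` are compact -/
lemma isCompact_cps {K : Set (Fin n → ℂ)} (hK : IsCompact K) (hKW : K ⊆ c.W) :
    IsCompact {y : U | ∃ w, ∃ hw : w ∈ c.W, w ∈ K ∧ cps c w hw = y} := by
  have h1 : IsCompact ((↑) ⁻¹' K : Set c.W) := by
    rw [Subtype.isCompact_iff]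
    convert hK using 1
    rw [Subtype.image_preimage_coe]
    exact inter_eq_right.2 hKW
  convert h1.image (continuous_cps c) using 1
  ext y
  constructor
  · rintro ⟨w, hw, hwK, rfl⟩
    exact ⟨⟨w, hw⟩, hwK, rfl⟩
  · rintro ⟨⟨w, hw⟩, hwK, rfl⟩
    exact ⟨w, hw, hwK, rfl⟩

section Loc

variable {F : Type*} [NormedAddCommGroup F] [NormedSpace ℂ F]

open Classical in
/-- the map `f` read in the chart `c` -/
noncomputable def loc (f : U → F) (w : Fin n → ℂ) : F :=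
  if hw : w ∈ c.W then f (cps c w hw) else 0

omit [NormedSpace ℂ F] in
lemma loc_apply (f : U → F) {w : Fin n → ℂ} (hw : w ∈ c.W) : loc c f w = f (cps c w hw) := by
  simp [loc, hw]

omit [NormedSpace ℂ F] in
lemma loc_pi (f : U → F) {y : U} (hy : (y : Fin N → ℂ) ∈ c.O) : loc c f (c.π y) = f y := by
  rw [loc_apply c f (c.π_mem y y.2 hy), cps_pi c hy]

lemma differentiableAt_loc {S : Set U} (hS : IsOpen S) {f : U → F} (hf : HolS S f)
    {w : Fin n → ℂ} (hw : w ∈ c.W) (hwS : cps c w hw ∈ S) : DifferentiableAt ℂ (loc c f) w := by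
  obtain ⟨O, hO, hxO, g, hg, hfg⟩ := hf _ hwS
  have h1 : ∀ᶠ w' in 𝓝 w, loc c f w' = g (c.ψ w') := by
    have h2 : ∀ᶠ w' in 𝓝 w, c.ψ w' ∈ O := (psi_continuousAt c hw) (hO.mem_nhds hxO)
    filter_upwards [h2, eventually_cps c hw (hS.mem_nhds hwS)] with w' h3 ⟨h4, h5⟩
    rw [loc_apply c f h4]
    exact hfg _ h5 h3
  have h6 : DifferentiableAt ℂ (fun w' => g (c.ψ w')) w :=
    (hg.differentiableAt (hO.mem_nhds hxO)).comp w (c.hψ.differentiableAt (c.hW.mem_nhds hw))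
  exact h6.congr_of_eventuallyEq h1

lemma HolU.holS {f : U → F} (hf : HolU U f) : HolS (univ : Set U) f := by
  intro x _
  obtain ⟨O, hO, hx, g, hg, h⟩ := hf x
  exact ⟨O, hO, hx, g, hg, fun y _ hy => h y hy⟩

lemma differentiableOn_loc {f : U → F} (hf : HolU U f) : DifferentiableOn ℂ (loc c f) c.W :=
  fun _ hw => (differentiableAt_loc c isOpen_univ hf.holS hw (mem_univ _)).differentiableWithinAt

/-- holomorphic in all charts implies holomorphic -/
lemma holU_of_loc {f : U → F}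
    (h : ∀ x : U, ∃ c : LocChart n U x, DifferentiableOn ℂ (loc c f) c.W) : HolU U f := by
  intro x
  obtain ⟨c, hc⟩ := h x
  refine ⟨c.O ∩ c.π ⁻¹' c.W, c.hπ.continuousOn.isOpen_inter_preimage c.hO c.hW,
    ⟨c.mem, c.π_mem x x.2 c.mem⟩, fun y => loc c f (c.π y), ?_, ?_⟩
  · exact hc.comp (c.hπ.mono inter_subset_left) (fun y hy => hy.2)
  · intro y hy
    exact (loc_pi c f hy.1).symm

omit [NormedSpace ℂ F] in
/-- locally uniform convergence in a chart -/
lemma tlu_loc {ι : Type*} {p : Filter ι} {f : ι → U → F} {g : U → F}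
    (h : TendstoLocallyUniformly f g p) :
    TendstoLocallyUniformlyOn (fun j => loc c (f j)) (loc c g) p c.W := by
  rw [Metric.tendstoLocallyUniformlyOn_iff]
  rw [Metric.tendstoLocallyUniformly_iff] at h
  intro ε hε w hw
  obtain ⟨t, ht, h1⟩ := h ε hε (cps c w hw)
  refine ⟨{w' | ∃ hw' : w' ∈ c.W, cps c w' hw' ∈ t},
    mem_nhdsWithin_of_mem_nhds (eventually_cps c hw ht), ?_⟩
  filter_upwards [h1] with j hj
  rintro w' ⟨hw', hw't⟩
  rw [loc_apply c g hw', loc_apply c (f j) hw']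
  exact hj _ hw't

end Loc

end Chart

end Crest.Agent.R264.CI
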