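import Crest.Agent.R264.CI1

/-!
Row 264 (S0402), Part C, module C3 (helper648): derivatives in charts, determinants.
-/

set_option autoImplicit false

open Topology Filter Set Metric

namespace Crest.Agent.R264.CI

open Crest.Agent.R266.SCV

section Det

variable {n : ℕ}

lemma det_eq_sum (L : (Fin n → ℂ) →L[ℂ] (Fin n → ℂ)) :
    L.det = ∑ σ : Equiv.Perm (Fin n), (Equiv.Perm.sign σ : ℤ) • ∏ i, L (Pi.single i 1) (σ i) := by
  rw [ContinuousLinearMap.det, ← LinearMap.det_toMatrix', Matrix.det_apply]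
  refine Finset.sum_congr rfl (fun σ _ => ?_)
  rw [Units.smul_def]
  congr 1

lemma differentiable_det :
    Differentiable ℂ (fun L : (Fin n → ℂ) →L[ℂ] (Fin n → ℂ) => L.det) := by
  have h : (fun L : (Fin n → ℂ) →L[ℂ] (Fin n → ℂ) => L.det)
      = fun L => ∑ σ : Equiv.Perm (Fin n), (Equiv.Perm.sign σ : ℤ) •
        ∏ i, L (Pi.single i 1) (σ i) := by
    funext L; exact det_eq_sum L
  rw [h]
  refine Differentiable.fun_sum (fun σ _ => ?_)
  refine Differentiable.fun_const_smul ?_ _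
  intro L
  have h2 : ∀ i ∈ (Finset.univ : Finset (Fin n)),
      HasFDerivAt (fun L : (Fin n → ℂ) →L[ℂ] (Fin n → ℂ) => L (Pi.single i 1) (σ i))
        (fderiv ℂ (fun L : (Fin n → ℂ) →L[ℂ] (Fin n → ℂ) => L (Pi.single i 1) (σ i)) L) L := by
    intro i _
    have : DifferentiableAt ℂ
      (fun L : (Fin n → ℂ) →L[ℂ] (Fin n → ℂ) => L (Pi.single i 1) (σ i)) L := by fun_prop
    exact this.hasFDerivAt
  exact (HasFDerivAt.finsetProd h2).differentiableAt

lemma det_ne_zero_of_injective {L : (Fin n → ℂ) →L[ℂ] (Fin n → ℂ)}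
    (h : Function.Injective L) : L.det ≠ 0 := by
  intro h0
  have h1 := LinearMap.bot_lt_ker_of_det_eq_zero (f := (L : (Fin n → ℂ) →ₗ[ℂ] (Fin n → ℂ))) h0
  rw [LinearMap.ker_eq_bot.2 h] at h1
  exact lt_irrefl _ h1

lemma surjective_of_det_ne_zero {L : (Fin n → ℂ) →L[ℂ] (Fin n → ℂ)}
    (h : L.det ≠ 0) : Function.Surjective L := by
  have h1 : IsUnit (LinearMap.det (L : (Fin n → ℂ) →ₗ[ℂ] (Fin n → ℂ))) := isUnit_iff_ne_zero.2 h
  have h2 := (LinearMap.isUnit_iff_isUnit_det (L : (Fin n → ℂ) →ₗ[ℂ] (Fin n → ℂ))).2 h1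
  exact (Module.End.isUnit_iff _).1 h2 |>.2

end Det

section Trans

variable {N n : ℕ} {U : Set (Fin N → ℂ)} {x₀ x₁ : Fin N → ℂ}
variable {F : Type*} [NormedAddCommGroup F] [NormedSpace ℂ F]

lemma fderiv_loc_change (c : LocChart n U x₀) (c' : LocChart n U x₁) {y : U}
    (hy : (y : Fin N → ℂ) ∈ c.O) (hy' : (y : Fin N → ℂ) ∈ c'.O) (f : U → F)
    (hd : DifferentiableAt ℂ (loc c' f) (c'.π y)) :
    fderiv ℂ (loc c f) (c.π y) =
      (fderiv ℂ (loc c' f) (c'.π y)).comp (fderiv ℂ (fun w => c'.π (c.ψ w)) (c.π y)) := by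
  have hw : c.π y ∈ c.W := c.π_mem y y.2 hy
  have hψy : c.ψ (c.π y) = y := c.ψ_π y y.2 hy
  have h1 : ∀ᶠ w in 𝓝 (c.π y), loc c f w = loc c' f (c'.π (c.ψ w)) := by
    have h2 : ∀ᶠ w in 𝓝 (c.π y), c.ψ w ∈ c'.O :=
      (psi_continuousAt c hw) (c'.hO.mem_nhds (by rw [hψy]; exact hy'))
    filter_upwards [h2, c.hW.mem_nhds hw] with w h3 h4
    rw [loc_apply c f h4]
    exact (loc_pi c' f (y := cps c w h4) h3).symm
  have h5 : DifferentiableAt ℂ (fun w => c'.π (c.ψ w)) (c.π y) := by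
    refine DifferentiableAt.comp (c.π y) ?_ (c.hψ.differentiableAt (c.hW.mem_nhds hw))
    rw [hψy]
    exact c'.hπ.differentiableAt (c'.hO.mem_nhds hy')
  have h1' : loc c f =ᶠ[𝓝 (c.π y)] fun w => loc c' f (c'.π (c.ψ w)) := h1
  rw [h1'.fderiv_eq]
  have hd' : DifferentiableAt ℂ (loc c' f) ((fun w => c'.π (c.ψ w)) (c.π y)) := by
    simp only [hψy]; exact hd
  have h6 := fderiv_comp (c.π y) hd' h5
  simp only [hψy] at h6
  exact h6

/-- nondegeneracy at `y` in one chart implies nondegeneracy in all charts -/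
lemma surjective_change (c : LocChart n U x₀) (c' : LocChart n U x₁) {y : U}
    (hy : (y : Fin N → ℂ) ∈ c.O) (hy' : (y : Fin N → ℂ) ∈ c'.O) (f : U → F)
    (hd : DifferentiableAt ℂ (loc c' f) (c'.π y))
    (hs : Function.Surjective (fderiv ℂ (loc c f) (c.π y))) :
    Function.Surjective (fderiv ℂ (loc c' f) (c'.π y)) := by
  rw [fderiv_loc_change c c' hy hy' f hd] at hs
  intro v
  obtain ⟨u, hu⟩ := hs v
  exact ⟨_, hu⟩

/-- nondegeneracy of `f` at `y` -/
def Nd (n : ℕ) {U : Set (Fin N → ℂ)} (f : U → F) (y : U) : Prop :=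
  ∀ (x : Fin N → ℂ) (c : LocChart n U x), (y : Fin N → ℂ) ∈ c.O →
    Function.Surjective (fderiv ℂ (loc c f) (c.π y))

lemma nd_of {f : U → F} (hf : HolU U f) (c : LocChart n U x₀) {y : U}
    (hy : (y : Fin N → ℂ) ∈ c.O) (hs : Function.Surjective (fderiv ℂ (loc c f) (c.π y))) :
    Nd n f y := by
  intro x c' hy'
  refine surjective_change c c' hy hy' f ?_ hs
  exact (differentiableOn_loc c' hf).differentiableAt (c'.hW.mem_nhds (c'.π_mem y y.2 hy'))

end Trans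

end Crest.Agent.R264.CI
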