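import Crest.Agent.R264.TopDefs
import Mathlib

/-!
Row 264, Part C, module C4 (helper126): compactness lemma for `Γ`-cocompact `U`.
-/

set_option autoImplicit false

open Topology Filter Set Metric

namespace Crest.Agent.R264.CK

open Crest.AlgGeometry.Semialg

variable {N n : ℕ} {U : Set (Fin N → ℂ)} {Γ : Subgroup (Equiv.Perm U)}

theorem isClosed_alg {V : Set (Fin N → ℂ)} (h : IsAlgebraicSet V) : IsClosed V := by
  obtain ⟨I, rfl⟩ := h
  have : MvPolynomial.zeroLocus ℂ I = ⋂ p ∈ I, {x : Fin N → ℂ | MvPolynomial.aeval x p = 0} := by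
    ext x
    simp [MvPolynomial.mem_zeroLocus_iff]
  rw [this]
  refine isClosed_biInter fun p _ => ?_
  refine isClosed_eq ?_ continuous_const
  have h2 : (fun x : Fin N → ℂ => (MvPolynomial.aeval x) p) = fun x => MvPolynomial.eval x p := by
    funext x
    exact congrFun (congrArg DFunLike.coe (MvPolynomial.coe_aeval_eq_eval x)) p
  rw [h2]
  exact MvPolynomial.continuous_eval p

/-- a compact subset of `U` has a compact neighbourhood in `U` (metric form) -/
theorem exists_thick (S : Setup N U Γ) {K : Set (Fin N → ℂ)} (hK : IsCompact K) (hKU : K ⊆ U) :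
    ∃ δ > 0, ∃ K' ⊆ U, IsCompact K' ∧ K ⊆ K' ∧ ∀ x ∈ K, ∀ y ∈ U, dist y x ≤ δ → y ∈ K' := by
  obtain ⟨V, O, hV, hO, hU⟩ := S.alg
  obtain ⟨δ, hδ, hδO⟩ := hK.exists_cthickening_subset_open hO (hKU.trans (hU ▸ inter_subset_left))
  refine ⟨δ, hδ, cthickening δ K ∩ V, ?_, hK.cthickening.inter_right (isClosed_alg hV), ?_, ?_⟩
  · rw [hU]
    exact inter_subset_inter_left _ hδO
  · exact subset_inter (self_subset_cthickening K) (hKU.trans (hU ▸ inter_subset_right))
  · intro x hx y hy hxy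
    refine ⟨mem_cthickening_of_dist_le y x δ K hx hxy, ?_⟩
    rw [hU] at hy
    exact hy.2

theorem continuous_smul_of (S : Setup N U Γ) (γ : Γ) :
    Continuous (fun y : U => ((γ : Equiv.Perm U) y)) := by
  rw [continuous_induced_rng, continuous_iff_continuousAt]
  intro x
  obtain ⟨O, hO, hx, Φ, hΦ, h⟩ := S.hol γ γ.2 x
  have h1 : ContinuousAt (fun y : U => Φ y) x :=
    ((hΦ.differentiableAt (hO.mem_nhds hx)).continuousAt).comp continuous_subtype_val.continuousAt
  refine h1.congr ?_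
  filter_upwards [continuous_subtype_val.continuousAt.preimage_mem_nhds (hO.mem_nhds hx)] with y hy
  exact (h y hy).symm

theorem continuousConstSMul (S : Setup N U Γ) : ContinuousConstSMul Γ U :=
  ⟨fun γ => continuous_smul_of S γ⟩

theorem isCompact_sub {K : Set (Fin N → ℂ)} (hK : IsCompact K) (hKU : K ⊆ U) :
    IsCompact ((↑) ⁻¹' K : Set U) := by
  rw [Subtype.isCompact_iff, Subtype.image_preimage_coe, inter_eq_self_of_subset_right hKU]
  exact hK

/-- existence of a compact fundamental set -/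
theorem exists_K0 (S : Setup N U Γ) : ∃ K0 : Set (Fin N → ℂ), IsCompact K0 ∧ K0 ⊆ U ∧
    ∀ x : U, ∃ γ : Γ, ∃ y : U, (y : Fin N → ℂ) ∈ K0 ∧ (γ : Equiv.Perm U) y = x := by
  have := continuousConstSMul S
  have := S.cpt
  have key : ∀ x : U, ∃ K ⊆ U, IsCompact K ∧ ∃ W : Set U, IsOpen W ∧ x ∈ W ∧ (∀ y ∈ W, (y : Fin N → ℂ) ∈ K) := by
    intro x
    obtain ⟨δ, hδ, K', hK'U, hK', -, h⟩ := exists_thick S (isCompact_singleton (x := (x : Fin N → ℂ)))
      (by simp)
    refine ⟨K', hK'U, hK', {y : U | dist (y : Fin N → ℂ) x < δ}, ?_, ?_, ?_⟩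
    · exact isOpen_lt (by fun_prop) continuous_const
    · simpa using hδ
    · intro y hy
      exact h x rfl y y.2 (le_of_lt hy)
  choose K hKU hK W hW hxW hWK using key
  let q : U → Quotient (MulAction.orbitRel Γ U) := Quotient.mk _
  have hq : IsOpenMap q := isOpenMap_quotient_mk'_mul
  have hcov : (univ : Set (Quotient (MulAction.orbitRel Γ U))) ⊆ ⋃ x : U, q '' W x := by
    intro z _
    obtain ⟨x, rfl⟩ := Quotient.exists_rep z
    exact mem_iUnion.2 ⟨x, x, hxW x, rfl⟩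
  obtain ⟨t, ht⟩ := isCompact_univ.elim_finite_subcover (fun x : U => q '' W x)
    (fun x => hq _ (hW x)) hcov
  refine ⟨⋃ x ∈ t, K x, t.isCompact_biUnion fun x _ => hK x, iUnion₂_subset fun x _ => hKU x, ?_⟩
  intro z
  have hz := ht (mem_univ (q z))
  simp only [mem_iUnion] at hz
  obtain ⟨x, hx, y, hy, hyz⟩ := hz
  have : (MulAction.orbitRel Γ U) y z := Quotient.exact hyz
  rw [MulAction.orbitRel_apply] at this
  obtain ⟨γ, hγ⟩ := this
  refine ⟨γ⁻¹, y, mem_iUnion₂.2 ⟨x, hx, hWK x y hy⟩, ?_⟩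
  have : γ⁻¹ • y = z := by rw [← hγ]; simp
  exact this

theorem finite_meet (S : Setup N U Γ) {K L : Set (Fin N → ℂ)} (hK : IsCompact K) (hKU : K ⊆ U)
    (hL : IsCompact L) (hLU : L ⊆ U) :
    {γ : Γ | ∃ x : U, (x : Fin N → ℂ) ∈ K ∧ (((γ : Equiv.Perm U) x : U) : Fin N → ℂ) ∈ L}.Finite := by
  have := S.pd
  refine (ProperlyDiscontinuousSMul.finite_disjoint_inter_image (Γ := Γ) (isCompact_sub hK hKU)
    (isCompact_sub hL hLU)).subset ?_
  rintro γ ⟨x, hx, hx'⟩
  exact ⟨(γ : Equiv.Perm U) x, ⟨x, hx, rfl⟩, hx'⟩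

/-- the image of a compact set under an element of `Γ` -/
theorem isCompact_image (S : Setup N U Γ) (γ : Γ) {K : Set (Fin N → ℂ)} (hK : IsCompact K)
    (hKU : K ⊆ U) :
    IsCompact {y : Fin N → ℂ | ∃ x : U, (x : Fin N → ℂ) ∈ K ∧ (((γ : Equiv.Perm U) x : U) : Fin N → ℂ) = y} := by
  have := (isCompact_sub hK hKU).image (continuous_subtype_val.comp (continuous_smul_of S γ))
  exact this

/-- composition of a holomorphic map into `U` with an element of `Γ` -/
theorem comp_gamma {E : Type*} [NormedAddCommGroup E] [NormedSpace ℂ E] (S : Setup N U Γ) (γ : Γ)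
    {D : Set E} (hD : IsOpen D) {f : E → (Fin N → ℂ)} (hf : DifferentiableOn ℂ f D)
    (hfU : MapsTo f D U) : ∃ g : E → (Fin N → ℂ), DifferentiableOn ℂ g D ∧ MapsTo g D U ∧
      ∀ z (hz : z ∈ D), g z = ((γ : Equiv.Perm U) ⟨f z, hfU hz⟩ : U) := by
  classical
  let g : E → (Fin N → ℂ) := fun z => if hz : z ∈ D then ((γ : Equiv.Perm U) ⟨f z, hfU hz⟩ : U) else 0
  have hg : ∀ z (hz : z ∈ D), g z = ((γ : Equiv.Perm U) ⟨f z, hfU hz⟩ : U) := by
    intro z hz
    simp [g, hz]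
  refine ⟨g, ?_, ?_, hg⟩
  · intro z hz
    obtain ⟨O, hO, hx, Φ, hΦ, h⟩ := S.hol γ γ.2 ⟨f z, hfU hz⟩
    have hfz : DifferentiableAt ℂ f z := hf.differentiableAt (hD.mem_nhds hz)
    have h1 : DifferentiableAt ℂ (fun w => Φ (f w)) z :=
      (hΦ.differentiableAt (hO.mem_nhds hx)).comp z hfz
    refine (h1.congr_of_eventuallyEq ?_).differentiableWithinAt
    filter_upwards [hD.mem_nhds hz, hfz.continuousAt.preimage_mem_nhds (hO.mem_nhds hx)] with w hw hw'
    rw [hg w hw]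
    exact h ⟨f w, hfU hw⟩ hw'
  · intro z hz
    rw [hg z hz]
    exact ((γ : Equiv.Perm U) ⟨f z, hfU hz⟩ : U).2

/-- COMPACTNESS LEMMA: holomorphic maps of a ball of radius `r` into `U` move compact sets only
inside compact sets, on a ball of uniform radius `ρ`. -/
theorem compactness {E : Type*} [NormedAddCommGroup E] [NormedSpace ℂ E] (S : Setup N U Γ)
    {r : ℝ} (hr : 0 < r) : ∃ ρ, 0 < ρ ∧ ρ < r ∧ ∀ K ⊆ U, IsCompact K → ∃ K' ⊆ U, IsCompact K' ∧ K ⊆ K' ∧
      ∀ (ξ : E) (f : E → (Fin N → ℂ)), DifferentiableOn ℂ f (ball ξ r) → MapsTo f (ball ξ r) U →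
        f ξ ∈ K → MapsTo f (closedBall ξ ρ) K' := by
  obtain ⟨K0, hK0, hK0U, hcov⟩ := exists_K0 S
  obtain ⟨δ, hδ, K1, hK1U, hK1, hK01, hth⟩ := exists_thick S hK0 hK0U
  set D := diam U with hDdef
  have hD0 : 0 ≤ D := diam_nonneg
  have hpos : 0 < δ / (D + 1) := by positivity
  refine ⟨min (r / 2) (δ / (D + 1) * r), by positivity, (min_le_left _ _).trans_lt (by linarith), ?_⟩
  have base : ∀ (ξ : E) (f : E → (Fin N → ℂ)), DifferentiableOn ℂ f (ball ξ r) →
      MapsTo f (ball ξ r) U → f ξ ∈ K0 → MapsTo f (closedBall ξ (min (r / 2) (δ / (D + 1) * r))) K1 := by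
    intro ξ f hf hfU hξ y hy
    rw [mem_closedBall] at hy
    have hyr : y ∈ ball ξ r := by
      rw [mem_ball]
      exact (hy.trans (min_le_left _ _)).trans_lt (by linarith)
    have hmaps : MapsTo f (ball ξ r) (closedBall (f ξ) D) := by
      intro z hz
      rw [mem_closedBall]
      exact dist_le_diam_of_mem S.bdd (hfU hz) (hfU (mem_ball_self hr))
    have := Complex.dist_le_div_mul_dist_of_mapsTo_ball hf hmaps hyr
    refine hth _ hξ _ (hfU hyr) (this.trans ?_)
    calc D / r * dist y ξ ≤ D / r * (δ / (D + 1) * r) := by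
          gcongr
          exact hy.trans (min_le_right _ _)
      _ = D / (D + 1) * δ := by field_simp
      _ ≤ 1 * δ := by
          gcongr
          rw [div_le_one (by positivity)]
          linarith
      _ = δ := one_mul δ
  intro K hKU hK
  have hfin := finite_meet S hK0 hK0U hK hKU
  refine ⟨K ∪ ⋃ γ ∈ hfin.toFinset, {y : Fin N → ℂ | ∃ x : U, (x : Fin N → ℂ) ∈ K1 ∧
      (((γ : Equiv.Perm U) x : U) : Fin N → ℂ) = y}, ?_, ?_, subset_union_left, ?_⟩
  · refine union_subset hKU (iUnion₂_subset ?_)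
    rintro γ _ y ⟨x, _, rfl⟩
    exact Subtype.coe_prop _
  · refine hK.union (hfin.toFinset.isCompact_biUnion fun γ _ => isCompact_image S γ hK1 hK1U)
  · intro ξ f hf hfU hξ y hy
    refine Or.inr ?_
    have hξr : ξ ∈ ball ξ r := mem_ball_self hr
    have hyr : y ∈ ball ξ r := by
      rw [mem_ball]
      rw [mem_closedBall] at hy
      exact (hy.trans (min_le_left _ _)).trans_lt (by linarith)
    obtain ⟨γ, k, hk, hγk⟩ := hcov ⟨f ξ, hfU hξr⟩
    obtain ⟨g, hg, hgU, hgf⟩ := comp_gamma S γ⁻¹ isOpen_ball hf hfU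
    have hgξ : g ξ = k := by
      rw [hgf ξ hξr, ← hγk]
      simp
    have h1 := base ξ g hg hgU (by rw [hgξ]; exact hk) hy
    have hγ : γ ∈ hfin.toFinset := by
      rw [Set.Finite.mem_toFinset]
      refine ⟨k, hk, ?_⟩
      rw [hγk]
      exact hξ
    refine mem_iUnion₂.2 ⟨γ, hγ, ⟨g y, hgU hyr⟩, h1, ?_⟩
    have : (⟨g y, hgU hyr⟩ : U) = ((γ⁻¹ : Γ) : Equiv.Perm U) ⟨f y, hfU hyr⟩ := by
      ext1
      exact hgf y hyr
    rw [this]
    simp

end Crest.Agent.R264.CK
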