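import Crest.Agent.R264.CK1
import Crest.Agent.R264.CIDefs
import Mathlib

/-!
Row 264, Part C, module C4 (helper126): chains of balls, the limit domain is closed and the
kernel theorem (balls inside images of converging sequences).
-/

set_option autoImplicit false

open Topology Filter Set Metric

namespace Crest.Agent.R264.CK

open Crest.AlgGeometry.Semialg

variable {N n : ℕ} {U : Set (Fin N → ℂ)} {Γ : Subgroup (Equiv.Perm U)}

section Chain

variable {E : Type*} [NormedAddCommGroup E] [NormedSpace ℂ E]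

/-- CHAIN LEMMA: a holomorphic map `ball q (2 r) → U` taking one value (over `closedBall q r`) in
the compact set `K` maps `closedBall q r` into a compact set depending only on `K` and `r`. -/
theorem chain (S : Setup N U Γ) {r : ℝ} (hr : 0 < r) {K : Set (Fin N → ℂ)} (hKU : K ⊆ U)
    (hK : IsCompact K) : ∃ K' ⊆ U, IsCompact K' ∧ K ⊆ K' ∧
      ∀ (q : E) (f : E → (Fin N → ℂ)), DifferentiableOn ℂ f (ball q (2 * r)) →
        MapsTo f (ball q (2 * r)) U → (∃ y₀ ∈ closedBall q r, f y₀ ∈ K) →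
        MapsTo f (closedBall q r) K' := by
  obtain ⟨ρ, hρ, hρr, H⟩ := compactness (E := E) S hr
  have main : ∀ m : ℕ, ∃ K' ⊆ U, IsCompact K' ∧ K ⊆ K' ∧
      ∀ (q : E) (f : E → (Fin N → ℂ)), DifferentiableOn ℂ f (ball q (2 * r)) →
        MapsTo f (ball q (2 * r)) U → ∀ y₀ ∈ closedBall q r, f y₀ ∈ K →
        ∀ y ∈ closedBall q r, dist y y₀ ≤ m * ρ → f y ∈ K' := by
    intro m
    induction m with
    | zero =>
      refine ⟨K, hKU, hK, Subset.rfl, ?_⟩
      intro q f _ _ y₀ _ hy₀ y _ hyy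
      have : dist y y₀ = 0 := le_antisymm (by simpa using hyy) dist_nonneg
      rw [dist_eq_zero] at this
      rwa [this]
    | succ m ih =>
      obtain ⟨K1, hK1U, hK1, hKK1, h1⟩ := ih
      obtain ⟨K2, hK2U, hK2, hKK2, h2⟩ := H K1 hK1U hK1
      refine ⟨K2, hK2U, hK2, hKK1.trans hKK2, ?_⟩
      intro q f hf hfU y₀ hy₀ hfy₀ y hy hyy
      set t : ℝ := (m : ℝ) / (m + 1) with ht
      have ht0 : 0 ≤ t := by positivity
      have ht1 : t ≤ 1 := by
        rw [ht, div_le_one (by positivity)]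
        linarith
      have h1t : 1 - t = 1 / (m + 1) := by
        rw [ht]
        field_simp
        ring
      set y' : E := y₀ + t • (y - y₀) with hy'
      have hy'mem : y' ∈ closedBall q r :=
        (convex_closedBall q r).add_smul_sub_mem hy₀ hy ⟨ht0, ht1⟩
      have hd1 : dist y' y₀ ≤ m * ρ := by
        rw [hy', dist_eq_norm, add_sub_cancel_left, norm_smul, Real.norm_of_nonneg ht0,
          ← dist_eq_norm]
        calc t * dist y y₀ ≤ t * ((m + 1 : ℕ) * ρ) := by gcongr
          _ = m * ρ := by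
            rw [ht]
            push_cast
            field_simp
      have hd2 : dist y y' ≤ ρ := by
        have : y - y' = (1 - t) • (y - y₀) := by
          rw [hy', sub_smul, one_smul]
          abel
        rw [dist_eq_norm, this, norm_smul, Real.norm_of_nonneg (by linarith), ← dist_eq_norm, h1t]
        calc 1 / ((m : ℝ) + 1) * dist y y₀ ≤ 1 / ((m : ℝ) + 1) * ((m + 1 : ℕ) * ρ) := by gcongr
          _ = ρ := by
            push_cast
            field_simp
      have hsub : ball y' r ⊆ ball q (2 * r) := by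
        intro z hz
        rw [mem_ball] at hz ⊢
        rw [mem_closedBall] at hy'mem
        linarith [dist_triangle z y' q]
      have hK1 : f y' ∈ K1 := h1 q f hf hfU y₀ hy₀ hfy₀ y' hy'mem hd1
      exact h2 y' f (hf.mono hsub) (hfU.mono_left hsub) hK1 (mem_closedBall.2 hd2)
  obtain ⟨m, hm⟩ := exists_nat_ge (2 * r / ρ)
  obtain ⟨K', hK'U, hK', hKK', h⟩ := main m
  refine ⟨K', hK'U, hK', hKK', ?_⟩
  rintro q f hf hfU ⟨y₀, hy₀, hfy₀⟩ y hy
  refine h q f hf hfU y₀ hy₀ hfy₀ y hy ?_
  rw [div_le_iff₀ hρ] at hm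
  refine le_trans ?_ hm
  rw [mem_closedBall] at hy hy₀
  linarith [dist_triangle_right y y₀ q]

/-- The image of the limit map is relatively closed in the kernel. -/
theorem mem_of_closure (S : Setup N U Γ) {F : ℕ → U → E} {G : ℕ → E → U} {X : ℕ → Set U}
    {R : ℕ → Set E} (B : CI.BihSeq U F G X R) {Φ : U → E} (hcont : Continuous Φ)
    (hlim : TendstoLocallyUniformly F Φ atTop) {q : E} {r : ℝ} (hr : 0 < r)
    (hq : ∀ᶠ j in atTop, ball q r ⊆ R j) (hcl : q ∈ closure (range Φ)) : q ∈ range Φ := by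
  obtain ⟨y, ⟨x, rfl⟩, hxy⟩ := mem_closure_iff.1 hcl (r / 2) (by positivity)
  rw [dist_comm] at hxy
  have hr2 : 2 * (r / 2) = r := by ring
  obtain ⟨K, hKU, hK, hxK, hch⟩ := chain (E := E) S (half_pos hr) (K := {(x : Fin N → ℂ)}) (by simp)
    isCompact_singleton
  rw [hr2] at hch
  have hK' : IsCompact ((↑) ⁻¹' K : Set U) := isCompact_sub hK hKU
  have hpt : Tendsto (fun j => F j x) atTop (𝓝 (Φ x)) :=
    hlim.tendstoLocallyUniformlyOn.tendsto_at (mem_univ x)
  have hnear : ∀ᶠ j in atTop, F j x ∈ ball q (r / 2) := hpt.eventually (isOpen_ball.mem_nhds hxy)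
  have hxX : ∀ᶠ j in atTop, x ∈ X j := by
    filter_upwards [B.exh {x} isCompact_singleton] with j hj using hj rfl
  have hK2 : ∀ᶠ j in atTop, ((G j q : U) : Fin N → ℂ) ∈ K ∧ F j (G j q) = q := by
    filter_upwards [hnear, hq, hxX] with j h1 h2 h3
    have hq' : q ∈ closedBall q (r / 2) := mem_closedBall_self (by positivity)
    have hqV : q ∈ R j := h2 (mem_ball_self hr)
    refine ⟨?_, B.right j q hqV⟩
    refine hch q (fun z => (G j z : Fin N → ℂ)) ((B.holG j).mono h2) (fun z _ => (G j z).2)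
      ⟨F j x, ball_subset_closedBall h1, ?_⟩ hq'
    show ((G j (F j x) : U) : Fin N → ℂ) ∈ ({(x : Fin N → ℂ)} : Set (Fin N → ℂ))
    rw [B.left j x h3]
    rfl
  have hunif : TendstoUniformlyOn F Φ atTop ((↑) ⁻¹' K : Set U) :=
    (tendstoLocallyUniformlyOn_iff_tendstoUniformlyOn_of_compact hK').1 hlim.tendstoLocallyUniformlyOn
  have hlimq : Tendsto (fun j => Φ (G j q)) atTop (𝓝 q) := by
    rw [Metric.tendsto_nhds]
    intro ε hε
    filter_upwards [Metric.tendstoUniformlyOn_iff.1 hunif ε hε, hK2] with j h1 h2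
    have := h1 _ h2.1
    rwa [h2.2] at this
  have hcomp : IsCompact (Φ '' ((↑) ⁻¹' K : Set U)) := hK'.image hcont
  have : q ∈ Φ '' ((↑) ⁻¹' K : Set U) := hcomp.isClosed.mem_of_tendsto hlimq
    (hK2.mono fun j h => mem_image_of_mem _ h.1)
  exact image_subset_range _ _ this

end Chain

end Crest.Agent.R264.CK
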