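import Crest.Agent.R264.CK2
import Crest.Agent.R264.CPDefs
import Mathlib

/-!
Row 264, Part C, module C4 (helper126): `PropC34` from `C3Stmt`.
-/

set_option autoImplicit false

open Topology Filter Set Metric

namespace Crest.Agent.R264.CK

open Crest.AlgGeometry.Semialg

section Dil

variable {m k : ℕ}

theorem differentiable_Dil (ε : ℝ) : Differentiable ℂ (Dil (m := m) (k := k) ε) := by
  unfold Dil
  fun_prop

theorem Dil_Dil_inv {ε : ℝ} (hε : ε ≠ 0) (y : EE m k) : Dil ε (Dil ε⁻¹ y) = y := by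
  have h : (ε : ℂ) ≠ 0 := by exact_mod_cast hε
  unfold Dil
  refine Prod.ext ?_ ?_
  · funext i
    simp only [Pi.smul_apply, smul_eq_mul, Complex.ofReal_inv]
    field_simp
  · funext i
    simp only [Pi.smul_apply, smul_eq_mul, Complex.ofReal_inv]
    field_simp

theorem Dil_inv_Dil {ε : ℝ} (hε : ε ≠ 0) (y : EE m k) : Dil ε⁻¹ (Dil ε y) = y := by
  have := Dil_Dil_inv (m := m) (k := k) (inv_ne_zero hε) y
  rwa [inv_inv] at this

end Dil

variable {N : ℕ} {U : Set (Fin N → ℂ)} {n : ℕ} {Γ : Subgroup (Equiv.Perm U)}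

open Classical in
/-- the maps `Ψ_j = φ_j⁻¹ ∘ χ ∘ Dil ε_j` -/
noncomputable def GG {P : PeakData U n} (T : ScaleSeq Γ P) (j : ℕ) (z : EE P.m P.k) : U :=
  if hz : Dil (T.ε j) z ∈ P.UU then (T.φ j).symm ⟨P.χ (Dil (T.ε j) z), (P.χ_mem _ hz).1⟩ else T.xs

theorem GG_of_mem {P : PeakData U n} (T : ScaleSeq Γ P) {j : ℕ} {z : EE P.m P.k}
    (hz : Dil (T.ε j) z ∈ P.UU) :
    GG T j z = (T.φ j).symm ⟨P.χ (Dil (T.ε j) z), (P.χ_mem _ hz).1⟩ := by
  simp [GG, hz]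

theorem bihSeq (S : Setup N U Γ) {P : PeakData U n} (T : ScaleSeq Γ P) :
    CI.BihSeq U (fun j y => Dil (T.ε j)⁻¹ (P.κ (T.φ j y : U))) (GG T)
      (fun j => {y : U | ((T.φ j y : U) : Fin N → ℂ) ∈ P.O})
      (fun j => {z | Dil (T.ε j) z ∈ P.UU}) where
  S_open j := by
    have h : Continuous (fun y : U => ((T.φ j y : U) : Fin N → ℂ)) :=
      continuous_subtype_val.comp (continuous_smul_of S ⟨T.φ j, T.hφ j⟩)
    exact P.hO.preimage h
  R_open j := P.hUU.preimage (differentiable_Dil _).continuous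
  holF j := by
    intro x hx
    obtain ⟨O, hO, hxO, g, hg, hgx⟩ := S.hol (T.φ j) (T.hφ j) x
    refine ⟨O ∩ g ⁻¹' P.O, hg.continuousOn.isOpen_inter_preimage hO P.hO, ⟨hxO, ?_⟩,
      fun y => Dil (T.ε j)⁻¹ (P.κ (g y)), ?_, ?_⟩
    · rw [mem_preimage, ← hgx x hxO]
      exact hx
    · refine (differentiable_Dil _).comp_differentiableOn (P.hκ.comp (hg.mono inter_subset_left) ?_)
      intro y hy
      exact hy.2
    · intro y _ hyO
      show Dil (T.ε j)⁻¹ (P.κ (T.φ j y : U)) = Dil (T.ε j)⁻¹ (P.κ (g y))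
      rw [← hgx y hyO.1]
  holG j := by
    have hD : IsOpen {z | Dil (T.ε j) z ∈ P.UU} := P.hUU.preimage (differentiable_Dil _).continuous
    have hf : DifferentiableOn ℂ (fun z => P.χ (Dil (T.ε j) z)) {z | Dil (T.ε j) z ∈ P.UU} :=
      P.hχ.comp (differentiable_Dil _).differentiableOn fun z hz => hz
    have hfU : MapsTo (fun z => P.χ (Dil (T.ε j) z)) {z | Dil (T.ε j) z ∈ P.UU} U :=
      fun z hz => (P.χ_mem _ hz).1
    obtain ⟨g, hg, -, hgf⟩ := comp_gamma S ⟨(T.φ j)⁻¹, Γ.inv_mem (T.hφ j)⟩ hD hf hfU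
    refine hg.congr ?_
    intro z hz
    rw [hgf z hz]
    show ((GG T j z : U) : Fin N → ℂ) = _
    rw [GG_of_mem T hz]
    rfl
  mapsF j := by
    intro y hy
    show Dil (T.ε j) (Dil (T.ε j)⁻¹ (P.κ (T.φ j y : U))) ∈ P.UU
    rw [Dil_Dil_inv (T.ε_pos j).ne']
    exact P.κ_mem _ (T.φ j y : U).2 hy
  mapsG j := by
    intro z hz
    show ((T.φ j (GG T j z) : U) : Fin N → ℂ) ∈ P.O
    rw [GG_of_mem T hz, Equiv.apply_symm_apply]
    exact (P.χ_mem _ hz).2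
  left j := by
    intro y hy
    have hz : Dil (T.ε j) (Dil (T.ε j)⁻¹ (P.κ (T.φ j y : U))) ∈ P.UU := by
      rw [Dil_Dil_inv (T.ε_pos j).ne']
      exact P.κ_mem _ (T.φ j y : U).2 hy
    rw [GG_of_mem T hz, Equiv.symm_apply_eq]
    ext1
    show P.χ (Dil (T.ε j) (Dil (T.ε j)⁻¹ (P.κ (T.φ j y : U)))) = _
    rw [Dil_Dil_inv (T.ε_pos j).ne', P.χ_κ _ (T.φ j y : U).2 hy]
  right j := by
    intro z hz
    show Dil (T.ε j)⁻¹ (P.κ (T.φ j (GG T j z) : U)) = z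
    rw [GG_of_mem T hz, Equiv.apply_symm_apply]
    show Dil (T.ε j)⁻¹ (P.κ (P.χ (Dil (T.ε j) z))) = z
    rw [P.κ_χ _ hz, Dil_inv_Dil (T.ε_pos j).ne']
  exh K hK := by
    filter_upwards [T.ev_mem K hK] with j hj y hy using hj y hy

theorem continuous_of_isHol {F : Type*} [NormedAddCommGroup F] [NormedSpace ℂ F] {f : U → F}
    (h : IsHol U f) : Continuous f := by
  rw [continuous_iff_continuousAt]
  intro x
  obtain ⟨O, hO, hx, g, hg, he⟩ := h x
  have h2 : ContinuousAt (fun y : U => g y) x :=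
    ContinuousAt.comp (f := fun y : U => (y : Fin N → ℂ))
      ((hg x hx).differentiableAt (hO.mem_nhds hx)).continuousAt continuous_subtype_val.continuousAt
  refine h2.congr ?_
  filter_upwards [continuous_subtype_val.continuousAt.eventually (hO.mem_nhds hx)] with y hy
  exact (he y hy).symm

/-- the boxes of Theorem B become balls of fixed radius after rescaling -/
theorem ball_subset_R {P : PeakData U n} (T : ScaleSeq Γ P) (j : ℕ) :
    ball (Dil (T.ε j)⁻¹ (P.κ (T.φ j (T.x j) : U))) P.c ⊆ {z | Dil (T.ε j) z ∈ P.UU} := by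
  intro z hz
  have hε := T.ε_pos j
  have hεc : (T.ε j : ℂ) ≠ 0 := by exact_mod_cast hε.ne'
  have ht : 0 < T.ε j ^ 2 := by positivity
  rw [mem_ball, T.κφx j] at hz
  have hDil : Dil (T.ε j)⁻¹ ((0, (Complex.I * ((T.ε j ^ 2 : ℝ) : ℂ)) • cvec (P.e (T.ε j ^ 2))) :
      EE P.m P.k) = (0, Complex.I • cvec (P.e (T.ε j ^ 2))) := by
    unfold Dil
    refine Prod.ext ?_ ?_
    · simp
    · funext i
      simp only [Pi.smul_apply, smul_eq_mul, Complex.ofReal_inv, Complex.ofReal_pow]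
      field_simp
  rw [hDil, Prod.dist_eq, max_lt_iff] at hz
  refine P.box (T.ε j ^ 2) ht (T.ε_lt j) _ ?_ ?_
  · show ‖(T.ε j : ℂ) • z.1‖ < _
    rw [norm_smul, Complex.norm_real, Real.norm_of_nonneg hε.le, Real.sqrt_sq hε.le, mul_comm]
    have : ‖z.1‖ < P.c := by simpa [dist_eq_norm] using hz.1
    gcongr
  · show ‖((T.ε j : ℂ) ^ 2) • z.2 - _‖ < _
    have h1 : ((T.ε j : ℂ) ^ 2) • z.2 - (Complex.I * ((T.ε j ^ 2 : ℝ) : ℂ)) • cvec (P.e (T.ε j ^ 2))
        = ((T.ε j : ℂ) ^ 2) • (z.2 - Complex.I • cvec (P.e (T.ε j ^ 2))) := by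
      rw [smul_sub, smul_smul]
      congr 2
      push_cast
      ring
    rw [h1, norm_smul, norm_pow, Complex.norm_real, Real.norm_of_nonneg hε.le, mul_comm]
    have : ‖z.2 - Complex.I • cvec (P.e (T.ε j ^ 2))‖ < P.c := by
      simpa [dist_eq_norm] using hz.2
    gcongr

theorem finrank_EE (P : PeakData U n) : Module.finrank ℂ (EE P.m P.k) = n := by
  simp [EE, Module.finrank_prod, P.hmk]

/-- C3 + C4 from C3. -/
theorem propC34_of (h3 : CI.C3Stmt) : PropC34 := by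
  intro N U Γ S n hn hsub P T
  have B := bihSeq S T
  have hc : CI.C3Out U (fun j y => Dil (T.ε j)⁻¹ (P.κ (T.φ j y : U)))
      (fun j => {y : U | ((T.φ j y : U) : Fin N → ℂ) ∈ P.O}) T.Φ :=
    h3 N n (EE P.m P.k) U _ (GG T) _ _ T.Φ T.x T.xs P.c (finrank_EE P) hsub S.conn S.bdd B T.lim
      T.hx P.hc (Eventually.of_forall fun j => ball_subset_R T j)
  obtain ⟨Θ, hΘ, hΘl⟩ := hc.inv
  have hεlim : Tendsto T.ε atTop (𝓝[>] (0 : ℝ)) := by
    rw [tendsto_nhdsWithin_iff]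
    exact ⟨T.ε_lim, Eventually.of_forall fun j => T.ε_pos j⟩
  refine ⟨⟨Θ, hΘl, hΘ, hc.isOpen, ?_, ?_⟩⟩
  · rintro _ ⟨x, rfl⟩
    obtain ⟨ρ, hρ, hball⟩ := hc.ker x univ univ_mem
    refine P.kernel₂ _ ρ hρ ?_
    refine hεlim.frequently (p := fun ε => ∀ y ∈ ball (T.Φ x) ρ, Dil ε y ∈ P.UU) ?_
    refine (hball.mono fun j hj y hy => ?_).frequently
    obtain ⟨w, ⟨-, hw⟩, rfl⟩ := hj hy
    exact B.mapsF j hw
  · intro q hq hcl
    obtain ⟨r, hr, h⟩ := P.kernel₁ q hq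
    exact mem_of_closure S B (continuous_of_isHol T.hΦ) T.lim hr (hεlim.eventually h) hcl

end Crest.Agent.R264.CK
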