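import Crest.Agent.R264.TopDefs

/-!
Row 264, module CN (helper190), part 1: relative holomorphy on a submanifold `U ⊆ ℂ^N`
and ball charts.
-/

set_option autoImplicit false

open Topology Filter Set Metric

namespace Crest.Agent.R264.CN

open Crest.Agent.R264 Crest.AlgGeometry.Semialg

variable {N n : ℕ} {F : Type*} [NormedAddCommGroup F] [NormedSpace ℂ F]
  {G : Type*} [NormedAddCommGroup G] [NormedSpace ℂ G] {U : Set (Fin N → ℂ)}

/-- `f : U → F` is holomorphic at `x : U` (restriction of an ambient holomorphic map near `x`). -/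
def HolAt (U : Set (Fin N → ℂ)) (f : U → F) (x : U) : Prop :=
  ∃ O : Set (Fin N → ℂ), IsOpen O ∧ (x : Fin N → ℂ) ∈ O ∧
    ∃ g : (Fin N → ℂ) → F, DifferentiableOn ℂ g O ∧ ∀ y : U, (y : Fin N → ℂ) ∈ O → f y = g y

/-- `f : U → F` is holomorphic. -/
def HolU (U : Set (Fin N → ℂ)) (f : U → F) : Prop :=
  ∀ x : U, ∃ O : Set (Fin N → ℂ), IsOpen O ∧ (x : Fin N → ℂ) ∈ O ∧
    ∃ g : (Fin N → ℂ) → F, DifferentiableOn ℂ g O ∧ ∀ y : U, (y : Fin N → ℂ) ∈ O → f y = g y

theorem holU_iff {M : ℕ} (φ : U → (Fin M → ℂ)) : HolU U φ ↔ IsHolomorphicMap U φ := Iff.rfl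

theorem HolU.holAt {f : U → F} (h : HolU U f) (x : U) : HolAt U f x := h x

theorem holU_of_holAt {f : U → F} (h : ∀ x, HolAt U f x) : HolU U f := h

theorem HolAt.eventually {f : U → F} {x : U} (h : HolAt U f x) : ∀ᶠ y in 𝓝 x, HolAt U f y := by
  obtain ⟨O, hO, hx, g, hg, h⟩ := h
  have : ∀ᶠ y : U in 𝓝 x, (y : Fin N → ℂ) ∈ O :=
    continuous_subtype_val.continuousAt.eventually (hO.mem_nhds hx)
  filter_upwards [this] with y hy
  exact ⟨O, hO, hy, g, hg, h⟩

theorem HolAt.continuousAt {f : U → F} {x : U} (h : HolAt U f x) : ContinuousAt f x := by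
  obtain ⟨O, hO, hx, g, hg, h⟩ := h
  have h1 : ContinuousAt (fun y : U => g y) x :=
    ((hg.differentiableAt (hO.mem_nhds hx)).continuousAt).comp
      (continuous_subtype_val.continuousAt)
  refine h1.congr ?_
  have : ∀ᶠ y : U in 𝓝 x, (y : Fin N → ℂ) ∈ O :=
    continuous_subtype_val.continuousAt.eventually (hO.mem_nhds hx)
  filter_upwards [this] with y hy
  exact (h y hy).symm

theorem HolU.continuous {f : U → F} (h : HolU U f) : Continuous f :=
  continuous_iff_continuousAt.2 fun x => (h.holAt x).continuousAt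

/-- Composition with a map holomorphic near the value. -/
theorem HolAt.comp {f : U → F} {x : U} (h : HolAt U f x) {k : F → G} {B : Set F} (hB : IsOpen B)
    (hk : DifferentiableOn ℂ k B) (hx : f x ∈ B) : HolAt U (fun y => k (f y)) x := by
  obtain ⟨O, hO, hx', g, hg, h⟩ := h
  have h1 : IsOpen (O ∩ g ⁻¹' B) := hg.continuousOn.isOpen_inter_preimage hO hB
  refine ⟨O ∩ g ⁻¹' B, h1, ⟨hx', ?_⟩, fun z => k (g z), ?_, ?_⟩
  · show g x ∈ B
    rw [← h x hx']; exact hx
  · exact hk.comp (hg.mono inter_subset_left) (fun z hz => hz.2)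
  · intro y hy
    show k (f y) = k (g y)
    rw [h y hy.1]

theorem HolU.comp {f : U → F} (h : HolU U f) {k : F → G} (hk : Differentiable ℂ k) :
    HolU U (fun y => k (f y)) := fun x =>
  (h.holAt x).comp isOpen_univ hk.differentiableOn (mem_univ _)

theorem holU_const (c : F) : HolU U (fun _ => c) := fun x =>
  ⟨univ, isOpen_univ, mem_univ _, fun _ => c, differentiableOn_const c, fun _ _ => rfl⟩

theorem HolAt.prodMk {f : U → F} {g : U → G} {x : U} (hf : HolAt U f x) (hg : HolAt U g x) :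
    HolAt U (fun y => (f y, g y)) x := by
  obtain ⟨O, hO, hx, a, ha, h⟩ := hf
  obtain ⟨O', hO', hx', b, hb, h'⟩ := hg
  refine ⟨O ∩ O', hO.inter hO', ⟨hx, hx'⟩, fun z => (a z, b z),
    (ha.mono inter_subset_left).prodMk (hb.mono inter_subset_right), ?_⟩
  intro y hy
  show (f y, g y) = (a y, b y)
  rw [h y hy.1, h' y hy.2]

/-- A ball chart of `U` at `x`. -/
structure BC (n : ℕ) (U : Set (Fin N → ℂ)) (x : U) where
  e : (Fin n → ℂ) → U
  p : (Fin N → ℂ) → (Fin n → ℂ)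
  O : Set (Fin N → ℂ)
  hO : IsOpen O
  mem : (x : Fin N → ℂ) ∈ O
  e0 : e 0 = x
  de : DifferentiableOn ℂ (fun w => (e w : Fin N → ℂ)) (ball 0 1)
  dp : DifferentiableOn ℂ p O
  e_mem : ∀ w ∈ ball (0 : Fin n → ℂ) 1, (e w : Fin N → ℂ) ∈ O
  pe : ∀ w ∈ ball (0 : Fin n → ℂ) 1, p (e w) = w
  p_mem : ∀ y : U, (y : Fin N → ℂ) ∈ O → p y ∈ ball (0 : Fin n → ℂ) 1
  ep : ∀ y : U, (y : Fin N → ℂ) ∈ O → e (p y) = y

theorem exists_BC (hU : IsSubmfd n U) (x : U) : Nonempty (BC n U x) := by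
  classical
  obtain ⟨c⟩ := hU x x.2
  have hx0 : c.π x ∈ c.W := c.π_mem x x.2 c.mem
  obtain ⟨r, hr, hrW⟩ := Metric.isOpen_iff.1 c.hW _ hx0
  have hmap : ∀ w ∈ ball (0 : Fin n → ℂ) 1, c.π x + (r : ℂ) • w ∈ ball (c.π x) r := by
    intro w hw
    rw [mem_ball, dist_eq_norm] at *
    rw [add_sub_cancel_left, norm_smul]
    rw [sub_zero] at hw
    simp only [Complex.norm_real, Real.norm_eq_abs, abs_of_pos hr]
    nlinarith
  let e : (Fin n → ℂ) → U := fun w =>
    if h : w ∈ ball (0 : Fin n → ℂ) 1 then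
      ⟨c.ψ (c.π x + (r : ℂ) • w), (c.ψ_mem _ (hrW (hmap w h))).1⟩ else x
  have he : ∀ w ∈ ball (0 : Fin n → ℂ) 1, (e w : Fin N → ℂ) = c.ψ (c.π x + (r : ℂ) • w) := by
    intro w hw
    simp only [e, dif_pos hw]
  have hrc : (r : ℂ) ≠ 0 := by exact_mod_cast hr.ne'
  refine ⟨{ e := e, p := fun y => (r : ℂ)⁻¹ • (c.π y - c.π x),
            O := c.O ∩ c.π ⁻¹' ball (c.π x) r,
            hO := c.hπ.continuousOn.isOpen_inter_preimage c.hO isOpen_ball,
            mem := ⟨c.mem, mem_ball_self hr⟩,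
            e0 := ?_, de := ?_, dp := ?_, e_mem := ?_, pe := ?_, p_mem := ?_, ep := ?_ }⟩
  · apply Subtype.ext
    rw [he 0 (mem_ball_self one_pos), smul_zero, add_zero]
    exact c.ψ_π x x.2 c.mem
  · have h1 : DifferentiableOn ℂ (fun w : Fin n → ℂ => c.ψ (c.π x + (r : ℂ) • w)) (ball 0 1) := by
      refine c.hψ.comp (Differentiable.differentiableOn ?_) (fun w hw => hrW (hmap w hw))
      fun_prop
    exact h1.congr he
  · exact DifferentiableOn.const_smul ((c.hπ.mono inter_subset_left).sub_const _) ((r : ℂ)⁻¹)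
  · intro w hw
    rw [he w hw]
    refine ⟨(c.ψ_mem _ (hrW (hmap w hw))).2, ?_⟩
    show c.π (c.ψ (c.π x + (r : ℂ) • w)) ∈ ball (c.π x) r
    rw [c.π_ψ _ (hrW (hmap w hw))]
    exact hmap w hw
  · intro w hw
    show (r : ℂ)⁻¹ • (c.π (e w) - c.π x) = w
    rw [he w hw, c.π_ψ _ (hrW (hmap w hw)), add_sub_cancel_left, smul_smul,
      inv_mul_cancel₀ hrc, one_smul]
  · intro y hy
    have h2 : c.π y ∈ ball (c.π x) r := hy.2
    rw [mem_ball, dist_eq_norm] at h2
    rw [mem_ball, dist_zero_right, norm_smul, norm_inv, Complex.norm_real, Real.norm_eq_abs,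
      abs_of_pos hr]
    rw [inv_mul_lt_iff₀ hr, mul_one]
    exact h2
  · intro y hy
    have h2 : c.π y ∈ ball (c.π x) r := hy.2
    have h3 : (r : ℂ)⁻¹ • (c.π y - c.π x) ∈ ball (0 : Fin n → ℂ) 1 := by
      rw [mem_ball, dist_eq_norm] at h2
      rw [mem_ball, dist_zero_right, norm_smul, norm_inv, Complex.norm_real, Real.norm_eq_abs,
        abs_of_pos hr]
      rw [inv_mul_lt_iff₀ hr, mul_one]
      exact h2
    apply Subtype.ext
    rw [he _ h3, smul_smul, mul_inv_cancel₀ hrc, one_smul, add_sub_cancel]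
    exact c.ψ_π y y.2 hy.1

namespace BC

variable {x : U} (c : BC n U x)

include c in
theorem px : c.p x = 0 := by
  have := c.pe 0 (mem_ball_self one_pos)
  rwa [c.e0] at this

theorem cont : ContinuousOn c.e (ball 0 1) := by
  have h := c.de.continuousOn
  intro w hw
  exact (continuousWithinAt_subtype_rng' (h w hw))
where
  continuousWithinAt_subtype_rng' {w : Fin n → ℂ} {s : Set (Fin n → ℂ)}
    (h : ContinuousWithinAt (fun w => (c.e w : Fin N → ℂ)) s w) : ContinuousWithinAt c.e s w := by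
    exact tendsto_subtype_rng.2 h

theorem continuousAt {w : Fin n → ℂ} (hw : w ∈ ball (0 : Fin n → ℂ) 1) : ContinuousAt c.e w :=
  (c.cont w hw).continuousAt (isOpen_ball.mem_nhds hw)

/-- a holomorphic function on `U` is holomorphic in a ball chart. -/
theorem differentiableAt {f : U → F} {w : Fin n → ℂ} (hw : w ∈ ball (0 : Fin n → ℂ) 1)
    (hf : HolAt U f (c.e w)) : DifferentiableAt ℂ (fun v => f (c.e v)) w := by
  obtain ⟨O, hO, hx, g, hg, h⟩ := hf
  have h1 : DifferentiableAt ℂ (fun v => g (c.e v)) w := by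
    have h2 : DifferentiableAt ℂ g (c.e w) := hg.differentiableAt (hO.mem_nhds hx)
    exact h2.comp (f := fun v => (c.e v : Fin N → ℂ)) w
      (c.de.differentiableAt (isOpen_ball.mem_nhds hw))
  refine h1.congr_of_eventuallyEq ?_
  have h3 : ContinuousAt (fun v => (c.e v : Fin N → ℂ)) w :=
    (c.de.differentiableAt (isOpen_ball.mem_nhds hw)).continuousAt
  filter_upwards [h3.eventually (hO.mem_nhds hx)] with v hv
  exact h _ hv

theorem differentiableOn {f : U → F} (hf : HolU U f) :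
    DifferentiableOn ℂ (fun v => f (c.e v)) (ball 0 1) := fun w hw =>
  (c.differentiableAt hw (hf _)).differentiableWithinAt

/-- the image of a small ball is a neighbourhood -/
theorem image_mem_nhds {r : ℝ} (hr : 0 < r) : c.e '' (ball 0 r ∩ ball 0 1) ∈ 𝓝 x := by
  have h1 : ContinuousAt c.p x := (c.dp.differentiableAt (c.hO.mem_nhds c.mem)).continuousAt
  have h2 : ContinuousAt (fun y : U => c.p y) x := by
    have h3 : Tendsto (fun y : U => (y : Fin N → ℂ)) (𝓝 x) (𝓝 (x : Fin N → ℂ)) :=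
      continuous_subtype_val.continuousAt
    exact h1.tendsto.comp h3
  have h4 : ∀ᶠ y : U in 𝓝 x, c.p y ∈ ball (0 : Fin n → ℂ) r := by
    apply h2.eventually
    show ball (0 : Fin n → ℂ) r ∈ 𝓝 (c.p x)
    rw [c.px]
    exact ball_mem_nhds _ hr
  have h5 : ∀ᶠ y : U in 𝓝 x, (y : Fin N → ℂ) ∈ c.O :=
    continuous_subtype_val.continuousAt.eventually (c.hO.mem_nhds c.mem)
  filter_upwards [h4, h5] with y hy1 hy2
  exact ⟨c.p y, ⟨hy1, c.p_mem y hy2⟩, c.ep y hy2⟩

theorem image_mem_nhds' {r : ℝ} (hr : 0 < r) (hr1 : r ≤ 1) : c.e '' (ball 0 r) ∈ 𝓝 x := by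
  have := c.image_mem_nhds hr
  rwa [inter_eq_left.2 (ball_subset_ball hr1)] at this

theorem O_mem_nhds : ∀ᶠ y : U in 𝓝 x, (y : Fin N → ℂ) ∈ c.O :=
  continuous_subtype_val.continuousAt.eventually (c.hO.mem_nhds c.mem)

/-- converse: a function holomorphic in the chart is holomorphic on `U`. -/
theorem holAt_of {f : U → F} {y : U} (hy : (y : Fin N → ℂ) ∈ c.O) {s : Set (Fin n → ℂ)}
    (hs : IsOpen s) (hys : c.p y ∈ s) (hf : DifferentiableOn ℂ (fun v => f (c.e v)) s) :
    HolAt U f y := by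
  refine ⟨c.O ∩ c.p ⁻¹' s, c.dp.continuousOn.isOpen_inter_preimage c.hO hs, ⟨hy, hys⟩,
    fun z => f (c.e (c.p z)), ?_, ?_⟩
  · exact hf.comp (c.dp.mono inter_subset_left) (fun z hz => hz.2)
  · intro z hz
    show f z = f (c.e (c.p z))
    rw [c.ep z hz.1]

end BC

end Crest.Agent.R264.CN
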