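import Crest.Agent.R264.CN1

/-!
Row 264, module CN (helper190), part 2: Harnack's inequality on a connected submanifold,
maximum principle, identity theorem.
-/

set_option autoImplicit false

open Topology Filter Set Metric

namespace Crest.Agent.R264.CN

open Crest.Agent.R264 Crest.AlgGeometry.Semialg

section Ball

variable {E : Type*} [NormedAddCommGroup E] [NormedSpace ℂ E]

theorem harnack_aux {τ : E → ℂ} {c : E} {R : ℝ}
    (hd : DifferentiableOn ℂ τ (ball c R)) (hre : ∀ z ∈ ball c R, 0 < (τ z).re) {z : E}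
    (hz : z ∈ ball c (R / 2)) : ‖τ z‖ ≤ 3 * ‖τ c‖ := by
  have hR : 0 < R := by
    have := nonempty_ball.1 ⟨z, hz⟩
    linarith
  have hzR : z ∈ ball c R := ball_subset_ball (by linarith) hz
  have hcR : c ∈ ball c R := mem_ball_self hR
  set a := τ c with ha
  have ha0 : 0 < a.re := hre c hcR
  have hden : ∀ w ∈ ball c R, τ w + (starRingEnd ℂ) a ≠ 0 := by
    intro w hw h
    have h1 := congrArg Complex.re h
    simp only [Complex.add_re, Complex.conj_re, Complex.zero_re] at h1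
    have := hre w hw
    linarith
  have hle : ∀ w ∈ ball c R, ‖τ w - a‖ ≤ ‖τ w + (starRingEnd ℂ) a‖ := by
    intro w hw
    have h1 := hre w hw
    rw [Complex.norm_def, Complex.norm_def]
    apply Real.sqrt_le_sqrt
    simp only [Complex.normSq_apply, Complex.sub_re, Complex.sub_im, Complex.add_re,
      Complex.conj_re, Complex.add_im, Complex.conj_im]
    nlinarith [mul_pos h1 ha0]
  let h : E → ℂ := fun w => (τ w - a) / (τ w + (starRingEnd ℂ) a)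
  have hh : DifferentiableOn ℂ h (ball c R) := by
    have h0 : DifferentiableOn ℂ (fun w => (τ w - a) * (τ w + (starRingEnd ℂ) a)⁻¹) (ball c R) :=
      (hd.sub_const a).mul ((hd.add_const ((starRingEnd ℂ) a)).inv hden)
    exact h0.congr fun w _ => div_eq_mul_inv _ _
  have hhc : h c = 0 := by simp [h, ha]
  have hm : MapsTo h (ball c R) (closedBall (h c) 1) := by
    intro w hw
    rw [hhc, mem_closedBall, dist_zero_right]
    simp only [h, norm_div]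
    rw [div_le_one (norm_pos_iff.2 (hden w hw))]
    exact hle w hw
  have hs := Complex.dist_le_div_mul_dist_of_mapsTo_ball hh hm hzR
  rw [hhc, dist_zero_right] at hs
  have hs2 : ‖h z‖ ≤ 1 / 2 := by
    refine hs.trans ?_
    rw [mem_ball] at hz
    rw [div_mul_eq_mul_div, one_mul, div_le_iff₀ hR]
    linarith
  simp only [h, norm_div] at hs2
  rw [div_le_iff₀ (norm_pos_iff.2 (hden z hzR))] at hs2
  have h3 : ‖τ z + (starRingEnd ℂ) a‖ ≤ ‖τ z‖ + ‖a‖ := by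
    refine (norm_add_le _ _).trans ?_
    rw [RCLike.norm_conj]
  have h4 : ‖τ z‖ ≤ ‖τ z - a‖ + ‖a‖ := by
    have := norm_add_le (τ z - a) a
    rwa [sub_add_cancel] at this
  linarith

/-- Harnack's inequality on a ball. -/
theorem harnack_ball {τ : E → ℂ} {c : E} {R : ℝ}
    (hd : DifferentiableOn ℂ τ (ball c R)) (hre : ∀ z ∈ ball c R, 0 ≤ (τ z).re) {z : E}
    (hz : z ∈ ball c (R / 2)) : ‖τ z‖ ≤ 3 * ‖τ c‖ := by
  refine le_of_forall_pos_le_add fun δ hδ => ?_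
  have h1 : ‖τ z + (δ / 4 : ℝ)‖ ≤ 3 * ‖τ c + (δ / 4 : ℝ)‖ := by
    refine harnack_aux (τ := fun w => τ w + (δ / 4 : ℝ)) (hd.add_const _) ?_ hz
    intro w hw
    have := hre w hw
    simp only [Complex.add_re, Complex.ofReal_re]
    linarith
  have h2 : ‖((δ / 4 : ℝ) : ℂ)‖ = δ / 4 := by
    rw [Complex.norm_real, Real.norm_eq_abs, abs_of_pos (by linarith)]
  have h3 : ‖τ c + (δ / 4 : ℝ)‖ ≤ ‖τ c‖ + δ / 4 := (norm_add_le _ _).trans (by rw [h2])
  have h4 : ‖τ z‖ ≤ ‖τ z + (δ / 4 : ℝ)‖ + δ / 4 := by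
    have := norm_sub_le (τ z + (δ / 4 : ℝ)) ((δ / 4 : ℝ) : ℂ)
    rwa [add_sub_cancel_right, h2] at this
  linarith

end Ball

variable {N n : ℕ} {U : Set (Fin N → ℂ)}

/-- the class of holomorphic functions with nonnegative real part -/
def Pos (U : Set (Fin N → ℂ)) (τ : U → ℂ) : Prop := HolU U τ ∧ ∀ x, 0 ≤ (τ x).re

theorem harnack_local (hU : IsSubmfd n U) (x : U) :
    ∀ᶠ y in 𝓝 x, ∀ τ : U → ℂ, Pos U τ → ‖τ y‖ ≤ 3 * ‖τ x‖ ∧ ‖τ x‖ ≤ 3 * ‖τ y‖ := by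
  obtain ⟨c⟩ := exists_BC hU x
  filter_upwards [c.image_mem_nhds' (r := 1 / 4) (by norm_num) (by norm_num)]
  rintro _ ⟨w, hw, rfl⟩ τ hτ
  have hd := c.differentiableOn hτ.1
  rw [mem_ball, dist_zero_right] at hw
  constructor
  · have := harnack_ball (τ := fun v => τ (c.e v)) (c := 0) (R := 1) hd (fun z _ => hτ.2 _)
      (z := w) (by rw [mem_ball, dist_zero_right]; linarith)
    simpa [c.e0] using this
  · have hsub : ball w (3 / 4) ⊆ ball (0 : Fin n → ℂ) 1 := by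
      intro v hv
      rw [mem_ball] at hv ⊢
      calc dist v 0 ≤ dist v w + dist w 0 := dist_triangle _ _ _
        _ < 1 := by rw [dist_zero_right]; linarith
    have := harnack_ball (τ := fun v => τ (c.e v)) (c := w) (R := 3 / 4) (hd.mono hsub)
      (fun z _ => hτ.2 _) (z := 0) (by rw [mem_ball, dist_comm, dist_zero_right]; linarith)
    simpa [c.e0] using this

theorem harnack_two (hU : IsSubmfd n U) (hc : IsPreconnected U) (x y : U) :
    ∃ C : ℝ, 0 ≤ C ∧ ∀ τ : U → ℂ, Pos U τ → ‖τ y‖ ≤ C * ‖τ x‖ := by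
  have : PreconnectedSpace U := Subtype.preconnectedSpace hc
  refine PreconnectedSpace.induction₂'
    (fun x y : U => ∃ C : ℝ, 0 ≤ C ∧ ∀ τ : U → ℂ, Pos U τ → ‖τ y‖ ≤ C * ‖τ x‖) ?_ ?_ x y
  · intro x
    filter_upwards [harnack_local hU x] with y hy
    exact ⟨⟨3, by norm_num, fun τ hτ => (hy τ hτ).1⟩, ⟨3, by norm_num, fun τ hτ => (hy τ hτ).2⟩⟩
  · constructor
    rintro a b c ⟨C, hC, h⟩ ⟨C', hC', h'⟩
    refine ⟨C' * C, by positivity, fun τ hτ => ?_⟩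
    calc ‖τ c‖ ≤ C' * ‖τ b‖ := h' τ hτ
      _ ≤ C' * (C * ‖τ a‖) := by gcongr; exact h τ hτ
      _ = C' * C * ‖τ a‖ := by ring

/-- **Harnack's inequality** on a connected submanifold. -/
theorem harnack (hU : IsSubmfd n U) (hc : IsPreconnected U) {K0 K : Set U}
    (hK0 : IsCompact K0) (hK : IsCompact K) :
    ∃ C : ℝ, 0 ≤ C ∧ ∀ τ : U → ℂ, Pos U τ → ∀ x ∈ K0, ∀ y ∈ K, ‖τ y‖ ≤ C * ‖τ x‖ := by
  have h1 : ∀ x0 : U, ∃ C : ℝ, 0 ≤ C ∧ ∀ τ : U → ℂ, Pos U τ → ∀ y ∈ K, ‖τ y‖ ≤ C * ‖τ x0‖ := by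
    intro x0
    refine hK.induction_on
      (p := fun K => ∃ C : ℝ, 0 ≤ C ∧ ∀ τ : U → ℂ, Pos U τ → ∀ y ∈ K, ‖τ y‖ ≤ C * ‖τ x0‖) ?_ ?_ ?_ ?_
    · exact ⟨0, le_rfl, fun τ _ y hy => hy.elim⟩
    · rintro s t hst ⟨C, hC, h⟩
      exact ⟨C, hC, fun τ hτ y hy => h τ hτ y (hst hy)⟩
    · rintro s t ⟨C, hC, h⟩ ⟨C', hC', h'⟩
      refine ⟨max C C', le_max_of_le_left hC, fun τ hτ y hy => ?_⟩
      rcases hy with hy | hy
      · exact (h τ hτ y hy).trans (by gcongr; exact le_max_left _ _)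
      · exact (h' τ hτ y hy).trans (by gcongr; exact le_max_right _ _)
    · intro y _
      obtain ⟨C, hC, h⟩ := harnack_two hU hc x0 y
      refine ⟨{z | ∀ τ : U → ℂ, Pos U τ → ‖τ z‖ ≤ 3 * ‖τ y‖ ∧ ‖τ y‖ ≤ 3 * ‖τ z‖},
        mem_nhdsWithin_of_mem_nhds (harnack_local hU y), 3 * C, by positivity, ?_⟩
      intro τ hτ z hz
      calc ‖τ z‖ ≤ 3 * ‖τ y‖ := (hz τ hτ).1
        _ ≤ 3 * (C * ‖τ x0‖) := by gcongr; exact h τ hτ
        _ = 3 * C * ‖τ x0‖ := by ring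
  refine hK0.induction_on
    (p := fun K0 => ∃ C : ℝ, 0 ≤ C ∧ ∀ τ : U → ℂ, Pos U τ → ∀ x ∈ K0, ∀ y ∈ K,
      ‖τ y‖ ≤ C * ‖τ x‖) ?_ ?_ ?_ ?_
  · exact ⟨0, le_rfl, fun τ _ x hx => hx.elim⟩
  · rintro s t hst ⟨C, hC, h⟩
    exact ⟨C, hC, fun τ hτ x hx => h τ hτ x (hst hx)⟩
  · rintro s t ⟨C, hC, h⟩ ⟨C', hC', h'⟩
    refine ⟨max C C', le_max_of_le_left hC, fun τ hτ x hx y hy => ?_⟩
    rcases hx with hx | hx
    · exact (h τ hτ x hx y hy).trans (by gcongr; exact le_max_left _ _)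
    · exact (h' τ hτ x hx y hy).trans (by gcongr; exact le_max_right _ _)
  · intro x _
    obtain ⟨C, hC, h⟩ := h1 x
    refine ⟨{z | ∀ τ : U → ℂ, Pos U τ → ‖τ z‖ ≤ 3 * ‖τ x‖ ∧ ‖τ x‖ ≤ 3 * ‖τ z‖},
      mem_nhdsWithin_of_mem_nhds (harnack_local hU x), 3 * C, by positivity, ?_⟩
    intro τ hτ z hz y hy
    calc ‖τ y‖ ≤ C * ‖τ x‖ := h τ hτ y hy
      _ ≤ C * (3 * ‖τ z‖) := by gcongr; exact (hz τ hτ).2
      _ = 3 * C * ‖τ z‖ := by ring

/-- **Maximum principle**: a holomorphic function whose real part attains its maximum is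
constant. -/
theorem max_principle (hU : IsSubmfd n U) (hc : IsPreconnected U) {f : U → ℂ} (hf : HolU U f)
    {x : U} (hx : ∀ y, (f y).re ≤ (f x).re) (y : U) : f y = f x := by
  obtain ⟨C, hC, h⟩ := harnack_two hU hc x y
  have h1 : Pos U (fun z => f x - f z) :=
    ⟨hf.comp (k := fun w => f x - w) (by fun_prop), fun z => by
      simp only [Complex.sub_re]; linarith [hx z]⟩
  have h2 := h _ h1
  simp only [sub_self, norm_zero, mul_zero] at h2
  exact (sub_eq_zero.1 (norm_le_zero_iff.1 h2)).symm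

end Crest.Agent.R264.CN
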