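import Crest.Agent.R264.CN2

/-!
Row 264, module CN (helper190), part 3: Montel's theorem and locally uniform limits
(on normed spaces and on submanifolds).
-/

set_option autoImplicit false

open Topology Filter Set Metric TopologicalSpace

namespace Crest.Agent.R264.CN

open Crest.Agent.R264 Crest.AlgGeometry.Semialg

/-! ### limits of holomorphic functions on a normed space -/

section Limit

variable {E F ι : Type*} [NormedAddCommGroup E] [NormedSpace ℂ E]
  [NormedAddCommGroup F] [NormedSpace ℂ F] [CompleteSpace F]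
  {l : Filter ι} {f : ι → E → F} {g : E → F} {x : E} {R : ℝ}

/-- Uniform limits of holomorphic maps on a ball are holomorphic on the half ball, and the
derivatives converge uniformly there. -/
theorem limit_ball [l.NeBot] (hR : 0 < R) (hd : ∀ᶠ j in l, DifferentiableOn ℂ (f j) (ball x R))
    (hlim : TendstoUniformlyOn f g l (ball x R)) :
    DifferentiableOn ℂ g (ball x (R / 2)) ∧
      TendstoUniformlyOn (fun j y => fderiv ℂ (f j) y) (fderiv ℂ g) l (ball x (R / 2)) := by
  have hr : 0 < R / 2 := by linarith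
  have hC : UniformCauchySeqOn (fun j y => fderiv ℂ (f j) y) l (ball x (R / 2)) := by
    intro u hu
    obtain ⟨ε, hε, hu⟩ := Metric.mem_uniformity_dist.1 hu
    set δ := ε * R / 32 with hδ
    have hδ0 : 0 < δ := by positivity
    have h1 := (Metric.tendstoUniformlyOn_iff.1 hlim) δ hδ0
    have h2 := hd.and h1
    filter_upwards [h2.prod_mk h2]
    rintro ⟨j, k⟩ ⟨⟨hj, hj'⟩, ⟨hk, hk'⟩⟩ y hy
    apply hu
    have hsub : ball y (R / 2) ⊆ ball x R := by
      intro z hz
      rw [mem_ball] at *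
      calc dist z x ≤ dist z y + dist y x := dist_triangle _ _ _
        _ < R := by linarith
    have hyR : y ∈ ball x R := hsub (mem_ball_self hr)
    have hDj := hj.differentiableAt (isOpen_ball.mem_nhds hyR)
    have hDk := hk.differentiableAt (isOpen_ball.mem_nhds hyR)
    have hdd : DifferentiableOn ℂ (fun z => f j z - f k z) (ball y (R / 2)) :=
      (hj.mono hsub).sub (hk.mono hsub)
    have hbd : ∀ z ∈ ball x R, ‖f j z - f k z‖ ≤ 2 * δ := by
      intro z hz
      have a1 := hj' z hz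
      have a2 := hk' z hz
      rw [← dist_eq_norm]
      have := dist_triangle_left (f j z) (f k z) (g z)
      linarith
    have hm : MapsTo (fun z => f j z - f k z) (ball y (R / 2))
        (closedBall (f j y - f k y) (4 * δ)) := by
      intro z hz
      rw [mem_closedBall, dist_eq_norm]
      refine (norm_sub_le _ _).trans ?_
      have a1 := hbd z (hsub hz)
      have a2 := hbd y hyR
      linarith
    have h3 := Complex.norm_fderiv_le_div_of_mapsTo_ball hdd hm hr
    have h4 : fderiv ℂ (fun z => f j z - f k z) y = fderiv ℂ (f j) y - fderiv ℂ (f k) y :=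
      fderiv_fun_sub hDj hDk
    rw [h4] at h3
    rw [dist_eq_norm]
    refine lt_of_le_of_lt h3 ?_
    rw [hδ, div_lt_iff₀ hr]
    nlinarith
  have hex : ∀ y : E, ∃ L : E →L[ℂ] F, y ∈ ball x (R / 2) →
      Tendsto (fun j => fderiv ℂ (f j) y) l (𝓝 L) := by
    intro y
    by_cases hy : y ∈ ball x (R / 2)
    · have h5 := hC.cauchy_map hy
      obtain ⟨L, hL⟩ := CompleteSpace.complete h5
      exact ⟨L, fun _ => hL⟩
    · exact ⟨0, fun h => absurd h hy⟩
  choose g' hg' using hex
  have hU' : TendstoUniformlyOn (fun j y => fderiv ℂ (f j) y) g' l (ball x (R / 2)) :=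
    hC.tendstoUniformlyOn_of_tendsto hg'
  have hfd : ∀ y ∈ ball x (R / 2), HasFDerivAt g (g' y) y := by
    intro y hy
    have hsub : ball x (R / 2) ⊆ ball x R := ball_subset_ball (by linarith)
    have hy' : ball x (R / 2) ∈ 𝓝 y := isOpen_ball.mem_nhds hy
    refine hasFDerivAt_of_tendstoUniformlyOnFilter (f := f)
      (f' := fun j y => fderiv ℂ (f j) y) (l := l) ?_ ?_ ?_
    · exact (tendstoUniformlyOn_iff_tendstoUniformlyOnFilter.1 hU').mono_right
        (le_principal_iff.2 hy')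
    · have h6 : ∀ᶠ z in 𝓝 y, z ∈ ball x (R / 2) := hy'
      filter_upwards [hd.prod_mk h6]
      rintro ⟨j, z⟩ ⟨hj, hz⟩
      exact (hj.differentiableAt (isOpen_ball.mem_nhds (hsub hz))).hasFDerivAt
    · filter_upwards [hy'] with z hz
      exact hlim.tendsto_at (hsub hz)
  refine ⟨fun y hy => (hfd y hy).differentiableAt.differentiableWithinAt, ?_⟩
  refine hU'.congr_right ?_
  intro y hy
  exact (hfd y hy).fderiv.symm

/-- Locally uniform limits of holomorphic maps are holomorphic. -/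
theorem limit_open [LocallyCompactSpace E] [l.NeBot] {s : Set E} (hs : IsOpen s)
    (hd : ∀ x ∈ s, ∃ t ∈ 𝓝 x, ∀ᶠ j in l, DifferentiableOn ℂ (f j) t)
    (hlim : TendstoLocallyUniformlyOn f g l s) : DifferentiableOn ℂ g s := by
  intro x hx
  obtain ⟨t, ht, htd⟩ := hd x hx
  obtain ⟨K, hK, hKs, hKc⟩ := LocallyCompactSpace.local_compact_nhds x (s ∩ t)
    (inter_mem (hs.mem_nhds hx) ht)
  obtain ⟨r, hr, hrK⟩ := Metric.mem_nhds_iff.1 hK
  have h1 : TendstoUniformlyOn f g l K :=
    (tendstoLocallyUniformlyOn_iff_forall_isCompact hs).1 hlim K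
      (fun z hz => (hKs hz).1) hKc
  have h2 := (limit_ball (x := x) hr (htd.mono fun j hj => hj.mono fun z hz => (hKs (hrK hz)).2)
    (h1.mono hrK)).1
  exact (h2.differentiableAt (isOpen_ball.mem_nhds (mem_ball_self (by linarith)))).differentiableWithinAt

end Limit

/-! ### Arzela-Ascoli for sequences, elementary form -/

section Ascoli

variable {X F : Type*} [TopologicalSpace X] [SeparableSpace X] [NormedAddCommGroup F]
  [ProperSpace F]

/-- A sequence of maps, eventually pointwise bounded and eventually locally equicontinuous, has a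
locally uniformly convergent subsequence. -/
theorem ascoli (f : ℕ → X → F) (hb : ∀ x, ∃ C : ℝ, ∀ᶠ j in atTop, ‖f j x‖ ≤ C)
    (he : ∀ x, ∀ ε > 0, ∃ V ∈ 𝓝 x, ∀ᶠ j in atTop, ∀ y ∈ V, dist (f j y) (f j x) ≤ ε) :
    ∃ (σ : ℕ → ℕ) (g : X → F), StrictMono σ ∧
      TendstoLocallyUniformly (fun j => f (σ j)) g atTop := by
  obtain ⟨D, hDc, hDd⟩ := exists_countable_dense X
  have : Countable D := hDc.to_subtype
  have hb' : ∀ x, ∃ C : ℝ, ∀ j, ‖f j x‖ ≤ C := by
    intro x
    obtain ⟨C, hC⟩ := hb x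
    obtain ⟨J, hJ⟩ := eventually_atTop.1 hC
    refine ⟨max C (∑ i ∈ Finset.range J, ‖f i x‖), fun j => ?_⟩
    by_cases hj : J ≤ j
    · exact le_max_of_le_left (hJ j hj)
    · refine le_max_of_le_right ?_
      exact Finset.single_le_sum (f := fun i => ‖f i x‖) (fun i _ => norm_nonneg _)
        (Finset.mem_range.2 (not_le.1 hj))
  choose C hC using hb'
  have hcpt : IsCompact (Set.pi univ (fun d : D => closedBall (0 : F) (C d))) :=
    isCompact_univ_pi fun d => isCompact_closedBall _ _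
  have hmem : ∀ j, (fun d : D => f j d) ∈ Set.pi univ (fun d : D => closedBall (0 : F) (C d)) := by
    intro j d _
    rw [mem_closedBall, dist_zero_right]
    exact hC d j
  obtain ⟨a, -, σ, hσ, hlim⟩ := hcpt.tendsto_subseq hmem
  have hD : ∀ d : D, Tendsto (fun j => f (σ j) d) atTop (𝓝 (a d)) := fun d =>
    (tendsto_pi_nhds.1 hlim) d
  have he' : ∀ x, ∀ ε > 0, ∃ V ∈ 𝓝 x, ∀ᶠ j in atTop, ∀ y ∈ V,
      dist (f (σ j) y) (f (σ j) x) ≤ ε := by
    intro x ε hε
    obtain ⟨V, hV, h⟩ := he x ε hε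
    exact ⟨V, hV, hσ.tendsto_atTop.eventually h⟩
  have hcau : ∀ x, CauchySeq (fun j => f (σ j) x) := by
    intro x
    rw [Metric.cauchySeq_iff]
    intro ε hε
    obtain ⟨V, hV, h⟩ := he' x (ε / 4) (by linarith)
    obtain ⟨d, hdV, hdD⟩ := mem_closure_iff_nhds.1 (hDd x) V hV
    have h1 : CauchySeq (fun j => f (σ j) d) := (hD ⟨d, hdD⟩).cauchySeq
    obtain ⟨N1, hN1⟩ := Metric.cauchySeq_iff.1 h1 (ε / 4) (by linarith)
    obtain ⟨N2, hN2⟩ := eventually_atTop.1 h
    refine ⟨max N1 N2, fun j hj k hk => ?_⟩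
    have a1 := hN2 j (le_trans (le_max_right _ _) hj) d hdV
    have a2 := hN2 k (le_trans (le_max_right _ _) hk) d hdV
    have a3 := hN1 j (le_trans (le_max_left _ _) hj) k (le_trans (le_max_left _ _) hk)
    have a4 := dist_triangle4 (f (σ j) x) (f (σ j) d) (f (σ k) d) (f (σ k) x)
    rw [dist_comm (f (σ j) x) (f (σ j) d)] at a4
    linarith
  have hex : ∀ x, ∃ y, Tendsto (fun j => f (σ j) x) atTop (𝓝 y) := fun x =>
    cauchySeq_tendsto_of_complete (hcau x)
  choose g hg using hex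
  refine ⟨σ, g, hσ, ?_⟩
  rw [Metric.tendstoLocallyUniformly_iff]
  intro ε hε x
  obtain ⟨V, hV, h⟩ := he' x (ε / 4) (by linarith)
  refine ⟨V, hV, ?_⟩
  have h1 : ∀ᶠ j in atTop, dist (f (σ j) x) (g x) < ε / 4 :=
    (Metric.tendsto_nhds.1 (hg x)) _ (by linarith)
  have h2 : ∀ y ∈ V, dist (g y) (g x) ≤ ε / 4 := by
    intro y hy
    refine le_of_tendsto ((hg y).dist (hg x)) ?_
    filter_upwards [h] with j hj
    exact hj y hy
  filter_upwards [h, h1] with j hj hj1 y hy
  have a1 := hj y hy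
  have a2 := h2 y hy
  have a4 := dist_triangle4 (g y) (g x) (f (σ j) x) (f (σ j) y)
  rw [dist_comm (g x), dist_comm (f (σ j) x) (f (σ j) y)] at a4
  linarith

end Ascoli

/-! ### Montel -/

section Montel

variable {E F : Type*} [NormedAddCommGroup E] [NormedSpace ℂ E]
  [NormedAddCommGroup F] [NormedSpace ℂ F]

theorem schwarz_bound {f : E → F} {c z : E} {R C : ℝ} (hd : DifferentiableOn ℂ f (ball c R))
    (hb : ∀ z ∈ ball c R, ‖f z‖ ≤ C) (hz : z ∈ ball c R) :
    dist (f z) (f c) ≤ 2 * C / R * dist z c := by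
  have hR : 0 < R := nonempty_ball.1 ⟨z, hz⟩
  refine Complex.dist_le_div_mul_dist_of_mapsTo_ball hd ?_ hz
  intro w hw
  rw [mem_closedBall, dist_eq_norm]
  refine (norm_sub_le _ _).trans ?_
  have := hb w hw
  have := hb c (mem_ball_self hR)
  linarith

/-- **Montel** on an open subset of a normed space: the maps are eventually locally
holomorphic and bounded; the functions are total. -/
theorem montel_open [ProperSpace F] [LocallyCompactSpace E] [SecondCountableTopology E]
    {s : Set E} (hs : IsOpen s)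
    (f : ℕ → E → F) (h : ∀ x ∈ s, ∃ V ∈ 𝓝 x, ∃ C : ℝ, ∀ᶠ j in atTop,
      DifferentiableOn ℂ (f j) V ∧ ∀ y ∈ V, ‖f j y‖ ≤ C) :
    ∃ (σ : ℕ → ℕ) (g : E → F), StrictMono σ ∧ DifferentiableOn ℂ g s ∧
      TendstoLocallyUniformlyOn (fun j => f (σ j)) g atTop s := by
  obtain ⟨σ, g, hσ, hg⟩ := ascoli (X := s) (fun j (x : s) => f j x) (by
    intro x
    obtain ⟨V, hV, C, h⟩ := h x x.2
    exact ⟨C, h.mono fun j hj => hj.2 _ (mem_of_mem_nhds hV)⟩) (by
    intro x ε hε
    obtain ⟨V, hV, C, h⟩ := h x x.2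
    obtain ⟨r, hr, hrV⟩ := Metric.mem_nhds_iff.1 hV
    have hC : 0 < |C| + 1 := by positivity
    set ρ := min r (ε * r / (2 * (|C| + 1))) with hρ
    have hρ0 : 0 < ρ := lt_min hr (by positivity)
    refine ⟨Subtype.val ⁻¹' ball (x : E) ρ,
      continuous_subtype_val.continuousAt.preimage_mem_nhds (ball_mem_nhds _ hρ0), ?_⟩
    filter_upwards [h] with j hj y hy
    have hy' : (y : E) ∈ ball (x : E) ρ := hy
    have h1 := schwarz_bound (f := f j) (c := (x : E)) (z := (y : E)) (R := r) (C := C)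
      (hj.1.mono hrV) (fun z hz => hj.2 z (hrV hz)) (ball_subset_ball (min_le_left _ _) hy')
    refine h1.trans ?_
    have h2 : dist (y : E) x ≤ ε * r / (2 * (|C| + 1)) := (mem_ball.1 hy').le.trans (min_le_right _ _)
    have h3 : 2 * C / r ≤ 2 * (|C| + 1) / r := by
      gcongr
      exact (le_abs_self C).trans (by linarith)
    calc 2 * C / r * dist (y : E) x ≤ 2 * (|C| + 1) / r * (ε * r / (2 * (|C| + 1))) := by
          gcongr
      _ = ε := by field_simp)
  classical
  let G : E → F := fun x => if hx : x ∈ s then g ⟨x, hx⟩ else 0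
  have hlim : TendstoLocallyUniformlyOn (fun j => f (σ j)) G atTop s := by
    rw [tendstoLocallyUniformlyOn_iff_tendstoLocallyUniformly_comp_coe]
    have : (G ∘ (Subtype.val : s → E)) = g := by
      funext x
      simp [G]
    rw [this]
    exact hg
  refine ⟨σ, G, hσ, ?_, hlim⟩
  refine limit_open hs ?_ hlim
  intro x hx
  obtain ⟨V, hV, C, h⟩ := h x hx
  exact ⟨V, hV, (hσ.tendsto_atTop.eventually h).mono fun j hj => hj.1⟩

variable {N n : ℕ} {U : Set (Fin N → ℂ)}

/-- Locally uniform limits of (eventually locally) holomorphic maps on a submanifold are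
holomorphic. -/
theorem limit_U [CompleteSpace F] {ι : Type*} {l : Filter ι} [l.NeBot] (hU : IsSubmfd n U)
    {f : ι → U → F} {g : U → F}
    (hd : ∀ x : U, ∃ V ∈ 𝓝 x, ∀ᶠ j in l, ∀ y ∈ V, HolAt U (f j) y)
    (hlim : TendstoLocallyUniformly f g l) : HolU U g := by
  intro x
  obtain ⟨c⟩ := exists_BC hU x
  have h1 : DifferentiableOn ℂ (fun v => g (c.e v)) (ball 0 1) := by
    refine limit_open (l := l) (f := fun j v => f j (c.e v)) isOpen_ball ?_ ?_
    · intro w hw
      obtain ⟨V, hV, h⟩ := hd (c.e w)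
      refine ⟨c.e ⁻¹' V ∩ ball 0 1, inter_mem ((c.continuousAt hw).preimage_mem_nhds hV)
        (isOpen_ball.mem_nhds hw), ?_⟩
      filter_upwards [h] with j hj v hv
      exact (c.differentiableAt hv.2 (hj _ hv.1)).differentiableWithinAt
    · intro u hu w hw
      obtain ⟨t, ht, h⟩ := hlim u hu (c.e w)
      refine ⟨c.e ⁻¹' t, mem_nhdsWithin_of_mem_nhds ((c.continuousAt hw).preimage_mem_nhds ht), ?_⟩
      filter_upwards [h] with j hj v hv
      exact hj _ hv
  exact c.holAt_of c.mem isOpen_ball (by rw [c.px]; exact mem_ball_self one_pos) h1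

/-- **Montel** on a submanifold. -/
theorem montel_U [ProperSpace F] (hU : IsSubmfd n U) (f : ℕ → U → F)
    (h : ∀ x : U, ∃ V ∈ 𝓝 x, ∃ C : ℝ, ∀ᶠ j in atTop, ∀ y ∈ V, HolAt U (f j) y ∧ ‖f j y‖ ≤ C) :
    ∃ (σ : ℕ → ℕ) (g : U → F), StrictMono σ ∧ HolU U g ∧
      TendstoLocallyUniformly (fun j => f (σ j)) g atTop := by
  obtain ⟨σ, g, hσ, hg⟩ := ascoli f (by
    intro x
    obtain ⟨V, hV, C, h⟩ := h x
    exact ⟨C, h.mono fun j hj => (hj x (mem_of_mem_nhds hV)).2⟩) (by
    intro x ε hε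
    obtain ⟨V, hV, C, h⟩ := h x
    obtain ⟨c⟩ := exists_BC hU x
    have h0 : c.e ⁻¹' V ∈ 𝓝 (0 : Fin n → ℂ) :=
      (c.continuousAt (mem_ball_self one_pos)).preimage_mem_nhds (by rw [c.e0]; exact hV)
    obtain ⟨r, hr, hrV⟩ := Metric.mem_nhds_iff.1 (inter_mem h0 (ball_mem_nhds 0 one_pos))
    have hC : 0 < |C| + 1 := by positivity
    set ρ := min r (ε * r / (2 * (|C| + 1))) with hρ
    have hρ0 : 0 < ρ := lt_min hr (by positivity)
    refine ⟨c.e '' (ball 0 ρ ∩ ball 0 1), c.image_mem_nhds hρ0, ?_⟩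
    filter_upwards [h] with j hj
    rintro _ ⟨w, hw, rfl⟩
    have h1 := schwarz_bound (f := fun v => f j (c.e v)) (c := (0 : Fin n → ℂ)) (z := w) (R := r)
      (C := C) (fun v hv => (c.differentiableAt (hrV hv).2
        (hj _ (hrV hv).1).1).differentiableWithinAt) (fun z hz => (hj _ (hrV hz).1).2)
      (ball_subset_ball (min_le_left _ _) hw.1)
    rw [c.e0] at h1
    refine h1.trans ?_
    have h2 : dist w 0 ≤ ε * r / (2 * (|C| + 1)) := (mem_ball.1 hw.1).le.trans (min_le_right _ _)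
    have h3 : 2 * C / r ≤ 2 * (|C| + 1) / r := by
      gcongr
      exact (le_abs_self C).trans (by linarith)
    calc 2 * C / r * dist w 0 ≤ 2 * (|C| + 1) / r * (ε * r / (2 * (|C| + 1))) := by
          gcongr
      _ = ε := by field_simp)
  refine ⟨σ, g, hσ, ?_, hg⟩
  refine limit_U hU (l := atTop) ?_ hg
  intro x
  obtain ⟨V, hV, C, h⟩ := h x
  exact ⟨V, hV, (hσ.tendsto_atTop.eventually h).mono fun j hj y hy => (hj y hy).1⟩

end Montel

end Crest.Agent.R264.CN
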