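import Crest.Agent.R264.CN3
import Crest.Agent.R264.CPDefs
import Crest.Agent.R264.TopSetup

/-!
Row 264, module CN (helper190), part 4: scaling, C0 + C1 + C2 (`PropC2`).
-/

set_option autoImplicit false

open Topology Filter Set Metric

namespace Crest.Agent.R264.CN

open Crest.Agent.R264 Crest.AlgGeometry.Semialg

/-- Real linearly independent vectors `ν_1..ν_k` of `ℝ^k` control `ℂ^k`. -/
theorem exists_nu_bound {k : ℕ} {ν : Fin k → Fin k → ℝ} (hν : LinearIndependent ℝ ν) :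
    ∃ C : ℝ, 0 ≤ C ∧ ∀ w : Fin k → ℂ, ∀ B : ℝ, 0 ≤ B →
      (∀ i, ‖∑ j, (ν i j : ℂ) * w j‖ ≤ B) → ‖w‖ ≤ C * B := by
  classical
  set A : Matrix (Fin k) (Fin k) ℝ := Matrix.of ν with hA
  have hAu : IsUnit A := by
    have h1 : LinearIndependent ℝ A.row := hν
    exact Matrix.linearIndependent_rows_iff_isUnit.1 h1
  obtain ⟨u, hu⟩ := hAu
  set Bm : Matrix (Fin k) (Fin k) ℝ := ((u⁻¹ : (Matrix (Fin k) (Fin k) ℝ)ˣ) : Matrix (Fin k) (Fin k) ℝ) with hBm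
  have hBA : Bm * A = 1 := by rw [← hu, hBm]; exact u.inv_mul
  refine ⟨∑ i, ∑ j, |Bm i j|, by positivity, ?_⟩
  intro w B hB h
  rw [pi_norm_le_iff_of_nonneg (by positivity)]
  intro i
  have h2 : w i = ∑ j, (Bm i j : ℂ) * ∑ l, (ν j l : ℂ) * w l := by
    have h3 : ∀ l, ∑ j, (Bm i j) * (ν j l) = if i = l then 1 else 0 := by
      intro l
      have := congrFun (congrFun hBA i) l
      rw [Matrix.mul_apply, Matrix.one_apply] at this
      exact this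
    calc w i = ∑ l, (if i = l then (1 : ℂ) else 0) * w l := by simp
      _ = ∑ l, ((∑ j, (Bm i j) * (ν j l) : ℝ) : ℂ) * w l := by
          refine Finset.sum_congr rfl fun l _ => ?_
          rw [h3 l]
          split_ifs <;> simp
      _ = ∑ l, ∑ j, (Bm i j : ℂ) * ((ν j l : ℂ) * w l) := by
          refine Finset.sum_congr rfl fun l _ => ?_
          rw [Complex.ofReal_sum, Finset.sum_mul]
          refine Finset.sum_congr rfl fun j _ => ?_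
          push_cast
          ring
      _ = ∑ j, ∑ l, (Bm i j : ℂ) * ((ν j l : ℂ) * w l) := Finset.sum_comm
      _ = _ := by
          refine Finset.sum_congr rfl fun j _ => ?_
          rw [Finset.mul_sum]
  rw [h2]
  calc ‖∑ j, (Bm i j : ℂ) * ∑ l, (ν j l : ℂ) * w l‖
      ≤ ∑ j, ‖(Bm i j : ℂ) * ∑ l, (ν j l : ℂ) * w l‖ := norm_sum_le _ _
    _ ≤ ∑ j, |Bm i j| * B := by
        refine Finset.sum_le_sum fun j _ => ?_
        rw [norm_mul, Complex.norm_real, Real.norm_eq_abs]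
        exact mul_le_mul_of_nonneg_left (h j) (abs_nonneg _)
    _ = (∑ j, |Bm i j|) * B := by rw [Finset.sum_mul]
    _ ≤ (∑ i, ∑ j, |Bm i j|) * B := by
        refine mul_le_mul_of_nonneg_right ?_ hB
        exact Finset.single_le_sum (f := fun i => ∑ j, |Bm i j|)
          (fun i _ => Finset.sum_nonneg fun j _ => abs_nonneg _) (Finset.mem_univ i)

section

variable {N n : ℕ} {U : Set (Fin N → ℂ)} {Γ : Subgroup (Equiv.Perm U)}

/-- strict peak: if `M - Re h` is small then the point is near `p0`. -/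
theorem peak_near (hb : Bornology.IsBounded U) (P : PeakData U n) (i : Fin P.k)
    {O : Set (Fin N → ℂ)} (hO : IsOpen O) (hp : P.p0 ∈ O) :
    ∃ δ > 0, ∀ y ∈ U, P.M i - (P.h i y).re < δ → y ∈ O := by
  have hK : IsCompact (closure U \ O) := (hb.isCompact_closure).diff hO
  by_cases hne : (closure U \ O).Nonempty
  · have hcont : ContinuousOn (fun y => P.M i - (P.h i y).re) (closure U \ O) := by
      refine Continuous.continuousOn ?_
      exact continuous_const.sub (Complex.continuous_re.comp (P.hh i).continuous)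
    obtain ⟨y0, hy0, hmin⟩ := hK.exists_isMinOn hne hcont
    refine ⟨P.M i - (P.h i y0).re, ?_, ?_⟩
    · have : y0 ≠ P.p0 := by
        rintro rfl
        exact hy0.2 hp
      have := P.h_lt i y0 hy0.1 this
      linarith
    · intro y hy hlt
      by_contra hyO
      have := hmin ⟨subset_closure hy, hyO⟩
      simp only [mem_ofPred_eq] at this
      linarith
  · refine ⟨1, one_pos, fun y hy _ => ?_⟩
    by_contra hyO
    exact hne ⟨y, subset_closure hy, hyO⟩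


/-- the box point at scale `t` -/
noncomputable def Yp (P : PeakData U n) (t : ℝ) : EE P.m P.k :=
  (0, (Complex.I * (t : ℂ)) • cvec (P.e t))

theorem norm_cvec {k : ℕ} (v : Fin k → ℝ) : ‖cvec v‖ ≤ ‖v‖ := by
  rw [pi_norm_le_iff_of_nonneg (norm_nonneg _)]
  intro i
  simp only [cvec, Complex.norm_real]
  exact norm_le_pi_norm v i

theorem Cp_nonneg (P : PeakData U n) : 0 ≤ P.Cp :=
  (norm_nonneg _).trans (P.e_le (P.ts / 2) (by linarith [P.hts]) (by linarith [P.hts]))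

theorem norm_Yp (P : PeakData U n) {t : ℝ} (h0 : 0 < t) (h1 : t < P.ts) :
    ‖(Yp P t).2‖ ≤ P.Cp * t := by
  simp only [Yp]
  rw [norm_smul, norm_mul, Complex.norm_I, one_mul, Complex.norm_real, Real.norm_eq_abs,
    abs_of_pos h0, mul_comm]
  exact mul_le_mul_of_nonneg_right ((norm_cvec _).trans (P.e_le t h0 h1)) h0.le

theorem Yp_mem (P : PeakData U n) {t : ℝ} (h0 : 0 < t) (h1 : t < P.ts) : Yp P t ∈ P.UU := by
  refine P.box t h0 h1 _ ?_ ?_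
  · simp only [Yp, norm_zero]
    exact mul_pos P.hc (Real.sqrt_pos.2 h0)
  · simp only [Yp, sub_self, norm_zero]
    exact mul_pos P.hc h0

theorem norm_lin {k : ℕ} (ν : Fin k → ℝ) (w : Fin k → ℂ) :
    ‖∑ j, (ν j : ℂ) * w j‖ ≤ (∑ j, |ν j|) * ‖w‖ := by
  refine (norm_sum_le _ _).trans ?_
  rw [Finset.sum_mul]
  refine Finset.sum_le_sum fun j _ => ?_
  rw [norm_mul, Complex.norm_real, Real.norm_eq_abs]
  exact mul_le_mul_of_nonneg_left (norm_le_pi_norm w j) (abs_nonneg _)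

/-- the peak functions at the box points -/
theorem tau_Yp (P : PeakData U n) (i : Fin P.k) :
    ∃ C : ℝ, 0 ≤ C ∧ ∀ t, 0 < t → t < P.ts →
      ‖(P.M i : ℂ) - P.h i (P.χ (Yp P t))‖ ≤ C * t := by
  have hCp := Cp_nonneg P
  refine ⟨(∑ j, |P.ν i j|) * P.Cp + P.Cp * P.Cp ^ 2 * P.ts, ?_, ?_⟩
  · have := P.hts
    positivity
  intro t h0 h1
  have hY := norm_Yp P h0 h1
  have hex := P.expand i _ (Yp_mem P h0 h1)
  have h10 : ‖(Yp P t).1‖ = 0 := by simp [Yp]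
  have h11 : (Yp P t).1 = 0 := rfl
  have htau : ‖tauF (P.ν i) (P.Q i) (Yp P t)‖ ≤ (∑ j, |P.ν i j|) * (P.Cp * t) := by
    unfold tauF
    rw [h11, map_zero, add_zero, norm_mul, norm_neg, Complex.norm_I, one_mul]
    refine (norm_lin _ _).trans ?_
    gcongr
  rw [h10] at hex
  have h2 : ‖(P.M i : ℂ) - P.h i (P.χ (Yp P t))‖ ≤
      ‖(P.M i : ℂ) - P.h i (P.χ (Yp P t)) - tauF (P.ν i) (P.Q i) (Yp P t)‖ +
        ‖tauF (P.ν i) (P.Q i) (Yp P t)‖ := by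
    have := norm_add_le ((P.M i : ℂ) - P.h i (P.χ (Yp P t)) - tauF (P.ν i) (P.Q i) (Yp P t))
      (tauF (P.ν i) (P.Q i) (Yp P t))
    rwa [sub_add_cancel] at this
  have h3 : ‖(Yp P t).2‖ ^ 2 ≤ P.Cp ^ 2 * P.ts * t := by
    calc ‖(Yp P t).2‖ ^ 2 ≤ (P.Cp * t) ^ 2 := by gcongr
      _ = P.Cp ^ 2 * t * t := by ring
      _ ≤ P.Cp ^ 2 * P.ts * t := by gcongr
  have h4 : P.Cp * ((0 : ℝ) ^ 3 + 0 * ‖(Yp P t).2‖ + ‖(Yp P t).2‖ ^ 2) ≤
      P.Cp * (P.Cp ^ 2 * P.ts * t) := by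
    refine mul_le_mul_of_nonneg_left ?_ hCp
    have : (0 : ℝ) ^ 3 + 0 * ‖(Yp P t).2‖ + ‖(Yp P t).2‖ ^ 2 = ‖(Yp P t).2‖ ^ 2 := by ring
    rw [this]
    exact h3
  nlinarith

theorem pos_tau (S : Setup N U Γ) (P : PeakData U n) (i : Fin P.k) {φ : Equiv.Perm U}
    (hφ : φ ∈ Γ) : Pos U (fun z => (P.M i : ℂ) - P.h i (φ z : U)) := by
  have h1 : HolU U (fun z : U => ((φ z : U) : Fin N → ℂ)) := S.hol φ hφ
  refine ⟨h1.comp (k := fun y => (P.M i : ℂ) - P.h i y) ?_, ?_⟩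
  · exact (P.hh i).const_sub _
  · intro z
    rw [Complex.sub_re, Complex.ofReal_re]
    by_cases h : ((φ z : U) : Fin N → ℂ) = P.p0
    · rw [h, P.h_p0 i, Complex.ofReal_re, sub_self]
    · have := P.h_lt i _ (subset_closure (φ z).2) h
      linarith

/-- scale-`ε` data -/
structure Sc (P : PeakData U n) (φ : Equiv.Perm U) (x : U) (ε : ℝ) : Prop where
  ε_pos : 0 < ε
  ε_lt : ε ^ 2 < P.ts
  mem : ((φ x : U) : Fin N → ℂ) ∈ P.O
  eq : P.κ (φ x : U) = Yp P (ε ^ 2)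

theorem tau_small (S : Setup N U Γ) (hU : IsSubmfd n U) (P : PeakData U n) {K0 K : Set U}
    (hK0 : IsCompact K0) (hK : IsCompact K) (i : Fin P.k) :
    ∃ C : ℝ, 0 ≤ C ∧ ∀ φ ∈ Γ, ∀ x ∈ K0, ∀ ε, Sc P φ x ε → ∀ z ∈ K,
      ‖(P.M i : ℂ) - P.h i (φ z : U)‖ ≤ C * ε ^ 2 := by
  obtain ⟨CH, hCH, hH⟩ := harnack hU S.conn.isPreconnected hK0 hK
  obtain ⟨C1, hC1, h1⟩ := tau_Yp P i
  refine ⟨CH * C1, by positivity, ?_⟩
  intro φ hφ x hx ε hs z hz
  have h2 := hH _ (pos_tau S P i hφ) x hx z hz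
  have h3 : P.χ (Yp P (ε ^ 2)) = (φ x : U) := by
    rw [← hs.eq, P.χ_κ _ (φ x).2 hs.mem]
  have h4 := h1 (ε ^ 2) (by have := hs.ε_pos; positivity) hs.ε_lt
  rw [h3] at h4
  calc _ ≤ CH * ‖(P.M i : ℂ) - P.h i (φ x : U)‖ := h2
    _ ≤ CH * (C1 * ε ^ 2) := by gcongr
    _ = CH * C1 * ε ^ 2 := by ring

theorem tau_small_all (S : Setup N U Γ) (hU : IsSubmfd n U) (P : PeakData U n) {K0 K : Set U}
    (hK0 : IsCompact K0) (hK : IsCompact K) :
    ∃ C : ℝ, 0 ≤ C ∧ ∀ i, ∀ φ ∈ Γ, ∀ x ∈ K0, ∀ ε, Sc P φ x ε → ∀ z ∈ K,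
      ‖(P.M i : ℂ) - P.h i (φ z : U)‖ ≤ C * ε ^ 2 := by
  choose C hC h using fun i => tau_small S hU P hK0 hK i
  refine ⟨∑ i, C i, Finset.sum_nonneg fun i _ => hC i, ?_⟩
  intro i φ hφ x hx ε hs z hz
  refine (h i φ hφ x hx ε hs z hz).trans ?_
  refine mul_le_mul_of_nonneg_right ?_ (by positivity)
  exact Finset.single_le_sum (f := C) (fun i _ => hC i) (Finset.mem_univ i)

/-- **localisation**: uniform on compact sets -/
theorem loc (S : Setup N U Γ) (hU : IsSubmfd n U) (P : PeakData U n) {K0 K : Set U}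
    (hK0 : IsCompact K0) (hK : IsCompact K) {O : Set (Fin N → ℂ)} (hO : IsOpen O)
    (hp : P.p0 ∈ O) :
    ∃ ε0 > 0, ∀ φ ∈ Γ, ∀ x ∈ K0, ∀ ε, Sc P φ x ε → ε < ε0 → ∀ z ∈ K,
      ((φ z : U) : Fin N → ℂ) ∈ O := by
  obtain ⟨C, hC, h⟩ := tau_small_all S hU P hK0 hK
  let i : Fin P.k := ⟨0, P.hk⟩
  obtain ⟨δ, hδ, hn⟩ := peak_near S.bdd P i hO hp
  refine ⟨min 1 (δ / (C + 1)), lt_min one_pos (by positivity), ?_⟩
  intro φ hφ x hx ε hs hε z hz
  refine hn _ (φ z).2 ?_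
  have h1 := h i φ hφ x hx ε hs z hz
  have h2 := Complex.re_le_norm ((P.M i : ℂ) - P.h i (φ z : U))
  rw [Complex.sub_re, Complex.ofReal_re] at h2
  have h3 : ε < 1 := hε.trans_le (min_le_left _ _)
  have h4 : ε < δ / (C + 1) := hε.trans_le (min_le_right _ _)
  rw [lt_div_iff₀ (by positivity)] at h4
  have h5 := hs.ε_pos
  calc P.M i - (P.h i (φ z : U)).re ≤ C * ε ^ 2 := h2.trans h1
    _ ≤ C * ε := by
        refine mul_le_mul_of_nonneg_left ?_ hC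
        nlinarith
    _ < δ := by nlinarith

/-- **normality**: the scaled maps are bounded on compact sets -/
theorem scaled_bound (S : Setup N U Γ) (hU : IsSubmfd n U) (P : PeakData U n) {K0 K : Set U}
    (hK0 : IsCompact K0) (hK : IsCompact K) :
    ∃ C : ℝ, ∀ φ ∈ Γ, ∀ x ∈ K0, ∀ ε, Sc P φ x ε → ∀ z ∈ K,
      ((φ z : U) : Fin N → ℂ) ∈ P.O → ‖Dil ε⁻¹ (P.κ (φ z : U))‖ ≤ C := by
  obtain ⟨C1, hC1, h⟩ := tau_small_all S hU P hK0 hK
  obtain ⟨Cν, hCν, hν⟩ := exists_nu_bound P.hν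
  have hCp := Cp_nonneg P
  have hts := P.hts
  set A : ℝ := P.Cp * C1 with hA
  have hA0 : 0 ≤ A := by positivity
  set B : ℝ := C1 + P.Cp * (A * (3 + A * P.ts)) + (∑ i, ‖P.Q i‖) * A with hB
  have hB0 : 0 ≤ B := by positivity
  refine ⟨1 + A + Cν * B, ?_⟩
  intro φ hφ x hx ε hs z hz hzO
  have hε := hs.ε_pos
  set y := P.κ (φ z : U) with hy
  have hyU : y ∈ P.UU := P.κ_mem _ (φ z).2 hzO
  have hχ : P.χ y = (φ z : U) := P.χ_κ _ (φ z).2 hzO
  set t := ε ^ 2 with ht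
  have ht0 : 0 < t := by positivity
  have i0 : Fin P.k := ⟨0, P.hk⟩
  have hctrl : ‖y.1‖ ^ 2 + ‖y.2‖ ^ 2 ≤ A * t := by
    have h1 := P.ctrl i0 y hyU
    rw [hχ] at h1
    have h2 := Complex.re_le_norm ((P.M i0 : ℂ) - P.h i0 (φ z : U))
    rw [Complex.sub_re, Complex.ofReal_re] at h2
    have h3 := h i0 φ hφ x hx ε hs z hz
    calc _ ≤ P.Cp * (P.M i0 - (P.h i0 (φ z : U)).re) := h1
      _ ≤ P.Cp * (C1 * t) := by gcongr; exact h2.trans h3
      _ = A * t := by rw [hA]; ring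
  have hy1 : ‖y.1‖ ^ 2 ≤ A * t := by nlinarith [sq_nonneg ‖y.2‖]
  have hy2 : ‖y.2‖ ^ 2 ≤ A * t := by nlinarith [sq_nonneg ‖y.1‖]
  have hy12 : ‖y.1‖ * ‖y.2‖ ≤ A * t := by nlinarith [sq_nonneg (‖y.1‖ - ‖y.2‖)]
  have hAt : A * t ≤ A * P.ts := by
    have := hs.ε_lt
    gcongr
  have hy1' : ‖y.1‖ ≤ 1 + A * P.ts := by nlinarith [sq_nonneg (‖y.1‖ - 1), norm_nonneg y.1]
  have hy13 : ‖y.1‖ ^ 3 ≤ A * t * (1 + A * P.ts) := by
    calc ‖y.1‖ ^ 3 = ‖y.1‖ ^ 2 * ‖y.1‖ := by ring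
      _ ≤ A * t * (1 + A * P.ts) := by gcongr
  have herr : P.Cp * (‖y.1‖ ^ 3 + ‖y.1‖ * ‖y.2‖ + ‖y.2‖ ^ 2) ≤ P.Cp * (A * (3 + A * P.ts)) * t := by
    have h5 : ‖y.1‖ ^ 3 + ‖y.1‖ * ‖y.2‖ + ‖y.2‖ ^ 2 ≤ A * (3 + A * P.ts) * t := by nlinarith
    calc _ ≤ P.Cp * (A * (3 + A * P.ts) * t) := by gcongr
      _ = _ := by ring
  have hlin : ∀ i, ‖∑ j, (P.ν i j : ℂ) * y.2 j‖ ≤ B * t := by
    intro i
    have h1 := P.expand i y hyU
    rw [hχ] at h1
    have h3 := h i φ hφ x hx ε hs z hz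
    have h4 : -Complex.I * ∑ j, (P.ν i j : ℂ) * y.2 j =
        ((P.M i : ℂ) - P.h i (φ z : U)) -
          ((P.M i : ℂ) - P.h i (φ z : U) - tauF (P.ν i) (P.Q i) y) - P.Q i y.1 y.1 := by
      simp only [tauF]
      ring
    have h5 : ‖P.Q i y.1 y.1‖ ≤ (∑ i, ‖P.Q i‖) * A * t := by
      calc ‖P.Q i y.1 y.1‖ ≤ ‖P.Q i y.1‖ * ‖y.1‖ := ContinuousLinearMap.le_opNorm _ _
        _ ≤ ‖P.Q i‖ * ‖y.1‖ * ‖y.1‖ := by
            gcongr
            exact ContinuousLinearMap.le_opNorm _ _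
        _ = ‖P.Q i‖ * ‖y.1‖ ^ 2 := by ring
        _ ≤ (∑ i, ‖P.Q i‖) * (A * t) := by
            gcongr
            exact Finset.single_le_sum (f := fun i => ‖P.Q i‖)
              (fun i _ => ContinuousLinearMap.opNorm_nonneg _) (Finset.mem_univ i)
        _ = _ := by ring
    have h6 : ‖∑ j, (P.ν i j : ℂ) * y.2 j‖ = ‖-Complex.I * ∑ j, (P.ν i j : ℂ) * y.2 j‖ := by
      rw [norm_mul, norm_neg, Complex.norm_I, one_mul]
    rw [h6, h4]
    refine (norm_sub_le _ _).trans ?_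
    have h7 := norm_sub_le ((P.M i : ℂ) - P.h i (φ z : U))
      ((P.M i : ℂ) - P.h i (φ z : U) - tauF (P.ν i) (P.Q i) y)
    have h8 : B * t = C1 * t + P.Cp * (A * (3 + A * P.ts)) * t + (∑ i, ‖P.Q i‖) * A * t := by
      rw [hB]; ring
    rw [h8]
    linarith
  have hy2' : ‖y.2‖ ≤ Cν * (B * t) := hν _ _ (by positivity) hlin
  have h1 : ‖(Dil ε⁻¹ y).1‖ ≤ 1 + A := by
    simp only [Dil]
    rw [norm_smul, Complex.norm_real, Real.norm_eq_abs, abs_of_pos (by positivity)]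
    have h9 : (ε⁻¹ * ‖y.1‖) ^ 2 ≤ A := by
      rw [mul_pow, inv_pow, inv_mul_le_iff₀ (by positivity)]
      linarith
    nlinarith [sq_nonneg (ε⁻¹ * ‖y.1‖ - 1)]
  have h2 : ‖(Dil ε⁻¹ y).2‖ ≤ Cν * B := by
    simp only [Dil]
    rw [norm_smul, norm_pow, Complex.norm_real, Real.norm_eq_abs, abs_of_pos (by positivity),
      inv_pow, inv_mul_le_iff₀ (by positivity)]
    linarith
  rw [Prod.norm_def]
  refine max_le ?_ ?_
  · have : 0 ≤ Cν * B := by positivity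
    linarith
  · linarith

end

end Crest.Agent.R264.CN
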