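import Crest.Agent.R264.CN4

/-!
Row 264, module CN (helper190), part 5: `PropC2`.
-/

set_option autoImplicit false

open Topology Filter Set Metric

namespace Crest.Agent.R264.CN

open Crest.Agent.R264 Crest.AlgGeometry.Semialg

variable {N n : ℕ} {U : Set (Fin N → ℂ)} {Γ : Subgroup (Equiv.Perm U)}

theorem differentiable_Dil {m k : ℕ} (ε : ℝ) : Differentiable ℂ (Dil (m := m) (k := k) ε) := by
  unfold Dil
  exact (differentiable_fst.const_smul (ε : ℂ)).prodMk (differentiable_snd.const_smul ((ε : ℂ) ^ 2))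

/-- C0 + C1 + C2 -/
theorem propC2 : PropC2 := by
  intro N U Γ S n hn hU P
  have hLC := S.locallyCompact
  obtain ⟨K0, hK0, hcov⟩ := S.exists_compact
  -- the scales
  have hts := P.hts
  set s0 : ℝ := Real.sqrt (P.ts / 2) with hs0
  have hs0p : 0 < s0 := Real.sqrt_pos.2 (by linarith)
  have hs02 : s0 ^ 2 = P.ts / 2 := Real.sq_sqrt (by linarith)
  let ε : ℕ → ℝ := fun j => s0 / ((j : ℝ) + 1)
  have hεpos : ∀ j, 0 < ε j := fun j => by
    simp only [ε]; positivity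
  have hεlt : ∀ j, ε j ^ 2 < P.ts := by
    intro j
    have h1 : ε j ≤ s0 := by
      simp only [ε]
      rw [div_le_iff₀ (by positivity)]
      nlinarith [Nat.cast_nonneg (α := ℝ) j]
    have h2 : ε j ^ 2 ≤ s0 ^ 2 := by
      have := hεpos j
      gcongr
    linarith
  have hεlim : Tendsto ε atTop (𝓝 0) := by
    have h1 := (tendsto_one_div_add_atTop_nhds_zero_nat (𝕜 := ℝ)).const_mul s0
    rw [mul_zero] at h1
    refine h1.congr fun j => ?_
    simp only [ε]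
    ring
  -- the points
  have hy : ∀ j, ∃ φ ∈ Γ, ∃ x ∈ K0, Sc P φ x (ε j) := by
    intro j
    have h1 : 0 < ε j ^ 2 := by have := hεpos j; positivity
    have h2 := Yp_mem P h1 (hεlt j)
    obtain ⟨h3, h4⟩ := P.χ_mem _ h2
    obtain ⟨γ, hγ, k, hk, hkγ⟩ := hcov ⟨P.χ (Yp P (ε j ^ 2)), h3⟩
    refine ⟨γ, hγ, k, hk, hεpos j, hεlt j, ?_, ?_⟩
    · rw [hkγ]; exact h4
    · rw [hkγ]; exact P.κ_χ _ h2
  choose φ hφ x hx hsc using hy
  obtain ⟨xs, hxs, σ1, hσ1, hlim1⟩ := hK0.tendsto_subseq hx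
  -- the scaled maps
  let F : ℕ → U → EE P.m P.k := fun j z => Dil (ε (σ1 j))⁻¹ (P.κ (φ (σ1 j) z : U))
  have hε1 : Tendsto (fun j => ε (σ1 j)) atTop (𝓝 0) := hεlim.comp hσ1.tendsto_atTop
  have hloc : ∀ K : Set U, IsCompact K → ∀ᶠ j in atTop, ∀ z ∈ K,
      ((φ (σ1 j) z : U) : Fin N → ℂ) ∈ P.O := by
    intro K hK
    obtain ⟨ε0, hε0, h⟩ := loc S hU P hK0 hK P.hO P.hpO
    filter_upwards [hε1.eventually (gt_mem_nhds hε0)] with j hj z hz
    exact h _ (hφ _) _ (hx _) _ (hsc _) hj z hz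
  obtain ⟨σ2, Φ, hσ2, hΦ, hlim2⟩ := montel_U hU F (by
    intro z
    obtain ⟨V, hVc, hV⟩ := exists_compact_mem_nhds z
    obtain ⟨C, hC⟩ := scaled_bound S hU P hK0 hVc
    refine ⟨V, hV, C, ?_⟩
    filter_upwards [hloc V hVc] with j hj y hy
    refine ⟨?_, hC _ (hφ _) _ (hx _) _ (hsc _) y hy (hj y hy)⟩
    have h1 : HolAt U (fun z : U => ((φ (σ1 j) z : U) : Fin N → ℂ)) y := S.hol _ (hφ _) y
    have h2 : HolAt U (fun z : U => P.κ (φ (σ1 j) z : U)) y := h1.comp P.hO P.hκ (hj y hy)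
    exact h2.comp isOpen_univ (differentiable_Dil _).differentiableOn (mem_univ _))
  refine ⟨{ φ := fun j => φ (σ1 (σ2 j)), hφ := fun j => hφ _, x := fun j => x (σ1 (σ2 j)),
            xs := xs, hx := hlim1.comp hσ2.tendsto_atTop, ε := fun j => ε (σ1 (σ2 j)),
            ε_pos := fun j => hεpos _, ε_lt := fun j => hεlt _,
            ε_lim := hε1.comp hσ2.tendsto_atTop, φx_mem := fun j => (hsc _).mem,
            κφx := fun j => (hsc _).eq,
            ev_mem := fun K hK => hσ2.tendsto_atTop.eventually (hloc K hK),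
            Φ := Φ, hΦ := hΦ, lim := hlim2 }⟩

end Crest.Agent.R264.CN
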