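import Crest.Agent.R264.CPFlow

/-!
Row 264 (S0402), Part C, module C6 (helper484): the bounded model and the assembly of Part C.
-/

set_option autoImplicit false

open Topology Filter Set

namespace Crest.Agent.R264.CP

open Crest.Agent.R264

section Est

variable {N : ℕ} {U : Set (Fin N → ℂ)} {n : ℕ} {Γ : Subgroup (Equiv.Perm U)} (P : PeakData U n)

lemma Cp_nonneg : 0 ≤ P.Cp :=
  (norm_nonneg _).trans (P.e_le (P.ts / 2) (by linarith [P.hts]) (by linarith [P.hts]))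

lemma tauF_Dil {m k : ℕ} (ν : Fin k → ℝ) (Q : (Fin m → ℂ) →L[ℂ] (Fin m → ℂ) →L[ℂ] ℂ) (ε : ℝ)
    (y : EE m k) : tauF ν Q (Dil ε y) = (ε : ℂ) ^ 2 * tauF ν Q y := by
  unfold tauF Dil
  simp only [Pi.smul_apply, smul_eq_mul, map_smul, smul_apply]
  have : ∀ j, (ν j : ℂ) * ((ε : ℂ) ^ 2 * y.2 j) = (ε : ℂ) ^ 2 * ((ν j : ℂ) * y.2 j) := by
    intro j; ring
  simp only [this, ← Finset.mul_sum]
  ring

lemma continuous_tauF {m k : ℕ} (ν : Fin k → ℝ) (Q : (Fin m → ℂ) →L[ℂ] (Fin m → ℂ) →L[ℂ] ℂ) :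
    Continuous (tauF ν Q) := by
  unfold tauF
  have h1 : Continuous fun y : EE m k => Q y.1 y.1 :=
    (Q.continuous.comp continuous_fst).clm_apply continuous_fst
  have h2 : Continuous fun y : EE m k => ∑ j, (ν j : ℂ) * y.2 j :=
    continuous_finsetSum _ fun j _ =>
      continuous_const.mul ((continuous_apply j).comp continuous_snd)
  exact (continuous_const.mul h2).add h1

lemma differentiable_tauF {m k : ℕ} (ν : Fin k → ℝ)
    (Q : (Fin m → ℂ) →L[ℂ] (Fin m → ℂ) →L[ℂ] ℂ) : Differentiable ℂ (tauF ν Q) := by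
  unfold tauF
  have h1 : Differentiable ℂ fun y : EE m k => Q y.1 y.1 :=
    (Q.differentiable.comp differentiable_fst).clm_apply differentiable_fst
  have h2 : Differentiable ℂ fun y : EE m k => ∑ j, (ν j : ℂ) * y.2 j := by
    refine Differentiable.fun_sum fun j _ => ?_
    fun_prop
  exact ((differentiable_const _).mul h2).add h1

lemma Dil_Dil {m k : ℕ} {ε : ℝ} (hε : ε ≠ 0) (y : EE m k) : Dil ε (Dil ε⁻¹ y) = y := by
  have h : (ε : ℂ) ≠ 0 := by exact_mod_cast hε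
  unfold Dil
  refine Prod.ext ?_ ?_
  · simp only [smul_smul]
    rw [show (ε : ℂ) * ((ε⁻¹ : ℝ) : ℂ) = 1 by push_cast; exact mul_inv_cancel₀ h, one_smul]
  · simp only [smul_smul]
    rw [show (ε : ℂ) ^ 2 * (((ε⁻¹ : ℝ) : ℂ)) ^ 2 = 1 by
      push_cast; rw [← mul_pow, mul_inv_cancel₀ h, one_pow], one_smul]

lemma h_le (i : Fin P.k) {x : Fin N → ℂ} (hx : x ∈ closure U) : (P.h i x).re ≤ P.M i := by
  by_cases h : x = P.p0
  · rw [h, P.h_p0]; simp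
  · exact (P.h_lt i x hx h).le

/-- the two inequalities in rescaled form at a point `Dil ε v ∈ UU` -/
lemma rescaled {ε : ℝ} (hε : 0 < ε) {v : EE P.m P.k} (hv : Dil ε v ∈ P.UU) (i : Fin P.k) :
    -(P.Cp * (ε * ‖v.1‖ ^ 3 + ε * ‖v.1‖ * ‖v.2‖ + ε ^ 2 * ‖v.2‖ ^ 2))
        ≤ (tauF (P.ν i) (P.Q i) v).re ∧
    ‖v.1‖ ^ 2 ≤ P.Cp * ((tauF (P.ν i) (P.Q i) v).re
        + P.Cp * (ε * ‖v.1‖ ^ 3 + ε * ‖v.1‖ * ‖v.2‖ + ε ^ 2 * ‖v.2‖ ^ 2)) := by
  have hC := Cp_nonneg P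
  have hn1 : ‖(Dil ε v).1‖ = ε * ‖v.1‖ := by
    simp [Dil, norm_smul, abs_of_pos hε]
  have hn2 : ‖(Dil ε v).2‖ = ε ^ 2 * ‖v.2‖ := by
    simp [Dil, norm_smul, abs_of_pos hε]
  have hχ := P.χ_mem _ hv
  have hle : 0 ≤ P.M i - (P.h i (P.χ (Dil ε v))).re := by
    have := h_le P i (subset_closure hχ.1)
    linarith
  have h1 := P.expand i _ hv
  rw [tauF_Dil, hn1, hn2] at h1
  have h2 := P.ctrl i _ hv
  rw [hn1, hn2] at h2
  have h3 : |(P.M i - (P.h i (P.χ (Dil ε v))).re) - ε ^ 2 * (tauF (P.ν i) (P.Q i) v).re|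
      ≤ P.Cp * ((ε * ‖v.1‖) ^ 3 + (ε * ‖v.1‖) * (ε ^ 2 * ‖v.2‖) + (ε ^ 2 * ‖v.2‖) ^ 2) := by
    refine le_trans ?_ h1
    refine le_trans (le_of_eq ?_) (Complex.abs_re_le_norm _)
    congr 1
    have : ((ε : ℂ) ^ 2 * tauF (P.ν i) (P.Q i) v).re = ε ^ 2 * (tauF (P.ν i) (P.Q i) v).re := by
      rw [show ((ε : ℂ) ^ 2) = ((ε ^ 2 : ℝ) : ℂ) by push_cast; rfl, Complex.re_ofReal_mul]
    rw [Complex.sub_re, Complex.sub_re, this, Complex.ofReal_re]
  have hR : P.Cp * ((ε * ‖v.1‖) ^ 3 + (ε * ‖v.1‖) * (ε ^ 2 * ‖v.2‖) + (ε ^ 2 * ‖v.2‖) ^ 2)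
      = ε ^ 2 * (P.Cp * (ε * ‖v.1‖ ^ 3 + ε * ‖v.1‖ * ‖v.2‖ + ε ^ 2 * ‖v.2‖ ^ 2)) := by ring
  rw [hR] at h3
  obtain ⟨h4, h5⟩ := abs_le.mp h3
  have hε2 : 0 < ε ^ 2 := by positivity
  constructor
  · by_contra hcon
    push Not at hcon
    nlinarith
  · have h6 : (ε * ‖v.1‖) ^ 2 ≤ P.Cp * (P.M i - (P.h i (P.χ (Dil ε v))).re) := by
      refine le_trans ?_ h2
      have : 0 ≤ (ε ^ 2 * ‖v.2‖) ^ 2 := by positivity
      linarith
    have h7 : P.Cp * (P.M i - (P.h i (P.χ (Dil ε v))).re) ≤ P.Cp * (ε ^ 2 *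
        ((tauF (P.ν i) (P.Q i) v).re + P.Cp * (ε * ‖v.1‖ ^ 3 + ε * ‖v.1‖ * ‖v.2‖
          + ε ^ 2 * ‖v.2‖ ^ 2))) := by
      refine mul_le_mul_of_nonneg_left ?_ hC
      nlinarith
    have h8 : ε ^ 2 * ‖v.1‖ ^ 2 ≤ ε ^ 2 * (P.Cp * ((tauF (P.ν i) (P.Q i) v).re
        + P.Cp * (ε * ‖v.1‖ ^ 3 + ε * ‖v.1‖ * ‖v.2‖ + ε ^ 2 * ‖v.2‖ ^ 2))) := by
      calc ε ^ 2 * ‖v.1‖ ^ 2 = (ε * ‖v.1‖) ^ 2 := by ring
        _ ≤ _ := h6
        _ ≤ _ := h7
        _ = _ := by ring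
    exact le_of_mul_le_mul_left h8 hε2

/-- the limit inequalities on `Om = Φ(U)` -/
lemma limit_ineq (S : ScaleSeq Γ P) (y : U) (i : Fin P.k) :
    0 ≤ (tauF (P.ν i) (P.Q i) (S.Φ y)).re ∧
    ‖(S.Φ y).1‖ ^ 2 ≤ P.Cp * (tauF (P.ν i) (P.Q i) (S.Φ y)).re := by
  set v : ℕ → EE P.m P.k := fun j => Dil (S.ε j)⁻¹ (P.κ (S.φ j y : U)) with hv
  have hlim : Tendsto v atTop (𝓝 (S.Φ y)) :=
    (tendstoLocallyUniformlyOn_univ.mpr S.lim).tendsto_at (mem_univ y)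
  have hmem : ∀ᶠ j in atTop, Dil (S.ε j) (v j) ∈ P.UU := by
    filter_upwards [S.ev_mem {y} isCompact_singleton] with j hj
    have := hj y (mem_singleton _)
    rw [hv]
    simp only
    rw [Dil_Dil (S.ε_pos j).ne']
    exact P.κ_mem _ (S.φ j y).2 this
  have h1 : Tendsto (fun j => ‖(v j).1‖) atTop (𝓝 ‖(S.Φ y).1‖) :=
    ((continuous_fst.norm).tendsto _).comp hlim
  have h2 : Tendsto (fun j => ‖(v j).2‖) atTop (𝓝 ‖(S.Φ y).2‖) :=
    ((continuous_snd.norm).tendsto _).comp hlim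
  have hτ : Tendsto (fun j => (tauF (P.ν i) (P.Q i) (v j)).re) atTop
      (𝓝 (tauF (P.ν i) (P.Q i) (S.Φ y)).re) :=
    ((Complex.continuous_re.comp (continuous_tauF _ _)).tendsto _).comp hlim
  have herr : Tendsto (fun j => P.Cp * (S.ε j * ‖(v j).1‖ ^ 3 + S.ε j * ‖(v j).1‖ * ‖(v j).2‖
      + S.ε j ^ 2 * ‖(v j).2‖ ^ 2)) atTop (𝓝 0) := by
    have := ((((S.ε_lim.mul (h1.pow 3)).add ((S.ε_lim.mul h1).mul h2)).add
      ((S.ε_lim.pow 2).mul (h2.pow 2))).const_mul P.Cp)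
    simpa using this
  constructor
  · have h3 := hτ.add herr
    rw [add_zero] at h3
    refine ge_of_tendsto h3 ?_
    filter_upwards [hmem] with j hj
    have := (rescaled P (S.ε_pos j) hj i).1
    linarith
  · have h3 := ((hτ.add herr).const_mul P.Cp)
    rw [add_zero] at h3
    refine le_of_tendsto_of_tendsto (h1.pow 2) h3 ?_
    filter_upwards [hmem] with j hj
    exact (rescaled P (S.ε_pos j) hj i).2

end Est

section Model

variable {N : ℕ} {U : Set (Fin N → ℂ)} {n : ℕ} {Γ : Subgroup (Equiv.Perm U)} (P : PeakData U n)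

/-- the matrix of the `ν_i` -/
noncomputable def Nc : Matrix (Fin P.k) (Fin P.k) ℂ :=
  Complex.ofRealHom.mapMatrix (Matrix.of P.ν)

lemma isUnit_Nc : IsUnit (Nc P) := by
  have h : IsUnit (Matrix.of P.ν) := by
    rw [← Matrix.linearIndependent_rows_iff_isUnit]
    exact P.hν
  exact h.map _

lemma tauF_eq (i : Fin P.k) (y : EE P.m P.k) :
    tauF (P.ν i) (P.Q i) y = -Complex.I * (Nc P).mulVec y.2 i + P.Q i y.1 y.1 := by
  unfold tauF Matrix.mulVec dotProduct Nc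
  rfl

/-- the index `0` -/
def i0 : Fin P.k := ⟨0, P.hk⟩

/-- the Cayley type map -/
noncomputable def Fm (y : EE P.m P.k) : EE P.m P.k :=
  ((tauF (P.ν (i0 P)) (P.Q (i0 P)) y + 1)⁻¹ • y.1,
    fun i => (tauF (P.ν i) (P.Q i) y - 1) * (tauF (P.ν i) (P.Q i) y + 1)⁻¹)

/-- its inverse -/
noncomputable def Gz (y : EE P.m P.k) : Fin P.m → ℂ :=
  ((1 + y.2 (i0 P)) * (1 - y.2 (i0 P))⁻¹ + 1) • y.1

/-- its inverse -/
noncomputable def Gm (y : EE P.m P.k) : EE P.m P.k :=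
  (Gz P y, (Nc P)⁻¹.mulVec fun i => Complex.I *
    ((1 + y.2 i) * (1 - y.2 i)⁻¹ - P.Q i (Gz P y) (Gz P y)))

lemma tauF_Gm (y : EE P.m P.k) (i : Fin P.k) :
    tauF (P.ν i) (P.Q i) (Gm P y) = (1 + y.2 i) * (1 - y.2 i)⁻¹ := by
  rw [tauF_eq]
  have h : (Nc P).mulVec (Gm P y).2 = fun i => Complex.I *
      ((1 + y.2 i) * (1 - y.2 i)⁻¹ - P.Q i (Gz P y) (Gz P y)) := by
    unfold Gm
    simp only
    rw [Matrix.mulVec_mulVec, Matrix.mul_nonsing_inv _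
      ((Matrix.isUnit_iff_isUnit_det _).mp (isUnit_Nc P)), Matrix.one_mulVec]
  rw [h]
  have hI : Complex.I * Complex.I = -1 := Complex.I_mul_I
  show -Complex.I * (Complex.I * ((1 + y.2 i) * (1 - y.2 i)⁻¹ - P.Q i (Gz P y) (Gz P y)))
    + P.Q i (Gz P y) (Gz P y) = _
  linear_combination (-((1 + y.2 i) * (1 - y.2 i)⁻¹ - P.Q i (Gz P y) (Gz P y))) * hI

lemma Gm_Fm {y : EE P.m P.k} (hy : ∀ i, tauF (P.ν i) (P.Q i) y + 1 ≠ 0) :
    Gm P (Fm P y) = y := by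
  have ht : ∀ i, (1 + (Fm P y).2 i) * (1 - (Fm P y).2 i)⁻¹ = tauF (P.ν i) (P.Q i) y := by
    intro i
    have h := hy i
    simp only [Fm]
    set t := tauF (P.ν i) (P.Q i) y
    have h1 : 1 + (t - 1) * (t + 1)⁻¹ = 2 * t * (t + 1)⁻¹ := by field_simp; ring
    have h2 : 1 - (t - 1) * (t + 1)⁻¹ = 2 * (t + 1)⁻¹ := by field_simp; ring
    rw [h1, h2]
    field_simp
  have hz : Gz P (Fm P y) = y.1 := by
    unfold Gz
    rw [ht]
    show (tauF (P.ν (i0 P)) (P.Q (i0 P)) y + 1) • ((tauF (P.ν (i0 P)) (P.Q (i0 P)) y + 1)⁻¹ • y.1)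
      = y.1
    rw [smul_smul, mul_inv_cancel₀ (hy _), one_smul]
  refine Prod.ext hz ?_
  show (Nc P)⁻¹.mulVec (fun i => Complex.I * ((1 + (Fm P y).2 i) * (1 - (Fm P y).2 i)⁻¹
    - P.Q i (Gz P (Fm P y)) (Gz P (Fm P y)))) = y.2
  have : (fun i => Complex.I * ((1 + (Fm P y).2 i) * (1 - (Fm P y).2 i)⁻¹
      - P.Q i (Gz P (Fm P y)) (Gz P (Fm P y)))) = (Nc P).mulVec y.2 := by
    funext i
    rw [ht, hz, tauF_eq]
    have hI : Complex.I * Complex.I = -1 := Complex.I_mul_I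
    linear_combination (-((Nc P).mulVec y.2 i)) * hI
  rw [this, Matrix.mulVec_mulVec, Matrix.nonsing_inv_mul _
    ((Matrix.isUnit_iff_isUnit_det _).mp (isUnit_Nc P)), Matrix.one_mulVec]

lemma Fm_Gm {y : EE P.m P.k} (hy : ∀ i, 1 - y.2 i ≠ 0) : Fm P (Gm P y) = y := by
  have hne : ∀ i, (1 + y.2 i) * (1 - y.2 i)⁻¹ + 1 = 2 * (1 - y.2 i)⁻¹ := by
    intro i
    have := hy i
    field_simp; ring
  refine Prod.ext ?_ ?_
  · show (tauF (P.ν (i0 P)) (P.Q (i0 P)) (Gm P y) + 1)⁻¹ • Gz P y = y.1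
    rw [tauF_Gm]
    unfold Gz
    rw [smul_smul, inv_mul_cancel₀, one_smul]
    rw [hne]
    exact mul_ne_zero two_ne_zero (inv_ne_zero (hy _))
  · funext i
    show (tauF (P.ν i) (P.Q i) (Gm P y) - 1) * (tauF (P.ν i) (P.Q i) (Gm P y) + 1)⁻¹ = y.2 i
    rw [tauF_Gm, hne]
    have := hy i
    field_simp
    ring

lemma differentiableOn_Fm {A : Set (EE P.m P.k)}
    (hA : ∀ y ∈ A, ∀ i, tauF (P.ν i) (P.Q i) y + 1 ≠ 0) : DifferentiableOn ℂ (Fm P) A := by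
  have hτ : ∀ i, DifferentiableOn ℂ (tauF (P.ν i) (P.Q i)) A := fun i =>
    (differentiable_tauF _ _).differentiableOn
  unfold Fm
  refine DifferentiableOn.prodMk ?_ ?_
  · exact (((hτ _).add_const 1).fun_inv fun y hy => hA y hy _).fun_smul differentiableOn_fst
  · rw [differentiableOn_pi]
    intro i
    exact ((hτ i).sub_const 1).fun_mul (((hτ i).add_const 1).fun_inv fun y hy => hA y hy _)

lemma differentiableOn_Gm {A : Set (EE P.m P.k)}
    (hA : ∀ y ∈ A, ∀ i, 1 - y.2 i ≠ 0) : DifferentiableOn ℂ (Gm P) A := by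
  have hs : ∀ i, DifferentiableOn ℂ (fun y : EE P.m P.k => y.2 i) A := fun i => by fun_prop
  have ht : ∀ i, DifferentiableOn ℂ
      (fun y : EE P.m P.k => (1 + y.2 i) * (1 - y.2 i)⁻¹) A := fun i =>
    ((hs i).const_add 1).fun_mul (((hs i).const_sub 1).fun_inv fun y hy => hA y hy _)
  have hz : DifferentiableOn ℂ (Gz P) A :=
    ((ht (i0 P)).add_const 1).fun_smul differentiableOn_fst
  unfold Gm
  refine hz.prodMk ?_
  have hQ : ∀ i, DifferentiableOn ℂ (fun y : EE P.m P.k => P.Q i (Gz P y) (Gz P y)) A :=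
    fun i => ((P.Q i).differentiable.comp_differentiableOn hz).clm_apply hz
  have hu : DifferentiableOn ℂ (fun y : EE P.m P.k => fun i => Complex.I *
    ((1 + y.2 i) * (1 - y.2 i)⁻¹ - P.Q i (Gz P y) (Gz P y))) A := by
    rw [differentiableOn_pi]
    intro i
    exact (differentiableOn_const _).fun_mul ((ht i).fun_sub (hQ i))
  have hL : Differentiable ℂ fun u : Fin P.k → ℂ => (Nc P)⁻¹.mulVec u :=
    (LinearMap.toContinuousLinearMap (Matrix.mulVecLin (Nc P)⁻¹)).differentiable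
  exact hL.comp_differentiableOn hu

/-- the bounded model -/
def DD0 (Om : Set (EE P.m P.k)) : Set (EE P.m P.k) :=
  {y | ∀ i, 1 - y.2 i ≠ 0} ∩ Gm P ⁻¹' Om

lemma isOpen_B0 : IsOpen {y : EE P.m P.k | ∀ i, 1 - y.2 i ≠ 0} := by
  have : {y : EE P.m P.k | ∀ i, 1 - y.2 i ≠ 0} = ⋂ i, {y | 1 - y.2 i ≠ 0} := by
    ext y; simp
  rw [this]
  refine isOpen_iInter_of_finite fun i => ?_
  exact isOpen_ne_fun (by fun_prop) continuous_const

theorem bih_Om {Om : Set (EE P.m P.k)} (hop : IsOpen Om)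
    (hre : ∀ y ∈ Om, ∀ i, 0 ≤ (tauF (P.ν i) (P.Q i) y).re) :
    Bih Om (DD0 P Om) (Fm P) (Gm P) := by
  have hne : ∀ y ∈ Om, ∀ i, tauF (P.ν i) (P.Q i) y + 1 ≠ 0 := by
    intro y hy i h
    have h1 := hre y hy i
    have h2 := congrArg Complex.re h
    simp at h2
    linarith
  refine ⟨hop, ?_, differentiableOn_Fm P hne, ?_, ?_, ?_, ?_, ?_⟩
  · exact (differentiableOn_Gm P (A := {y | ∀ i, 1 - y.2 i ≠ 0})
      (fun y hy => hy)).continuousOn.isOpen_inter_preimage (isOpen_B0 P) hop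
  · exact differentiableOn_Gm P fun y hy => hy.1
  · intro y hy
    refine ⟨fun i => ?_, ?_⟩
    · have h := hne y hy i
      simp only [Fm]
      have h2 : 1 - (tauF (P.ν i) (P.Q i) y - 1) * (tauF (P.ν i) (P.Q i) y + 1)⁻¹
          = 2 * (tauF (P.ν i) (P.Q i) y + 1)⁻¹ := by field_simp; ring
      rw [h2]
      exact mul_ne_zero two_ne_zero (inv_ne_zero h)
    · show Gm P (Fm P y) ∈ Om
      rw [Gm_Fm P (hne y hy)]
      exact hy
  · intro y hy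
    exact hy.2
  · intro y hy
    exact Gm_Fm P (hne y hy)
  · intro y hy
    exact Fm_Gm P hy.1

lemma norm_cayley {τ : ℂ} (h : 0 ≤ τ.re) : ‖(τ - 1) * (τ + 1)⁻¹‖ ≤ 1 := by
  rw [norm_mul, norm_inv]
  have hne : 0 < ‖τ + 1‖ := by
    rw [norm_pos_iff]
    intro h'
    have := congrArg Complex.re h'
    simp at this
    linarith
  rw [← div_eq_mul_inv, div_le_one hne]
  have h1 : Complex.normSq (τ - 1) ≤ Complex.normSq (τ + 1) := by
    simp only [Complex.normSq_apply, Complex.sub_re, Complex.sub_im, Complex.add_re,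
      Complex.add_im, Complex.one_re, Complex.one_im]
    nlinarith
  rw [Complex.norm_def, Complex.norm_def]
  exact Real.sqrt_le_sqrt h1

theorem bounded_DD0 {Om : Set (EE P.m P.k)}
    (hre : ∀ y ∈ Om, ∀ i, 0 ≤ (tauF (P.ν i) (P.Q i) y).re ∧
      ‖y.1‖ ^ 2 ≤ P.Cp * (tauF (P.ν i) (P.Q i) y).re) :
    Bornology.IsBounded (DD0 P Om) := by
  have hC := Cp_nonneg P
  refine (Metric.isBounded_closedBall (x := (0 : EE P.m P.k)) (r := P.Cp + 1)).subset ?_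
  intro y hy
  rw [mem_closedBall_zero_iff]
  have hx := hy.2
  have hy' : y = Fm P (Gm P y) := (Fm_Gm P hy.1).symm
  set x := Gm P y with hxdef
  rw [hy', Prod.norm_def, max_le_iff]
  constructor
  · obtain ⟨h1, h2⟩ := hre x hx (i0 P)
    set τ := tauF (P.ν (i0 P)) (P.Q (i0 P)) x with hτ
    show ‖(τ + 1)⁻¹ • x.1‖ ≤ P.Cp + 1
    rw [norm_smul, norm_inv]
    have hre1 : 1 + τ.re ≤ ‖τ + 1‖ := by
      have := Complex.re_le_norm (τ + 1)
      simp at this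
      linarith
    have hpos : 0 < ‖τ + 1‖ := by linarith
    rw [inv_mul_le_iff₀ hpos]
    have h3 : ‖x.1‖ ≤ (P.Cp + 1) * (1 + τ.re) := by
      have h4 : 0 ≤ (P.Cp + 1) * (1 + τ.re) := by positivity
      refine abs_le_of_sq_le_sq' ?_ h4 |>.2
      refine h2.trans ?_
      nlinarith [mul_nonneg hC h1, mul_nonneg hC hC, sq_nonneg (τ.re), mul_nonneg (mul_nonneg hC h1) h1]
    calc ‖x.1‖ ≤ (P.Cp + 1) * (1 + τ.re) := h3
      _ ≤ (P.Cp + 1) * ‖τ + 1‖ := by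
          exact mul_le_mul_of_nonneg_left hre1 (by linarith)
      _ = ‖τ + 1‖ * (P.Cp + 1) := by ring
  · rw [pi_norm_le_iff_of_nonneg (by linarith)]
    intro i
    have := norm_cayley (hre x hx i).1
    show ‖(tauF (P.ν i) (P.Q i) x - 1) * (tauF (P.ν i) (P.Q i) x + 1)⁻¹‖ ≤ P.Cp + 1
    linarith

end Model

section Assembly

variable {N : ℕ} {U : Set (Fin N → ℂ)} {n : ℕ} {Γ : Subgroup (Equiv.Perm U)}

/-- the identification `ℂ^m × ℂ^k ≃ ℂ^n` -/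
noncomputable def eqv (P : PeakData U n) : EE P.m P.k ≃L[ℂ] (Fin n → ℂ) :=
  ContinuousLinearEquiv.ofFinrankEq (by simp [P.hmk])

/-- C6 + assembly for given data. -/
theorem model_of (P : PeakData U n) (S : ScaleSeq Γ P) (L : LimDom P S.Φ) :
    ∃ (D : Set (Fin n → ℂ)) (Ψ : U → (Fin n → ℂ)) (Θ : (Fin n → ℂ) → (Fin N → ℂ)),
      IsOpen D ∧ Bornology.IsBounded D ∧ Biholo U D Ψ Θ ∧ Spans D := by
  set Om := range S.Φ with hOm
  have hineq : ∀ y ∈ Om, ∀ i, 0 ≤ (tauF (P.ν i) (P.Q i) y).re ∧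
      ‖y.1‖ ^ 2 ≤ P.Cp * (tauF (P.ν i) (P.Q i) y).re := by
    rintro _ ⟨y, rfl⟩ i
    exact limit_ineq P S y i
  have hb := bih_Om P L.isOpen fun y hy i => (hineq y hy i).1
  have hspan : Spans Om := spans_Om P.inv L.isOpen L.sub L.closed
  set e := eqv P with he
  have hb2 : Bih (DD0 P Om) (e.symm ⁻¹' (DD0 P Om)) e e.symm := by
    refine ⟨hb.opB, hb.opB.preimage e.symm.continuous, e.differentiable.differentiableOn,
      e.symm.differentiable.differentiableOn, ?_, ?_, ?_, ?_⟩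
    · intro x hx
      show e.symm (e x) ∈ DD0 P Om
      rw [e.symm_apply_apply]; exact hx
    · intro x hx; exact hx
    · intro x _; exact e.symm_apply_apply x
    · intro x _; exact e.apply_symm_apply x
  refine ⟨e.symm ⁻¹' (DD0 P Om), fun y => e (Fm P (S.Φ y)), fun z => L.Θ0 (Gm P (e.symm z)),
    hb2.opB, ?_, ⟨?_, ?_, ?_, ?_, ?_⟩, hb2.spans (hb.spans hspan)⟩
  · have h1 := bounded_DD0 P hineq
    have h2 : Bornology.IsBounded (e '' DD0 P Om) :=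
      (e : EE P.m P.k →L[ℂ] (Fin n → ℂ)).lipschitz.isBounded_image h1
    refine h2.subset ?_
    intro z hz
    exact ⟨e.symm z, hz, e.apply_symm_apply z⟩
  · intro x
    obtain ⟨O, hO, hxO, g, hg, hgy⟩ := S.hΦ x
    refine ⟨O ∩ g ⁻¹' Om, hg.continuousOn.isOpen_inter_preimage hO L.isOpen, ⟨hxO, ?_⟩,
      fun y => e (Fm P (g y)), ?_, ?_⟩
    · show g x ∈ Om
      rw [← hgy x hxO]
      exact mem_range_self _
    · exact e.differentiable.comp_differentiableOn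
        (hb.hF.comp (hg.mono inter_subset_left) fun y hy => hy.2)
    · intro y hy
      show e (Fm P (S.Φ y)) = e (Fm P (g y))
      rw [hgy y hy.1]
  · refine L.hΘ0.comp (hb.hG.comp e.symm.differentiable.differentiableOn fun z hz => hz) ?_
    intro z hz
    exact hb.mapsG hz
  · intro y
    show e.symm (e (Fm P (S.Φ y))) ∈ DD0 P Om
    rw [e.symm_apply_apply]
    exact hb.mapsF (mem_range_self _)
  · intro y
    show L.Θ0 (Gm P (e.symm (e (Fm P (S.Φ y))))) = y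
    rw [e.symm_apply_apply, hb.left _ (mem_range_self _), L.left]
  · intro z hz
    have hz' : e.symm z ∈ DD0 P Om := hz
    obtain ⟨y, hy⟩ := hb.mapsG hz'
    refine ⟨y, ?_, ?_⟩
    · show (y : Fin N → ℂ) = L.Θ0 (Gm P (e.symm z))
      rw [← hy, L.left]
    · show e (Fm P (S.Φ y)) = z
      rw [hy, hb.right _ hz', e.apply_symm_apply]

end Assembly

/-- ASSEMBLY OF PART C. -/
theorem partABC_of (hA : ThmA) (h2 : PropC2) (h34 : PropC34) : PartABC := by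
  intro N U Γ hS n hn hU
  obtain ⟨P⟩ := hA N U Γ hS n hn hU
  obtain ⟨S⟩ := h2 N U Γ hS n hn hU P
  obtain ⟨L⟩ := h34 N U Γ hS n hn hU P S
  exact model_of P S L

end Crest.Agent.R264.CP
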