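import Crest.Agent.R264.CPDefs
import Crest.Agent.R266.Osgood

/-!
Row 264 (S0402), Part C, module C5 (helper484): the one-parameter groups `X_b`, `(0,t)` act on the
clopen piece `Om ⊆ OM`, they span, and `Spans` is invariant under biholomorphisms.
-/

set_option autoImplicit false

open Topology Filter Set

namespace Crest.Agent.R264.CP

open Crest.Agent.R264

section Path

/-- A path in `OM` starting in the relatively clopen piece `Om` stays in `Om`. -/
lemma mem_of_path {E : Type*} [TopologicalSpace E] {OM Om : Set E} (hop : IsOpen Om)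
    (hcl : ∀ q ∈ OM, q ∈ closure Om → q ∈ Om) {c : ℝ → E} (hc : Continuous c)
    (hOM : ∀ t, c t ∈ OM) (h0 : c 0 ∈ Om) (t : ℝ) : c t ∈ Om := by
  have hclosed : IsClosed (c ⁻¹' Om) := by
    rw [← closure_subset_iff_isClosed]
    intro s hs
    exact hcl _ (hOM s) (hc.closure_preimage_subset Om hs)
  have hclopen : IsClopen (c ⁻¹' Om) := ⟨hclosed, hop.preimage hc⟩
  rcases isClopen_iff.mp hclopen with h | h
  · exact absurd (show (0 : ℝ) ∈ c ⁻¹' Om from h0) (by rw [h]; simp)
  · have : t ∈ c ⁻¹' Om := by rw [h]; trivial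
    exact this

end Path

section Flows

variable {m k : ℕ}

/-- the flow of `X_b = (b, 2i DD_b(ζ))` -/
noncomputable def flowB (DD : DDForm m k) (b : Fin m → ℂ) (s : ℝ) (x : EE m k) : EE m k :=
  (x.1 + (s : ℂ) • b, x.2 + (2 * Complex.I * (s : ℂ)) • DD b x.1
    + (Complex.I * (s : ℂ) ^ 2) • DD b b)

/-- the generator `X_b` -/
noncomputable def genB (DD : DDForm m k) (b : Fin m → ℂ) (x : EE m k) : EE m k :=
  (b, (2 * Complex.I) • DD b x.1)

/-- real translations in `w` -/
noncomputable def flowT (v : Fin k → ℝ) (s : ℝ) (x : EE m k) : EE m k :=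
  (x.1, x.2 + (s : ℂ) • cvec v)

lemma flowB_eq_Lmap (DD : DDForm m k) (b : Fin m → ℂ) (s : ℝ) (x : EE m k) :
    flowB DD b s x = Lmap DD (-((s : ℝ) • b)) (fun i => -(s ^ 2 * (DD b b i).im)) x := by
  have hDD : ∀ v : Fin m → ℂ, ∀ i, DD (-((s : ℝ) • b)) v i = -((s : ℂ) * DD b v i) := by
    intro v i
    rw [map_neg, map_smul]
    simp [LinearMap.neg_apply, LinearMap.smul_apply]
  have hsb : (s : ℝ) • b = (s : ℂ) • b := by
    ext i; simp
  have hDb : ∀ i, DD b ((s : ℝ) • b) i = (s : ℂ) * DD b b i := by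
    intro i
    rw [hsb, map_smul]; simp
  refine Prod.ext ?_ ?_
  · show x.1 + (s : ℂ) • b = x.1 - -((s : ℝ) • b)
    rw [sub_neg_eq_add, hsb]
  · funext i
    simp only [flowB, Lmap, Pi.add_apply, Pi.smul_apply, smul_eq_mul, hDD]
    have h1 : DD b (-((s : ℝ) • b)) i = -((s : ℂ) * DD b b i) := by
      rw [map_neg, Pi.neg_apply, hDb]
    have h2 : DD b (x.1 - -((s : ℝ) • b)) i = DD b x.1 i + (s : ℂ) * DD b b i := by
      rw [sub_neg_eq_add, map_add, Pi.add_apply, hDb]
    rw [h1, h2]
    have h3 : (((-((s : ℂ) * -((s : ℂ) * DD b b i))).re : ℝ) : ℂ)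
        = (s : ℂ) ^ 2 * (((DD b b i).re : ℝ) : ℂ) := by
      have : -((s : ℂ) * -((s : ℂ) * DD b b i)) = ((s ^ 2 : ℝ) : ℂ) * DD b b i := by
        push_cast; ring
      rw [this, Complex.re_ofReal_mul]
      push_cast; ring
    rw [h3]
    have h4 : (DD b b i) = (((DD b b i).re : ℝ) : ℂ) + (((DD b b i).im : ℝ) : ℂ) * Complex.I := by
      exact (Complex.re_add_im _).symm
    push_cast
    have h5 : Complex.I * (s : ℂ) ^ 2 * DD b b i
        = Complex.I * (s : ℂ) ^ 2 * ((((DD b b i).re : ℝ) : ℂ)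
          + (((DD b b i).im : ℝ) : ℂ) * Complex.I) := by rw [← h4]
    have h6 : ((((DD b b i).im : ℝ) : ℂ)) * (s : ℂ) ^ 2 = - (Complex.I * (s:ℂ)^2 * ((((DD b b i).im : ℝ) : ℂ) * Complex.I)) := by
      have : Complex.I * Complex.I = -1 := Complex.I_mul_I
      linear_combination ((((DD b b i).im : ℝ) : ℂ) * (s : ℂ) ^ 2) * this
    linear_combination (-1 : ℂ) * h5 + (-1 : ℂ) * h6

lemma flowT_eq_Lmap (DD : DDForm m k) (v : Fin k → ℝ) (s : ℝ) (x : EE m k) :
    flowT v s x = Lmap DD 0 (fun i => -(s * v i)) x := by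
  refine Prod.ext ?_ ?_
  · simp [flowT, Lmap]
  · funext i
    simp [flowT, Lmap, cvec]

lemma differentiable_DD (DD : DDForm m k) (b : Fin m → ℂ) :
    Differentiable ℂ (fun x : EE m k => DD b x.1) := by
  have h : (fun x : EE m k => DD b x.1)
      = fun x : EE m k => (LinearMap.toContinuousLinearMap (DD b)) x.1 := by
    funext x; simp
  rw [h]
  exact (ContinuousLinearMap.differentiable _).comp differentiable_fst

lemma differentiable_flowB (DD : DDForm m k) (b : Fin m → ℂ) (s : ℝ) :
    Differentiable ℂ (flowB DD b s) := by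
  unfold flowB
  refine (differentiable_fst.add_const _).prodMk ?_
  exact (differentiable_snd.fun_add ((differentiable_DD DD b).fun_const_smul
    (2 * Complex.I * (s : ℂ)))).add_const _

lemma differentiable_genB (DD : DDForm m k) (b : Fin m → ℂ) :
    Differentiable ℂ (genB DD b) := by
  unfold genB
  exact (differentiable_const _).prodMk ((differentiable_DD DD b).fun_const_smul (2 * Complex.I))

lemma differentiable_flowT (v : Fin k → ℝ) (s : ℝ) :
    Differentiable ℂ (flowT (m := m) v s) := by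
  unfold flowT
  exact differentiable_fst.prodMk (differentiable_snd.add_const _)

lemma hasDerivAt_ofReal_smul {F : Type*} [NormedAddCommGroup F] [NormedSpace ℂ F]
    (c : ℂ) (v : F) (t : ℝ) :
    HasDerivAt (fun s : ℝ => (c * (s : ℂ)) • v) (c • v) t := by
  have h1 : HasDerivAt (fun s : ℝ => c * (s : ℂ)) c t := by
    have := ((hasDerivAt_id t).ofReal_comp).const_mul c
    simpa using this
  exact h1.smul_const v

lemma hasDerivAt_ofReal_sq_smul {F : Type*} [NormedAddCommGroup F] [NormedSpace ℂ F]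
    (c : ℂ) (v : F) :
    HasDerivAt (fun s : ℝ => (c * (s : ℂ) ^ 2) • v) 0 0 := by
  have h0 : HasDerivAt (fun s : ℝ => (s : ℂ)) 1 0 := by
    simpa using ((hasDerivAt_id (0 : ℝ)).ofReal_comp)
  have h1 : HasDerivAt (fun s : ℝ => c * (s : ℂ) ^ 2) 0 0 := by
    have := (h0.fun_pow 2).const_mul c
    simpa using this
  have := h1.smul_const v
  simpa using this

lemma hasDerivAt_flowB (DD : DDForm m k) (b : Fin m → ℂ) (x : EE m k) :
    HasDerivAt (fun t => flowB DD b t x) (genB DD b x) 0 := by
  unfold flowB genB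
  refine HasDerivAt.prodMk ?_ ?_
  · have := (hasDerivAt_ofReal_smul (1 : ℂ) b 0).const_add x.1
    simpa using this
  · have h1 := (hasDerivAt_ofReal_smul (2 * Complex.I) (DD b x.1) 0).const_add x.2
    have h2 := h1.fun_add (hasDerivAt_ofReal_sq_smul Complex.I (DD b b))
    simpa using h2

lemma hasDerivAt_flowT (v : Fin k → ℝ) (x : EE m k) :
    HasDerivAt (fun t => flowT v t x) ((0 : Fin m → ℂ), cvec v) 0 := by
  unfold flowT
  refine HasDerivAt.prodMk (hasDerivAt_const _ _) ?_
  have := (hasDerivAt_ofReal_smul (1 : ℂ) (cvec v) 0).const_add x.2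
  simpa using this

lemma continuous_flowB (DD : DDForm m k) (b : Fin m → ℂ) (x : EE m k) :
    Continuous (fun t => flowB DD b t x) := by
  unfold flowB
  refine Continuous.prodMk ?_ ?_
  · exact continuous_const.add (Complex.continuous_ofReal.smul continuous_const)
  · refine (continuous_const.add ((continuous_const.mul Complex.continuous_ofReal).smul
      continuous_const)).add ?_
    exact ((continuous_const.mul (Complex.continuous_ofReal.pow 2)).smul continuous_const)

lemma continuous_flowT (v : Fin k → ℝ) (x : EE m k) :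
    Continuous (fun t => flowT v t x) := by
  unfold flowT
  exact continuous_const.prodMk (continuous_const.add
    (Complex.continuous_ofReal.smul continuous_const))

variable {OM Om : Set (EE m k)} {DD : DDForm m k}

lemma isFlow_B (inv : ∀ b t, MapsTo (Lmap DD b t) OM OM) (hop : IsOpen Om) (hsub : Om ⊆ OM)
    (hcl : ∀ q ∈ OM, q ∈ closure Om → q ∈ Om) (b : Fin m → ℂ) :
    IsFlow Om (genB DD b) (flowB DD b) where
  hol t := (differentiable_flowB DD b t).differentiableOn
  maps t := by
    intro x hx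
    have h0 : flowB DD b 0 x = x := by simp [flowB]
    refine mem_of_path (c := fun t => flowB DD b t x) hop hcl (continuous_flowB DD b x) ?_
      (by simpa only [h0] using hx) t
    intro s
    show flowB DD b s x ∈ OM
    rw [flowB_eq_Lmap]
    exact inv _ _ (hsub hx)
  zero x _ := by simp [flowB]
  add s t x _ := by
    refine Prod.ext ?_ ?_
    · funext i
      simp only [flowB, Pi.add_apply, Pi.smul_apply, smul_eq_mul]
      push_cast; ring
    · funext i
      simp only [flowB, Pi.add_apply, Pi.smul_apply, smul_eq_mul, map_add, map_smul]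
      push_cast; ring
  gen x _ := hasDerivAt_flowB DD b x

lemma isFlow_T (inv : ∀ b t, MapsTo (Lmap DD b t) OM OM) (hop : IsOpen Om) (hsub : Om ⊆ OM)
    (hcl : ∀ q ∈ OM, q ∈ closure Om → q ∈ Om) (v : Fin k → ℝ) :
    IsFlow Om (fun _ => ((0 : Fin m → ℂ), cvec v)) (flowT v) where
  hol t := (differentiable_flowT v t).differentiableOn
  maps t := by
    intro x hx
    have h0 : flowT v 0 x = x := by simp [flowT]
    refine mem_of_path (c := fun t => flowT v t x) hop hcl (continuous_flowT v x) ?_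
      (by simpa only [h0] using hx) t
    intro s
    show flowT v s x ∈ OM
    rw [flowT_eq_Lmap DD]
    exact inv _ _ (hsub hx)
  zero x _ := by simp [flowT]
  add s t x _ := by
    refine Prod.ext ?_ ?_
    · simp [flowT]
    · funext i
      simp only [flowT, Pi.add_apply, Pi.smul_apply, smul_eq_mul]
      push_cast; ring
  gen x _ := hasDerivAt_flowT v x

/-- C5: the complete fields span on `Om`. -/
theorem spans_Om (inv : ∀ b t, MapsTo (Lmap DD b t) OM OM) (hop : IsOpen Om) (hsub : Om ⊆ OM)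
    (hcl : ∀ q ∈ OM, q ∈ closure Om → q ∈ Om) : Spans Om := by
  intro x _
  set S := Submodule.span ℂ {v : EE m k | ∃ X, IsComplete Om X ∧ X x = v} with hS
  have hT : ∀ v : Fin k → ℝ, ((0 : Fin m → ℂ), cvec v) ∈ S := by
    intro v
    refine Submodule.subset_span ⟨fun _ => (0, cvec v), ⟨differentiableOn_const _, _,
      isFlow_T inv hop hsub hcl v⟩, rfl⟩
  have hB : ∀ b : Fin m → ℂ, genB DD b x ∈ S := by
    intro b
    exact Submodule.subset_span ⟨genB DD b, ⟨(differentiable_genB DD b).differentiableOn, _,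
      isFlow_B inv hop hsub hcl b⟩, rfl⟩
  have h1 : ∀ w : Fin k → ℂ, ((0 : Fin m → ℂ), w) ∈ S := by
    intro w
    have hw : ((0 : Fin m → ℂ), w)
        = ∑ j, w j • ((0 : Fin m → ℂ), cvec (Pi.single j (1 : ℝ))) := by
      refine Prod.ext ?_ ?_
      · rw [Prod.fst_sum]; simp
      · rw [Prod.snd_sum]
        funext i
        rw [Finset.sum_apply]
        simp only [Prod.smul_snd, Pi.smul_apply, smul_eq_mul, cvec]
        rw [Finset.sum_eq_single i]
        · simp
        · intro j _ hj
          rw [Pi.single_eq_of_ne (Ne.symm hj)]; simp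
        · simp
    rw [hw]
    exact Submodule.sum_mem _ fun j _ => Submodule.smul_mem _ _ (hT _)
  have h2 : ∀ a : Fin m → ℂ, ∃ w : Fin k → ℂ, (a, w) ∈ S := by
    intro a
    refine ⟨(∑ l, a l • genB DD (Pi.single l 1) x).2, ?_⟩
    have : ((a, (∑ l, a l • genB DD (Pi.single l 1) x).2) : EE m k)
        = ∑ l, a l • genB DD (Pi.single l 1) x := by
      refine Prod.ext ?_ rfl
      rw [Prod.fst_sum]
      funext i
      rw [Finset.sum_apply]
      simp only [Prod.smul_fst, Pi.smul_apply, smul_eq_mul, genB]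
      rw [Finset.sum_eq_single i]
      · simp
      · intro j _ hj
        rw [Pi.single_eq_of_ne (Ne.symm hj)]; simp
      · simp
    rw [this]
    exact Submodule.sum_mem _ fun l _ => Submodule.smul_mem _ _ (hB _)
  rw [Submodule.eq_top_iff']
  rintro ⟨a, w⟩
  obtain ⟨w', hw'⟩ := h2 a
  have : ((a, w) : EE m k) = (a, w') + (0, w - w') := by
    refine Prod.ext ?_ ?_ <;> simp
  rw [this]
  exact S.add_mem hw' (h1 _)

end Flows

section Transport

variable {E₁ E₂ : Type*} [NormedAddCommGroup E₁] [NormedSpace ℂ E₁] [FiniteDimensional ℂ E₁]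
  [NormedAddCommGroup E₂] [NormedSpace ℂ E₂] [FiniteDimensional ℂ E₂]

/-- `F : A → B` biholomorphic with inverse `G`. -/
structure Bih (A : Set E₁) (B : Set E₂) (F : E₁ → E₂) (G : E₂ → E₁) : Prop where
  opA : IsOpen A
  opB : IsOpen B
  hF : DifferentiableOn ℂ F A
  hG : DifferentiableOn ℂ G B
  mapsF : MapsTo F A B
  mapsG : MapsTo G B A
  left : ∀ x ∈ A, G (F x) = x
  right : ∀ y ∈ B, F (G y) = y

lemma differentiableOn_fderiv {F : E₁ → E₂} {A : Set E₁} (hA : IsOpen A)
    (hF : DifferentiableOn ℂ F A) : DifferentiableOn ℂ (fderiv ℂ F) A := by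
  have h := Crest.Agent.R266.SCV.analyticOnNhd_of_differentiableOn hA hF
  exact h.fderiv.differentiableOn

/-- `Spans` is invariant under biholomorphisms. -/
theorem Bih.spans {A : Set E₁} {B : Set E₂} {F : E₁ → E₂} {G : E₂ → E₁} (h : Bih A B F G)
    (hs : Spans A) : Spans B := by
  intro y hy
  have hGy : G y ∈ A := h.mapsG hy
  have hFd : DifferentiableAt ℂ F (G y) := (h.hF _ hGy).differentiableAt (h.opA.mem_nhds hGy)
  have hGd : DifferentiableAt ℂ G y := (h.hG _ hy).differentiableAt (h.opB.mem_nhds hy)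
  -- transport of complete fields
  have htr : ∀ X, IsComplete A X → IsComplete B (fun z => fderiv ℂ F (G z) (X (G z))) := by
    rintro X ⟨hX, φ, hφ⟩
    refine ⟨?_, fun t z => F (φ t (G z)), ?_⟩
    · have h1 : DifferentiableOn ℂ (fun z => fderiv ℂ F (G z)) B :=
        (differentiableOn_fderiv h.opA h.hF).comp h.hG h.mapsG
      have h2 : DifferentiableOn ℂ (fun z => X (G z)) B := hX.comp h.hG h.mapsG
      exact h1.clm_apply h2
    · refine ⟨?_, ?_, ?_, ?_, ?_⟩
      · intro t
        exact h.hF.comp ((hφ.hol t).comp h.hG h.mapsG)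
          (fun z hz => hφ.maps t (h.mapsG hz))
      · intro t z hz
        exact h.mapsF (hφ.maps t (h.mapsG hz))
      · intro z hz
        show F (φ 0 (G z)) = z
        rw [hφ.zero _ (h.mapsG hz), h.right z hz]
      · intro s t z hz
        show F (φ (s + t) (G z)) = F (φ s (G (F (φ t (G z)))))
        rw [h.left _ (hφ.maps t (h.mapsG hz)), hφ.add s t _ (h.mapsG hz)]
      · intro z hz
        have hz' := h.mapsG hz
        have hd : DifferentiableAt ℂ F (G z) := (h.hF _ hz').differentiableAt (h.opA.mem_nhds hz')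
        have hF' : HasFDerivAt F ((fderiv ℂ F (G z)).restrictScalars ℝ) (φ 0 (G z)) := by
          rw [hφ.zero _ hz']
          exact hd.hasFDerivAt.restrictScalars ℝ
        have := hF'.comp_hasDerivAt (0 : ℝ) (hφ.gen _ hz')
        exact this
  -- the derivative of `F` at `G y` is onto
  have hsurj : ∀ w : E₂, ∃ v : E₁, fderiv ℂ F (G y) v = w := by
    intro w
    refine ⟨fderiv ℂ G y w, ?_⟩
    have hcomp : HasFDerivAt (fun z => F (G z)) ((fderiv ℂ F (G y)).comp (fderiv ℂ G y)) y :=
      hFd.hasFDerivAt.comp y hGd.hasFDerivAt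
    have hid : HasFDerivAt (fun z => F (G z)) (ContinuousLinearMap.id ℂ E₂) y := by
      refine (hasFDerivAt_id y).congr_of_eventuallyEq ?_
      filter_upwards [h.opB.mem_nhds hy] with z hz
      exact h.right z hz
    have := hcomp.unique hid
    calc fderiv ℂ F (G y) (fderiv ℂ G y w)
        = ((fderiv ℂ F (G y)).comp (fderiv ℂ G y)) w := rfl
      _ = w := by rw [this]; rfl
  rw [Submodule.eq_top_iff']
  intro w
  obtain ⟨v, rfl⟩ := hsurj w
  have hv : v ∈ Submodule.span ℂ {v : E₁ | ∃ X, IsComplete A X ∧ X (G y) = v} := by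
    rw [hs (G y) hGy]; trivial
  have hmap : (fderiv ℂ F (G y)) v ∈ Submodule.map ((fderiv ℂ F (G y)) : E₁ →ₗ[ℂ] E₂)
      (Submodule.span ℂ {v : E₁ | ∃ X, IsComplete A X ∧ X (G y) = v}) :=
    Submodule.mem_map_of_mem hv
  rw [Submodule.map_span] at hmap
  refine Submodule.span_mono ?_ hmap
  rintro _ ⟨v', ⟨X, hX, rfl⟩, rfl⟩
  exact ⟨_, htr X hX, rfl⟩

end Transport

end Crest.Agent.R264.CP
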