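import Crest.Agent.R264.MontelU
import Crest.Agent.R264.AutLem

/-!
Row 264, Part D, node D1: H. Cartan's uniqueness theorem (helper399).
Proof by averaging: `A_N = (1/N) ∑_{j<N} f^j` has `A_N'(p) = id`; a limit `A` along a free
ultrafilter satisfies `A ∘ f = A` and `A'(p) = id`, so `f = id` near `p`.
-/

set_option autoImplicit false

open Set Filter Topology Metric Complex

noncomputable section

namespace Crest.Agent.R264

open Crest.Agent.R266.SCV

variable {E : Type*} [NormedAddCommGroup E] [NormedSpace ℂ E] [FiniteDimensional ℂ E]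

/-- identity theorem for maps on a preconnected open set -/
theorem eqOn_of_eventuallyEq {F : Type*} [NormedAddCommGroup F] [NormedSpace ℂ F]
    [CompleteSpace F] {D : Set E} (hDo : IsOpen D) (hDc : IsPreconnected D) {f g : E → F}
    (hf : DifferentiableOn ℂ f D) (hg : DifferentiableOn ℂ g D) {p : E} (hp : p ∈ D)
    (h : f =ᶠ[𝓝 p] g) : EqOn f g D :=
  (analyticOnNhd_of_differentiableOn hDo hf).eqOn_of_preconnected_of_eventuallyEq
    (analyticOnNhd_of_differentiableOn hDo hg) hDc hp h

/-- **D1**: H. Cartan's uniqueness theorem. -/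
theorem cartan_unique {D : Set E} (hDo : IsOpen D) (hDc : IsPreconnected D)
    (hDb : Bornology.IsBounded D) {f : E → E} (hf : DifferentiableOn ℂ f D)
    (hm : MapsTo f D D) {p : E} (hp : p ∈ D) (hfp : f p = p)
    (hd : fderiv ℂ f p = ContinuousLinearMap.id ℂ E) : ∀ x ∈ D, f x = x := by
  have : CompleteSpace E := FiniteDimensional.complete ℂ E
  obtain ⟨M, hM⟩ := hDb.exists_norm_le
  have hM0 : 0 ≤ M := (norm_nonneg _).trans (hM p hp)
  -- iterates
  have hit : ∀ j : ℕ, DifferentiableOn ℂ (f^[j]) D ∧ MapsTo (f^[j]) D D ∧ f^[j] p = p ∧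
      HasFDerivAt (f^[j]) (ContinuousLinearMap.id ℂ E) p := by
    intro j
    induction j with
    | zero => exact ⟨differentiableOn_id, fun x hx => hx, rfl, hasFDerivAt_id p⟩
    | succ j ih =>
      obtain ⟨h1, h2, h3, h4⟩ := ih
      rw [Function.iterate_succ]
      refine ⟨h1.comp hf hm, h2.comp hm, ?_, ?_⟩
      · simp [hfp, h3]
      · have h5 : HasFDerivAt f (ContinuousLinearMap.id ℂ E) p := by
          rw [← hd]
          exact (hf.differentiableAt (hDo.mem_nhds hp)).hasFDerivAt
        have h6 : HasFDerivAt (f^[j]) (ContinuousLinearMap.id ℂ E) (f p) := by rwa [hfp]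
        simpa using h6.comp p h5
  set A : ℕ → E → E := fun N x => ((N : ℂ)⁻¹) • ∑ j ∈ Finset.range N, f^[j] x with hA
  have hAd : ∀ N, DifferentiableOn ℂ (A N) D := by
    intro N
    rw [hA]
    refine DifferentiableOn.const_smul ?_ _
    exact DifferentiableOn.fun_sum (fun j _ => (hit j).1)
  have hAM : ∀ N, ∀ z ∈ D, ‖A N z‖ ≤ M := by
    intro N z hz
    rcases Nat.eq_zero_or_pos N with rfl | hN
    · simpa [hA] using hM0
    have hN' : (0 : ℝ) < N := by exact_mod_cast hN
    have h1 : ‖∑ j ∈ Finset.range N, f^[j] z‖ ≤ N * M := by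
      calc ‖∑ j ∈ Finset.range N, f^[j] z‖ ≤ ∑ j ∈ Finset.range N, ‖f^[j] z‖ := norm_sum_le _ _
        _ ≤ ∑ j ∈ Finset.range N, M := Finset.sum_le_sum (fun j _ => hM _ ((hit j).2.1 hz))
        _ = N * M := by simp
    rw [hA]
    simp only [norm_smul, norm_inv, Complex.norm_natCast]
    calc (N : ℝ)⁻¹ * ‖∑ j ∈ Finset.range N, f^[j] z‖ ≤ (N : ℝ)⁻¹ * (N * M) := by gcongr
      _ = M := by field_simp
  obtain ⟨a, ha, had, -⟩ := montel_ultra (hyperfilter ℕ) hDo hAd hAM
  have hle : ((hyperfilter ℕ : Ultrafilter ℕ) : Filter ℕ) ≤ atTop := by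
    have := hyperfilter_le_cofinite (α := ℕ)
    rwa [Nat.cofinite_eq_atTop] at this
  -- `a ∘ f = a`
  have haf : ∀ z ∈ D, a (f z) = a z := by
    intro z hz
    have h1 : Tendsto (fun N => A N (f z) - A N z) (hyperfilter ℕ) (𝓝 (a (f z) - a z)) :=
      (ha.tendsto_at (hm hz)).sub (ha.tendsto_at hz)
    have h2 : Tendsto (fun N => A N (f z) - A N z) atTop (𝓝 0) := by
      have h3 : ∀ N : ℕ, ‖A N (f z) - A N z‖ ≤ (N : ℝ)⁻¹ * (2 * M) := by
        intro N
        have h4 : A N (f z) - A N z = ((N : ℂ)⁻¹) • (f^[N] z - z) := by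
          rw [hA]
          simp only
          rw [← smul_sub, ← Finset.sum_sub_distrib]
          congr 1
          have : ∀ j, f^[j] (f z) - f^[j] z = f^[j+1] z - f^[j] z := by
            intro j; rw [Function.iterate_succ, Function.comp_apply]
          simp only [this]
          exact Finset.sum_range_sub (fun j => f^[j] z) N
        rw [h4, norm_smul, norm_inv, Complex.norm_natCast]
        gcongr
        calc ‖f^[N] z - z‖ ≤ ‖f^[N] z‖ + ‖z‖ := norm_sub_le _ _
          _ ≤ 2 * M := by
            have := hM _ ((hit N).2.1 hz)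
            have := hM z hz
            linarith
      refine squeeze_zero_norm h3 ?_
      have : Tendsto (fun N : ℕ => (N : ℝ)⁻¹ * (2 * M)) atTop (𝓝 (0 * (2 * M))) :=
        (tendsto_inv_atTop_nhds_zero_nat).mul_const _
      simpa using this
    have h5 := tendsto_nhds_unique h1 (h2.mono_left hle)
    exact sub_eq_zero.1 h5
  -- `a'(p) = id`
  have hap : fderiv ℂ a p = ContinuousLinearMap.id ℂ E := by
    have h1 : Tendsto (fun N => fderiv ℂ (A N) p) (hyperfilter ℕ) (𝓝 (fderiv ℂ a p)) :=
      (tlu_fderiv hDo ha (Eventually.of_forall hAd)).tendsto_at hp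
    have h2 : Tendsto (fun N => fderiv ℂ (A N) p) atTop (𝓝 (ContinuousLinearMap.id ℂ E)) := by
      refine Tendsto.congr' ?_ tendsto_const_nhds
      filter_upwards [eventually_gt_atTop 0] with N hN
      have hN' : (N : ℂ) ≠ 0 := by exact_mod_cast hN.ne'
      have h3 : HasFDerivAt (A N) ((N : ℂ)⁻¹ •
          ∑ j ∈ Finset.range N, (ContinuousLinearMap.id ℂ E)) p := by
        rw [hA]
        refine HasFDerivAt.const_smul ?_ _
        exact HasFDerivAt.fun_sum (fun j _ => (hit j).2.2.2)
      rw [h3.fderiv]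
      simp only [Finset.sum_const, Finset.card_range]
      rw [← Nat.cast_smul_eq_nsmul ℂ, smul_smul, inv_mul_cancel₀ hN', one_smul]
    exact tendsto_nhds_unique h1 (h2.mono_left hle)
  -- injectivity of `a` near `p`
  have haa : AnalyticAt ℂ a p := analyticOnNhd_of_differentiableOn hDo had p hp
  have hstrict : HasStrictFDerivAt a ((ContinuousLinearEquiv.refl ℂ E : E ≃L[ℂ] E) : E →L[ℂ] E) p := by
    have := haa.hasStrictFDerivAt
    rw [hap] at this
    exact this
  obtain ⟨s, hs, hinj⟩ : ∃ s ∈ 𝓝 p, InjOn a s :=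
    ⟨(hstrict.toOpenPartialHomeomorph a).source,
      (hstrict.toOpenPartialHomeomorph a).open_source.mem_nhds
        (hstrict.mem_toOpenPartialHomeomorph_source),
      (hstrict.toOpenPartialHomeomorph a).injOn⟩
  have hev : f =ᶠ[𝓝 p] fun x => x := by
    have hfc : Tendsto f (𝓝 p) (𝓝 p) := by
      have := (hf.differentiableAt (hDo.mem_nhds hp)).continuousAt
      rw [ContinuousAt, hfp] at this
      exact this
    filter_upwards [hs, hfc hs, hDo.mem_nhds hp] with z hz hfz hzD
    exact hinj hfz hz (haf z hzD)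
  exact eqOn_of_eventuallyEq hDo hDc hf differentiableOn_id hp hev

end Crest.Agent.R264
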