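import Mathlib
import Crest.Agent.R264.CX

/-!
Row 264 (S0402), part D8 (a),(b): the Casimir element of the Killing form (helper851).
Pure algebra.
-/

set_option autoImplicit false
set_option linter.unusedSectionVars false

open scoped TensorProduct
open Module

namespace Crest.Agent.R264.Cas

variable (g : Type*) [LieRing g] [LieAlgebra ℝ g] [FiniteDimensional ℝ g]
  [LieAlgebra.IsKilling ℝ g]

/-- a basis of `g` -/
noncomputable def kb : Basis (Fin (finrank ℝ g)) ℝ g := Module.finBasis ℝ g

/-- the Killing-dual basis -/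
noncomputable def kd : Basis (Fin (finrank ℝ g)) ℝ g :=
  LinearMap.BilinForm.dualBasis (killingForm ℝ g)
    (LieAlgebra.IsKilling.killingForm_nondegenerate ℝ g) (kb g)

variable {g}

lemma kf_symm (u v : g) : killingForm ℝ g u v = killingForm ℝ g v u :=
  LieModule.traceForm_comm ℝ g g u v

/-- `u = ∑ κ(u, b_i) b'_i`. -/
lemma sum_kd (u : g) : ∑ i, killingForm ℝ g u (kb g i) • kd g i = u := by
  have h := (kd g).sum_repr u
  have h2 : ∀ i, (kd g).repr u i = killingForm ℝ g u (kb g i) := fun i =>
    LinearMap.BilinForm.dualBasis_repr_apply _ _ _ _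
  simpa [h2] using h

/-- `u = ∑ κ(u, b'_i) b_i`. -/
lemma sum_kb (u : g) : ∑ i, killingForm ℝ g u (kd g i) • kb g i = u := by
  have h := (kb g).sum_repr u
  have h2 : ∀ i, (kb g).repr u i = killingForm ℝ g u (kd g i) := by
    intro i
    conv_rhs => rw [← (kb g).sum_repr u]
    rw [map_sum, LinearMap.sum_apply]
    have h3 : ∀ j, killingForm ℝ g ((kb g).repr u j • kb g j) (kd g i)
        = if j = i then (kb g).repr u j else 0 := by
      intro j
      rw [map_smul, LinearMap.smul_apply, kf_symm, kd, LinearMap.BilinForm.apply_dualBasis_left]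
      split_ifs <;> simp
    rw [Finset.sum_congr rfl fun j _ => h3 j]
    simp
  simpa [h2] using h

/-- the Casimir element is invariant under automorphisms -/
lemma sum_equiv {M : Type*} [AddCommGroup M] [Module ℝ M] (φ : g ≃ₗ⁅ℝ⁆ g)
    (β : g →ₗ[ℝ] g →ₗ[ℝ] M) :
    ∑ i, β (φ (kb g i)) (φ (kd g i)) = ∑ i, β (kb g i) (kd g i) := by
  have h1 : ∀ i, φ (kb g i) = ∑ j, killingForm ℝ g (φ (kb g i)) (kd g j) • kb g j := fun i =>
    (sum_kb _).symm
  calc ∑ i, β (φ (kb g i)) (φ (kd g i))
      = ∑ i, ∑ j, killingForm ℝ g (φ (kb g i)) (kd g j) • β (kb g j) (φ (kd g i)) := by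
        refine Finset.sum_congr rfl fun i _ => ?_
        conv_lhs => rw [h1 i]
        rw [map_sum, LinearMap.sum_apply]
        refine Finset.sum_congr rfl fun j _ => ?_
        rw [map_smul, LinearMap.smul_apply]
    _ = ∑ j, ∑ i, killingForm ℝ g (φ (kb g i)) (kd g j) • β (kb g j) (φ (kd g i)) :=
        Finset.sum_comm
    _ = ∑ j, β (kb g j) (kd g j) := by
        refine Finset.sum_congr rfl fun j _ => ?_
        have h2 : ∑ i, killingForm ℝ g (φ (kb g i)) (kd g j) • φ (kd g i) = kd g j := by
          have h3 : ∀ i, killingForm ℝ g (φ (kb g i)) (kd g j)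
              = killingForm ℝ g (φ.symm (kd g j)) (kb g i) := by
            intro i
            rw [← LieAlgebra.killingForm_of_equiv_apply φ (φ.symm (kd g j)) (kb g i),
              LieEquiv.apply_symm_apply, kf_symm]
          simp_rw [h3]
          have h4 := congrArg (φ : g ≃ₗ[ℝ] g) (sum_kd (φ.symm (kd g j)))
          rw [map_sum] at h4
          have h5 : (φ : g ≃ₗ[ℝ] g) (φ.symm (kd g j)) = kd g j := φ.apply_symm_apply _
          rw [h5] at h4
          conv_rhs => rw [← h4]
          refine Finset.sum_congr rfl fun i _ => ?_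
          rw [map_smul]
          rfl
        conv_rhs => rw [← h2]
        rw [map_sum]
        refine Finset.sum_congr rfl fun i _ => ?_
        rw [map_smul]

/-! ### complexification -/

/-- complexification of an endomorphism -/
noncomputable def endC {V : Type*} [AddCommGroup V] [Module ℝ V] (A : V →ₗ[ℝ] V) :
    CX V →ₗ[ℂ] CX V where
  toFun x := ⟨A x.re, A x.im⟩
  map_add' x y := by ext <;> simp
  map_smul' c x := by ext <;> simp

lemma basis_apply {V : Type*} [AddCommGroup V] [Module ℝ V] {ι : Type*} [Fintype ι]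
    (b : Basis ι ℝ V) (i : ι) : (CX.basis b i : CX V) = CX.of (b i) := by
  classical
  rw [CX.basis, Basis.coe_ofEquivFun]
  show (⟨∑ j, ((Pi.single i (1 : ℂ) : ι → ℂ) j).re • b j,
    ∑ j, ((Pi.single i (1 : ℂ) : ι → ℂ) j).im • b j⟩ : CX V) = ⟨b i, 0⟩
  congr 1
  · rw [Finset.sum_eq_single i]
    · simp
    · intro j _ hj; simp [Pi.single_eq_of_ne hj]
    · simp
  · refine Finset.sum_eq_zero fun j _ => ?_
    by_cases hj : j = i
    · subst hj; simp
    · simp [Pi.single_eq_of_ne hj]

lemma basis_repr {V : Type*} [AddCommGroup V] [Module ℝ V] {ι : Type*} [Fintype ι]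
    (b : Basis ι ℝ V) (x : CX V) (i : ι) :
    (CX.basis b).repr x i = ⟨b.repr x.re i, b.repr x.im i⟩ := rfl

lemma trace_endC {V : Type*} [AddCommGroup V] [Module ℝ V] {ι : Type*} [Fintype ι]
    (b : Basis ι ℝ V) (A : V →ₗ[ℝ] V) :
    LinearMap.trace ℂ (CX V) (endC A) = ((LinearMap.trace ℝ V A : ℝ) : ℂ) := by
  classical
  rw [LinearMap.trace_eq_matrix_trace ℂ (CX.basis b), LinearMap.trace_eq_matrix_trace ℝ b,
    Matrix.trace, Matrix.trace, Complex.ofReal_sum]
  refine Finset.sum_congr rfl fun i _ => ?_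
  rw [Matrix.diag_apply, Matrix.diag_apply, LinearMap.toMatrix_apply, LinearMap.toMatrix_apply,
    basis_apply, basis_repr]
  apply Complex.ext <;> simp [endC]

/-- `killingForm` of the complexification on real elements -/
lemma kf_of (u v : g) :
    killingForm ℂ (CX g) (CX.of u) (CX.of v) = ((killingForm ℝ g u v : ℝ) : ℂ) := by
  rw [killingForm_apply_apply, killingForm_apply_apply, ← trace_endC (Module.finBasis ℝ g)]
  congr 1
  ext x
  · simp [endC]
  · simp [endC]

lemma kf_of_right (Y : CX g) (v : g) :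
    killingForm ℂ (CX g) Y (CX.of v)
      = (killingForm ℝ g Y.re v : ℝ) + Complex.I * (killingForm ℝ g Y.im v : ℝ) := by
  conv_lhs => rw [CX.eq_of_add Y]
  rw [map_add, LinearMap.add_apply, map_smul, LinearMap.smul_apply, kf_of, kf_of, smul_eq_mul]

/-- `Y = ∑ κ_C(Y, b'_i) b_i` in the complexification. -/
lemma sum_kbC (Y : CX g) :
    ∑ i, killingForm ℂ (CX g) Y (CX.of (kd g i)) • CX.of (kb g i) = Y := by
  have h : ∀ i, killingForm ℂ (CX g) Y (CX.of (kd g i)) • CX.of (kb g i)
      = CX.of (killingForm ℝ g Y.re (kd g i) • kb g i)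
        + Complex.I • CX.of (killingForm ℝ g Y.im (kd g i) • kb g i) := by
    intro i
    rw [kf_of_right, add_smul, CX.of_smul, CX.of_smul, mul_smul]
  rw [Finset.sum_congr rfl fun i _ => h i, Finset.sum_add_distrib, ← Finset.smul_sum]
  have h2 : ∀ f : Fin (finrank ℝ g) → g, ∑ i, CX.of (f i) = CX.of (∑ i, f i) := by
    intro f
    let F : g →+ CX g := { toFun := CX.of, map_zero' := rfl, map_add' := CX.of_add }
    exact (map_sum F f Finset.univ).symm
  rw [h2, h2, sum_kb, sum_kb, ← CX.eq_of_add]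

end Crest.Agent.R264.Cas
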