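import Mathlib
import Crest.Agent.R264.CasAlg
import Crest.Agent.R266.Osgood

/-!
Row 264 (S0402), part D8 (a),(b): behaviour of the divergence of a holomorphic vector field under
push-forward (helper851).
-/

set_option autoImplicit false
set_option linter.unusedSectionVars false

open Set Filter Topology
open scoped TensorProduct
open Module

namespace Crest.Agent.R264.Cas

variable {E : Type*} [NormedAddCommGroup E] [NormedSpace ℂ E] [FiniteDimensional ℂ E]

/-- trace of a continuous endomorphism, as a continuous linear map -/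
noncomputable def trL (E : Type*) [NormedAddCommGroup E] [NormedSpace ℂ E]
    [FiniteDimensional ℂ E] : (E →L[ℂ] E) →L[ℂ] ℂ :=
  haveI : FiniteDimensional ℂ (E →L[ℂ] E) :=
    FiniteDimensional.of_injective (ContinuousLinearMap.coeLM ℂ) ContinuousLinearMap.coe_injective
  LinearMap.toContinuousLinearMap ((LinearMap.trace ℂ E) ∘ₗ (ContinuousLinearMap.coeLM ℂ))

lemma trL_apply (A : E →L[ℂ] E) : trL E A = LinearMap.trace ℂ E (A : E →ₗ[ℂ] E) := rfl

lemma trL_comm (A B : E →L[ℂ] E) : trL E (A.comp B) = trL E (B.comp A) := by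
  rw [trL_apply, trL_apply]
  exact LinearMap.trace_comp_comm' (A : E →ₗ[ℂ] E) (B : E →ₗ[ℂ] E) |>.symm ▸ rfl

/-- the divergence at `x` of the vector field `X` -/
noncomputable def divv (X : E → E) (x : E) : ℂ :=
  LinearMap.trace ℂ E ((fderiv ℂ X x : E →L[ℂ] E) : E →ₗ[ℂ] E)

lemma divv_eq (X : E → E) (x : E) : divv X x = trL E (fderiv ℂ X x) := rfl

/-- the functional `λ_x(w) = tr (f''(x)(·, w) ∘ h'(f x))`, `h = f⁻¹` -/
noncomputable def lamL (f h : E → E) (x : E) : E →L[ℂ] ℂ :=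
  (trL E).comp (((ContinuousLinearMap.compL ℂ E E E).flip (fderiv ℂ h (f x))).comp
    (fderiv ℂ (fderiv ℂ f) x).flip)

lemma lamL_apply (f h : E → E) (x w : E) :
    lamL f h x w = trL E (((fderiv ℂ (fderiv ℂ f) x).flip w).comp (fderiv ℂ h (f x))) := rfl

lemma fderiv_fderiv_diff {D : Set E} (hD : IsOpen D) {F : Type*} [NormedAddCommGroup F]
    [NormedSpace ℂ F] [CompleteSpace F] {f : E → F} (hf : DifferentiableOn ℂ f D) :
    DifferentiableOn ℂ (fderiv ℂ f) D :=
  (R266.SCV.analyticOnNhd_of_differentiableOn hD hf).fderiv.differentiableOn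

/-- derivative of a composition `h ∘ f = id`. -/
lemma fderiv_comp_id {D : Set E} (hD : IsOpen D) {f h : E → E} (hf : DifferentiableOn ℂ f D)
    (hh : DifferentiableOn ℂ h D) (hm : MapsTo f D D) (hid : ∀ x ∈ D, h (f x) = x) {x : E}
    (hx : x ∈ D) :
    (fderiv ℂ h (f x)).comp (fderiv ℂ f x) = ContinuousLinearMap.id ℂ E ∧
    (fderiv ℂ f x).comp (fderiv ℂ h (f x)) = ContinuousLinearMap.id ℂ E := by
  have h1 : (fderiv ℂ h (f x)).comp (fderiv ℂ f x) = ContinuousLinearMap.id ℂ E := by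
    have e : (fun y => h (f y)) =ᶠ[𝓝 x] fun y => y := by
      filter_upwards [hD.mem_nhds hx] with y hy using hid y hy
    have h2 := e.fderiv_eq (𝕜 := ℂ)
    rw [fderiv_fun_comp (𝕜 := ℂ) x (hh.differentiableAt (hD.mem_nhds (hm hx)))
      (hf.differentiableAt (hD.mem_nhds hx))] at h2
    rw [h2]
    exact fderiv_fun_id
  refine ⟨h1, ?_⟩
  have h3 : ((fderiv ℂ h (f x) : E →L[ℂ] E) : E →ₗ[ℂ] E) ∘ₗ ((fderiv ℂ f x : E →L[ℂ] E) :
      E →ₗ[ℂ] E) = LinearMap.id := by
    ext v
    exact congrArg (fun A : E →L[ℂ] E => A v) h1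
  have h4 := (LinearMap.comp_eq_id_comm ℂ E).1 h3
  ext v
  exact congrArg (fun A : E →ₗ[ℂ] E => A v) h4

/-- **Divergence of a push-forward.** -/
theorem divv_push {D : Set E} (hD : IsOpen D) {f h : E → E} (hf : DifferentiableOn ℂ f D)
    (hh : DifferentiableOn ℂ h D) (hm : MapsTo f D D) (hid : ∀ x ∈ D, h (f x) = x)
    {X Y : E → E} (hX : DifferentiableOn ℂ X D) (hY : DifferentiableOn ℂ Y D)
    (hXY : ∀ x ∈ D, Y (f x) = fderiv ℂ f x (X x)) {x : E} (hx : x ∈ D) :
    divv Y (f x) = divv X x + lamL f h x (X x) := by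
  have hxn := hD.mem_nhds hx
  have e : (fun y => Y (f y)) =ᶠ[𝓝 x] fun y => fderiv ℂ f y (X y) := by
    filter_upwards [hxn] with y hy using hXY y hy
  have h2 := e.fderiv_eq (𝕜 := ℂ)
  rw [fderiv_fun_comp (𝕜 := ℂ) x (hY.differentiableAt (hD.mem_nhds (hm hx)))
      (hf.differentiableAt hxn),
    fderiv_clm_apply ((fderiv_fderiv_diff hD hf).differentiableAt hxn)
      (hX.differentiableAt hxn)] at h2
  obtain ⟨hST, hTS⟩ := fderiv_comp_id hD hf hh hm hid hx
  have h3 : fderiv ℂ Y (f x) = ((fderiv ℂ f x).comp (fderiv ℂ X x)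
      + (fderiv ℂ (fderiv ℂ f) x).flip (X x)).comp (fderiv ℂ h (f x)) := by
    rw [← h2, ContinuousLinearMap.comp_assoc, hTS, ContinuousLinearMap.comp_id]
  rw [divv_eq, divv_eq, lamL_apply, h3, ContinuousLinearMap.add_comp, map_add]
  congr 1
  rw [ContinuousLinearMap.comp_assoc, trL_comm, ContinuousLinearMap.comp_assoc, hST,
    ContinuousLinearMap.comp_id]

lemma divv_add {X Y : E → E} {x : E} (hX : DifferentiableAt ℂ X x)
    (hY : DifferentiableAt ℂ Y x) : divv (fun y => X y + Y y) x = divv X x + divv Y x := by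
  rw [divv_eq, divv_eq, divv_eq, fderiv_fun_add hX hY, map_add]

lemma divv_const_smul {X : E → E} {x : E} (c : ℂ) (hX : DifferentiableAt ℂ X x) :
    divv (fun y => c • X y) x = c * divv X x := by
  rw [divv_eq, divv_eq, fderiv_fun_const_smul hX, map_smul, smul_eq_mul]

lemma divv_congr {D : Set E} (hD : IsOpen D) {X Y : E → E} (h : ∀ x ∈ D, X x = Y x) {x : E}
    (hx : x ∈ D) : divv X x = divv Y x := by
  have e : X =ᶠ[𝓝 x] Y := by
    filter_upwards [hD.mem_nhds hx] with y hy using h y hy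
  rw [divv_eq, divv_eq, e.fderiv_eq]

lemma divv_diff {D : Set E} (hD : IsOpen D) {X : E → E} (hX : DifferentiableOn ℂ X D) :
    DifferentiableOn ℂ (divv X) D := by
  have h1 := fderiv_fderiv_diff hD hX
  exact (trL E).differentiable.comp_differentiableOn h1

end Crest.Agent.R264.Cas
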