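import Crest.Agent.R264.Montel

/-!
Row 264, part D, node D4 (LEMMA I): final forms, no hypotheses left (helper420).
-/

set_option autoImplicit false

open Set Filter Topology Metric Complex

noncomputable section

namespace Crest.Agent.R264.LemI

variable {E : Type*} [NormedAddCommGroup E] [NormedSpace ℂ E] [FiniteDimensional ℂ E]

/-- **LEMMA I**. -/
theorem lemI {j : ℕ} (hj : 0 < j) {D : Set E} (hDo : IsOpen D) (hDc : IsPreconnected D)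
    (hDb : Bornology.IsBounded D) {K0 : Set E} (hK : IsCompact K0) (hKD : K0 ⊆ D)
    (Γ : Set (E → E)) (hΓ : ∀ γ ∈ Γ, DifferentiableOn ℂ γ D ∧ MapsTo γ D D)
    (hcov : ∀ x ∈ D, ∃ γ ∈ Γ, ∃ κ ∈ K0, γ κ = x)
    (s : E → MultilinearMap ℂ (fun _ : Fin j => E →L[ℂ] ℂ) ℂ)
    (hs : ∀ ξ, DifferentiableOn ℂ (fun x => s x ξ) D)
    (hinv : ∀ γ ∈ Γ, ∃ c : ℂ, ‖c‖ = 1 ∧ ∀ x ∈ D, ∀ ξ,
      s (γ x) ξ = c * s x (fun i => (ξ i).comp (fderiv ℂ γ x))) :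
    ∀ x ∈ D, s x = 0 :=
  lemI_of_montel hj hDo hDc hDb hK hKD Γ hΓ hcov (montelOn hDo) s hs hinv

/-- Lemma I for finite sums of decomposable tensor fields. -/
theorem lemI_sum {j : ℕ} (hj : 0 < j) {D : Set E} (hDo : IsOpen D) (hDc : IsPreconnected D)
    (hDb : Bornology.IsBounded D) {K0 : Set E} (hK : IsCompact K0) (hKD : K0 ⊆ D)
    (Γ : Set (E → E)) (hΓ : ∀ γ ∈ Γ, DifferentiableOn ℂ γ D ∧ MapsTo γ D D)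
    (hcov : ∀ x ∈ D, ∃ γ ∈ Γ, ∃ κ ∈ K0, γ κ = x)
    {ι : Type*} [Fintype ι] (X : ι → Fin j → E → E) (hX : ∀ a i, DifferentiableOn ℂ (X a i) D)
    (hinv : ∀ γ ∈ Γ, ∃ c : ℂ, ‖c‖ = 1 ∧ ∀ x ∈ D, ∀ ξ : Fin j → (E →L[ℂ] ℂ),
      ∑ a, ∏ i, ξ i (X a i (γ x)) = c * ∑ a, ∏ i, ξ i (fderiv ℂ γ x (X a i x))) :
    ∀ x ∈ D, ∀ ξ : Fin j → (E →L[ℂ] ℂ), ∑ a, ∏ i, ξ i (X a i x) = 0 :=
  lemI_sum_of_montel hj hDo hDc hDb hK hKD Γ hΓ hcov (montelOn hDo) X hX hinv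

/-- Lemma I for vector fields: a holomorphic vector field which is `Γ`-invariant up to unimodular
constants vanishes. -/
theorem lemI_vec {D : Set E} (hDo : IsOpen D) (hDc : IsPreconnected D)
    (hDb : Bornology.IsBounded D) {K0 : Set E} (hK : IsCompact K0) (hKD : K0 ⊆ D)
    (Γ : Set (E → E)) (hΓ : ∀ γ ∈ Γ, DifferentiableOn ℂ γ D ∧ MapsTo γ D D)
    (hcov : ∀ x ∈ D, ∃ γ ∈ Γ, ∃ κ ∈ K0, γ κ = x)
    (X : E → E) (hX : DifferentiableOn ℂ X D)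
    (hinv : ∀ γ ∈ Γ, ∃ c : ℂ, ‖c‖ = 1 ∧ ∀ x ∈ D, X (γ x) = c • fderiv ℂ γ x (X x)) :
    ∀ x ∈ D, X x = 0 :=
  lemI_vec_of_montel hDo hDc hDb hK hKD Γ hΓ hcov (montelOn hDo) X hX hinv

/-- Lemma I for finite sums of products of two vector fields. -/
theorem lemI_two {D : Set E} (hDo : IsOpen D) (hDc : IsPreconnected D)
    (hDb : Bornology.IsBounded D) {K0 : Set E} (hK : IsCompact K0) (hKD : K0 ⊆ D)
    (Γ : Set (E → E)) (hΓ : ∀ γ ∈ Γ, DifferentiableOn ℂ γ D ∧ MapsTo γ D D)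
    (hcov : ∀ x ∈ D, ∃ γ ∈ Γ, ∃ κ ∈ K0, γ κ = x)
    {ι : Type*} [Fintype ι] (X Y : ι → E → E) (hX : ∀ a, DifferentiableOn ℂ (X a) D)
    (hY : ∀ a, DifferentiableOn ℂ (Y a) D)
    (hinv : ∀ γ ∈ Γ, ∃ c : ℂ, ‖c‖ = 1 ∧ ∀ x ∈ D, ∀ ξ η : E →L[ℂ] ℂ,
      ∑ a, ξ (X a (γ x)) * η (Y a (γ x)) =
        c * ∑ a, ξ (fderiv ℂ γ x (X a x)) * η (fderiv ℂ γ x (Y a x))) :
    ∀ x ∈ D, ∀ ξ η : E →L[ℂ] ℂ, ∑ a, ξ (X a x) * η (Y a x) = 0 :=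
  lemI_two_of_montel hDo hDc hDb hK hKD Γ hΓ hcov (montelOn hDo) X Y hX hY hinv

end Crest.Agent.R264.LemI
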