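import Mathlib
import Crest.Agent.R264.CasDiv
import Crest.Agent.R264.DIface
import Crest.Agent.R264.LemIFin

/-!
Row 264 (S0402), part D8 (a),(b): vanishing of the Casimir sections (helper851).

`ev x : g →ₗ[ℝ] E` is the evaluation at `x`; `LemIProp D Γ` is the conclusion of Lemma I (D4).
-/

set_option autoImplicit false
set_option linter.unusedSectionVars false

open Set Filter Topology
open scoped TensorProduct
open Module

namespace Crest.Agent.R264.Cas

section

variable {E : Type*} [NormedAddCommGroup E] [NormedSpace ℂ E]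

/-- the conclusion of Lemma I (D4) for the domain `D` and the group `Γ` -/
def LemIProp (D : Set E) (Γ : Set (E → E)) : Prop :=
  ∀ (j : ℕ), 0 < j → ∀ s : E → MultilinearMap ℂ (fun _ : Fin j => E →L[ℂ] ℂ) ℂ,
    (∀ ξ, DifferentiableOn ℂ (fun x => s x ξ) D) →
    (∀ γ ∈ Γ, ∃ c : ℂ, ‖c‖ = 1 ∧ ∀ x ∈ D, ∀ ξ,
      s (γ x) ξ = c * s x (fun i => (ξ i).comp (fderiv ℂ γ x))) →
    ∀ x ∈ D, s x = 0

/-- evaluation of covectors at `u` -/
noncomputable def evAt (u : E) : (E →L[ℂ] ℂ) →ₗ[ℂ] ℂ where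
  toFun ξ := ξ u
  map_add' _ _ := rfl
  map_smul' _ _ := rfl

/-- `ξ ↦ ξ₀ u` -/
noncomputable def ten1 (u : E) : MultilinearMap ℂ (fun _ : Fin 1 => E →L[ℂ] ℂ) ℂ :=
  (MultilinearMap.mkPiAlgebra ℂ (Fin 1) ℂ).compLinearMap (fun _ => evAt u)

/-- `ξ ↦ ξ₀ u * ξ₁ v` -/
noncomputable def ten2 (u v : E) : MultilinearMap ℂ (fun _ : Fin 2 => E →L[ℂ] ℂ) ℂ :=
  (MultilinearMap.mkPiAlgebra ℂ (Fin 2) ℂ).compLinearMap (fun k => evAt (![u, v] k))

lemma ten1_apply (u : E) (ξ : Fin 1 → E →L[ℂ] ℂ) : ten1 u ξ = ξ 0 u := by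
  simp [ten1, evAt]

lemma ten2_apply (u v : E) (ξ : Fin 2 → E →L[ℂ] ℂ) : ten2 u v ξ = ξ 0 u * ξ 1 v := by
  simp [ten2, evAt, Fin.prod_univ_two]

end

variable {g : Type*} [LieRing g] [LieAlgebra ℝ g] [FiniteDimensional ℝ g]
  [LieAlgebra.IsKilling ℝ g]
variable {E : Type*} [NormedAddCommGroup E] [NormedSpace ℂ E]

/-- Data of this file: the evaluation maps, and a set `Γ` of automorphisms acting on `g`. -/
structure CasData (D : Set E) (Γ : Set (E → E)) (ev : E → (g →ₗ[ℝ] E)) : Prop where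
  op : IsOpen D
  hol : ∀ X : g, DifferentiableOn ℂ (fun x => ev x X) D
  grp : ∀ γ ∈ Γ, DifferentiableOn ℂ γ D ∧ MapsTo γ D D ∧
    (∃ h : E → E, DifferentiableOn ℂ h D ∧ ∀ x ∈ D, h (γ x) = x) ∧
    ∃ φ : g ≃ₗ⁅ℝ⁆ g, ∀ x ∈ D, ∀ X, ev (γ x) (φ X) = fderiv ℂ γ x (ev x X)
  lemI : LemIProp D Γ

variable {D : Set E} {Γ : Set (E → E)} {ev : E → (g →ₗ[ℝ] E)}

/-- the bilinear map `(X, Y) ↦ l X • m Y`, `l : g → ℂ`, `m : g → M` real linear -/
noncomputable def bil {M : Type*} [AddCommGroup M] [Module ℂ M] (l : g →ₗ[ℝ] ℂ)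
    (m : g →ₗ[ℝ] M) : g →ₗ[ℝ] g →ₗ[ℝ] M :=
  LinearMap.mk₂ ℝ (fun X Y => l X • m Y) (fun X X' Y => by simp [add_smul])
    (fun c X Y => by simp only [map_smul]; rw [smul_assoc])
    (fun X Y Y' => by simp) (fun c X Y => by simp only [map_smul]; rw [smul_comm])

lemma bil_apply {M : Type*} [AddCommGroup M] [Module ℂ M] (l : g →ₗ[ℝ] ℂ)
    (m : g →ₗ[ℝ] M) (X Y : g) : bil l m X Y = l X • m Y := rfl

/-- the covector `ξ` composed with evaluation -/
noncomputable def cov (ev : E → (g →ₗ[ℝ] E)) (x : E) (ξ : E →L[ℂ] ℂ) : g →ₗ[ℝ] ℂ :=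
  ((ξ : E →ₗ[ℂ] ℂ).restrictScalars ℝ) ∘ₗ ev x

lemma cov_apply (x : E) (ξ : E →L[ℂ] ℂ) (X : g) : cov ev x ξ X = ξ (ev x X) := rfl

/-- **the Casimir tensor vanishes**: `∑ ξ(b_i(x)) η(b'_i(x)) = 0`. -/
theorem casimir_zero (H : CasData D Γ ev) {x : E} (hx : x ∈ D) (ξ η : E →L[ℂ] ℂ) :
    ∑ i, ξ (ev x (kb g i)) * η (ev x (kd g i)) = 0 := by
  have h := H.lemI 2 (by norm_num) (fun x => ∑ i, ten2 (ev x (kb g i)) (ev x (kd g i))) ?_ ?_ x hx
  · have h2 := congrArg (fun T => T ![ξ, η]) h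
    simpa [_root_.sum_apply, ten2_apply] using h2
  · intro ζ
    simp only [_root_.sum_apply, ten2_apply]
    refine DifferentiableOn.fun_sum fun i _ => ?_
    exact ((ζ 0).differentiable.comp_differentiableOn (H.hol _)).mul
      ((ζ 1).differentiable.comp_differentiableOn (H.hol _))
  · intro γ hγ
    obtain ⟨hd, hm, -, φ, hφ⟩ := H.grp γ hγ
    refine ⟨1, by simp, fun y hy ζ => ?_⟩
    simp only [_root_.sum_apply, ten2_apply, one_mul]
    have h3 := sum_equiv φ (bil (cov ev (γ y) (ζ 0)) (cov ev (γ y) (ζ 1)))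
    simp only [bil_apply, cov_apply, smul_eq_mul, hφ y hy] at h3
    rw [← h3]
    rfl

variable [FiniteDimensional ℂ E]

/-- the divergence as a linear functional on `g` -/
noncomputable def dvL (H : CasData D Γ ev) (x : E) : g →ₗ[ℝ] ℂ := by
  classical exact
  if hx : x ∈ D then
    { toFun := fun X => divv (fun y => ev y X) x
      map_add' := fun X Y => by
        simp only [map_add]
        exact divv_add ((H.hol X).differentiableAt (H.op.mem_nhds hx))
          ((H.hol Y).differentiableAt (H.op.mem_nhds hx))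
      map_smul' := fun c X => by
        simp only [map_smul, RingHom.id_apply]
        have h := divv_const_smul (c : ℂ) ((H.hol X).differentiableAt (H.op.mem_nhds hx))
        simp only [Complex.coe_smul] at h
        rw [h, Complex.real_smul] }
  else 0

lemma dvL_apply (H : CasData D Γ ev) {x : E} (hx : x ∈ D) (X : g) :
    dvL H x X = divv (fun y => ev y X) x := by
  simp [dvL, hx]

/-- `s₁(x) = ∑ div(b_i)(x) b'_i(x)` -/
noncomputable def sone (ev : E → (g →ₗ[ℝ] E)) (x : E) : E :=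
  ∑ i, divv (fun y => ev y (kb g i)) x • ev x (kd g i)

theorem sone_zero (H : CasData D Γ ev) {x : E} (hx : x ∈ D) : sone ev x = 0 := by
  have hsep : ∀ v : E, (∀ ξ : E →L[ℂ] ℂ, ξ v = 0) → v = 0 := by
    intro v hv
    by_contra hne
    obtain ⟨f, hf⟩ := SeparatingDual.exists_ne_zero (R := ℂ) hne
    exact hf (hv f)
  have h := H.lemI 1 (by norm_num) (fun x => ten1 (sone ev x)) ?_ ?_ x hx
  · refine hsep _ fun ξ => ?_
    have h2 := congrArg (fun T => T ![ξ]) h
    simpa [ten1_apply] using h2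
  · intro ζ
    simp only [ten1_apply, sone, map_sum, map_smul, smul_eq_mul]
    refine DifferentiableOn.fun_sum fun i _ => ?_
    exact (divv_diff H.op (H.hol _)).mul ((ζ 0).differentiable.comp_differentiableOn (H.hol _))
  · intro γ hγ
    obtain ⟨hd, hm, ⟨h', hh, hid⟩, φ, hφ⟩ := H.grp γ hγ
    refine ⟨1, by simp, fun y hy ζ => ?_⟩
    simp only [ten1_apply, one_mul]
    have hgy := hm hy
    have h3 : sone ev (γ y) = fderiv ℂ γ y (sone ev y) := by
      have h4 := sum_equiv φ (bil (dvL H (γ y)) (ev (γ y)))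
      simp only [bil_apply, dvL_apply H hgy, hφ y hy] at h4
      rw [sone, ← h4]
      have h5 : ∀ i, divv (fun z => ev z (φ (kb g i))) (γ y)
          = divv (fun z => ev z (kb g i)) y + lamL γ h' y (ev y (kb g i)) := fun i =>
        divv_push H.op hd hh hm hid (H.hol _) (H.hol _) (fun z hz => hφ z hz _) hy
      simp only [h5, add_smul, Finset.sum_add_distrib]
      have h6 : ∑ i, lamL γ h' y (ev y (kb g i)) • fderiv ℂ γ y (ev y (kd g i)) = 0 := by
        refine hsep _ fun η => ?_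
        have h7 := casimir_zero H hy (lamL γ h' y) (η.comp (fderiv ℂ γ y))
        simpa [map_sum] using h7
      rw [h6, add_zero, sone, map_sum]
      refine Finset.sum_congr rfl fun i _ => ?_
      rw [map_smul]
    rw [h3]
    rfl

/-! ### the complexified statements -/

/-- complexified evaluation -/
noncomputable def evC (ev : E → (g →ₗ[ℝ] E)) (x : E) : CX g →ₗ[ℂ] E := CX.lift (ev x)

/-- complexified divergence -/
noncomputable def dvC (H : CasData D Γ ev) (x : E) : CX g →ₗ[ℂ] ℂ := CX.lift (dvL H x)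

lemma exists_cov {x : E} {Y : CX g}
    (hY : ∀ X, evC ev x X = 0 → killingForm ℂ (CX g) Y X = 0) :
    ∃ ξ : E →L[ℂ] ℂ, ∀ X, killingForm ℂ (CX g) Y X = ξ (evC ev x X) := by
  have h1 : (killingForm ℂ (CX g) Y : Module.Dual ℂ (CX g)) ∈
      (LinearMap.ker (evC ev x)).dualAnnihilator := by
    rw [Submodule.mem_dualAnnihilator]
    intro X hX
    exact hY X (LinearMap.mem_ker.1 hX)
  rw [← LinearMap.range_dualMap_eq_dualAnnihilator_ker] at h1
  obtain ⟨ξ, hξ⟩ := h1
  refine ⟨LinearMap.toContinuousLinearMap ξ, fun X => ?_⟩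
  have := congrArg (fun T => T X) hξ
  simpa using this.symm

/-- **D8 (a)**: a vector Killing-orthogonal to the isotropy algebra lies in it. -/
theorem perp_mem (H : CasData D Γ ev) {x : E} (hx : x ∈ D) {Y : CX g}
    (hY : ∀ X, evC ev x X = 0 → killingForm ℂ (CX g) Y X = 0) : evC ev x Y = 0 := by
  obtain ⟨ξ, hξ⟩ := exists_cov hY
  have hsep : ∀ v : E, (∀ ξ : E →L[ℂ] ℂ, ξ v = 0) → v = 0 := by
    intro v hv
    by_contra hne
    obtain ⟨f, hf⟩ := SeparatingDual.exists_ne_zero (R := ℂ) hne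
    exact hf (hv f)
  refine hsep _ fun η => ?_
  rw [← sum_kbC Y, map_sum, map_sum]
  have h2 := casimir_zero H hx η ξ
  rw [← h2]
  refine Finset.sum_congr rfl fun i _ => ?_
  rw [hξ, map_smul, map_smul, smul_eq_mul, evC, CX.lift_of, CX.lift_of, mul_comm]

/-- **D8 (b)**. -/
theorem perp_div (H : CasData D Γ ev) {x : E} (hx : x ∈ D) {Y : CX g}
    (hY : ∀ X, evC ev x X = 0 → killingForm ℂ (CX g) Y X = 0) : dvC H x Y = 0 := by
  obtain ⟨ξ, hξ⟩ := exists_cov hY
  have h1 := congrArg ξ (sone_zero H hx)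
  rw [sone, map_sum, map_zero] at h1
  rw [← sum_kbC Y, map_sum, ← h1]
  refine Finset.sum_congr rfl fun i _ => ?_
  rw [hξ, map_smul, map_smul, smul_eq_mul, smul_eq_mul, evC, dvC, CX.lift_of, CX.lift_of,
    dvL_apply H hx, mul_comm]

end Crest.Agent.R264.Cas
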