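import Mathlib
import Crest.Agent.R264.CasSec

/-!
Row 264 (S0402), part D8 (a),(b): final statements against `Pack` (helper851).

* `perp_stab` : `DA.Perp (P.stab hD hx) Y → Y ∈ P.stab hD hx`
* `perp_dv`   : `DA.Perp (P.stab hD hx) Y → P.div x Y = 0`
* `div_Ad`    : divergence of a push-forward.
-/

set_option autoImplicit false
set_option linter.unusedSectionVars false

open Set Filter Topology
open Module

namespace Crest.Agent.R264.Cas

variable {n : ℕ} {g : Type*} [LieRing g] [LieAlgebra ℝ g]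

local notation "E" => (Fin n → ℂ)

/-- evaluation at `x` as a linear map -/
noncomputable def evx {D : Set E} (P : Pack D g) (x : E) : g →ₗ[ℝ] E :=
  (LinearMap.proj x : (E → E) →ₗ[ℝ] E) ∘ₗ P.ev

lemma evx_apply {D : Set E} (P : Pack D g) (x : E) (X : g) : evx P x X = P.ev X x := rfl

lemma evx_fun {D : Set E} (P : Pack D g) (X : g) : (fun x => evx P x X) = P.ev X := rfl

/-- Lemma I for the group `Γ`. -/
theorem lemIProp {D : Set E} (hD : IsOpen D) (hc : IsConnected D) (hb : Bornology.IsBounded D)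
    {Γ : Set (E → E)} (hG : Grp D Γ) : LemIProp D Γ := by
  intro j hj s hs hinv
  obtain ⟨K, hKD, hK, hcov⟩ := hG.cocpt
  refine LemI.lemI hj hD hc.isPreconnected hb hK hKD Γ (fun γ hγ => ?_) hcov s hs hinv
  obtain ⟨h, -, hp⟩ := hG.inv γ hγ
  exact ⟨hp.hF, hp.mapsF⟩

theorem casData [FiniteDimensional ℝ g] [LieAlgebra.IsKilling ℝ g] {D : Set E} (hD : IsOpen D)
    (hc : IsConnected D) (hb : Bornology.IsBounded D)
    {Γ : Set (E → E)} (hG : Grp D Γ) (P : Pack D g) : CasData D Γ (evx P) where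
  op := hD
  hol X := P.hol X
  grp γ hγ := by
    obtain ⟨h, -, hp⟩ := hG.inv γ hγ
    exact ⟨hp.hF, hp.mapsF, ⟨h, hp.hG, hp.left⟩, P.Ad hp, fun x hx X => P.ev_Ad hp X x hx⟩
  lemI := lemIProp hD hc hb hG

variable [FiniteDimensional ℝ g] [LieAlgebra.IsKilling ℝ g]

/-- **D8 (a)**. -/
theorem perp_stab {D : Set E} (hD : IsOpen D) (hc : IsConnected D) (hb : Bornology.IsBounded D)
    {Γ : Set (E → E)} (hG : Grp D Γ) (P : Pack D g) {x : E} (hx : x ∈ D) (Y : CX g)
    (hY : DA.Perp (P.stab hD hx) Y) : Y ∈ P.stab hD hx := by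
  rw [P.mem_stab hD hx]
  have h := perp_mem (casData hD hc hb hG P) hx (Y := Y) fun X hX => hY X (by
    rw [P.mem_stab hD hx]
    exact hX)
  exact h

/-- **D8 (b)**. -/
theorem perp_dv {D : Set E} (hD : IsOpen D) (hc : IsConnected D) (hb : Bornology.IsBounded D)
    {Γ : Set (E → E)} (hG : Grp D Γ) (P : Pack D g) {x : E} (hx : x ∈ D) (Y : CX g)
    (hY : DA.Perp (P.stab hD hx) Y) : P.div x Y = 0 := by
  have h := perp_div (casData hD hc hb hG P) hx (Y := Y) fun X hX => hY X (by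
    rw [P.mem_stab hD hx]
    exact hX)
  rw [dvC, CX.lift_apply, dvL_apply _ hx, dvL_apply _ hx] at h
  rw [Pack.div, P.fderiv_evC hD Y hx, ← h]
  simp only [divv, evx_apply]
  have e : ((fderiv ℂ (P.ev Y.re) x + Complex.I • fderiv ℂ (P.ev Y.im) x : E →L[ℂ] E) :
      E →ₗ[ℂ] E) = (fderiv ℂ (P.ev Y.re) x : E →ₗ[ℂ] E)
        + Complex.I • (fderiv ℂ (P.ev Y.im) x : E →ₗ[ℂ] E) := rfl
  rw [e, map_add, map_smul]

/-- divergence of the push-forward of a field of `g`. -/
theorem div_Ad {D : Set E} (hD : IsOpen D) (P : Pack D g) {f h : E → E} (hf : AutPair D f h)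
    {x : E} (hx : x ∈ D) (X : g) :
    divv (P.ev (P.Ad hf X)) (f x) = divv (P.ev X) x + lamL f h x (P.ev X x) :=
  divv_push hD hf.hF hf.hG hf.mapsF hf.left (P.hol _) (P.hol _) (fun y hy => P.ev_Ad hf X y hy) hx

end Crest.Agent.R264.Cas
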