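import Mathlib

/-!
Row 264, Part A, node A4c (helper633): inverse function theorem package; polynomial maps.
-/

set_option autoImplicit false

open Set Topology Filter
open scoped ContDiff

namespace Crest.Agent.R264.Co

/-- local inverse, smooth on its whole domain -/
theorem exists_inv {E F : Type*} [NormedAddCommGroup E] [NormedSpace ℝ E] [CompleteSpace E]
    [NormedAddCommGroup F] [NormedSpace ℝ F] {T : Set E} (hT : IsOpen T) {G : E → F}
    (hG : ContDiffOn ℝ ∞ G T) {a : E} (ha : a ∈ T) (G' : E ≃L[ℝ] F)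
    (hG' : HasFDerivAt G (G' : E →L[ℝ] F) a) :
    ∃ φ : OpenPartialHomeomorph E F, (φ : E → F) = G ∧ a ∈ φ.source ∧ φ.source ⊆ T ∧
      ContDiffOn ℝ ∞ φ.symm φ.target := by
  have hGa : ContDiffAt ℝ ∞ G a := hG.contDiffAt (hT.mem_nhds ha)
  have hne : (∞ : WithTop ℕ∞) ≠ 0 := by simp
  let φ0 := hGa.toOpenPartialHomeomorph G hG' hne
  let S : Set E := T ∩ fderiv ℝ G ⁻¹' (Set.range ((↑) : (E ≃L[ℝ] F) → (E →L[ℝ] F)))
  have hS : IsOpen S :=
    (hG.continuousOn_fderiv_of_isOpen hT (by norm_cast)).isOpen_inter_preimage hT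
      (ContinuousLinearEquiv.isOpen)
  have haS : a ∈ S := ⟨ha, G', by rw [hG'.fderiv]⟩
  refine ⟨φ0.restrOpen S hS, rfl, ⟨hGa.mem_toOpenPartialHomeomorph_source hG' hne, haS⟩,
    fun x hx => hx.2.1, ?_⟩
  intro y hy
  have hy1 : (φ0.restrOpen S hS).symm y ∈ (φ0.restrOpen S hS).source :=
    (φ0.restrOpen S hS).map_target hy
  obtain ⟨e, he⟩ := hy1.2.2
  have hd : DifferentiableAt ℝ G ((φ0.restrOpen S hS).symm y) :=
    (hG.contDiffAt (hT.mem_nhds hy1.2.1)).differentiableAt hne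
  have := (φ0.restrOpen S hS).contDiffAt_symm (n := ∞) hy (f₀' := e)
    (by rw [he]; exact hd.hasFDerivAt) (hG.contDiffAt (hT.mem_nhds hy1.2.1))
  exact this.contDiffWithinAt

theorem contDiff_eval {𝕜 : Type*} [RCLike 𝕜] {σ : Type*} [Fintype σ] (p : MvPolynomial σ 𝕜) :
    ContDiff 𝕜 ω (fun x : σ → 𝕜 => MvPolynomial.eval x p) := by
  induction p using MvPolynomial.induction_on with
  | C a => simp only [MvPolynomial.eval_C]; exact contDiff_const
  | add p q hp hq => simp only [map_add]; exact hp.add hq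
  | mul_X p i hp =>
    simp only [map_mul, MvPolynomial.eval_X]
    exact hp.mul (contDiff_apply 𝕜 𝕜 i)

end Crest.Agent.R264.Co
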