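import Crest.Agent.R264.JLDefs
import Crest.Agent.R264.CoInv

/-!
Row 264, Part A, node A4c (helper633): a smooth parametrised submanifold `q : T → ℂ^m × ℂ^k` with
tangent space `ℂ^m × ℝ^k` at `q τ₁ = 0` is a graph `w = u + i Ht(z,u)` near `0`.
-/

set_option autoImplicit false

open Set Topology Filter Metric Complex
open scoped ContDiff

namespace Crest.Agent.R264.Co

open Crest.Agent.R264.JL

variable {m k : ℕ}

/-- `(z,w) ↦ (z, Re w)` -/
noncomputable def prR : E m k →L[ℝ] P m k :=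
  (ContinuousLinearMap.fst ℝ (Fin m → ℂ) (Fin k → ℂ)).prod
    (reV ∘L (ContinuousLinearMap.snd ℝ (Fin m → ℂ) (Fin k → ℂ)))

/-- `(z,w) ↦ Im w` -/
noncomputable def imR : E m k →L[ℝ] (Fin k → ℝ) :=
  imV ∘L (ContinuousLinearMap.snd ℝ (Fin m → ℂ) (Fin k → ℂ))

@[simp] lemma prR_fst (p : E m k) : (prR p).1 = p.1 := rfl
@[simp] lemma prR_snd (p : E m k) (i : Fin k) : (prR p).2 i = (p.2 i).re := rfl
@[simp] lemma imR_apply (p : E m k) (i : Fin k) : imR p i = (p.2 i).im := rfl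

lemma eq_of_pr_im (p : E m k) : p = ((prR p).1, ofR (prR p).2 + I • ofR (imR p)) := by
  refine Prod.ext rfl ?_
  funext i
  simp only [Pi.add_apply, Pi.smul_apply, ofR_apply, prR_snd, imR_apply, smul_eq_mul]
  conv_lhs => rw [← Complex.re_add_im (p.2 i)]
  ring

lemma prR_mk (a : P m k) (h : Fin k → ℝ) : prR ((a.1, ofR a.2 + I • ofR h) : E m k) = a := by
  refine Prod.ext rfl ?_
  funext i
  simp

lemma imR_mk (a : P m k) (h : Fin k → ℝ) : imR ((a.1, ofR a.2 + I • ofR h) : E m k) = h := by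
  funext i
  simp

theorem graph_lemma {r : ℕ} {T : Set (Fin r → ℝ)} (hT : IsOpen T) {q : (Fin r → ℝ) → E m k}
    (hq : ContDiffOn ℝ ∞ q T) {τ₁ : Fin r → ℝ} (hτ₁ : τ₁ ∈ T) (hq1 : q τ₁ = 0)
    (hinj : ∀ v, fderiv ℝ q τ₁ v = 0 → v = 0)
    (hrange : ∀ p : E m k, (∀ i, (p.2 i).im = 0) ↔ p ∈ range (fderiv ℝ q τ₁))
    {B : Set (Fin r → ℝ)} (hB : B ∈ 𝓝 τ₁) :
    ∃ (η δ : ℝ) (Ht : P m k → (Fin k → ℝ)) (θ : P m k → (Fin r → ℝ)), 0 < η ∧ 0 < δ ∧
      ball τ₁ δ ⊆ T ∧ ContDiffOn ℝ ∞ Ht (ball 0 η) ∧ ContDiffOn ℝ ∞ θ (ball 0 η) ∧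
      (∀ a ∈ ball (0 : P m k) η, θ a ∈ ball τ₁ δ ∧ θ a ∈ B ∧ q (θ a) = sig Ht a ∧
        ‖fderiv ℝ Ht a‖ ≤ 1 / 4 ∧ Function.Surjective (fderiv ℝ θ a)) ∧
      (∀ τ ∈ ball τ₁ δ, ∀ a ∈ ball (0 : P m k) η, ∀ h : Fin k → ℝ,
        q τ = (a.1, ofR a.2 + I • ofR h) → τ = θ a ∧ h = Ht a) := by
  have hne : (∞ : WithTop ℕ∞) ≠ 0 := by simp
  have hqd : HasFDerivAt q (fderiv ℝ q τ₁) τ₁ :=
    ((hq.contDiffAt (hT.mem_nhds hτ₁)).differentiableAt hne).hasFDerivAt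
  set L := fderiv ℝ q τ₁ with hL
  set G : (Fin r → ℝ) → P m k := fun τ => prR (q τ) with hG
  have hGs : ContDiffOn ℝ ∞ G T := (prR (m := m) (k := k)).contDiff.comp_contDiffOn hq
  have hbij : Function.Bijective (prR ∘L L : (Fin r → ℝ) →L[ℝ] P m k) := by
    constructor
    · rw [injective_iff_map_eq_zero]
      intro v hv
      apply hinj
      have h1 : ∀ i, ((L v).2 i).im = 0 := (hrange (L v)).2 ⟨v, rfl⟩
      have h2 : prR (L v) = 0 := hv
      refine Prod.ext ?_ ?_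
      · have h3 : (prR (L v)).1 = 0 := by rw [h2]; rfl
        exact h3
      · funext i
        have h3 : (prR (L v)).2 i = 0 := by rw [h2]; rfl
        apply Complex.ext
        · exact h3
        · exact h1 i
    · intro a
      obtain ⟨v, hv⟩ := (hrange ((a.1, ofR a.2) : E m k)).1 (by intro i; simp)
      refine ⟨v, ?_⟩
      change prR (L v) = a
      rw [hv]
      refine Prod.ext rfl ?_
      funext i
      simp
  let G' : (Fin r → ℝ) ≃L[ℝ] P m k :=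
    (LinearEquiv.ofBijective ((prR ∘L L : (Fin r → ℝ) →L[ℝ] P m k) : (Fin r → ℝ) →ₗ[ℝ] P m k)
      hbij).toContinuousLinearEquiv
  have hG'coe : (G' : (Fin r → ℝ) →L[ℝ] P m k) = prR ∘L L := by
    ext v <;> rfl
  have hG' : HasFDerivAt G (G' : (Fin r → ℝ) →L[ℝ] P m k) τ₁ := by
    rw [hG'coe]
    exact (prR (m := m) (k := k)).hasFDerivAt.comp τ₁ hqd
  obtain ⟨φ, hφG, hφ1, hφT, hφs⟩ := exists_inv hT hGs hτ₁ G' hG'
  have hG1 : G τ₁ = 0 := by simp only [hG, hq1, map_zero]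
  have h0t : (0 : P m k) ∈ φ.target := by
    have := φ.map_source hφ1
    rwa [hφG, hG1] at this
  have hs0 : φ.symm 0 = τ₁ := by
    have := φ.left_inv hφ1
    rwa [hφG, hG1] at this
  set θ : P m k → (Fin r → ℝ) := fun a => φ.symm a with hθ
  have hθT : ∀ a ∈ φ.target, θ a ∈ T := fun a ha => hφT (φ.map_target ha)
  set Ht : P m k → (Fin k → ℝ) := fun a => imR (q (θ a)) with hHt
  have hqθ : ContDiffOn ℝ ∞ (fun a => q (θ a)) φ.target := hq.comp hφs fun a ha => hθT a ha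
  have hHs : ContDiffOn ℝ ∞ Ht φ.target := (imR (m := m) (k := k)).contDiff.comp_contDiffOn hqθ
  have hGθ : ∀ a ∈ φ.target, prR (q (θ a)) = a := by
    intro a ha
    have := φ.right_inv ha
    rwa [hφG] at this
  have hsig : ∀ a ∈ φ.target, q (θ a) = sig Ht a := by
    intro a ha
    rw [eq_of_pr_im (q (θ a)), hGθ a ha]
    rfl
  -- the derivative of `Ht` at `0`
  have hθc : ContDiffAt ℝ ∞ θ 0 := hφs.contDiffAt (φ.open_target.mem_nhds h0t)
  have hH0 : fderiv ℝ Ht 0 = 0 := by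
    have hθd : HasFDerivAt θ (fderiv ℝ θ 0) 0 := (hθc.differentiableAt hne).hasFDerivAt
    have h1 : HasFDerivAt (fun a => q (θ a)) (L ∘L fderiv ℝ θ 0) 0 := by
      have : HasFDerivAt q L (θ 0) := by rw [hθ]; simp only [hs0]; exact hqd
      exact this.comp 0 hθd
    have h2 : HasFDerivAt Ht (imR ∘L (L ∘L fderiv ℝ θ 0)) 0 :=
      (imR (m := m) (k := k)).hasFDerivAt.comp (0 : P m k) h1
    rw [h2.fderiv]
    refine ContinuousLinearMap.ext fun v => ?_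
    funext i
    exact ((hrange (L (fderiv ℝ θ 0 v))).2 ⟨_, rfl⟩) i
  have hHc : ContinuousAt (fderiv ℝ Ht) 0 := by
    have := hHs.continuousOn_fderiv_of_isOpen φ.open_target (by norm_cast)
    exact this.continuousAt (φ.open_target.mem_nhds h0t)
  have hev1 : ∀ᶠ a in 𝓝 (0 : P m k), ‖fderiv ℝ Ht a‖ < 1 / 4 := by
    have h1 : ContinuousAt (fun a => ‖fderiv ℝ Ht a‖) 0 := hHc.norm
    have h2 : ‖fderiv ℝ Ht 0‖ < 1 / 4 := by rw [hH0, norm_zero]; norm_num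
    exact h1.eventually_lt continuousAt_const h2
  -- choice of the radii
  obtain ⟨δ, hδ, hδs⟩ : ∃ δ > 0, ball τ₁ δ ⊆ φ.source :=
    Metric.isOpen_iff.1 φ.open_source τ₁ hφ1
  have hθcont : ContinuousAt θ 0 := hθc.continuousAt
  have hθ0 : θ 0 = τ₁ := hs0
  have hev2 : ∀ᶠ a in 𝓝 (0 : P m k), θ a ∈ ball τ₁ δ := by
    apply hθcont
    rw [hθ0]
    exact ball_mem_nhds _ hδ
  have hev3 : ∀ᶠ a in 𝓝 (0 : P m k), θ a ∈ B := by
    apply hθcont
    rw [hθ0]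
    exact hB
  have hev4 : ∀ᶠ a in 𝓝 (0 : P m k), a ∈ φ.target := φ.open_target.mem_nhds h0t
  obtain ⟨η, hη, hηs⟩ := Metric.eventually_nhds_iff_ball.1 (((hev1.and hev2).and hev3).and hev4)
  have hsub : ball (0 : P m k) η ⊆ φ.target := fun a ha => (hηs a ha).2
  refine ⟨η, δ, Ht, θ, hη, hδ, hδs.trans hφT, hHs.mono hsub, hφs.mono hsub, ?_, ?_⟩
  · intro a ha
    obtain ⟨⟨⟨h1, h2⟩, h3⟩, h4⟩ := hηs a ha
    refine ⟨h2, h3, hsig a h4, h1.le, ?_⟩
    have hθa : HasFDerivAt θ (fderiv ℝ θ a) a :=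
      ((hφs.contDiffAt (φ.open_target.mem_nhds h4)).differentiableAt hne).hasFDerivAt
    have hGa : HasFDerivAt G (fderiv ℝ G (θ a)) (θ a) :=
      ((hGs.contDiffAt (hT.mem_nhds (hθT a h4))).differentiableAt hne).hasFDerivAt
    have hGθa : G (θ a) = a := hGθ a h4
    have h5 : HasFDerivAt (fun τ => θ (G τ)) (fderiv ℝ θ a ∘L fderiv ℝ G (θ a)) (θ a) := by
      have : HasFDerivAt θ (fderiv ℝ θ a) (G (θ a)) := by rw [hGθa]; exact hθa
      exact this.comp (θ a) hGa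
    have h6 : (fun τ => θ (G τ)) =ᶠ[𝓝 (θ a)] id := by
      filter_upwards [φ.open_source.mem_nhds (φ.map_target h4)] with τ hτ
      have := φ.left_inv hτ
      rwa [hφG] at this
    have h7 : fderiv ℝ θ a ∘L fderiv ℝ G (θ a) = ContinuousLinearMap.id ℝ _ := by
      rw [← h5.fderiv, h6.fderiv_eq, fderiv_id]
    intro v
    exact ⟨fderiv ℝ G (θ a) v, by
      have := congrArg (fun l => l v) h7
      exact this⟩
  · intro τ hτ a ha h hqτ
    have h1 : G τ = a := by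
      simp only [hG, hqτ]
      exact prR_mk a h
    have h2 : τ = θ a := by
      have := φ.left_inv (hδs hτ)
      rw [hφG, h1] at this
      exact this.symm
    refine ⟨h2, ?_⟩
    simp only [hHt, ← h2, hqτ]
    exact (imR_mk a h).symm

end Crest.Agent.R264.Co
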