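import Mathlib

/-!
Row 264, Part A, node A4c (helper633): linear normal form of a real subspace of `ℂ^n` that spans
`ℂ^n` over `ℂ`: in suitable complex linear coordinates it is `ℂ^m × ℝ^k`.
-/

set_option autoImplicit false

open Set

namespace Crest.Agent.R264.Co

theorem exists_coord {n : ℕ} (R : Submodule ℝ (Fin n → ℂ))
    (hR : Submodule.span ℂ (R : Set (Fin n → ℂ)) = ⊤) :
    ∃ m k : ℕ, m + k = n ∧ ∃ Φ : (Fin n → ℂ) ≃ₗ[ℂ] ((Fin m → ℂ) × (Fin k → ℂ)),
      ∀ v, v ∈ R ↔ ∀ i, ((Φ v).2 i).im = 0 := by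
  classical
  have key1 : ∀ (c : ℂ) (v : Fin n → ℂ), c • v = c.re • v + c.im • (Complex.I • v) := by
    intro c v
    funext i
    simp only [Pi.smul_apply, Pi.add_apply, smul_eq_mul, Complex.real_smul]
    conv_lhs => rw [← Complex.re_add_im c]
    ring
  have key2 : ∀ (c : ℂ) (v : Fin n → ℂ),
      Complex.I • (c • v) = c.re • (Complex.I • v) - c.im • v := by
    intro c v
    funext i
    simp only [Pi.smul_apply, Pi.sub_apply, smul_eq_mul, Complex.real_smul]
    conv_lhs => rw [← Complex.re_add_im c]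
    linear_combination (c.im * v i) * Complex.I_sq
  let H : Submodule ℂ (Fin n → ℂ) :=
    { carrier := {v | v ∈ R ∧ Complex.I • v ∈ R}
      add_mem' := by
        rintro a b ⟨ha, ha'⟩ ⟨hb, hb'⟩
        exact ⟨R.add_mem ha hb, by rw [smul_add]; exact R.add_mem ha' hb'⟩
      zero_mem' := ⟨R.zero_mem, by rw [smul_zero]; exact R.zero_mem⟩
      smul_mem' := by
        rintro c v ⟨hv, hv'⟩
        refine ⟨?_, ?_⟩
        · rw [key1]
          exact R.add_mem (R.smul_mem _ hv) (R.smul_mem _ hv')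
        · rw [key2]
          exact R.sub_mem (R.smul_mem _ hv') (R.smul_mem _ hv) }
  have hHmem : ∀ v, v ∈ H ↔ v ∈ R ∧ Complex.I • v ∈ R := fun v => Iff.rfl
  let HR : Submodule ℝ (Fin n → ℂ) := H.restrictScalars ℝ
  have hHR : HR ≤ R := fun v hv => hv.1
  obtain ⟨S₁, hS₁⟩ := Submodule.exists_isCompl HR
  let S : Submodule ℝ (Fin n → ℂ) := S₁ ⊓ R
  have hHS : ∀ v, v ∈ H → v ∈ S → v = 0 := by
    intro v h1 h2
    have : v ∈ HR ⊓ S₁ := ⟨h1, h2.1⟩
    rw [hS₁.inf_eq_bot] at this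
    exact (Submodule.mem_bot ℝ).1 this
  have hsum : ∀ v ∈ R, ∃ h ∈ H, ∃ s ∈ S, v = h + s := by
    intro v hv
    have hv' : v ∈ HR ⊔ S₁ := by rw [hS₁.sup_eq_top]; trivial
    obtain ⟨h, hh, s, hs, rfl⟩ := Submodule.mem_sup.1 hv'
    refine ⟨h, hh, s, ⟨hs, ?_⟩, rfl⟩
    have := R.sub_mem hv (hHR hh)
    simpa using this
  have hSR : ∀ v ∈ S, v ∈ R := fun v hv => hv.2
  let bH := Module.finBasis ℂ H
  let bS := Module.finBasis ℝ S
  let Ψ : ((Fin (Module.finrank ℂ H) → ℂ) × (Fin (Module.finrank ℝ S) → ℂ)) →ₗ[ℂ] (Fin n → ℂ) :=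
    LinearMap.coprod (Fintype.linearCombination ℂ (fun i => (bH i : Fin n → ℂ)))
      (Fintype.linearCombination ℂ (fun j => (bS j : Fin n → ℂ)))
  have hΨ : ∀ z w, Ψ (z, w) = (∑ i, z i • (bH i : Fin n → ℂ)) + ∑ j, w j • (bS j : Fin n → ℂ) := by
    intro z w
    simp [Ψ, Fintype.linearCombination_apply]
  have hHsum : ∀ z : Fin (Module.finrank ℂ H) → ℂ, (∑ i, z i • (bH i : Fin n → ℂ)) ∈ H := by
    intro z
    exact H.sum_mem fun i _ => H.smul_mem _ (bH i).2
  have hSsum : ∀ x : Fin (Module.finrank ℝ S) → ℝ, (∑ i, x i • (bS i : Fin n → ℂ)) ∈ S := by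
    intro z
    exact S.sum_mem fun i _ => S.smul_mem _ (bS i).2
  have hsplit : ∀ w : Fin (Module.finrank ℝ S) → ℂ, (∑ j, w j • (bS j : Fin n → ℂ)) =
      (∑ j, (w j).re • (bS j : Fin n → ℂ)) + Complex.I • (∑ j, (w j).im • (bS j : Fin n → ℂ)) := by
    intro w
    rw [Finset.smul_sum, ← Finset.sum_add_distrib]
    refine Finset.sum_congr rfl fun j _ => ?_
    rw [key1 (w j)]
    congr 1
    funext i
    simp only [Pi.smul_apply, smul_eq_mul, Complex.real_smul]
    ring
  have hzS : ∀ x : Fin (Module.finrank ℝ S) → ℝ, (∑ i, x i • (bS i : Fin n → ℂ)) = 0 → x = 0 := by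
    intro x hx
    have h1 : (∑ i, x i • bS i : S) = 0 := by
      apply Subtype.ext
      rw [Submodule.coe_zero, ← hx]
      push_cast
      rfl
    funext i
    exact (Fintype.linearIndependent_iff.1 bS.linearIndependent) x h1 i
  have hzH : ∀ x : Fin (Module.finrank ℂ H) → ℂ, (∑ i, x i • (bH i : Fin n → ℂ)) = 0 → x = 0 := by
    intro x hx
    have h1 : (∑ i, x i • bH i : H) = 0 := by
      apply Subtype.ext
      rw [Submodule.coe_zero, ← hx]
      push_cast
      rfl
    funext i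
    exact (Fintype.linearIndependent_iff.1 bH.linearIndependent) x h1 i
  have hinj : Function.Injective Ψ := by
    rw [← LinearMap.ker_eq_bot, LinearMap.ker_eq_bot']
    rintro ⟨z, w⟩ h0
    rw [hΨ, hsplit] at h0
    set h := ∑ i, z i • (bH i : Fin n → ℂ) with hh
    set s := ∑ j, (w j).re • (bS j : Fin n → ℂ) with hs
    set s' := ∑ j, (w j).im • (bS j : Fin n → ℂ) with hs'
    have hhm : h ∈ H := hHsum z
    have hsm : s ∈ S := hSsum _
    have hsm' : s' ∈ S := hSsum _
    have e1 : Complex.I • s' = -(h + s) := by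
      rw [← add_assoc] at h0
      exact eq_neg_of_add_eq_zero_right h0
    have hs'H : s' ∈ H := by
      refine ⟨hSR _ hsm', ?_⟩
      rw [e1]
      exact R.neg_mem (R.add_mem hhm.1 (hSR _ hsm))
    have hs'0 : s' = 0 := hHS _ hs'H hsm'
    rw [hs'0, smul_zero, add_zero] at h0
    have hsH : s ∈ H := by
      have : s = -h := eq_neg_of_add_eq_zero_right h0
      rw [this]
      exact H.neg_mem hhm
    have hs0 : s = 0 := hHS _ hsH hsm
    rw [hs0, add_zero] at h0
    have hz := hzH z h0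
    have h1 := hzS _ hs0
    have h2 := hzS _ hs'0
    refine Prod.ext hz ?_
    funext j
    apply Complex.ext
    · exact congrFun h1 j
    · exact congrFun h2 j
  have hRΨ : ∀ v ∈ R, ∃ z : Fin (Module.finrank ℂ H) → ℂ, ∃ x : Fin (Module.finrank ℝ S) → ℝ,
      v = Ψ (z, fun j => (x j : ℂ)) := by
    intro v hv
    obtain ⟨h, hh, s, hs, rfl⟩ := hsum v hv
    refine ⟨fun i => bH.repr ⟨h, hh⟩ i, fun j => bS.repr ⟨s, hs⟩ j, ?_⟩
    rw [hΨ]
    congr 1
    · have := congrArg (Subtype.val) (bH.sum_repr ⟨h, hh⟩)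
      push_cast at this
      exact this.symm
    · have := congrArg (Subtype.val) (bS.sum_repr ⟨s, hs⟩)
      push_cast at this
      refine this.symm.trans ?_
      refine Finset.sum_congr rfl fun j _ => ?_
      funext i
      simp [Complex.real_smul]
  have hsurj : Function.Surjective Ψ := by
    rw [← LinearMap.range_eq_top, eq_top_iff, ← hR, Submodule.span_le]
    intro v hv
    obtain ⟨z, x, rfl⟩ := hRΨ v hv
    exact ⟨_, rfl⟩
  let Φ := (LinearEquiv.ofBijective Ψ ⟨hinj, hsurj⟩).symm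
  have hΦΨ : ∀ p, Φ (Ψ p) = p := fun p => (LinearEquiv.ofBijective Ψ ⟨hinj, hsurj⟩).symm_apply_apply p
  have hΨΦ : ∀ v, Ψ (Φ v) = v := fun v => (LinearEquiv.ofBijective Ψ ⟨hinj, hsurj⟩).apply_symm_apply v
  refine ⟨Module.finrank ℂ H, Module.finrank ℝ S, ?_, Φ, ?_⟩
  · have := LinearEquiv.finrank_eq Φ
    simp only [Module.finrank_prod, Module.finrank_fintype_fun_eq_card, Fintype.card_fin] at this
    exact this.symm
  · intro v
    constructor
    · intro hv i
      obtain ⟨z, x, rfl⟩ := hRΨ v hv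
      rw [hΦΨ]
      simp
    · intro hv
      rw [← hΨΦ v]
      have hv' : ∀ i, ((Φ v).2 i).im = 0 := hv
      generalize Φ v = q at hv'
      obtain ⟨z, w⟩ := q
      rw [hΨ, hsplit]
      have : (∑ j, (w j).im • (bS j : Fin n → ℂ)) = 0 :=
        Finset.sum_eq_zero fun j _ => by rw [hv' j, zero_smul]
      rw [this, smul_zero, add_zero]
      exact R.add_mem (hHsum z).1 (hSR _ (hSsum _))

end Crest.Agent.R264.Co
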