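import Crest.Agent.R264.AIface
import Crest.Agent.R264.SAV
import Crest.Agent.R264.CoLin
import Crest.Agent.R264.CoGraph

/-!
Row 264, Part A, node A4c (helper633): `coordStmt : AI.CoordStmt`.
-/

set_option autoImplicit false

open Set Topology Filter Metric Complex
open scoped ContDiff

namespace Crest.Agent.R264.Co

open Crest.AlgGeometry.Semialg
open Crest.Agent.R264.JL (P sig ofR)

theorem isClosed_alg {N : ℕ} {V : Set (Fin N → ℂ)} (h : IsAlgebraicSet V) : IsClosed V := by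
  obtain ⟨I, rfl⟩ := h
  have : MvPolynomial.zeroLocus ℂ I = ⋂ p ∈ I, {x : Fin N → ℂ | MvPolynomial.aeval x p = 0} := by
    ext x
    simp [MvPolynomial.mem_zeroLocus_iff]
  rw [this]
  refine isClosed_biInter fun p _ => ?_
  refine isClosed_eq ?_ continuous_const
  have h2 : (fun x : Fin N → ℂ => (MvPolynomial.aeval x) p) = fun x => MvPolynomial.eval x p := by
    funext x
    exact congrFun (congrArg DFunLike.coe (MvPolynomial.coe_aeval_eq_eval x)) p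
  rw [h2]
  exact MvPolynomial.continuous_eval p

theorem contDiff_polyMap {N n : ℕ} (t : Fin n → MvPolynomial (Fin N) ℂ) :
    ContDiff ℂ ω (polyMap t) := contDiff_pi.2 fun i => contDiff_eval (t i)

theorem contDiff_realCoords {N : ℕ} : ContDiff ℝ ω (realCoords (N := N)) := by
  refine contDiff_pi.2 fun i => ?_
  rcases i with i | i
  · exact Complex.reCLM.contDiff.comp (contDiff_apply ℝ ℂ i)
  · exact Complex.imCLM.contDiff.comp (contDiff_apply ℝ ℂ i)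

theorem contDiff_tt {N r : ℕ} (t : Fin r → MvPolynomial (Fin N ⊕ Fin N) ℝ) :
    ContDiff ℝ ω (fun (x : Fin N → ℂ) (i : Fin r) => MvPolynomial.eval (realCoords x) (t i)) :=
  contDiff_pi.2 fun i => (contDiff_eval (t i)).comp contDiff_realCoords

theorem pol_kappa {V : Type*} [AddCommGroup V] [Module ℝ V] {N n m k : ℕ}
    (t : Fin n → MvPolynomial (Fin N) ℂ) (c : Fin n → ℂ) (Φ : (Fin n → ℂ) →L[ℂ] EE m k)
    {g : V → (Fin N → ℂ)} (hg : Pol g) : Pol (fun v => Φ (polyMap t (g v) - c)) := by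
  have h1 : Pol (fun v => polyMap t (g v) - c) := by
    refine Pol.pi fun i => ?_
    simp only [Pi.sub_apply, polyMap]
    exact (Pol.ceval (t i) hg).sub (Pol.const (c i))
  exact (Pol.lin ((Φ.restrictScalars ℝ : (Fin n → ℂ) →L[ℝ] EE m k) :
    (Fin n → ℂ) →ₗ[ℝ] EE m k)).comp h1

theorem pol_mk {V : Type*} [AddCommGroup V] [Module ℝ V] {m k : ℕ} {a : V → P m k}
    {h : V → (Fin k → ℝ)} (ha : Pol a) (hh : Pol h) :
    Pol (fun v => (((a v).1, ofR (a v).2 + I • ofR (h v)) : EE m k)) := by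
  refine Pol.prodMk (by fun_prop) ?_
  refine Pol.pi fun i => ?_
  simp only [Pi.add_apply, Pi.smul_apply, JL.ofR_apply, smul_eq_mul]
  fun_prop

theorem hasFDerivAt_sig {m k : ℕ} {Ht : P m k → (Fin k → ℝ)} {a : P m k}
    {H' : P m k →L[ℝ] (Fin k → ℝ)} (h : HasFDerivAt Ht H' a) :
    HasFDerivAt (sig Ht) ((ContinuousLinearMap.fst ℝ (Fin m → ℂ) (Fin k → ℝ)).prod
      (ofR ∘L (ContinuousLinearMap.snd ℝ (Fin m → ℂ) (Fin k → ℝ)) + I • (ofR ∘L H'))) a := by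
  refine HasFDerivAt.prodMk hasFDerivAt_fst ?_
  refine HasFDerivAt.add ((ofR ∘L (ContinuousLinearMap.snd ℝ (Fin m → ℂ) (Fin k → ℝ))).hasFDerivAt) ?_
  exact ((ofR (k := k)).hasFDerivAt.comp a h).const_smul I

theorem coordStmt : AI.CoordStmt := by
  intro N n V U O hV hO hUO hsa hbd A K τ₁ hτ₁ hspan
  have hne : (∞ : WithTop ℕ∞) ≠ 0 := by simp
  have hVcl : IsClosed V := isClosed_alg hV
  have hUV : U ⊆ V := by rw [hUO]; exact inter_subset_right
  have hclV : closure U ⊆ V := closure_minimal hUV hVcl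
  set x₁ := K.ε τ₁ with hx₁
  have hx₁V : x₁ ∈ V := hclV (K.mem τ₁ hτ₁)
  obtain ⟨C, hCπ, -⟩ := A.chart x₁ hx₁V (K.D_ne τ₁ hτ₁)
  have hψπ : ∀ x ∈ V, x ∈ C.O → C.ψ (polyMap A.t x) = x := by
    intro x hx hxO
    rw [← hCπ]
    exact C.ψ_π x hx hxO
  have hpoly : ContDiff ℂ ω (polyMap A.t) := contDiff_polyMap A.t
  have hpolyR : ContDiff ℝ ω (polyMap A.t) := hpoly.restrict_scalars ℝ
  have hε : ContDiffOn ℝ ∞ K.ε K.T := K.hε.contDiffOn K.hT.uniqueDiffOn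
  set f : (Fin K.r → ℝ) → (Fin n → ℂ) := fun τ => polyMap A.t (K.ε τ) with hf
  have hfs : ContDiffOn ℝ ∞ f K.T := (hpolyR.of_le le_top).comp_contDiffOn hε
  have hfd : HasFDerivAt f (fderiv ℝ f τ₁) τ₁ :=
    ((hfs.contDiffAt (K.hT.mem_nhds hτ₁)).differentiableAt hne).hasFDerivAt
  set L := fderiv ℝ f τ₁ with hL
  -- injectivity of `L`
  have hεcont : ContinuousAt K.ε τ₁ := (K.hε τ₁ hτ₁).continuousAt
  have hLinj : ∀ v, L v = 0 → v = 0 := by
    have hW : f τ₁ ∈ C.W := by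
      have := C.π_mem x₁ hx₁V C.mem
      rwa [hCπ] at this
    have hψd : DifferentiableAt ℝ C.ψ (f τ₁) :=
      ((C.hψ (f τ₁) hW).differentiableAt (C.hW.mem_nhds hW)).restrictScalars ℝ
    set tt : (Fin N → ℂ) → (Fin K.r → ℝ) := fun x i =>
      MvPolynomial.eval (realCoords x) (K.t i) with htt
    have httd : Differentiable ℝ tt := (contDiff_tt K.t).differentiable (by simp)
    have hcd : DifferentiableAt ℝ (fun w => tt (C.ψ w)) (f τ₁) :=
      (httd _).comp (f τ₁) hψd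
    have h1 : HasFDerivAt (fun τ => tt (C.ψ (f τ))) (fderiv ℝ (fun w => tt (C.ψ w)) (f τ₁) ∘L L) τ₁ :=
      hcd.hasFDerivAt.comp τ₁ hfd
    have h2 : (fun τ => tt (C.ψ (f τ))) =ᶠ[𝓝 τ₁] id := by
      filter_upwards [K.hT.mem_nhds hτ₁, hεcont (C.hO.mem_nhds C.mem)] with τ hτ hτO
      have h3 : C.ψ (f τ) = K.ε τ := hψπ _ (hclV (K.mem τ hτ)) hτO
      funext i
      simp only [h3, htt]
      exact K.t_ε τ hτ i
    have h3 : fderiv ℝ (fun w => tt (C.ψ w)) (f τ₁) ∘L L = ContinuousLinearMap.id ℝ _ := by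
      rw [← h1.fderiv, h2.fderiv_eq, fderiv_id]
    intro v hv
    have h4 := congrArg (fun l => l v) h3
    simp only [ContinuousLinearMap.comp_apply, hv, map_zero] at h4
    exact h4.symm
  -- coordinates
  obtain ⟨m, k, hmk, Φ, hΦ⟩ := exists_coord
    (LinearMap.range (L : (Fin K.r → ℝ) →ₗ[ℝ] (Fin n → ℂ))) hspan
  refine ⟨m, k, hmk, ?_⟩
  let ΦL : (Fin n → ℂ) ≃L[ℂ] EE m k := Φ.toContinuousLinearEquiv
  have hΦL : ∀ v, ΦL v = Φ v := fun v => rfl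
  set κ : (Fin N → ℂ) → EE m k := fun x => ΦL (polyMap A.t x - polyMap A.t x₁) with hκ
  set e : EE m k → (Fin N → ℂ) := fun y => C.ψ (ΦL.symm y + polyMap A.t x₁) with he
  have hκd : Differentiable ℂ κ := by
    have h1 : Differentiable ℂ (polyMap A.t) := hpoly.differentiable (by simp)
    exact ΦL.differentiable.comp (h1.sub_const _)
  have hκc : Continuous κ := hκd.continuous
  have heκ : ∀ x ∈ V, x ∈ C.O → e (κ x) = x := by
    intro x hx hxO
    simp only [he, hκ, ContinuousLinearEquiv.symm_apply_apply, sub_add_cancel]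
    exact hψπ x hx hxO
  set W0 : Set (EE m k) := {y | ΦL.symm y + polyMap A.t x₁ ∈ C.W} with hW0
  have hW0o : IsOpen W0 := C.hW.preimage (by fun_prop)
  have hκe : ∀ y ∈ W0, κ (e y) = y := by
    intro y hy
    have h1 : polyMap A.t (C.ψ (ΦL.symm y + polyMap A.t x₁)) = ΦL.symm y + polyMap A.t x₁ := by
      rw [← hCπ]
      have h0 : ΦL.symm y + C.π x₁ ∈ C.W := by rw [hCπ]; exact hy
      exact C.π_ψ _ h0
    simp only [he, hκ, h1, add_sub_cancel_right, ContinuousLinearEquiv.apply_symm_apply]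
  have heV : ∀ y ∈ W0, e y ∈ V := fun y hy => (C.ψ_mem _ hy).1
  have hed : DifferentiableOn ℂ e W0 := by
    refine C.hψ.comp (t := C.W) ?_ (fun y hy => hy)
    exact (ΦL.symm.differentiable.add_const _).differentiableOn
  have h0W : (0 : EE m k) ∈ W0 := by
    have := C.π_mem x₁ hx₁V C.mem
    rw [hCπ] at this
    simpa [hW0] using this
  have hκ1 : κ x₁ = 0 := by simp [hκ]
  have he0 : e 0 = x₁ := by rw [← hκ1]; exact heκ x₁ hx₁V C.mem
  have hec : ContinuousAt e 0 := ((hed 0 h0W).differentiableAt (hW0o.mem_nhds h0W)).continuousAt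
  -- radii
  obtain ⟨ρ, hρ, hρO⟩ := Metric.isOpen_iff.1 C.hO x₁ C.mem
  obtain ⟨δ₁, hδ₁, hδW⟩ : ∃ δ₁ > 0, ∀ y ∈ ball (0 : EE m k) δ₁, y ∈ W0 ∧ e y ∈ ball x₁ ρ := by
    have h1 : ∀ᶠ y in 𝓝 (0 : EE m k), y ∈ W0 := hW0o.mem_nhds h0W
    have h2 : ∀ᶠ y in 𝓝 (0 : EE m k), e y ∈ ball x₁ ρ := by
      apply hec
      rw [he0]
      exact ball_mem_nhds _ hρ
    exact Metric.eventually_nhds_iff_ball.1 (h1.and h2)
  have hBo : IsOpen (ball x₁ ρ ∩ κ ⁻¹' ball (0 : EE m k) δ₁) :=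
    isOpen_ball.inter (isOpen_ball.preimage hκc)
  have hx₁B : x₁ ∈ ball x₁ ρ ∩ κ ⁻¹' ball (0 : EE m k) δ₁ :=
    ⟨mem_ball_self hρ, by rw [mem_preimage, hκ1]; exact mem_ball_self hδ₁⟩
  -- the graph
  have hqs : ContDiffOn ℝ ∞ (fun τ => κ (K.ε τ)) K.T := by
    have h1 : ContDiffOn ℝ ∞ (fun τ => f τ - polyMap A.t x₁) K.T := hfs.sub contDiffOn_const
    exact ((ΦL.contDiff (n := ∞)).restrict_scalars ℝ).comp_contDiffOn h1
  have hqd : fderiv ℝ (fun τ => κ (K.ε τ)) τ₁ =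
      ((ΦL : (Fin n → ℂ) →L[ℂ] EE m k).restrictScalars ℝ) ∘L L := by
    have h1 : HasFDerivAt (fun τ => f τ - polyMap A.t x₁) L τ₁ := hfd.sub_const _
    exact (((ΦL : (Fin n → ℂ) →L[ℂ] EE m k).restrictScalars ℝ).hasFDerivAt.comp τ₁ h1).fderiv
  have hqinj : ∀ v, fderiv ℝ (fun τ => κ (K.ε τ)) τ₁ v = 0 → v = 0 := by
    intro v hv
    rw [hqd] at hv
    apply hLinj
    have h1 : ΦL (L v) = 0 := hv
    simpa using h1
  have hqr : ∀ p : EE m k, (∀ i, (p.2 i).im = 0) ↔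
      p ∈ range (fderiv ℝ (fun τ => κ (K.ε τ)) τ₁) := by
    intro p
    rw [hqd]
    have h1 := hΦ (Φ.symm p)
    rw [Φ.apply_symm_apply] at h1
    rw [← h1]
    constructor
    · rintro ⟨v, hv⟩
      refine ⟨v, ?_⟩
      change ΦL (L v) = p
      have h2 : L v = Φ.symm p := hv
      rw [h2, hΦL, Φ.apply_symm_apply]
    · rintro ⟨v, hv⟩
      refine ⟨v, ?_⟩
      have h2 : Φ (L v) = p := hv
      change L v = Φ.symm p
      rw [← h2, Φ.symm_apply_apply]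
  obtain ⟨η, δ, Ht, θ, hη, hδ, hδT, hHs, hθs, hprop, huniq⟩ :=
    graph_lemma K.hT hqs hτ₁ hκ1 hqinj hqr
      (B := K.ε ⁻¹' (ball x₁ ρ ∩ κ ⁻¹' ball (0 : EE m k) δ₁)) (hεcont (hBo.mem_nhds hx₁B))
  have hθT : ∀ a ∈ ball (0 : P m k) η, θ a ∈ K.T := fun a ha => hδT (hprop a ha).1
  have hεB : ∀ a ∈ ball (0 : P m k) η, K.ε (θ a) ∈ ball x₁ ρ ∩ κ ⁻¹' ball (0 : EE m k) δ₁ :=
    fun a ha => (hprop a ha).2.1
  have hsig : ∀ a ∈ ball (0 : P m k) η, κ (K.ε (θ a)) = sig Ht a := fun a ha => (hprop a ha).2.2.1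
  have hsigW : ∀ a ∈ ball (0 : P m k) η, sig Ht a ∈ ball (0 : EE m k) δ₁ := by
    intro a ha
    rw [← hsig a ha]
    exact (hεB a ha).2
  have hesig : ∀ a ∈ ball (0 : P m k) η, e (sig Ht a) = K.ε (θ a) := by
    intro a ha
    rw [← hsig a ha]
    exact heκ _ (hclV (K.mem _ (hθT a ha))) (hρO (hεB a ha).1)
  refine ⟨{
    B := ball x₁ ρ ∩ κ ⁻¹' ball (0 : EE m k) δ₁
    W := ball (0 : EE m k) δ₁
    κ := κ
    e := e
    hB := hBo
    hW := isOpen_ball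
    hκ := hκd
    he := hed.mono fun y hy => (hδW y hy).1
    e_mem := fun y hy => ⟨(hδW y hy).2, by rw [mem_preimage, hκe y (hδW y hy).1]; exact hy⟩
    κ_e := fun y hy => hκe y (hδW y hy).1
    κ_mem := fun x _ hx => hx.2
    e_κ := fun x hx hxB => heκ x (hclV hx) (hρO hxB.1)
    UU := {y | y ∈ ball (0 : EE m k) δ₁ ∧ e y ∈ U}
    UU_iff := fun y => Iff.rfl
    UUopen := ?_
    UUsa := ?_
    O := ball 0 η
    Ht := Ht
    hO := isOpen_ball
    hOne := ⟨0, mem_ball_self hη⟩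
    Hsm := hHs
    Hsa := ?_
    Hsmall := fun a ha => (hprop a ha).2.2.2.1
    sig_W := hsigW
    sig_cl := fun a ha => by rw [hesig a ha]; exact K.mem _ (hθT a ha)
    sig_nU := fun a ha => by rw [hesig a ha]; exact K.nmem _ (hθT a ha)
    g := K.g
    g_ne := fun a ha => by rw [hesig a ha]; exact K.g_ne _ (hθT a ha)
    peak := ?_ }⟩
  · -- UU open
    have h1 : {y | y ∈ ball (0 : EE m k) δ₁ ∧ e y ∈ U} = ball (0 : EE m k) δ₁ ∩ e ⁻¹' O := by
      ext y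
      constructor
      · rintro ⟨hy, hyU⟩
        rw [hUO] at hyU
        exact ⟨hy, hyU.1⟩
      · rintro ⟨hy, hyO⟩
        refine ⟨hy, ?_⟩
        rw [hUO]
        exact ⟨hyO, heV y (hδW y hy).1⟩
    rw [h1]
    exact (hed.mono fun y hy => (hδW y hy).1).continuousOn.isOpen_inter_preimage isOpen_ball hO
  · -- UU semialgebraic
    have h1 : {y | y ∈ ball (0 : EE m k) δ₁ ∧ e y ∈ U} =
        {y : EE m k | dist y 0 < δ₁ ∧ ∃ x : Fin N → ℂ, (x ∈ U ∧ dist x x₁ < ρ) ∧ κ x = y} := by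
      ext y
      constructor
      · rintro ⟨hy, hyU⟩
        exact ⟨hy, e y, ⟨hyU, (hδW y hy).2⟩, hκe y (hδW y hy).1⟩
      · rintro ⟨hy, x, ⟨hxU, hxρ⟩, rfl⟩
        refine ⟨hy, ?_⟩
        rw [heκ x (hUV hxU) (hρO hxρ)]
        exact hxU
    rw [h1]
    have hUs : SAV U := SAV.of_isSemialgebraic hsa
    refine SAV.and (SAV.dist_lt (by fun_prop) (by fun_prop) (by fun_prop)) ?_
    refine SAV.bex (Q := fun (_ : EE m k) (x : Fin N → ℂ) => x ∈ U ∧ dist x x₁ < ρ)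
      (P := fun y x => κ x = y) ?_ ?_
    · exact SAV.and (hUs.preimage Pol.snd')
        (SAV.dist_lt (by fun_prop) (by fun_prop) (by fun_prop))
    · exact SAV.eq (pol_kappa A.t _ (ΦL : (Fin n → ℂ) →L[ℂ] EE m k) Pol.snd') Pol.fst'
  · -- graph semialgebraic
    have h1 : {p : P m k × (Fin k → ℝ) | p.1 ∈ ball (0 : P m k) η ∧ p.2 = Ht p.1} =
        {p : P m k × (Fin k → ℝ) | dist p.1 0 < η ∧ ∃ s : (Fin K.r → ℝ) × (Fin N → ℂ),
          ((s.1 ∈ K.T ∧ s.2 = K.ε s.1) ∧ dist s.1 τ₁ < δ) ∧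
          κ s.2 = (p.1.1, ofR p.1.2 + I • ofR p.2)} := by
      ext p
      constructor
      · rintro ⟨hp, hp2⟩
        refine ⟨hp, (θ p.1, K.ε (θ p.1)), ⟨⟨hθT _ hp, rfl⟩, (hprop _ hp).1⟩, ?_⟩
        rw [hp2]
        exact hsig _ hp
      · rintro ⟨hp, s, ⟨⟨hs1, hs2⟩, hs3⟩, hs4⟩
        refine ⟨hp, ?_⟩
        rw [hs2] at hs4
        exact (huniq s.1 hs3 p.1 hp p.2 hs4).2
    rw [h1]
    refine SAV.and (SAV.dist_lt (by fun_prop) (by fun_prop) (by fun_prop)) ?_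
    refine SAV.bex (Q := fun (_ : P m k × (Fin k → ℝ)) (s : (Fin K.r → ℝ) × (Fin N → ℂ)) =>
      (s.1 ∈ K.T ∧ s.2 = K.ε s.1) ∧ dist s.1 τ₁ < δ)
      (P := fun p s => κ s.2 = (p.1.1, ofR p.1.2 + I • ofR p.2)) ?_ ?_
    · exact SAV.and (K.sa.preimage Pol.snd')
        (SAV.dist_lt (by fun_prop) (by fun_prop) (by fun_prop))
    · exact SAV.eq (pol_kappa A.t _ (ΦL : (Fin n → ℂ) →L[ℂ] EE m k) (by fun_prop))
        (pol_mk (by fun_prop) (by fun_prop))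
  · -- peaks
    intro a ha
    have hsm : sig Ht a ∈ W0 := (hδW _ (hsigW a ha)).1
    have h1 : HasFDerivAt e ((fderiv ℂ e (sig Ht a)).restrictScalars ℝ) (sig Ht a) :=
      ((hed _ hsm).differentiableAt (hW0o.mem_nhds hsm)).hasFDerivAt.restrictScalars ℝ
    have hHd : HasFDerivAt Ht (fderiv ℝ Ht a) a :=
      ((hHs.contDiffAt (isOpen_ball.mem_nhds ha)).differentiableAt hne).hasFDerivAt
    have h2 := h1.comp a (hasFDerivAt_sig hHd)
    have hεd : HasFDerivAt K.ε (fderiv ℝ K.ε (θ a)) (θ a) :=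
      (K.hε _ (hθT a ha)).differentiableAt.hasFDerivAt
    have hθd : HasFDerivAt θ (fderiv ℝ θ a) a :=
      ((hθs.contDiffAt (isOpen_ball.mem_nhds ha)).differentiableAt hne).hasFDerivAt
    have h3 : HasFDerivAt (fun a => K.ε (θ a)) (fderiv ℝ K.ε (θ a) ∘L fderiv ℝ θ a) a :=
      hεd.comp a hθd
    have h4 : (e ∘ sig Ht) =ᶠ[𝓝 a] fun a => K.ε (θ a) := by
      filter_upwards [isOpen_ball.mem_nhds ha] with b hb
      exact hesig b hb
    have h5 := h2.unique (h3.congr_of_eventuallyEq h4)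
    have h6 : ∀ ξ : P m k, fderiv ℂ e (sig Ht a) (ξ.1, ofR ξ.2 + I • ofR (fderiv ℝ Ht a ξ)) =
        fderiv ℝ K.ε (θ a) (fderiv ℝ θ a ξ) := fun ξ => congrArg (fun l => l ξ) h5
    have h7 : (range fun ξ : P m k =>
        fderiv ℂ e (sig Ht a) (ξ.1, ofR ξ.2 + I • ofR (fderiv ℝ Ht a ξ))) =
        range (fderiv ℝ K.ε (θ a)) := by
      ext v
      constructor
      · rintro ⟨ξ, rfl⟩
        exact ⟨fderiv ℝ θ a ξ, (h6 ξ).symm⟩
      · rintro ⟨w, rfl⟩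
        obtain ⟨ξ, rfl⟩ := (hprop a ha).2.2.2.2 w
        exact ⟨ξ, h6 ξ⟩
    rw [h7, hesig a ha]
    exact K.peak _ (hθT a ha)


end Crest.Agent.R264.Co
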