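import Crest.Agent.R264.AIface
import Crest.Agent.R264.SAV

/-!
Row 264 (S0402), node A4c (`CoordStmt`), SEMIALGEBRAIC FACTS (helper369):

* `CoSA.kapV L t c x = L (polyMap t x - c)` is a polynomial map (`pol_kapV`), differentiable;
* `CoSA.sav_UU` : `κ '' (U ∩ ball p r)` is semialgebraic;  `CoSA.UU_eq` : it is the set
  `{y ∈ W | e y ∈ U}` for a chart with `B = ball p r`;
* `CoSA.sav_H`  : the graph of `Ht` (implicitly defined by the stratum) is semialgebraic.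
-/

set_option autoImplicit false

open Topology Filter Set Metric Complex

namespace Crest.Agent.R264.CoSA

open Crest.AlgGeometry.Semialg
open Crest.Agent.R264.JL (P sig ofR)

variable {N n m k r : ℕ}

/-- the chart map `L ∘ (polyMap t - c)` -/
noncomputable def kapV (L : (Fin n → ℂ) →ₗ[ℂ] EE m k) (t : Fin n → MvPolynomial (Fin N) ℂ)
    (c : Fin n → ℂ) (x : Fin N → ℂ) : EE m k := L (polyMap t x - c)

theorem pol_polyMap (t : Fin n → MvPolynomial (Fin N) ℂ) :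
    Pol (fun x : Fin N → ℂ => polyMap t x) := by
  refine Pol.pi fun i => ?_
  exact Pol.ceval (t i) Pol.id'

theorem pol_kapV (L : (Fin n → ℂ) →ₗ[ℂ] EE m k) (t : Fin n → MvPolynomial (Fin N) ℂ)
    (c : Fin n → ℂ) : Pol (kapV L t c) := by
  have h1 : Pol (fun x : Fin N → ℂ => polyMap t x - c) := (pol_polyMap t).sub (Pol.const c)
  exact (Pol.lin (L.restrictScalars ℝ)).comp h1

theorem differentiable_polyMap (t : Fin n → MvPolynomial (Fin N) ℂ) :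
    Differentiable ℂ (fun x : Fin N → ℂ => polyMap t x) := by
  refine differentiable_pi.2 fun i => ?_
  intro x
  have h2 : ∀ j : Fin N, AnalyticAt ℂ (fun x : Fin N → ℂ => x j) x := fun j =>
    ((ContinuousLinearMap.proj (R := ℂ) (φ := fun _ : Fin N => ℂ) j).analyticAt x)
  have h3 := AnalyticAt.aeval_mvPolynomial (A := ℂ) (B := ℂ) h2 (t i)
  have h4 : AnalyticAt ℂ (fun x : Fin N → ℂ => MvPolynomial.eval x (t i)) x := by
    simpa [MvPolynomial.aeval_eq_eval] using h3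
  exact h4.differentiableAt

theorem differentiable_kapV (L : (Fin n → ℂ) →ₗ[ℂ] EE m k) (t : Fin n → MvPolynomial (Fin N) ℂ)
    (c : Fin n → ℂ) : Differentiable ℂ (kapV L t c) := by
  have h1 : Differentiable ℂ (fun x : Fin N → ℂ => polyMap t x - c) :=
    (differentiable_polyMap t).sub_const c
  exact (LinearMap.toContinuousLinearMap L).differentiable.comp h1

theorem sav_ball (p : Fin N → ℂ) (ρ : ℝ) : SAV (ball p ρ) := by
  have : SAV {x : Fin N → ℂ | dist x p < ρ} :=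
    SAV.dist_lt Pol.id' (Pol.const p) (Pol.const ρ)
  exact this

theorem sav_ballR (p : Fin r → ℝ) (ρ : ℝ) : SAV (ball p ρ) := by
  have : SAV {x : Fin r → ℝ | dist x p < ρ} :=
    SAV.dist_lt Pol.id' (Pol.const p) (Pol.const ρ)
  exact this

theorem sav_ballP (p : P m k) (ρ : ℝ) : SAV (ball p ρ) := by
  have : SAV {x : P m k | dist x p < ρ} :=
    SAV.dist_lt Pol.id' (Pol.const p) (Pol.const ρ)
  exact this

theorem sav_ballE (p : EE m k) (ρ : ℝ) : SAV (ball p ρ) := by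
  have : SAV {x : EE m k | dist x p < ρ} :=
    SAV.dist_lt Pol.id' (Pol.const p) (Pol.const ρ)
  exact this

/-- `κ '' (U ∩ ball p ρ)` is semialgebraic -/
theorem sav_UU {U : Set (Fin N → ℂ)} (hU : IsSemialgebraic U) (p : Fin N → ℂ) (ρ : ℝ)
    {κ : (Fin N → ℂ) → EE m k} (hκ : Pol κ) : SAV (κ '' (U ∩ ball p ρ)) :=
  ((SAV.of_isSemialgebraic hU).inter (sav_ball p ρ)).image hκ

/-- in a chart with ambient neighbourhood `B` one has `{y ∈ W | e y ∈ U} = κ(U ∩ B)` -/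
theorem UU_eq {U B : Set (Fin N → ℂ)} {W : Set (EE m k)} {κ : (Fin N → ℂ) → EE m k}
    {e : EE m k → (Fin N → ℂ)} (e_mem : ∀ y ∈ W, e y ∈ B) (κ_e : ∀ y ∈ W, κ (e y) = y)
    (κ_mem : ∀ x ∈ closure U, x ∈ B → κ x ∈ W) (e_κ : ∀ x ∈ closure U, x ∈ B → e (κ x) = x) :
    {y | y ∈ W ∧ e y ∈ U} = κ '' (U ∩ B) := by
  ext y
  constructor
  · rintro ⟨hy, hyU⟩
    exact ⟨e y, ⟨hyU, e_mem y hy⟩, κ_e y hy⟩
  · rintro ⟨x, ⟨hxU, hxB⟩, rfl⟩
    refine ⟨κ_mem x (subset_closure hxU) hxB, ?_⟩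
    rw [e_κ x (subset_closure hxU) hxB]
    exact hxU

/-- the field `UUsa` of `GraphData` for `B = ball p ρ` and a polynomial `κ`. -/
theorem UUsa_of {U : Set (Fin N → ℂ)} (hU : IsSemialgebraic U) {p : Fin N → ℂ} {ρ : ℝ}
    {W : Set (EE m k)} {κ : (Fin N → ℂ) → EE m k} {e : EE m k → (Fin N → ℂ)} (hκ : Pol κ)
    (e_mem : ∀ y ∈ W, e y ∈ ball p ρ) (κ_e : ∀ y ∈ W, κ (e y) = y)
    (κ_mem : ∀ x ∈ closure U, x ∈ ball p ρ → κ x ∈ W)
    (e_κ : ∀ x ∈ closure U, x ∈ ball p ρ → e (κ x) = x) :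
    SAV {y | y ∈ W ∧ e y ∈ U} := by
  rw [UU_eq e_mem κ_e κ_mem e_κ]
  exact sav_UU hU p ρ hκ

/-- the graph of `Ht`, implicitly defined by the stratum `ε` on `T' ⊆ T`. -/
theorem sav_H {T : Set (Fin r → ℝ)} {ε : (Fin r → ℝ) → (Fin N → ℂ)}
    (hsa : SAV {p : (Fin r → ℝ) × (Fin N → ℂ) | p.1 ∈ T ∧ p.2 = ε p.1})
    {κ : (Fin N → ℂ) → EE m k} (hκ : Pol κ) {T' : Set (Fin r → ℝ)} (hT' : SAV T') (hTT : T' ⊆ T)
    {O : Set (P m k)} (hO : SAV O) :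
    SAV {p : P m k × (Fin k → ℝ) | p.1 ∈ O ∧
      ∃ τ ∈ T', κ (ε τ) = (p.1.1, ofR p.1.2 + I • ofR p.2)} := by
  have h1 : SAV {q : (P m k × (Fin k → ℝ)) × ((Fin r → ℝ) × (Fin N → ℂ)) |
      q.1.1 ∈ O ∧ (q.2.1 ∈ T' ∧ (q.2.1 ∈ T ∧ q.2.2 = ε q.2.1) ∧
        κ q.2.2 = (q.1.1.1, ofR q.1.1.2 + I • ofR q.1.2))} := by
    refine SAV.and ?_ (SAV.and ?_ (SAV.and ?_ ?_))
    · exact hO.preimage (g := fun q : (P m k × (Fin k → ℝ)) × ((Fin r → ℝ) × (Fin N → ℂ)) =>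
        q.1.1) (by fun_prop)
    · exact hT'.preimage (g := fun q : (P m k × (Fin k → ℝ)) × ((Fin r → ℝ) × (Fin N → ℂ)) =>
        q.2.1) (by fun_prop)
    · exact hsa.preimage (g := fun q : (P m k × (Fin k → ℝ)) × ((Fin r → ℝ) × (Fin N → ℂ)) =>
        q.2) (by fun_prop)
    · refine SAV.eq (hκ.comp (by fun_prop)) (Pol.prodMk (by fun_prop) ?_)
      refine Pol.pi fun i => ?_
      show Pol (fun q : (P m k × (Fin k → ℝ)) × ((Fin r → ℝ) × (Fin N → ℂ)) =>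
        ((q.1.1.2 i : ℝ) : ℂ) + I * ((q.1.2 i : ℝ) : ℂ))
      refine Pol.add (Pol.ofReal ?_) (Pol.cmul (Pol.const I) (Pol.ofReal ?_))
      · fun_prop
      · fun_prop
  have h2 := SAV.ex (V := P m k × (Fin k → ℝ)) (W := (Fin r → ℝ) × (Fin N → ℂ))
    (P := fun p q => p.1 ∈ O ∧ (q.1 ∈ T' ∧ (q.1 ∈ T ∧ q.2 = ε q.1) ∧
        κ q.2 = (p.1.1, ofR p.1.2 + I • ofR p.2))) h1
  refine (congrArg SAV ?_).mp h2
  ext p
  constructor
  · rintro ⟨⟨τ, x⟩, hO', hτ, ⟨_, hx⟩, hk⟩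
    refine ⟨hO', τ, hτ, ?_⟩
    rw [← hk]
    exact congrArg κ hx.symm
  · rintro ⟨hO', τ, hτ, hk⟩
    exact ⟨(τ, ε τ), hO', hτ, ⟨hTT hτ, rfl⟩, hk⟩

/-- the field `Hsa` of `GraphData`: if `s : O → T'` is the inverse of the parametrisation of the
stratum, i.e. `κ (ε (s a)) = sig Ht a`, and `τ ∈ T'` is determined by the `P`-part of `κ (ε τ)`. -/
theorem Hsa_of {T : Set (Fin r → ℝ)} {ε : (Fin r → ℝ) → (Fin N → ℂ)}
    (hsa : SAV {p : (Fin r → ℝ) × (Fin N → ℂ) | p.1 ∈ T ∧ p.2 = ε p.1})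
    {κ : (Fin N → ℂ) → EE m k} (hκ : Pol κ) {T' : Set (Fin r → ℝ)} (hT' : SAV T') (hTT : T' ⊆ T)
    {O : Set (P m k)} (hO : SAV O) {Ht : P m k → (Fin k → ℝ)} {s : P m k → (Fin r → ℝ)}
    (hs : ∀ a ∈ O, s a ∈ T') (hsig : ∀ a ∈ O, κ (ε (s a)) = sig Ht a)
    (hinj : ∀ τ ∈ T', ∀ a ∈ O, (κ (ε τ)).1 = a.1 → JL.reV (κ (ε τ)).2 = a.2 → τ = s a) :
    SAV {p : P m k × (Fin k → ℝ) | p.1 ∈ O ∧ p.2 = Ht p.1} := by
  refine (congrArg SAV ?_).mp (sav_H hsa hκ hT' hTT hO)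
  ext ⟨a, v⟩
  have hre : ∀ u v : Fin k → ℝ, JL.reV (ofR u + I • ofR v) = u := by
    intro u v
    funext i
    simp
  have him : ∀ u v : Fin k → ℝ, JL.imV (ofR u + I • ofR v) = v := by
    intro u v
    funext i
    simp
  constructor
  · rintro ⟨ha, τ, hτ, hk⟩
    refine ⟨ha, ?_⟩
    have h1 : (κ (ε τ)).1 = a.1 := by rw [hk]
    have h2 : JL.reV (κ (ε τ)).2 = a.2 := by rw [hk]; exact hre _ _
    have h3 := hinj τ hτ a ha h1 h2
    subst h3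
    rw [hsig a ha] at hk
    have h4 := congrArg (fun y : EE m k => JL.imV y.2) hk
    have h5 : JL.imV (sig Ht a).2 = Ht a := him _ _
    have h6 : JL.imV (ofR a.2 + I • ofR v) = v := him _ _
    have h7 : Ht a = v := by
      rw [← h5, ← h6]
      exact h4
    exact h7.symm
  · rintro ⟨ha, hv⟩
    refine ⟨ha, s a, hs a ha, ?_⟩
    rw [hsig a ha]
    have hv' : v = Ht a := hv
    rw [hv']
    rfl

end Crest.Agent.R264.CoSA
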