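import Crest.Agent.R264.CPDefs
import Crest.Agent.R264.Pk1
import Crest.Agent.R266.SCV

/-!
Row 264, Part A, node A8 (helper399): the `k` peak functions at `p0`, their second order
expansion and the control inequality.  Input: the (PK) property at `p0` only.
-/

set_option autoImplicit false
set_option linter.unusedSectionVars false

open Set Filter Topology Metric Complex Asymptotics

noncomputable section

namespace Crest.Agent.R264.Ctl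

open Crest.Agent.R264.Pk Crest.Agent.R266.SCV

variable {N m k : ℕ}

/-- the function `g q` in the chart -/
def fq (g : (Fin N → ℂ) → ℂ) (χ : EE m k → (Fin N → ℂ)) (q : QP N) (y : EE m k) : ℂ :=
  g (χ y) * qev q (χ y)

/-- the differential of `Re (g q)` at the origin vanishes on `ℂ^m × ℝ^k` -/
def Crit (g : (Fin N → ℂ) → ℂ) (χ : EE m k → (Fin N → ℂ)) (q : QP N) : Prop :=
  ∀ (z : Fin m → ℂ) (u : Fin k → ℝ), (fderiv ℂ (fq g χ q) 0 (z, cvec u)).re = 0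

lemma differentiable_qev (q : QP N) : Differentiable ℂ (qev q) := by
  unfold qev
  fun_prop

/-- input data of the node A8 -/
structure CtlHyp (g : (Fin N → ℂ) → ℂ) (K : Set (Fin N → ℂ)) (p0 : Fin N → ℂ)
    (κ : (Fin N → ℂ) → EE m k) (χ : EE m k → (Fin N → ℂ)) (q0 : QP N) (NN : Set (QP N)) :
    Prop where
  hg : Differentiable ℂ g
  hgp : g p0 ≠ 0
  hκ : DifferentiableAt ℂ κ p0
  hχ : ∀ᶠ y in 𝓝 0, DifferentiableAt ℂ χ y
  hχ0 : χ 0 = p0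
  hκχ : ∀ᶠ y in 𝓝 0, κ (χ y) = y
  hNN : NN ∈ 𝓝 q0
  hcrit : Crit g χ q0
  hPK : ∀ q ∈ NN, Crit g χ q → ∀ x ∈ K, x ≠ p0 → Fg g q x < Fg g q p0

variable {g : (Fin N → ℂ) → ℂ} {K : Set (Fin N → ℂ)} {p0 : Fin N → ℂ}
  {κ : (Fin N → ℂ) → EE m k} {χ : EE m k → (Fin N → ℂ)} {q0 : QP N} {NN : Set (QP N)}

/-! ### second order Taylor expansion -/

/-- the bilinear form of the second Taylor coefficient -/
def bil {E : Type*} [NormedAddCommGroup E] [NormedSpace ℂ E]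
    (p : FormalMultilinearSeries ℂ E ℂ) : E →L[ℂ] E →L[ℂ] ℂ :=
  ((continuousMultilinearCurryFin1 ℂ E ℂ).toContinuousLinearEquiv :
    (ContinuousMultilinearMap ℂ (fun _ : Fin 1 => E) ℂ) →L[ℂ] (E →L[ℂ] ℂ)) ∘L
    (p 2).curryLeft

lemma bil_apply {E : Type*} [NormedAddCommGroup E] [NormedSpace ℂ E]
    (p : FormalMultilinearSeries ℂ E ℂ) (x : E) : bil p x x = p 2 (fun _ => x) := by
  simp only [bil]
  show ((p 2).curryLeft x) _ = _
  rw [ContinuousMultilinearMap.curryLeft_apply]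
  congr 1
  funext i
  refine Fin.cases ?_ (fun j => ?_) i
  · rfl
  · simp

/-- Taylor expansion of order two at the origin -/
theorem taylor2 {E : Type*} [NormedAddCommGroup E] [NormedSpace ℂ E] {f : E → ℂ}
    (hf : AnalyticAt ℂ f 0) : ∃ B : E →L[ℂ] E →L[ℂ] ℂ, ∃ C r : ℝ, 0 < r ∧ 0 ≤ C ∧
      ∀ y, ‖y‖ < r → ‖f y - f 0 - fderiv ℂ f 0 y - B y y‖ ≤ C * ‖y‖ ^ 3 := by
  obtain ⟨p, hp⟩ := hf
  refine ⟨bil p, ?_⟩
  have h1 := hp.isBigO_sub_partialSum_pow 3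
  obtain ⟨C, hC⟩ := h1.bound
  obtain ⟨r, hr, hr'⟩ := Metric.eventually_nhds_iff.1 hC
  have h0 : f 0 = p 0 (fun _ => 0) := by
    have := hp.coeff_zero (fun _ => (0 : E))
    exact this.symm
  have hd : ∀ y, fderiv ℂ f 0 y = p 1 (fun _ => y) := by
    intro y
    rw [hp.hasFDerivAt.fderiv]
    rfl
  refine ⟨max C 0, r, hr, le_max_right _ _, fun y hy => ?_⟩
  have h2 := hr' (show dist y 0 < r by simpa using hy)
  rw [FormalMultilinearSeries.partialSum] at h2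
  simp only [Finset.sum_range_succ, Finset.sum_range_zero, zero_add] at h2
  have h3 : p 0 (fun _ : Fin 0 => y) = f 0 := by
    rw [h0]
    congr 1
    funext i
    exact i.elim0
  rw [h3, ← hd, ← bil_apply] at h2
  have h4 : f y - f 0 - fderiv ℂ f 0 y - bil p y y =
      f y - (f 0 + fderiv ℂ f 0 y + bil p y y) := by ring
  rw [h4]
  refine h2.trans ?_
  rw [norm_pow, Real.norm_eq_abs, abs_norm]
  gcongr
  exact le_max_left _ _

/-- Taylor expansion of order one at the origin -/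
theorem taylor1 {E : Type*} [NormedAddCommGroup E] [NormedSpace ℂ E] {f : E → ℂ}
    (hf : AnalyticAt ℂ f 0) : ∃ C r : ℝ, 0 < r ∧ 0 ≤ C ∧
      ∀ y, ‖y‖ < r → ‖f y - f 0 - fderiv ℂ f 0 y‖ ≤ C * ‖y‖ ^ 2 := by
  obtain ⟨B, C, r, hr, hC, h⟩ := taylor2 hf
  refine ⟨C + ‖B‖, min r 1, lt_min hr one_pos, by positivity, fun y hy => ?_⟩
  have h1 := h y (hy.trans_le (min_le_left _ _))
  have hy1 : ‖y‖ ≤ 1 := (hy.trans_le (min_le_right _ _)).le
  have h2 : ‖B y y‖ ≤ ‖B‖ * ‖y‖ ^ 2 := by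
    calc ‖B y y‖ ≤ ‖B‖ * ‖y‖ * ‖y‖ := B.le_opNorm₂ y y
      _ = ‖B‖ * ‖y‖ ^ 2 := by ring
  have h3 : ‖y‖ ^ 3 ≤ ‖y‖ ^ 2 := pow_le_pow_of_le_one (norm_nonneg _) hy1 (by norm_num)
  calc ‖f y - f 0 - fderiv ℂ f 0 y‖ = ‖(f y - f 0 - fderiv ℂ f 0 y - B y y) + B y y‖ := by
        congr 1; ring
    _ ≤ ‖f y - f 0 - fderiv ℂ f 0 y - B y y‖ + ‖B y y‖ := norm_add_le _ _
    _ ≤ C * ‖y‖ ^ 3 + ‖B‖ * ‖y‖ ^ 2 := add_le_add h1 h2
    _ ≤ C * ‖y‖ ^ 2 + ‖B‖ * ‖y‖ ^ 2 := by gcongr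
    _ = (C + ‖B‖) * ‖y‖ ^ 2 := by ring

/-- Taylor expansion of order zero at the origin -/
theorem taylor0 {E : Type*} [NormedAddCommGroup E] [NormedSpace ℂ E] {f : E → ℂ}
    (hf : AnalyticAt ℂ f 0) : ∃ C r : ℝ, 0 < r ∧ 0 ≤ C ∧
      ∀ y, ‖y‖ < r → ‖f y - f 0‖ ≤ C * ‖y‖ := by
  obtain ⟨C, r, hr, hC, h⟩ := taylor1 hf
  refine ⟨C + ‖fderiv ℂ f 0‖, min r 1, lt_min hr one_pos, by positivity, fun y hy => ?_⟩
  have h1 := h y (hy.trans_le (min_le_left _ _))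
  have hy1 : ‖y‖ ≤ 1 := (hy.trans_le (min_le_right _ _)).le
  have h2 : ‖fderiv ℂ f 0 y‖ ≤ ‖fderiv ℂ f 0‖ * ‖y‖ := ContinuousLinearMap.le_opNorm _ _
  have h3 : ‖y‖ ^ 2 ≤ ‖y‖ := by
    calc ‖y‖ ^ 2 ≤ ‖y‖ ^ 1 := pow_le_pow_of_le_one (norm_nonneg _) hy1 (by norm_num)
      _ = ‖y‖ := pow_one _
  calc ‖f y - f 0‖ = ‖(f y - f 0 - fderiv ℂ f 0 y) + fderiv ℂ f 0 y‖ := by
        congr 1; ring
    _ ≤ ‖f y - f 0 - fderiv ℂ f 0 y‖ + ‖fderiv ℂ f 0 y‖ := norm_add_le _ _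
    _ ≤ C * ‖y‖ ^ 2 + ‖fderiv ℂ f 0‖ * ‖y‖ := add_le_add h1 h2
    _ ≤ C * ‖y‖ + ‖fderiv ℂ f 0‖ * ‖y‖ := by gcongr
    _ = (C + ‖fderiv ℂ f 0‖) * ‖y‖ := by ring

/-! ### structure of critical differentials -/

lemma exists_nu {L : EE m k →L[ℂ] ℂ}
    (h : ∀ (z : Fin m → ℂ) (u : Fin k → ℝ), (L (z, cvec u)).re = 0) :
    ∃ ν : Fin k → ℝ, ∀ y : EE m k, L y = Complex.I * ∑ j, (ν j : ℂ) * y.2 j := by
  have h1 : ∀ z : Fin m → ℂ, L (z, 0) = 0 := by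
    intro z
    have ha := h z 0
    have hb := h (Complex.I • z) 0
    have h0 : (cvec (0 : Fin k → ℝ)) = 0 := by funext i; simp [cvec]
    rw [h0] at ha hb
    have hc : ((Complex.I • z, (0 : Fin k → ℂ)) : EE m k) = Complex.I • ((z, 0) : EE m k) := by
      simp
    rw [hc, map_smul, smul_eq_mul, Complex.I_mul_re, neg_eq_zero] at hb
    exact Complex.ext ha hb
  refine ⟨fun j => (L (0, Pi.single j 1)).im, fun y => ?_⟩
  have h2 : ∀ j : Fin k, L (0, Pi.single j 1) = Complex.I * ((L (0, Pi.single j 1)).im : ℂ) := by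
    intro j
    have h3 := h 0 (Pi.single j 1)
    have h4 : (cvec (Pi.single j (1 : ℝ)) : Fin k → ℂ) = Pi.single j 1 := by
      funext i
      by_cases hij : i = j
      · subst hij; simp [cvec]
      · simp [cvec, hij]
    rw [h4] at h3
    apply Complex.ext
    · rw [h3]; simp
    · simp
  have h5 : y = ((y.1, 0) : EE m k) + ∑ j, y.2 j • ((0, Pi.single j 1) : EE m k) := by
    refine Prod.ext ?_ ?_
    · simp [Prod.fst_sum]
    · simp only [Prod.snd_add, Prod.snd_sum, Prod.smul_snd, zero_add]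
      funext i
      simp [Finset.sum_apply, Pi.single_apply]
  conv_lhs => rw [h5]
  rw [map_add, h1, zero_add, map_sum, Finset.mul_sum]
  refine Finset.sum_congr rfl (fun j _ => ?_)
  rw [map_smul, smul_eq_mul]
  conv_lhs => rw [h2 j]
  ring

lemma linInd_nu (ν0 : Fin k → ℝ) {δ : ℝ} (hδ : δ ≠ 0) (hs : δ + ∑ j, ν0 j ≠ 0) :
    LinearIndependent ℝ (fun i : Fin k => ν0 + δ • (Pi.single i (1 : ℝ) : Fin k → ℝ)) := by
  rw [Fintype.linearIndependent_iff]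
  intro a ha
  have h1 : ∀ j, (∑ i, a i) * ν0 j + δ * a j = 0 := by
    intro j
    have h2 := congrFun ha j
    simp only [Finset.sum_apply, Pi.smul_apply, Pi.add_apply, smul_eq_mul, Pi.zero_apply,
      Pi.single_apply, mul_ite, mul_one, mul_zero] at h2
    rw [← h2]
    simp only [mul_add, Finset.sum_add_distrib, ← Finset.sum_mul]
    congr 1
    simp only [mul_ite, mul_zero, Finset.sum_ite_eq, Finset.mem_univ, if_true]
    ring
  have h3 : (∑ i, a i) * (δ + ∑ j, ν0 j) = 0 := by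
    have h4 : ∑ j, ((∑ i, a i) * ν0 j + δ * a j) = 0 := Finset.sum_eq_zero (fun j _ => h1 j)
    rw [Finset.sum_add_distrib, ← Finset.mul_sum, ← Finset.mul_sum] at h4
    linarith
  have h5 : ∑ i, a i = 0 := (mul_eq_zero.1 h3).resolve_right hs
  intro i
  have h6 := h1 i
  rw [h5, zero_mul, zero_add] at h6
  exact (mul_eq_zero.1 h6).resolve_left hδ

/-! ### linear and quadratic test polynomials at `x` -/

/-- the linear polynomial `Σ c_i (z_i - x_i)` -/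
def qL (c x : Fin N → ℂ) : QP N := (-∑ i, c i * x i, c, 0)

lemma qev_qL (c x z : Fin N → ℂ) : qev (qL c x) z = ∑ i, c i * (z i - x i) := by
  simp only [qev, qL, Pi.zero_apply, zero_mul, Finset.sum_const_zero, add_zero, mul_sub,
    Finset.sum_sub_distrib]
  ring

/-- the quadratic polynomial `a (Σ c_i (z_i - x_i))^2` -/
def qS (a : ℂ) (c x : Fin N → ℂ) : QP N :=
  (a * (∑ i, c i * x i) ^ 2, fun i => -2 * a * (∑ j, c j * x j) * c i, fun i j => a * (c i * c j))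

lemma qev_qS (a : ℂ) (c x z : Fin N → ℂ) :
    qev (qS a c x) z = a * (∑ i, c i * (z i - x i)) ^ 2 := by
  have h1 : ∑ i, c i * (z i - x i) = (∑ i, c i * z i) - ∑ i, c i * x i := by
    simp only [mul_sub, Finset.sum_sub_distrib]
  have h2 : ∑ i, ∑ j, a * (c i * c j) * (z i * z j) = a * (∑ i, c i * z i) ^ 2 := by
    rw [sq, Finset.sum_mul_sum, Finset.mul_sum]
    refine Finset.sum_congr rfl (fun i _ => ?_)
    rw [Finset.mul_sum]
    exact Finset.sum_congr rfl (fun j _ => by ring)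
  have h3 : ∀ T : ℂ, ∑ i, -2 * a * T * c i * z i = -2 * a * T * ∑ i, c i * z i := by
    intro T
    rw [Finset.mul_sum]
    exact Finset.sum_congr rfl (fun i _ => by ring)
  simp only [qev, qS]
  rw [h2, h3, h1]
  ring

/-- coefficients of the complex linear form `Λ` -/
def cf (Λ : (Fin N → ℂ) →L[ℂ] ℂ) (i : Fin N) : ℂ := Λ (Pi.single i 1)

lemma cf_sum (Λ : (Fin N → ℂ) →L[ℂ] ℂ) (v : Fin N → ℂ) : ∑ i, cf Λ i * v i = Λ v := by
  have h1 : v = ∑ i, v i • (Pi.single i (1 : ℂ) : Fin N → ℂ) := by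
    funext j
    simp [Finset.sum_apply, Pi.single_apply]
  conv_rhs => rw [h1]
  rw [map_sum]
  refine Finset.sum_congr rfl (fun i _ => ?_)
  rw [map_smul, smul_eq_mul, cf, mul_comm]

section main

variable (H : CtlHyp g K p0 κ χ q0 NN)

include H

lemma analytic_χ : AnalyticAt ℂ χ 0 := analyticAt_of_eventually_differentiableAt H.hχ

lemma analytic_g (x : Fin N → ℂ) : AnalyticAt ℂ g x :=
  analyticAt_of_eventually_differentiableAt (Eventually.of_forall (fun y => H.hg y))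

lemma analytic_gχ : AnalyticAt ℂ (fun y => g (χ y)) 0 :=
  (analytic_g H (χ 0)).comp (analytic_χ H)

lemma analytic_fq (q : QP N) : AnalyticAt ℂ (fq g χ q) 0 := by
  have h1 : AnalyticAt ℂ (qev q) (χ 0) :=
    analyticAt_of_eventually_differentiableAt (Eventually.of_forall (differentiable_qev q))
  exact (analytic_gχ H).mul (h1.comp (analytic_χ H))

lemma fq_add (q q' : QP N) : fq g χ (q + q') = fun y => fq g χ q y + fq g χ q' y := by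
  funext y
  simp only [fq, qev_add]
  ring

lemma fderiv_fq_add (q q' : QP N) :
    fderiv ℂ (fq g χ (q + q')) 0 = fderiv ℂ (fq g χ q) 0 + fderiv ℂ (fq g χ q') 0 := by
  rw [fq_add H]
  exact fderiv_fun_add (analytic_fq H q).differentiableAt (analytic_fq H q').differentiableAt

/-- `κ'(p0) ∘ χ'(0) = id` -/
lemma deriv_κχ (y : EE m k) : fderiv ℂ κ p0 (fderiv ℂ χ 0 y) = y := by
  have h1 : HasFDerivAt χ (fderiv ℂ χ 0) 0 := (analytic_χ H).differentiableAt.hasFDerivAt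
  have h2 : HasFDerivAt κ (fderiv ℂ κ p0) (χ 0) := by
    rw [H.hχ0]; exact H.hκ.hasFDerivAt
  have h3 := h2.comp 0 h1
  have h4 : (κ ∘ χ) =ᶠ[𝓝 0] id := by
    filter_upwards [H.hκχ] with y hy
    exact hy
  have h5 := h3.unique ((hasFDerivAt_id (0 : EE m k)).congr_of_eventuallyEq h4)
  exact DFunLike.congr_fun h5 y

/-- the affine function `x ↦ L (κ'(p0) (x - p0))` read in the chart -/
def Af (κ : (Fin N → ℂ) → EE m k) (χ : EE m k → (Fin N → ℂ)) (p0 : Fin N → ℂ)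
    (L : EE m k →L[ℂ] ℂ) (y : EE m k) : ℂ := L (fderiv ℂ κ p0 (χ y - p0))

lemma analytic_Af (L : EE m k →L[ℂ] ℂ) : AnalyticAt ℂ (Af κ χ p0 L) 0 := by
  have h1 : AnalyticAt ℂ (fun y => χ y - p0) 0 := (analytic_χ H).sub analyticAt_const
  exact ((L ∘L fderiv ℂ κ p0).analyticAt _).comp h1

lemma Af_zero (L : EE m k →L[ℂ] ℂ) : Af κ χ p0 L 0 = 0 := by
  simp [Af, H.hχ0]

lemma fderiv_Af (L : EE m k →L[ℂ] ℂ) : fderiv ℂ (Af κ χ p0 L) 0 = L := by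
  have h1 : HasFDerivAt (fun y => χ y - p0) (fderiv ℂ χ 0) 0 :=
    (analytic_χ H).differentiableAt.hasFDerivAt.sub_const p0
  have h2 : HasFDerivAt (fun y => (L ∘L fderiv ℂ κ p0) (χ y - p0))
      ((L ∘L fderiv ℂ κ p0) ∘L (fderiv ℂ χ 0)) 0 :=
    (L ∘L fderiv ℂ κ p0).hasFDerivAt.comp 0 h1
  have h3 : fderiv ℂ (Af κ χ p0 L) 0 = (L ∘L fderiv ℂ κ p0) ∘L (fderiv ℂ χ 0) := h2.fderiv
  rw [h3]
  refine ContinuousLinearMap.ext (fun y => ?_)
  simp only [ContinuousLinearMap.comp_apply]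
  rw [deriv_κχ H]

lemma sum_cf_Af (L : EE m k →L[ℂ] ℂ) (a : ℂ) (y : EE m k) :
    ∑ i, (a * cf (L ∘L fderiv ℂ κ p0) i) * (χ y i - p0 i) = a * Af κ χ p0 L y := by
  have h1 := cf_sum (L ∘L fderiv ℂ κ p0) (χ y - p0)
  simp only [Pi.sub_apply] at h1
  simp only [mul_assoc]
  rw [← Finset.mul_sum, h1]
  rfl

/-- the linear test polynomial with differential `a L` at the origin of the chart -/
def lamP (g : (Fin N → ℂ) → ℂ) (κ : (Fin N → ℂ) → EE m k) (p0 : Fin N → ℂ)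
    (L : EE m k →L[ℂ] ℂ) (a : ℂ) : QP N :=
  qL (fun i => (a / g p0) * cf (L ∘L fderiv ℂ κ p0) i) p0

lemma fq_lamP (L : EE m k →L[ℂ] ℂ) (a : ℂ) (y : EE m k) :
    fq g χ (lamP g κ p0 L a) y = g (χ y) * ((a / g p0) * Af κ χ p0 L y) := by
  rw [fq, lamP, qev_qL, sum_cf_Af H]

lemma fderiv_lamP (L : EE m k →L[ℂ] ℂ) (a : ℂ) :
    fderiv ℂ (fq g χ (lamP g κ p0 L a)) 0 = a • L := by
  have h1 : fq g χ (lamP g κ p0 L a) = fun y => g (χ y) * ((a / g p0) * Af κ χ p0 L y) := by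
    funext y; exact fq_lamP H L a y
  have h2 : HasFDerivAt (fun y => g (χ y)) (fderiv ℂ (fun y => g (χ y)) 0) 0 :=
    (analytic_gχ H).differentiableAt.hasFDerivAt
  have h3 : HasFDerivAt (Af κ χ p0 L) L 0 := by
    have := (analytic_Af H L).differentiableAt.hasFDerivAt
    rwa [fderiv_Af H] at this
  have h4 := h2.mul (h3.const_mul (a / g p0))
  rw [h1]
  refine h4.fderiv.trans ?_
  refine ContinuousLinearMap.ext (fun y => ?_)
  have hgp := H.hgp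
  simp only [Af_zero H, H.hχ0, mul_zero, add_apply,
    smul_apply, smul_eq_mul, zero_mul, add_zero]
  field_simp

/-- the quadratic test polynomial with leading part `a L^2` -/
def sqP (g : (Fin N → ℂ) → ℂ) (κ : (Fin N → ℂ) → EE m k) (p0 : Fin N → ℂ)
    (L : EE m k →L[ℂ] ℂ) (a : ℂ) : QP N :=
  qS (a / g p0) (fun i => 1 * cf (L ∘L fderiv ℂ κ p0) i) p0

lemma fq_sqP (L : EE m k →L[ℂ] ℂ) (a : ℂ) (y : EE m k) :
    fq g χ (sqP g κ p0 L a) y = g (χ y) * ((a / g p0) * (Af κ χ p0 L y) ^ 2) := by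
  rw [fq, sqP, qev_qS, sum_cf_Af H, one_mul]

lemma fderiv_sqP (L : EE m k →L[ℂ] ℂ) (a : ℂ) :
    fderiv ℂ (fq g χ (sqP g κ p0 L a)) 0 = 0 := by
  have h1 : fq g χ (sqP g κ p0 L a) = fun y => g (χ y) * ((a / g p0) * (Af κ χ p0 L y) ^ 2) := by
    funext y; exact fq_sqP H L a y
  have h2 : HasFDerivAt (fun y => g (χ y)) (fderiv ℂ (fun y => g (χ y)) 0) 0 :=
    (analytic_gχ H).differentiableAt.hasFDerivAt
  have h3 : HasFDerivAt (Af κ χ p0 L) L 0 := by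
    have := (analytic_Af H L).differentiableAt.hasFDerivAt
    rwa [fderiv_Af H] at this
  have h4 := h2.mul ((h3.pow 2).const_mul (a / g p0))
  rw [h1]
  refine h4.fderiv.trans ?_
  refine ContinuousLinearMap.ext (fun y => ?_)
  simp [Af_zero H]

/-- size of the quadratic test polynomial -/
lemma sqP_expand (L : EE m k →L[ℂ] ℂ) (hL : ∀ y, ‖L y‖ ≤ ‖y‖) (a : ℂ) (ha : ‖a‖ ≤ 1) :
    ∃ C r : ℝ, 0 < r ∧ 0 ≤ C ∧ ∀ y, ‖y‖ < r →
      ‖fq g χ (sqP g κ p0 L a) y - a * (L y) ^ 2‖ ≤ C * ‖y‖ ^ 3 := by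
  obtain ⟨C1, r1, hr1, hC1, h1⟩ := taylor0 (analytic_gχ H)
  obtain ⟨C2, r2, hr2, hC2, h2⟩ := taylor1 (analytic_Af H L)
  set G : ℝ := ‖g p0‖ with hG
  have hGp : 0 < G := norm_pos_iff.2 H.hgp
  refine ⟨(C1 / G) * (1 + C2) ^ 2 + C2 * (2 + C2), min (min r1 r2) 1,
    lt_min (lt_min hr1 hr2) one_pos, by positivity, fun y hy => ?_⟩
  have hy1 : ‖y‖ < r1 := hy.trans_le ((min_le_left _ _).trans (min_le_left _ _))
  have hy2 : ‖y‖ < r2 := hy.trans_le ((min_le_left _ _).trans (min_le_right _ _))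
  have hyo : ‖y‖ ≤ 1 := (hy.trans_le (min_le_right _ _)).le
  have hy0 := norm_nonneg y
  have e1 := h1 y hy1
  have e2 := h2 y hy2
  rw [Af_zero H, fderiv_Af H, sub_zero] at e2
  rw [H.hχ0] at e1
  set A := Af κ χ p0 L y with hA
  have hLy := hL y
  have hA1 : ‖A‖ ≤ (1 + C2) * ‖y‖ := by
    calc ‖A‖ = ‖(A - L y) + L y‖ := by congr 1; ring
      _ ≤ ‖A - L y‖ + ‖L y‖ := norm_add_le _ _
      _ ≤ C2 * ‖y‖ ^ 2 + ‖y‖ := add_le_add e2 hLy
      _ ≤ C2 * ‖y‖ + ‖y‖ := by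
          have : ‖y‖ ^ 2 ≤ ‖y‖ := by nlinarith
          gcongr
      _ = (1 + C2) * ‖y‖ := by ring
  have h5 : fq g χ (sqP g κ p0 L a) y - a * (L y) ^ 2 =
      ((g (χ y) - g p0) / g p0) * (a * A ^ 2) + a * ((A - L y) * (A + L y)) := by
    rw [fq_sqP H, ← hA]
    field_simp [H.hgp]
    ring
  rw [h5]
  have h6 : ‖(g (χ y) - g p0) / g p0 * (a * A ^ 2)‖ ≤ (C1 / G) * (1 + C2) ^ 2 * ‖y‖ ^ 3 := by
    rw [norm_mul, norm_div, norm_mul, norm_pow]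
    calc ‖g (χ y) - g p0‖ / ‖g p0‖ * (‖a‖ * ‖A‖ ^ 2)
        ≤ (C1 * ‖y‖) / G * (1 * ((1 + C2) * ‖y‖) ^ 2) := by gcongr
      _ = (C1 / G) * (1 + C2) ^ 2 * ‖y‖ ^ 3 := by ring
  have h7 : ‖a * ((A - L y) * (A + L y))‖ ≤ C2 * (2 + C2) * ‖y‖ ^ 3 := by
    rw [norm_mul, norm_mul]
    calc ‖a‖ * (‖A - L y‖ * ‖A + L y‖)
        ≤ 1 * ((C2 * ‖y‖ ^ 2) * ((1 + C2) * ‖y‖ + ‖y‖)) := by
          gcongr
          exact (norm_add_le _ _).trans (add_le_add hA1 hLy)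
      _ = C2 * (2 + C2) * ‖y‖ ^ 3 := by ring
  calc _ ≤ _ := norm_add_le _ _
    _ ≤ (C1 / G) * (1 + C2) ^ 2 * ‖y‖ ^ 3 + C2 * (2 + C2) * ‖y‖ ^ 3 := add_le_add h6 h7
    _ = _ := by ring

omit H in
/-- the coordinate functionals of `ℂ^m × ℂ^k` -/
def co : Fin m ⊕ Fin k → (EE m k →L[ℂ] ℂ)
  | Sum.inl i => (ContinuousLinearMap.proj i) ∘L (ContinuousLinearMap.fst ℂ _ _)
  | Sum.inr j => (ContinuousLinearMap.proj j) ∘L (ContinuousLinearMap.snd ℂ _ _)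

omit H in
lemma co_le (l : Fin m ⊕ Fin k) (y : EE m k) : ‖co l y‖ ≤ ‖y‖ := by
  rcases l with i | j
  · exact (norm_le_pi_norm y.1 i).trans (norm_fst_le y)
  · exact (norm_le_pi_norm y.2 j).trans (norm_snd_le y)

omit H in
lemma exists_co {y : EE m k} (hy : y ≠ 0) : ∃ l, ‖co l y‖ = ‖y‖ := by
  by_contra hcon
  push Not at hcon
  have hpos : 0 < ‖y‖ := norm_pos_iff.2 hy
  have h1 : ∀ l, ‖co l y‖ < ‖y‖ := fun l => lt_of_le_of_ne (co_le l y) (hcon l)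
  have h2 : ‖y.1‖ < ‖y‖ := (pi_norm_lt_iff hpos).2 (fun i => h1 (Sum.inl i))
  have h3 : ‖y.2‖ < ‖y‖ := (pi_norm_lt_iff hpos).2 (fun i => h1 (Sum.inr i))
  have h4 : ‖y‖ < ‖y‖ := by
    conv_lhs => rw [Prod.norm_def]
    exact max_lt h2 h3
  exact lt_irrefl _ h4

omit H in
/-- the four units -/
def un : Fin 4 → ℂ := ![1, -1, Complex.I, -Complex.I]

omit H in
lemma norm_un (j : Fin 4) : ‖un j‖ ≤ 1 := by
  fin_cases j <;> simp [un]

omit H in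
lemma exists_un (w : ℂ) : ∃ j, ‖w‖ / 2 ≤ (un j * w).re := by
  have h1 := Complex.norm_le_abs_re_add_abs_im w
  rcases le_total |w.im| |w.re| with h | h
  · rcases le_total 0 w.re with h0 | h0
    · refine ⟨0, ?_⟩
      have : (un 0 * w).re = w.re := by simp [un]
      rw [this]
      rw [abs_of_nonneg h0] at h h1
      linarith
    · refine ⟨1, ?_⟩
      have : (un 1 * w).re = -w.re := by simp [un]
      rw [this]
      rw [abs_of_nonpos h0] at h h1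
      linarith
  · rcases le_total 0 w.im with h0 | h0
    · refine ⟨3, ?_⟩
      have : (un 3 * w).re = w.im := by simp [un]
      rw [this]
      rw [abs_of_nonneg h0] at h h1
      linarith
    · refine ⟨2, ?_⟩
      have : (un 2 * w).re = -w.im := by simp [un]
      rw [this]
      rw [abs_of_nonpos h0] at h h1
      linarith

omit H in
lemma tendsto_lamP (g : (Fin N → ℂ) → ℂ) (κ : (Fin N → ℂ) → EE m k) (p0 : Fin N → ℂ)
    (L : EE m k →L[ℂ] ℂ) (a : ℂ) :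
    Tendsto (fun ε : ℝ => lamP g κ p0 L (ε * a)) (𝓝 0) (𝓝 (0 : QP N)) := by
  have h1 : Continuous (fun ε : ℝ => lamP g κ p0 L (ε * a)) := by
    unfold lamP qL
    fun_prop
  have h2 : lamP g κ p0 L (((0 : ℝ) : ℂ) * a) = 0 := by
    unfold lamP qL
    simp
    rfl
  have h3 := h1.tendsto 0
  rwa [h2] at h3

omit H in
lemma tendsto_sqP (g : (Fin N → ℂ) → ℂ) (κ : (Fin N → ℂ) → EE m k) (p0 : Fin N → ℂ)
    (L : EE m k →L[ℂ] ℂ) (a : ℂ) :
    Tendsto (fun ε : ℝ => sqP g κ p0 L (ε * a)) (𝓝 0) (𝓝 (0 : QP N)) := by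
  have h1 : Continuous (fun ε : ℝ => sqP g κ p0 L (ε * a)) := by
    unfold sqP qS
    fun_prop
  have h2 : sqP g κ p0 L (((0 : ℝ) : ℂ) * a) = 0 := by
    unfold sqP qS
    simp
    exact ⟨rfl, rfl⟩
  have h3 := h1.tendsto 0
  rwa [h2] at h3

/-- the expansion of one peak function -/
lemma expand_one (q : QP N) (ν : Fin k → ℝ)
    (hν : ∀ y : EE m k, fderiv ℂ (fq g χ q) 0 y = Complex.I * ∑ j, (ν j : ℂ) * y.2 j) :
    ∃ (Q : (Fin m → ℂ) →L[ℂ] (Fin m → ℂ) →L[ℂ] ℂ) (C : ℝ), 0 ≤ C ∧ ∀ᶠ y in 𝓝 (0 : EE m k),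
      ‖fq g χ q 0 - fq g χ q y - tauF ν Q y‖ ≤
        C * (‖y.1‖ ^ 3 + ‖y.1‖ * ‖y.2‖ + ‖y.2‖ ^ 2) := by
  obtain ⟨B, C, r, hr, hC, h⟩ := taylor2 (analytic_fq H q)
  set J : (Fin m → ℂ) →L[ℂ] EE m k := ContinuousLinearMap.inl ℂ (Fin m → ℂ) (Fin k → ℂ) with hJ
  set Q : (Fin m → ℂ) →L[ℂ] (Fin m → ℂ) →L[ℂ] ℂ :=
    -((ContinuousLinearMap.compL ℂ (Fin m → ℂ) (EE m k) ℂ).flip J ∘L (B ∘L J)) with hQ
  have hQa : ∀ z z', Q z z' = -(B (z, 0) (z', 0)) := by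
    intro z z'
    simp [hQ, hJ]
  refine ⟨Q, C + 2 * ‖B‖, by positivity, ?_⟩
  have hev : ∀ᶠ y in 𝓝 (0 : EE m k), ‖y‖ < min r 1 := by
    filter_upwards [ball_mem_nhds (0 : EE m k) (lt_min hr one_pos)] with y hy
    simpa using hy
  filter_upwards [hev] with y hy
  have hyr : ‖y‖ < r := hy.trans_le (min_le_left _ _)
  have hy1 : ‖y‖ ≤ 1 := (hy.trans_le (min_le_right _ _)).le
  have h1 := h y hyr
  rw [hν] at h1
  have hn1 := norm_fst_le y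
  have hn2 := norm_snd_le y
  have h01 := norm_nonneg y.1
  have h02 := norm_nonneg y.2
  have h3 : B y y - B (y.1, 0) (y.1, 0) = B (y.1, 0) (0, y.2) + B (0, y.2) y := by
    have e1 : y = ((y.1, 0) : EE m k) + ((0, y.2) : EE m k) := by
      refine Prod.ext ?_ ?_ <;> simp
    have e2 : B y y = B (y.1, 0) y + B (0, y.2) y := by
      have e4 : B y = B (y.1, 0) + B (0, y.2) := by rw [← map_add, ← e1]
      exact DFunLike.congr_fun e4 y
    have e3 : B (y.1, 0) y = B (y.1, 0) (y.1, 0) + B (y.1, 0) (0, y.2) := by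
      rw [← map_add, ← e1]
    rw [e2, e3]
    ring
  have h4 : fq g χ q 0 - fq g χ q y - tauF ν Q y =
      -(fq g χ q y - fq g χ q 0 - Complex.I * ∑ j, (ν j : ℂ) * y.2 j - B y y) -
        (B y y - B (y.1, 0) (y.1, 0)) := by
    rw [tauF, hQa]
    ring
  rw [h4, h3]
  have n1 : ‖((y.1, 0) : EE m k)‖ = ‖y.1‖ := by simp [Prod.norm_def]
  have n2 : ‖((0, y.2) : EE m k)‖ = ‖y.2‖ := by simp [Prod.norm_def]
  have b1 : ‖B (y.1, 0) (0, y.2)‖ ≤ ‖B‖ * (‖y.1‖ * ‖y.2‖) := by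
    have := B.le_opNorm₂ ((y.1, 0) : EE m k) ((0, y.2) : EE m k)
    rw [n1, n2] at this
    linarith
  have hmax : ‖y‖ ≤ ‖y.1‖ + ‖y.2‖ := by
    conv_lhs => rw [Prod.norm_def]
    exact max_le (by linarith) (by linarith)
  have b2 : ‖B (0, y.2) y‖ ≤ ‖B‖ * (‖y.1‖ * ‖y.2‖ + ‖y.2‖ ^ 2) := by
    have h5 := B.le_opNorm₂ ((0, y.2) : EE m k) y
    rw [n2] at h5
    refine h5.trans ?_
    calc ‖B‖ * ‖y.2‖ * ‖y‖ ≤ ‖B‖ * ‖y.2‖ * (‖y.1‖ + ‖y.2‖) := by gcongr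
      _ = ‖B‖ * (‖y.1‖ * ‖y.2‖ + ‖y.2‖ ^ 2) := by ring
  have b3 : ‖y‖ ^ 3 ≤ ‖y.1‖ ^ 3 + ‖y.2‖ ^ 2 := by
    have hyy : ‖y‖ = max ‖y.1‖ ‖y.2‖ := Prod.norm_def y
    rcases max_cases ‖y.1‖ ‖y.2‖ with ⟨hm, -⟩ | ⟨hm, -⟩
    · rw [hyy, hm]
      nlinarith [sq_nonneg ‖y.2‖]
    · rw [hyy, hm]
      have h6 : ‖y.2‖ ≤ 1 := hn2.trans hy1
      have h7 : ‖y.2‖ ^ 3 ≤ ‖y.2‖ ^ 2 := pow_le_pow_of_le_one h02 h6 (by norm_num)
      have h8 : 0 ≤ ‖y.1‖ ^ 3 := by positivity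
      linarith
  have hB0 := norm_nonneg B
  calc ‖-(fq g χ q y - fq g χ q 0 - Complex.I * ∑ j, (ν j : ℂ) * y.2 j - B y y) -
        (B (y.1, 0) (0, y.2) + B (0, y.2) y)‖
      ≤ ‖-(fq g χ q y - fq g χ q 0 - Complex.I * ∑ j, (ν j : ℂ) * y.2 j - B y y)‖ +
        ‖B (y.1, 0) (0, y.2) + B (0, y.2) y‖ := norm_sub_le _ _
    _ ≤ C * ‖y‖ ^ 3 + (‖B (y.1, 0) (0, y.2)‖ + ‖B (0, y.2) y‖) := by
        rw [norm_neg]
        exact add_le_add h1 (norm_add_le _ _)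
    _ ≤ C * (‖y.1‖ ^ 3 + ‖y.2‖ ^ 2) +
        (‖B‖ * (‖y.1‖ * ‖y.2‖) + ‖B‖ * (‖y.1‖ * ‖y.2‖ + ‖y.2‖ ^ 2)) := by
        gcongr
    _ ≤ (C + 2 * ‖B‖) * (‖y.1‖ ^ 3 + ‖y.1‖ * ‖y.2‖ + ‖y.2‖ ^ 2) := by
        have hx1 : 0 ≤ C * (‖y.1‖ * ‖y.2‖) := by positivity
        have hx2 : 0 ≤ ‖B‖ * ‖y.1‖ ^ 3 := by positivity
        have hx3 : 0 ≤ ‖B‖ * ‖y.2‖ ^ 2 := by positivity
        nlinarith

/-- the control inequality for one peak function -/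
lemma ctrl_one {q : QP N} (hq : q ∈ interior NN) (hc : Crit g χ q) :
    ∃ C : ℝ, 0 ≤ C ∧ ∀ᶠ y in 𝓝 (0 : EE m k), χ y ∈ K →
      ‖y.1‖ ^ 2 + ‖y.2‖ ^ 2 ≤ C * (Fg g q p0 - Fg g q (χ y)) := by
  -- choose `ε`
  have hε : ∀ᶠ ε : ℝ in 𝓝[>] (0 : ℝ), ∀ (l : Fin m ⊕ Fin k) (j : Fin 4),
      q + sqP g κ p0 (co l) ((ε : ℂ) * un j) ∈ NN := by
    refine Filter.Eventually.filter_mono nhdsWithin_le_nhds ?_
    rw [Filter.eventually_all]
    intro l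
    rw [Filter.eventually_all]
    intro j
    have h1 : Tendsto (fun ε : ℝ => q + sqP g κ p0 (co l) (ε * un j)) (𝓝 0) (𝓝 (q + 0)) :=
      tendsto_const_nhds.add (tendsto_sqP g κ p0 (co l) (un j))
    rw [add_zero] at h1
    exact h1 (mem_interior_iff_mem_nhds.1 hq)
  obtain ⟨ε, hεN, hε0⟩ := (hε.and self_mem_nhdsWithin).exists
  have hε0' : (0 : ℝ) < ε := hε0
  -- uniform constants
  have hexp : ∀ (l : Fin m ⊕ Fin k) (j : Fin 4), ∃ C : ℝ, 0 ≤ C ∧ ∀ᶠ y in 𝓝 (0 : EE m k),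
      ‖fq g χ (sqP g κ p0 (co l) (un j)) y - un j * (co l y) ^ 2‖ ≤ C * ‖y‖ ^ 3 := by
    intro l j
    obtain ⟨C, r, hr, hC, h⟩ := sqP_expand H (co l) (co_le l) (un j) (norm_un j)
    refine ⟨C, hC, ?_⟩
    filter_upwards [ball_mem_nhds (0 : EE m k) hr] with y hy
    exact h y (by simpa using hy)
  choose Cs hCs0 hCs using hexp
  set C : ℝ := ∑ l, ∑ j, Cs l j with hCdef
  have hC0 : 0 ≤ C := Finset.sum_nonneg (fun l _ => Finset.sum_nonneg (fun j _ => hCs0 l j))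
  have hCle : ∀ l j, Cs l j ≤ C := by
    intro l j
    calc Cs l j ≤ ∑ j, Cs l j := Finset.single_le_sum (fun j _ => hCs0 l j) (Finset.mem_univ j)
      _ ≤ C := Finset.single_le_sum (f := fun l => ∑ j, Cs l j)
        (fun l _ => Finset.sum_nonneg (fun j _ => hCs0 l j)) (Finset.mem_univ l)
  have hall : ∀ᶠ y in 𝓝 (0 : EE m k), ∀ (l : Fin m ⊕ Fin k) (j : Fin 4),
      ‖fq g χ (sqP g κ p0 (co l) (un j)) y - un j * (co l y) ^ 2‖ ≤ C * ‖y‖ ^ 3 := by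
    rw [Filter.eventually_all]
    intro l
    rw [Filter.eventually_all]
    intro j
    filter_upwards [hCs l j] with y hy
    exact hy.trans (by gcongr; exact hCle l j)
  refine ⟨8 / ε, by positivity, ?_⟩
  have hsmall : ∀ᶠ y in 𝓝 (0 : EE m k), ‖y‖ < 1 / (4 * (C + 1)) := by
    have h1 : (0 : ℝ) < 1 / (4 * (C + 1)) := by positivity
    filter_upwards [ball_mem_nhds (0 : EE m k) h1] with y hy
    simpa using hy
  filter_upwards [hall, hsmall] with y hy hys hyK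
  rcases eq_or_ne y 0 with rfl | hy0
  · rw [H.hχ0]
    simp
  obtain ⟨l, hl⟩ := exists_co hy0
  obtain ⟨j, hj⟩ := exists_un ((co l y) ^ 2)
  rw [norm_pow, hl] at hj
  -- the (PK) inequality
  have hcrit' : Crit g χ (q + sqP g κ p0 (co l) (ε * un j)) := by
    intro z u
    rw [fderiv_fq_add H, fderiv_sqP H, add_zero]
    exact hc z u
  have hsp0 : Fg g (sqP g κ p0 (co l) (ε * un j)) p0 = 0 := by
    have h1 := fq_sqP H (co l) (ε * un j) 0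
    rw [Af_zero H] at h1
    have h2 : g p0 * qev (sqP g κ p0 (co l) (ε * un j)) p0 = 0 := by
      have h3 : fq g χ (sqP g κ p0 (co l) (ε * un j)) 0 =
        g p0 * qev (sqP g κ p0 (co l) (ε * un j)) p0 := by rw [fq, H.hχ0]
      rw [← h3, h1]
      simp
    rw [Fg, h2]
    simp
  have hpk : Fg g (q + sqP g κ p0 (co l) (ε * un j)) (χ y) ≤
      Fg g (q + sqP g κ p0 (co l) (ε * un j)) p0 := by
    rcases eq_or_ne (χ y) p0 with h1 | h1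
    · rw [h1]
    · exact (H.hPK _ (hεN l j) hcrit' _ hyK h1).le
  rw [Fg_add, Fg_add, hsp0, add_zero] at hpk
  have hlin : Fg g (sqP g κ p0 (co l) (ε * un j)) (χ y) =
      ε * (fq g χ (sqP g κ p0 (co l) (un j)) y).re := by
    have h1 : Fg g (sqP g κ p0 (co l) (ε * un j)) (χ y) =
      (fq g χ (sqP g κ p0 (co l) (ε * un j)) y).re := rfl
    rw [h1, fq_sqP H, fq_sqP H]
    have h2 : g (χ y) * (ε * un j / g p0 * Af κ χ p0 (co l) y ^ 2) =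
      (ε : ℂ) * (g (χ y) * (un j / g p0 * Af κ χ p0 (co l) y ^ 2)) := by ring
    rw [h2, Complex.re_ofReal_mul]
  rw [hlin] at hpk
  have h5 := hy l j
  have h6 : (un j * co l y ^ 2).re - C * ‖y‖ ^ 3 ≤ (fq g χ (sqP g κ p0 (co l) (un j)) y).re := by
    have h7 := (Complex.abs_re_le_norm (fq g χ (sqP g κ p0 (co l) (un j)) y -
      un j * (co l y) ^ 2)).trans h5
    rw [Complex.sub_re] at h7
    have := (abs_le.1 h7).1
    linarith
  have hypos : 0 < ‖y‖ := norm_pos_iff.2 hy0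
  have h8 : C * ‖y‖ ^ 3 ≤ ‖y‖ ^ 2 / 4 := by
    have h9 : C * ‖y‖ ≤ 1 / 4 := by
      calc C * ‖y‖ ≤ (C + 1) * (1 / (4 * (C + 1))) := by gcongr; linarith
        _ = 1 / 4 := by field_simp
    nlinarith [sq_nonneg ‖y‖]
  have h9 : ‖y‖ ^ 2 / 4 ≤ (fq g χ (sqP g κ p0 (co l) (un j)) y).re := by linarith
  have h10 : ε * (‖y‖ ^ 2 / 4) ≤ Fg g q p0 - Fg g q (χ y) := by
    have := mul_le_mul_of_nonneg_left h9 hε0'.le
    linarith
  have hn1 := norm_fst_le y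
  have hn2 := norm_snd_le y
  have h11 : ‖y.1‖ ^ 2 + ‖y.2‖ ^ 2 ≤ 2 * ‖y‖ ^ 2 := by
    have a1 : ‖y.1‖ ^ 2 ≤ ‖y‖ ^ 2 := by gcongr
    have a2 : ‖y.2‖ ^ 2 ≤ ‖y‖ ^ 2 := by gcongr
    linarith
  calc ‖y.1‖ ^ 2 + ‖y.2‖ ^ 2 ≤ 2 * ‖y‖ ^ 2 := h11
    _ = 8 / ε * (ε * (‖y‖ ^ 2 / 4)) := by field_simp; ring
    _ ≤ 8 / ε * (Fg g q p0 - Fg g q (χ y)) := by gcongr

/-- **A8** -/
theorem ctl : ∃ (h : Fin k → (Fin N → ℂ) → ℂ) (M : Fin k → ℝ) (ν : Fin k → Fin k → ℝ)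
    (Q : Fin k → (Fin m → ℂ) →L[ℂ] (Fin m → ℂ) →L[ℂ] ℂ) (Cp : ℝ), 0 ≤ Cp ∧
    (∀ i, Differentiable ℂ (h i)) ∧ (∀ i, h i p0 = (M i : ℂ)) ∧
    (∀ i, ∀ x ∈ K, x ≠ p0 → (h i x).re < M i) ∧ LinearIndependent ℝ ν ∧
    ∀ᶠ y in 𝓝 (0 : EE m k), ∀ i,
      ‖(M i : ℂ) - h i (χ y) - tauF (ν i) (Q i) y‖
        ≤ Cp * (‖y.1‖ ^ 3 + ‖y.1‖ * ‖y.2‖ + ‖y.2‖ ^ 2) ∧
      (χ y ∈ K → ‖y.1‖ ^ 2 + ‖y.2‖ ^ 2 ≤ Cp * (M i - (h i (χ y)).re)) := by
  obtain ⟨ν0, hν0⟩ := exists_nu H.hcrit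
  -- choose `δ`
  have h1 : ∀ᶠ δ : ℝ in 𝓝[>] (0 : ℝ), ∀ i : Fin k,
      q0 + lamP g κ p0 (co (Sum.inr i)) ((δ : ℂ) * Complex.I) ∈ interior NN := by
    refine Filter.Eventually.filter_mono nhdsWithin_le_nhds ?_
    rw [Filter.eventually_all]
    intro i
    have h2 : Tendsto (fun δ : ℝ => q0 + lamP g κ p0 (co (Sum.inr i)) (δ * Complex.I)) (𝓝 0)
        (𝓝 (q0 + 0)) := tendsto_const_nhds.add (tendsto_lamP g κ p0 _ Complex.I)
    rw [add_zero] at h2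
    exact h2 (isOpen_interior.mem_nhds (mem_interior_iff_mem_nhds.2 H.hNN))
  have h2 : ∀ᶠ δ : ℝ in 𝓝[>] (0 : ℝ), δ + ∑ j, ν0 j ≠ 0 := by
    rcases eq_or_ne (∑ j, ν0 j) 0 with h0 | h0
    · filter_upwards [self_mem_nhdsWithin] with δ hδ
      rw [h0, add_zero]
      exact (ne_of_gt hδ)
    · refine Filter.Eventually.filter_mono nhdsWithin_le_nhds ?_
      have h3 : Tendsto (fun δ : ℝ => δ + ∑ j, ν0 j) (𝓝 0) (𝓝 (0 + ∑ j, ν0 j)) :=
        tendsto_id.add tendsto_const_nhds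
      rw [zero_add] at h3
      exact h3.eventually_ne h0
  obtain ⟨δ, ⟨hδ1, hδ2⟩, hδ0⟩ := ((h1.and h2).and self_mem_nhdsWithin).exists
  have hδ0' : (0 : ℝ) < δ := hδ0
  set q : Fin k → QP N := fun i => q0 + lamP g κ p0 (co (Sum.inr i)) (δ * Complex.I) with hq
  set ν : Fin k → Fin k → ℝ := fun i => ν0 + δ • (Pi.single i (1 : ℝ) : Fin k → ℝ) with hν
  have hfd : ∀ i, ∀ y : EE m k, fderiv ℂ (fq g χ (q i)) 0 y =
      Complex.I * ∑ j, (ν i j : ℂ) * y.2 j := by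
    intro i y
    have e1 : fderiv ℂ (fq g χ (q i)) 0 = fderiv ℂ (fq g χ q0) 0 +
        ((δ : ℂ) * Complex.I) • (co (Sum.inr i) : EE m k →L[ℂ] ℂ) := by
      rw [hq]
      simp only
      rw [fderiv_fq_add H, fderiv_lamP H]
    rw [e1, add_apply, smul_apply, hν0 y]
    have e2 : (co (Sum.inr i) : EE m k →L[ℂ] ℂ) y = y.2 i := rfl
    rw [e2]
    have e3 : ∑ j, (ν i j : ℂ) * y.2 j = (∑ j, (ν0 j : ℂ) * y.2 j) + δ * y.2 i := by
      rw [hν]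
      simp only [Pi.add_apply, Pi.smul_apply, smul_eq_mul, Complex.ofReal_add,
        Complex.ofReal_mul, add_mul, Finset.sum_add_distrib]
      congr 1
      rw [Finset.sum_eq_single i]
      · simp
      · intro b _ hb
        simp [hb]
      · simp
    rw [e3, smul_eq_mul]
    ring
  have hcr : ∀ i, Crit g χ (q i) := by
    intro i z u
    rw [hfd i]
    have : ∑ j, (ν i j : ℂ) * (cvec u) j = ((∑ j, ν i j * u j : ℝ) : ℂ) := by
      simp [cvec]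
    rw [this]
    simp
  have hex : ∀ i, ∃ (Q : (Fin m → ℂ) →L[ℂ] (Fin m → ℂ) →L[ℂ] ℂ) (C : ℝ), 0 ≤ C ∧
      ∀ᶠ y in 𝓝 (0 : EE m k), ‖fq g χ (q i) 0 - fq g χ (q i) y - tauF (ν i) Q y‖ ≤
        C * (‖y.1‖ ^ 3 + ‖y.1‖ * ‖y.2‖ + ‖y.2‖ ^ 2) := fun i => expand_one H (q i) (ν i) (hfd i)
  choose Q CQ hCQ0 hCQ using hex
  have hct : ∀ i, ∃ C : ℝ, 0 ≤ C ∧ ∀ᶠ y in 𝓝 (0 : EE m k), χ y ∈ K →
      ‖y.1‖ ^ 2 + ‖y.2‖ ^ 2 ≤ C * (Fg g (q i) p0 - Fg g (q i) (χ y)) :=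
    fun i => ctrl_one H (hδ1 i) (hcr i)
  choose CC hCC0 hCC using hct
  set h : Fin k → (Fin N → ℂ) → ℂ := fun i x =>
    g x * qev (q i) x - Complex.I * ((g p0 * qev (q i) p0).im : ℂ) with hh
  set M : Fin k → ℝ := fun i => Fg g (q i) p0 with hM
  have hf0 : ∀ i, fq g χ (q i) 0 = g p0 * qev (q i) p0 := fun i => by rw [fq, H.hχ0]
  have hMh : ∀ i y, (M i : ℂ) - h i (χ y) = fq g χ (q i) 0 - fq g χ (q i) y := by
    intro i y
    rw [hf0, hM, hh]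
    simp only [Fg, fq]
    have := Complex.re_add_im (g p0 * qev (q i) p0)
    linear_combination this
  have hre : ∀ i x, (h i x).re = Fg g (q i) x := by
    intro i x
    rw [hh]
    simp [Fg]
  set Cp : ℝ := (∑ i, CQ i) + ∑ i, CC i with hCp
  have hCp1 : ∀ i, CQ i ≤ Cp := by
    intro i
    have := Finset.single_le_sum (f := CQ) (fun i _ => hCQ0 i) (Finset.mem_univ i)
    have h0 : 0 ≤ ∑ i, CC i := Finset.sum_nonneg (fun i _ => hCC0 i)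
    linarith
  have hCp2 : ∀ i, CC i ≤ Cp := by
    intro i
    have := Finset.single_le_sum (f := CC) (fun i _ => hCC0 i) (Finset.mem_univ i)
    have h0 : 0 ≤ ∑ i, CQ i := Finset.sum_nonneg (fun i _ => hCQ0 i)
    linarith
  have hlt : ∀ i, ∀ x ∈ K, x ≠ p0 → Fg g (q i) x < Fg g (q i) p0 := fun i x hx hxp =>
    H.hPK _ (interior_subset (hδ1 i)) (hcr i) x hx hxp
  have hle : ∀ i, ∀ x ∈ K, Fg g (q i) x ≤ Fg g (q i) p0 := by
    intro i x hx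
    rcases eq_or_ne x p0 with rfl | hne
    · exact le_rfl
    · exact (hlt i x hx hne).le
  refine ⟨h, M, ν, Q, Cp, add_nonneg (Finset.sum_nonneg fun i _ => hCQ0 i)
    (Finset.sum_nonneg fun i _ => hCC0 i), ?_, ?_, ?_, linInd_nu ν0 hδ0'.ne' hδ2, ?_⟩
  · intro i
    exact (H.hg.mul (differentiable_qev (q i))).sub_const _
  · intro i
    rw [hM, hh]
    simp only [Fg]
    have := Complex.re_add_im (g p0 * qev (q i) p0)
    linear_combination -this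
  · intro i x hx hxp
    rw [hre]
    exact hlt i x hx hxp
  · rw [Filter.eventually_all]
    intro i
    filter_upwards [hCQ i, hCC i] with y hy1 hy2
    refine ⟨?_, fun hyK => ?_⟩
    · rw [hMh]
      refine hy1.trans ?_
      gcongr
      exact hCp1 i
    · rw [hre]
      refine (hy2 hyK).trans ?_
      have h5 := hle i _ hyK
      exact mul_le_mul_of_nonneg_right (hCp2 i) (sub_nonneg.2 h5)

end main

end Crest.Agent.R264.Ctl
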