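import Crest.Agent.R264.AIface
import Crest.Agent.R264.Ctl

/-!
Row 264, Part A, node A8 (helper399): `AI.CtrlStmt` from `Ctl.ctl`.
-/

set_option autoImplicit false
set_option linter.unusedSectionVars false

open Set Filter Topology Metric Complex

noncomputable section

namespace Crest.Agent.R264.Ctl

open Crest.Agent.R264.Pk Crest.Agent.R266.SCV

lemma differentiable_eval {N : ℕ} (g : MvPolynomial (Fin N) ℂ) :
    Differentiable ℂ (fun x : Fin N → ℂ => MvPolynomial.eval x g) := by
  induction g using MvPolynomial.induction_on with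
  | C a => simp
  | add p q hp hq =>
    simp only [map_add]
    exact hp.add hq
  | mul_X p n hp =>
    simp only [map_mul, MvPolynomial.eval_X]
    exact hp.mul (differentiable_apply n)

theorem ctrlStmt : AI.CtrlStmt := by
  intro N m k U g W e B κ hW h0W he hB hκ heB hκe hg0 hpk
  obtain ⟨c₀, δ, hδ, hc₀, hPK⟩ := hpk
  have heat : ∀ y ∈ W, DifferentiableAt ℂ e y := fun y hy => he.differentiableAt (hW.mem_nhds hy)
  have hfd : ∀ c : QP N, ∀ v : EE m k,
      fderiv ℂ (fq (fun x => MvPolynomial.eval x g) e c) 0 v =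
        fderiv ℂ (AI.gq g c) (e 0) (fderiv ℂ e 0 v) := by
    intro c v
    have h1 : DifferentiableAt ℂ (AI.gq g c) (e 0) := by
      have : Differentiable ℂ (AI.gq g c) :=
        (differentiable_eval g).mul (differentiable_qev c)
      exact this _
    have h2 : fq (fun x => MvPolynomial.eval x g) e c = AI.gq g c ∘ e := rfl
    rw [h2, fderiv_comp _ h1 (heat 0 h0W)]
    rfl
  have hcv : ∀ u : Fin k → ℝ, (cvec u : Fin k → ℂ) = JL.ofR u := fun u => rfl
  have H : CtlHyp (fun x => MvPolynomial.eval x g) (closure U) (e 0) κ e c₀ (ball c₀ δ) :=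
    { hg := differentiable_eval g
      hgp := hg0
      hκ := hκ.differentiableAt (hB.mem_nhds (heB 0 h0W))
      hχ := by
        filter_upwards [hW.mem_nhds h0W] with y hy using heat y hy
      hχ0 := rfl
      hκχ := by
        filter_upwards [hW.mem_nhds h0W] with y hy using hκe y hy
      hNN := ball_mem_nhds _ hδ
      hcrit := by
        intro z u
        rw [hfd]
        exact hc₀ _ ⟨(z, u), rfl⟩
      hPK := by
        intro c hc hcr x hx hxp
        have := hPK c (by rwa [mem_ball, dist_eq_norm] at hc) ?_ x hx hxp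
        · exact this
        · rintro v ⟨ξ, rfl⟩
          have h3 := hcr ξ.1 ξ.2
          rw [hfd] at h3
          exact h3 }
  obtain ⟨h, M, ν, Q, Cp, hCp, hh, hM, hlt, hν, hev⟩ := ctl H
  have hev2 : ∀ᶠ y in 𝓝 (0 : EE m k), y ∈ W := hW.mem_nhds h0W
  obtain ⟨ρ, hρ, hball⟩ := Metric.eventually_nhds_iff_ball.1 (hev.and hev2)
  refine ⟨h, M, ν, Q, Cp, ρ, hρ, fun y hy => (hball y hy).2, hh, hM, hlt, hν, ?_, ?_⟩
  · intro i y hy
    exact ((hball y hy).1 i).1
  · intro i y hy hyU
    exact ((hball y hy).1 i).2 (subset_closure hyU)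

end Crest.Agent.R264.Ctl
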