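import Mathlib
import Crest.Agent.R264.DIface

/-!
Row 264, Part D, field `ss` of `DA.Hyp`: if `A ∈ g` vanishes at a point of `D`, then `ad A` is
diagonalisable on `CX g` with purely imaginary eigenvalues.
-/

set_option autoImplicit false

open scoped ComplexConjugate

namespace Crest.Agent.R264.DA

variable {g : Type*} [LieRing g] [LieAlgebra ℝ g]

/-- uniqueness for `u' = - μ u` -/
lemma exp_of_deriv {u : ℝ → ℂ} {μ : ℂ} (h : ∀ t, HasDerivAt u (-(μ * u t)) t) (t : ℝ) :
    u t * Complex.exp (μ * t) = u 0 := by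
  have hd : ∀ t : ℝ, HasDerivAt (fun t : ℝ => u t * Complex.exp (μ * t)) 0 t := by
    intro t
    have h1 : HasDerivAt (fun t : ℝ => Complex.exp (μ * t)) (Complex.exp (μ * t) * μ) t := by
      have h2 : HasDerivAt (fun t : ℝ => μ * (t : ℂ)) μ t := by
        simpa using (Complex.ofRealCLM.hasDerivAt (x := t)).const_mul μ
      exact h2.cexp
    exact ((h t).mul h1).congr_deriv (by ring)
  have := is_const_of_deriv_eq_zero (f := fun t : ℝ => u t * Complex.exp (μ * t))
    (fun t => (hd t).differentiableAt) (fun t => (hd t).deriv) t 0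
  simpa using this

lemma re_zero_of_bounded {u : ℝ → ℂ} {μ : ℂ} (h : ∀ t, HasDerivAt u (-(μ * u t)) t)
    {C : ℝ} (hb : ∀ t, ‖u t‖ ≤ C) (h0 : u 0 ≠ 0) : μ.re = 0 := by
  have key : ∀ t : ℝ, ‖u 0‖ ≤ C * Real.exp (μ.re * t) := by
    intro t
    have h1 := exp_of_deriv h t
    have h2 : ‖u 0‖ = ‖u t‖ * Real.exp (μ.re * t) := by
      rw [← h1, norm_mul, Complex.norm_exp]
      simp
    rw [h2]
    exact mul_le_mul_of_nonneg_right (hb t) (Real.exp_pos _).le
  have hpos : 0 < ‖u 0‖ := norm_pos_iff.mpr h0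
  have hC : 0 < C := lt_of_lt_of_le hpos (hb 0)
  by_contra hre
  have hlim : Filter.Tendsto (fun n : ℕ => C * Real.exp (-(n : ℝ))) Filter.atTop
      (nhds (C * 0)) := by
    refine Filter.Tendsto.const_mul _ ?_
    exact Real.tendsto_exp_neg_atTop_nhds_zero.comp tendsto_natCast_atTop_atTop
  have hle : ∀ n : ℕ, ‖u 0‖ ≤ C * Real.exp (-(n : ℝ)) := by
    intro n
    have := key (-(n : ℝ) / μ.re)
    rwa [mul_div_cancel₀ _ hre] at this
  have := ge_of_tendsto' hlim hle
  linarith

/-- `ImDiag` from a bounded one-parameter family. -/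
theorem imDiag_of_bounded (A : g) (T : ℝ → (g →ₗ[ℝ] g)) (h0 : ∀ Y, T 0 Y = Y)
    (hb : ∀ (Y : g) (l : g →ₗ[ℝ] ℝ), ∃ C : ℝ, ∀ t, |l (T t Y)| ≤ C)
    (hd : ∀ (Y : g) (l : g →ₗ[ℝ] ℝ) (t : ℝ),
      HasDerivAt (fun s => l (T s Y)) (-(l (T t ⁅A, Y⁆))) t) :
    ImDiag (CX.of A) := by
  -- complexified functionals
  set F : (g →ₗ[ℝ] ℝ) → ℝ → CX g → ℂ := fun l t X =>
    ((l (T t X.re) : ℝ) : ℂ) + Complex.I * ((l (T t X.im) : ℝ) : ℂ) with hF
  have Fadd : ∀ l t X Y, F l t (X + Y) = F l t X + F l t Y := by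
    intro l t X Y
    simp only [hF, CX.add_re, CX.add_im, map_add]
    push_cast
    ring
  have Fsmul : ∀ l t (c : ℂ) X, F l t (c • X) = c * F l t X := by
    intro l t c X
    simp only [hF, CX.smul_re, CX.smul_im, map_add, map_sub, map_smul, smul_eq_mul]
    push_cast
    conv_rhs => rw [← Complex.re_add_im c]
    have hI : Complex.I * Complex.I = -1 := Complex.I_mul_I
    linear_combination (-(c.im : ℂ) * ((l (T t X.im) : ℝ) : ℂ)) * hI
  have Fderiv : ∀ l t X, HasDerivAt (fun s => F l s X) (-(F l t ⁅CX.of A, X⁆)) t := by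
    intro l t X
    have h1 := (hd X.re l t).ofReal_comp
    have h2 := ((hd X.im l t).ofReal_comp).const_mul Complex.I
    refine (h1.add h2).congr_deriv ?_
    simp only [hF, CX.lie_re, CX.lie_im, CX.of_re, CX.of_im, zero_lie, sub_zero, add_zero]
    push_cast
    ring
  have Fbd : ∀ l X, ∃ C : ℝ, ∀ t, ‖F l t X‖ ≤ C := by
    intro l X
    obtain ⟨C1, hC1⟩ := hb X.re l
    obtain ⟨C2, hC2⟩ := hb X.im l
    refine ⟨C1 + C2, fun t => ?_⟩
    refine (norm_add_le _ _).trans (add_le_add ?_ ?_)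
    · rw [Complex.norm_real]; exact hC1 t
    · rw [norm_mul, Complex.norm_I, one_mul, Complex.norm_real]; exact hC2 t
  have Fsep : ∀ X, (∀ l, F l 0 X = 0) → X = 0 := by
    intro X hX
    have hre : ∀ l : g →ₗ[ℝ] ℝ, l X.re = 0 ∧ l X.im = 0 := by
      intro l
      have := hX l
      simp only [hF, h0] at this
      constructor
      · simpa using congrArg Complex.re this
      · simpa using congrArg Complex.im this
    ext
    · exact (Module.forall_dual_apply_eq_zero_iff ℝ _).mp fun l => (hre l).1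
    · exact (Module.forall_dual_apply_eq_zero_iff ℝ _).mp fun l => (hre l).2
  have Fneg : ∀ l t X Y, F l t (X - Y) = F l t X - F l t Y := by
    intro l t X Y
    have := Fadd l t (X - Y) Y
    rw [sub_add_cancel] at this
    rw [this]; ring
  -- eigenvectors have imaginary eigenvalues
  have eig : ∀ (μ : ℂ) (w : CX g), ⁅CX.of A, w⁆ = μ • w → w ≠ 0 → μ.re = 0 := by
    intro μ w hw hne
    by_contra hre
    apply hne
    apply Fsep
    intro l
    by_contra hl
    obtain ⟨C, hC⟩ := Fbd l w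
    apply hre
    refine re_zero_of_bounded (u := fun t => F l t w) (fun t => ?_) hC hl
    have := Fderiv l t w
    rwa [hw, Fsmul] at this
  intro μ v hv
  have hmain : ⁅CX.of A, v⁆ = μ • v := by
    rw [← sub_eq_zero]
    set w := ⁅CX.of A, v⁆ - μ • v with hw
    have hAw : ⁅CX.of A, w⁆ = μ • w := by
      rw [← sub_eq_zero, ← hv, hw, lie_sub, lie_smul, smul_sub, smul_smul, two_mul, add_smul]
      abel
    by_contra hne
    have hre := eig μ w hAw hne
    apply hne
    apply Fsep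
    intro l
    by_contra hl
    obtain ⟨C, hC⟩ := Fbd l v
    -- s(t) e^{μ t} = s(0) - u(0) t
    have hu : ∀ t, F l t w * Complex.exp (μ * t) = F l 0 w := fun t =>
      exp_of_deriv (u := fun t => F l t w) (fun t => by
        have := Fderiv l t w
        rwa [hAw, Fsmul] at this) t
    have hs : ∀ t : ℝ, HasDerivAt
        (fun t : ℝ => F l t v * Complex.exp (μ * t) + F l 0 w * (t : ℂ)) 0 t := by
      intro t
      have h1 : HasDerivAt (fun t : ℝ => Complex.exp (μ * t)) (Complex.exp (μ * t) * μ) t := by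
        have h2 : HasDerivAt (fun t : ℝ => μ * (t : ℂ)) μ t := by
          simpa using (Complex.ofRealCLM.hasDerivAt (x := t)).const_mul μ
        exact h2.cexp
      have h2 : HasDerivAt (fun t : ℝ => F l 0 w * (t : ℂ)) (F l 0 w) t := by
        simpa using (Complex.ofRealCLM.hasDerivAt (x := t)).const_mul (F l 0 w)
      refine (((Fderiv l t v).mul h1).add h2).congr_deriv ?_
      have e : F l t ⁅CX.of A, v⁆ = F l t w + μ * F l t v := by
        rw [hw, Fneg, Fsmul]; ring
      rw [e, ← hu t]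
      ring
    have hconst : ∀ t : ℝ, F l t v * Complex.exp (μ * t) + F l 0 w * (t : ℂ) = F l 0 v := by
      intro t
      have := is_const_of_deriv_eq_zero
        (f := fun t : ℝ => F l t v * Complex.exp (μ * t) + F l 0 w * (t : ℂ))
        (fun t => (hs t).differentiableAt) (fun t => (hs t).deriv) t 0
      simpa using this
    have hbd : ∀ n : ℕ, ‖F l 0 w‖ * (n : ℝ) ≤ 2 * C := by
      intro n
      have h1 := hconst (n : ℝ)
      have h2 : F l 0 w * ((n : ℝ) : ℂ) = F l 0 v - F l (n : ℝ) v * Complex.exp (μ * ((n : ℝ) : ℂ)) := by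
        rw [← h1]; ring
      have h3 : ‖F l 0 w * ((n : ℝ) : ℂ)‖ = ‖F l 0 w‖ * (n : ℝ) := by
        rw [norm_mul, Complex.norm_real, Real.norm_natCast]
      have h4 : ‖Complex.exp (μ * ((n : ℝ) : ℂ))‖ = 1 := by
        rw [Complex.norm_exp]; simp [hre]
      rw [← h3, h2]
      refine (norm_sub_le _ _).trans ?_
      rw [norm_mul, h4, mul_one, two_mul]
      exact add_le_add (hC 0) (hC _)
    have hpos : 0 < ‖F l 0 w‖ := norm_pos_iff.mpr hl
    obtain ⟨n, hn⟩ := exists_nat_gt (2 * C / ‖F l 0 w‖)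
    rw [div_lt_iff₀ hpos] at hn
    have := hbd n
    linarith [mul_comm (n : ℝ) ‖F l 0 w‖]
  exact ⟨hmain, fun hne => eig μ v hmain hne⟩

/-- Field `ss` of `DA.Hyp` for a `Pack`. -/
theorem pack_ss {E : Type*} [NormedAddCommGroup E] [NormedSpace ℂ E] {D : Set E}
    (P : Pack D g) (hD : IsOpen D) {x : E} (hx : x ∈ D) :
    ∀ A ∈ P.stab hD hx, (CX.cc g).σ A = A → ImDiag A := by
  intro A hA hfix
  have hA2 := CX.eq_of_fixed hfix
  have hz : P.ev A.re x = 0 := by
    have : P.evC A x = 0 := hA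
    rw [hA2, P.evC_of] at this
    exact this
  rw [hA2]
  refine imDiag_of_bounded A.re
    (fun t => ((P.Ad (P.flow_pair A.re t) : g ≃ₗ⁅ℝ⁆ g) : g →ₗ[ℝ] g)) ?_ ?_ ?_
  · intro Y
    -- `Ad (φ_0) = id`
    change P.Ad (P.flow_pair A.re 0) Y = Y
    rw [← sub_eq_zero]
    refine P.inj hD hx (fun y hy => ?_)
    have h1 := P.ev_Ad (P.flow_pair A.re 0) Y y hy
    rw [(P.isFlow A.re).zero y hy] at h1
    have h2 : fderiv ℂ (P.flow A.re 0) y = ContinuousLinearMap.id ℂ E := by
      have : P.flow A.re 0 =ᶠ[nhds y] id :=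
        Filter.eventually_of_mem (hD.mem_nhds hy) fun z hz => (P.isFlow A.re).zero z hz
      rw [this.fderiv_eq]; exact fderiv_id
    rw [h2] at h1
    rw [map_sub, Pi.sub_apply, h1]
    simp
  · intro Y l
    exact P.Ad_bdd A.re x hx hz (P.flow_pair A.re) Y l
  · intro Y l t
    exact P.Ad_deriv A.re Y l (P.flow_pair A.re) t

end Crest.Agent.R264.DA
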