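import Crest.Agent.R264.EntC
import Crest.Agent.R264.DIface

/-!
Row 264, node D8(f) (helper551): the field `nocurve` of `DA.Hyp` for `Pack.stab`.
-/

set_option autoImplicit false

open Set Filter Topology Metric

noncomputable section

namespace Crest.Agent.R264.Ent

variable {E : Type*} [NormedAddCommGroup E] [NormedSpace ℂ E] [FiniteDimensional ℂ E]

theorem nocurve' {D : Set E} {g : Type*} [LieRing g] [LieAlgebra ℝ g] (P : Pack D g)
    (hD : IsOpen D) (hb : Bornology.IsBounded D) {x : E} (hx : x ∈ D) (y : CX g) (l : ℝ)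
    (hσ : (CX.cc g).σ y ∈ P.stab hD hx) (hy : y ∉ P.stab hD hx) (hl : l < 0)
    (hbr : ⁅y, (CX.cc g).σ y⁆ ∈ P.stab hD hx)
    (heq : ⁅⁅y, (CX.cc g).σ y⁆, y⁆ = (l : ℂ) • y) : False := by
  refine hy ?_
  rw [P.mem_stab] at hσ hbr ⊢
  refine main_fin hD hb (y := P.evC y) (ys := P.evC ((CX.cc g).σ y))
    (h := P.evC ⁅y, (CX.cc g).σ y⁆) (P.evC_hol _) (P.evC_hol _)
    (fun z hz => P.evC_lie hD _ _ hz) hl ?_ hx hσ hbr ?_
  · intro z hz
    rw [← P.evC_lie hD _ _ hz, heq, map_smul]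
    rfl
  · intro ω hω
    have hfix : (CX.cc g).σ (ω • y + (starRingEnd ℂ ω) • (CX.cc g).σ y)
        = ω • y + (starRingEnd ℂ ω) • (CX.cc g).σ y := by
      rw [(CX.cc g).add, (CX.cc g).smul, (CX.cc g).smul, (CX.cc g).inv, Complex.conj_conj,
        add_comm]
    set A : g := (ω • y + (starRingEnd ℂ ω) • (CX.cc g).σ y).re with hA
    have h1 : P.ev A = fun z => ω • P.evC y z + (starRingEnd ℂ ω) • P.evC ((CX.cc g).σ y) z := by
      rw [← P.evC_of A, hA, ← CX.eq_of_fixed hfix, map_add, map_smul, map_smul]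
      rfl
    rw [← h1]
    exact ⟨P.flow A, (P.isFlow A).hol, (P.isFlow A).maps, (P.isFlow A).zero,
      fun z hz t => P.flow_deriv A z hz t⟩

/-- the field `nocurve` of `DA.Hyp` -/
theorem nocurve {D : Set E} {g : Type*} [LieRing g] [LieAlgebra ℝ g] (P : Pack D g)
    (hD : IsOpen D) (hb : Bornology.IsBounded D) {x : E} (hx : x ∈ D)
    (hperp : ∀ Y, DA.Perp (P.stab hD hx) Y → Y ∈ P.stab hD hx) :
    ∀ (y : CX g) (l : ℝ), DA.Perp (P.stab hD hx) ((CX.cc g).σ y) → y ∉ P.stab hD hx → l < 0 →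
      ⁅y, (CX.cc g).σ y⁆ ∈ P.stab hD hx → ⁅⁅y, (CX.cc g).σ y⁆, y⁆ = (l : ℂ) • y → False :=
  fun y l h1 h2 h3 h4 h5 => nocurve' P hD hb hx y l (hperp _ h1) h2 h3 h4 h5

end Crest.Agent.R264.Ent
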