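import Crest.Agent.R264.DIface
import Crest.Agent.R264.AutLem
import Crest.Agent.R264.CartanU

/-!
Row 264 (S0402), part D8 (h) and the assembly of Theorem D (helper469).
-/

set_option autoImplicit false

open Set Filter Topology Complex
open scoped ComplexConjugate

namespace Crest.Agent.R264

open Crest.AlgGeometry.Semialg

namespace Sym

section Flow

variable {E : Type*} [NormedAddCommGroup E] [NormedSpace ℂ E]
variable {D : Set E} {g : Type*} [LieRing g] [LieAlgebra ℝ g] (P : Pack D g)

include P in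
/-- a zero of the field is a fixed point of the flow -/
lemma flow_fix (hD : IsOpen D) {A : g} {x : E} (hx : x ∈ D) (h0 : P.ev A x = 0) (t : ℝ) :
    P.flow A t x = x := by
  have hder : ∀ s : ℝ, HasDerivAt (fun r => P.flow A r x) 0 s := by
    intro s
    have h1 : HasDerivAt (fun r => P.flow A r x) (P.ev A x) 0 := by
      have := P.flow_deriv A x hx 0
      rwa [(P.isFlow A).zero x hx] at this
    rw [h0] at h1
    -- flow (s + r) x = flow s (flow r x)
    have h2 : HasFDerivAt (P.flow A s) (fderiv ℂ (P.flow A s) x) x :=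
      (((P.isFlow A).hol s).differentiableAt (hD.mem_nhds hx)).hasFDerivAt
    have h2' : HasFDerivAt (P.flow A s) (fderiv ℂ (P.flow A s) x) (P.flow A 0 x) := by
      rwa [(P.isFlow A).zero x hx]
    have h3 : HasDerivAt (fun r => P.flow A s (P.flow A r x)) (fderiv ℂ (P.flow A s) x 0) 0 := by
      have h2r : HasFDerivAt (P.flow A s) ((fderiv ℂ (P.flow A s) x).restrictScalars ℝ)
        (P.flow A 0 x) := h2'.restrictScalars ℝ
      exact h2r.comp_hasDerivAt (0 : ℝ) h1
    have h4 : (fun r => P.flow A (s + r) x) = fun r => P.flow A s (P.flow A r x) := by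
      funext r; exact (P.isFlow A).add s r x hx
    rw [← h4, map_zero] at h3
    have h5 := P.flow_deriv A x hx s
    have h6 : HasDerivAt (fun r => P.flow A (s + r) x) (P.ev A (P.flow A s x)) 0 := by
      have h7 : HasDerivAt (fun r : ℝ => P.flow A r x) (P.ev A (P.flow A s x)) (s + 0) := by
        simpa using h5
      exact h7.comp_const_add s 0
    have h8 := h6.unique h3
    rwa [h8] at h5
  have hc := is_const_of_deriv_eq_zero (f := fun r => P.flow A r x)
    (fun s => (hder s).differentiableAt) (fun s => (hder s).deriv) t 0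
  simpa [(P.isFlow A).zero x hx] using hc

include P in
/-- the linearised flow at a zero with `DA(x) = i`. -/
lemma fderiv_flow_I (hD : IsOpen D) {A : g} {x : E} (hx : x ∈ D) (h0 : P.ev A x = 0)
    (h1 : fderiv ℂ (P.ev A) x = Complex.I • ContinuousLinearMap.id ℂ E) (t : ℝ) :
    fderiv ℂ (P.flow A t) x = Complex.exp (t * Complex.I) • ContinuousLinearMap.id ℂ E := by
  set M : ℝ → E →L[ℂ] E := fun t => fderiv ℂ (P.flow A t) x with hM
  have hfix := flow_fix P hD hx h0
  have hadd : ∀ s r : ℝ, M (s + r) = (M s).comp (M r) := by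
    intro s r
    have hdr : HasFDerivAt (P.flow A r) (M r) x :=
      (((P.isFlow A).hol r).differentiableAt (hD.mem_nhds hx)).hasFDerivAt
    have hds : HasFDerivAt (P.flow A s) (M s) (P.flow A r x) := by
      rw [hfix r]
      exact (((P.isFlow A).hol s).differentiableAt (hD.mem_nhds hx)).hasFDerivAt
    have h2 : HasFDerivAt (P.flow A s ∘ P.flow A r) ((M s).comp (M r)) x := hds.comp x hdr
    have h3 : P.flow A (s + r) =ᶠ[𝓝 x] P.flow A s ∘ P.flow A r := by
      filter_upwards [hD.mem_nhds hx] with y hy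
      exact (P.isFlow A).add s r y hy
    exact (h2.congr_of_eventuallyEq h3).fderiv
  have hM0 : M 0 = ContinuousLinearMap.id ℂ E := by
    have h3 : P.flow A 0 =ᶠ[𝓝 x] id := by
      filter_upwards [hD.mem_nhds hx] with y hy
      exact (P.isFlow A).zero y hy
    rw [hM]
    simp only
    rw [h3.fderiv_eq, fderiv_id]
  have hd0 : HasDerivAt M (Complex.I • ContinuousLinearMap.id ℂ E) 0 := by
    rw [← h1]; exact P.flow_fderiv A x hx
  have hd : ∀ s : ℝ, HasDerivAt M (Complex.I • M s) s := by
    intro s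
    have h2 : HasDerivAt (fun r => (M s).comp (M r)) ((M s).comp
        (Complex.I • ContinuousLinearMap.id ℂ E)) 0 := by
      exact ((ContinuousLinearMap.compL ℂ E E E (M s)).restrictScalars ℝ).hasFDerivAt.comp_hasDerivAt
        (0 : ℝ) hd0
    have h3 : (fun r => (M s).comp (M r)) = fun r => M (s + r) := by
      funext r; rw [hadd]
    rw [h3] at h2
    have h4 : HasDerivAt (fun r => M r) ((M s).comp (Complex.I • ContinuousLinearMap.id ℂ E))
        (s + 0) := by
      have h5 : HasDerivAt (fun r => M (s + r)) ((M s).comp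
        (Complex.I • ContinuousLinearMap.id ℂ E)) (s - s) := by simpa using h2
      have h6 := h5.comp_sub_const s s
      simpa using h6
    have h7 : (M s).comp (Complex.I • ContinuousLinearMap.id ℂ E) = Complex.I • M s := by
      ext v; simp
    rw [h7] at h4
    simpa using h4
  -- `exp(-i s) M s` is constant
  have hc : ∀ s : ℝ, HasDerivAt (fun r : ℝ => Complex.exp (-(r * Complex.I)) • M r) 0 s := by
    intro s
    have he : HasDerivAt (fun r : ℝ => Complex.exp (-(r * Complex.I)))
        (Complex.exp (-(s * Complex.I)) * (-Complex.I)) s := by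
      have h2 : HasDerivAt (fun r : ℝ => (r : ℂ)) 1 s := Complex.ofRealCLM.hasDerivAt
      have h3 : HasDerivAt (fun r : ℝ => -((r : ℂ) * Complex.I)) (-(1 * Complex.I)) s :=
        (h2.mul_const Complex.I).neg
      have h4 := h3.cexp
      simpa using h4
    have h5 := he.smul (hd s)
    have h6 : Complex.exp (-(s * Complex.I)) • (Complex.I • M s) +
        (Complex.exp (-(s * Complex.I)) * (-Complex.I)) • M s = 0 := by
      rw [smul_smul, ← add_smul]
      ring_nf
      simp
    rwa [h6] at h5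
  have h9 := is_const_of_deriv_eq_zero (f := fun r : ℝ => Complex.exp (-(r * Complex.I)) • M r)
    (fun s => (hc s).differentiableAt) (fun s => (hc s).deriv) t 0
  simp only [Complex.ofReal_zero, zero_mul, neg_zero, Complex.exp_zero, one_smul, hM0] at h9
  have h10 := congrArg (fun L => Complex.exp (t * Complex.I) • L) h9
  simp only [smul_smul, ← Complex.exp_add] at h10
  rw [add_neg_cancel, Complex.exp_zero, one_smul] at h10
  exact h10

end Flow

end Sym

/-- the symmetry at a point from a field `Z` with `Z(x) = 0`, `DZ(x) = i`. -/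
theorem exists_symmetry {n : ℕ} {D : Set (Fin n → ℂ)} (hDo : IsOpen D) (hDc : IsPreconnected D)
    (hDb : Bornology.IsBounded D) {g : Type} [LieRing g] [LieAlgebra ℝ g] (P : Pack D g)
    {A : g} {x : Fin n → ℂ} (hx : x ∈ D) (h0 : P.ev A x = 0)
    (h1 : fderiv ℂ (P.ev A) x = Complex.I • ContinuousLinearMap.id ℂ (Fin n → ℂ)) :
    ∃ s : (Fin n → ℂ) → (Fin n → ℂ), DifferentiableOn ℂ s D ∧ Set.MapsTo s D D ∧
      (∀ z ∈ D, s (s z) = z) ∧ s x = x ∧ ∀ᶠ z in 𝓝[≠] x, s z ≠ z := by
  have hfix := Sym.flow_fix P hDo hx h0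
  have hfd := Sym.fderiv_flow_I P hDo hx h0 h1
  refine ⟨P.flow A Real.pi, (P.isFlow A).hol _, (P.isFlow A).maps _, ?_, hfix _, ?_⟩
  · intro z hz
    rw [← (P.isFlow A).add Real.pi Real.pi z hz]
    refine cartan_unique hDo hDc hDb ((P.isFlow A).hol _) ((P.isFlow A).maps _) hx (hfix _) ?_ z hz
    rw [hfd]
    have : Complex.exp (((Real.pi + Real.pi : ℝ) : ℂ) * Complex.I) = 1 := by
      push_cast
      rw [show ((Real.pi : ℂ) + Real.pi) * Complex.I = 2 * Real.pi * Complex.I by ring]
      exact Complex.exp_two_pi_mul_I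
    rw [this, one_smul]
  · have hd : HasFDerivAt (P.flow A Real.pi) (-(ContinuousLinearMap.id ℂ (Fin n → ℂ))) x := by
      have h2 := (((P.isFlow A).hol Real.pi).differentiableAt (hDo.mem_nhds hx)).hasFDerivAt
      rw [hfd, Complex.exp_pi_mul_I, neg_smul, one_smul] at h2
      exact h2
    have hd2 : HasFDerivAt (fun z => P.flow A Real.pi z - z)
        (-(ContinuousLinearMap.id ℂ (Fin n → ℂ)) - ContinuousLinearMap.id ℂ (Fin n → ℂ)) x :=
      hd.sub (hasFDerivAt_id x)
    have h3 := hd2.eventually_ne (c := 0) ⟨1, ContinuousLinearMap.antilipschitz_of_bound _ fun z => by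
      have : (-(ContinuousLinearMap.id ℂ (Fin n → ℂ)) - ContinuousLinearMap.id ℂ (Fin n → ℂ)) z
          = -((2 : ℂ) • z) := by
        simp [two_smul]; abel
      rw [this, norm_neg, norm_smul]
      simp only [Complex.norm_ofNat, NNReal.coe_one, one_mul]
      nlinarith [norm_nonneg z]⟩
    filter_upwards [h3] with z hz
    exact fun h => hz (by rw [h, sub_self])

/-- assembly of Theorem D from its nodes. -/
theorem thmD_of (h3 : D3Stmt) (h7 : D7Stmt) (h8 : D8Stmt) (ha : DAlgStmt) : ThmD := by
  intro n D Γ hn hDo hDc hDb hΓ hS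
  obtain ⟨g, i1, i2, hfin, ⟨P⟩⟩ := h3 n D hDo hDc hDb
  have hspan : P.Span := by
    intro x hx
    rw [eq_top_iff, ← hS x hx]
    refine Submodule.span_mono ?_
    rintro v ⟨X, hX, rfl⟩
    obtain ⟨Y, hY⟩ := P.surj X hX
    exact ⟨Y, hY x hx⟩
  have hK := h7 n D Γ hn hDo hDc hDb hΓ g i1 i2 hfin P hspan
  refine ⟨hDo, hDc, hDb, fun x hx => ?_⟩
  obtain ⟨δ, hyp⟩ := h8 n D Γ hn hDo hDc hDb hΓ g i1 i2 hfin hK P hspan x hx
  obtain ⟨⟨Z, hZh, hZσ, hZ⟩, hdec⟩ := ha g i1 i2 hfin hK _ δ hyp
  have hZof := CX.eq_of_fixed hZσ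
  set A : g := Z.re with hA
  have h0 : P.ev A x = 0 := by
    have := (P.mem_stab hDo hx Z).1 hZh
    rwa [hZof, P.evC_of] at this
  -- surjectivity of the evaluation
  have hsur : ∀ v : Fin n → ℂ, ∃ X : CX g, P.evC X x = v := by
    intro v
    have hv : v ∈ Submodule.span ℂ (Set.range fun X : g => P.ev X x) := by
      rw [hspan x hx]; trivial
    induction hv using Submodule.span_induction with
    | mem y hy =>
      obtain ⟨X, rfl⟩ := hy
      exact ⟨CX.of X, by rw [P.evC_of]⟩
    | zero => exact ⟨0, by simp⟩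
    | add y z _ _ hy hz =>
      obtain ⟨X, rfl⟩ := hy
      obtain ⟨Y, rfl⟩ := hz
      exact ⟨X + Y, by simp⟩
    | smul c y _ hy =>
      obtain ⟨X, rfl⟩ := hy
      exact ⟨c • X, by simp⟩
  have h1 : fderiv ℂ (P.ev A) x = Complex.I • ContinuousLinearMap.id ℂ (Fin n → ℂ) := by
    ext1 v
    obtain ⟨X, rfl⟩ := hsur v
    obtain ⟨Y, hY, W, hW, rfl⟩ := hdec X
    have hY0 := (P.mem_stab hDo hx Y).1 hY
    have hXW : P.evC (Y + W) x = P.evC W x := by
      rw [map_add, Pi.add_apply, hY0, zero_add]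
    rw [hXW]
    have h5 := P.evC_lie hDo Z W hx
    rw [hZ W hW, hZof, P.evC_of, h0] at h5
    rw [map_zero, zero_sub, map_smul, Pi.smul_apply, neg_smul, neg_inj] at h5
    rw [← h5]
    simp
  exact exists_symmetry hDo hDc.isPreconnected hDb P hx h0 h1

end Crest.Agent.R264
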