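import Crest.Agent.R264.CasFin
import Crest.Agent.R264.EntP
import Crest.Agent.R264.DABound
import Crest.Agent.R264.Berg4
import Crest.Agent.R264.SymMain

/-!
Row 264 (S0402), part D8: assembly of `D8Stmt` (helper469).
-/

set_option autoImplicit false

open Set Filter Topology
open scoped ComplexConjugate

namespace Crest.Agent.R264

/-- D8(d), the Koszul functional `δ` at a point `x`. -/
def D8dStmt : Prop :=
  ∀ (n : ℕ) (D : Set (Fin n → ℂ)) (hD : IsOpen D) (u : (Fin n → ℂ) → ℝ), Berg.IsBerg D u →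
    ∀ (g : Type) (_ : LieRing g) (_ : LieAlgebra ℝ g) (P : Pack D g)
      (x : Fin n → ℂ) (hx : x ∈ D),
      ∃ δ : CX g →ₗ[ℂ] ℂ,
        (∀ Y ∈ P.stab hD hx, δ Y = P.div x Y) ∧
        (∀ Y, δ ((CX.cc g).σ Y) = - conj (δ Y)) ∧
        (∀ Y ∈ P.stab hD hx, ∀ W ∈ P.stab hD hx, δ ⁅Y, W⁆ = 0) ∧
        (∀ Y, (CX.cc g).σ Y ∈ P.stab hD hx → Y ∉ P.stab hD hx →
          0 < (-(δ ⁅Y, (CX.cc g).σ Y⁆)).re)

theorem d8_of (hd : D8dStmt) : D8Stmt := by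
  intro n D Γ hn hD hDc hDb hG g i1 i2 hfin hK P hspan x hx
  obtain ⟨δ, hdiv, hsig, hdh, hlev⟩ := hd n D hD (Berg.uB D) (Berg.isBerg hD hDb) g i1 i2 P x hx
  have hperp : ∀ Y, DA.Perp (P.stab hD hx) Y → Y ∈ P.stab hD hx := fun Y hY =>
    Cas.perp_stab hD hDc hDb hG P hx Y hY
  refine ⟨δ, hperp, DA.pack_ss P hD hx, hsig, fun Y hY => ?_, hdh, fun Y hY hYn => ?_, ?_⟩
  · rw [hdiv Y (hperp Y hY)]
    exact Cas.perp_dv hD hDc hDb hG P hx Y hY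
  · exact hlev Y (hperp _ hY) hYn
  · exact Ent.nocurve P hD hDb hx hperp

end Crest.Agent.R264
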