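import Mathlib

/-!
Row 264 (S0402), part D8(d): derivative of the complex determinant along a real curve.
-/

set_option autoImplicit false

open Filter Topology Set

namespace Crest.Agent.R264.D8d

section Mat

variable {n : Type*} [Fintype n] [DecidableEq n]

/-- determinant as a function on the space of entries -/
lemma differentiable_detF :
    Differentiable ℝ (fun B : n → n → ℂ => (Matrix.of B).det) := by
  have h : (fun B : n → n → ℂ => (Matrix.of B).det) = fun B => ∑ σ : Equiv.Perm n,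
      ((Equiv.Perm.sign σ : ℤ) : ℂ) * ∏ i, B (σ i) i := by
    ext B
    rw [Matrix.det_apply']
    rfl
  rw [h]
  fun_prop

lemma hasDerivAt_det_one_add (B : Matrix n n ℂ) :
    HasDerivAt (fun t : ℝ => (1 + (t : ℂ) • B).det) B.trace 0 := by
  have h : ∀ t : ℝ, (1 + (t : ℂ) • B).det = 1 + B.trace * (t : ℂ)
      + (((1 : Matrix n n (Polynomial ℂ)) + (Polynomial.X : Polynomial ℂ) •
        B.map Polynomial.C).det.divX.divX.eval (t : ℂ)) * (t : ℂ) ^ 2 := by
    intro t; exact Matrix.det_one_add_smul _ _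
  simp only [h]
  have h0 : HasDerivAt (fun t : ℝ => (t : ℂ)) 1 0 := Complex.ofRealCLM.hasDerivAt
  have h1 : HasDerivAt (fun t : ℝ => (((1 : Matrix n n (Polynomial ℂ)) +
      (Polynomial.X : Polynomial ℂ) • B.map Polynomial.C).det.divX.divX.eval (t : ℂ)))
      (((1 : Matrix n n (Polynomial ℂ)) + (Polynomial.X : Polynomial ℂ) •
      B.map Polynomial.C).det.divX.divX.derivative.eval ((0 : ℝ) : ℂ) * 1) 0 :=
    (Polynomial.hasDerivAt _ _).comp (0 : ℝ) h0
  have h2 := ((h0.const_mul B.trace).const_add 1).add (h1.mul (h0.pow 2))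
  refine h2.congr_deriv ?_
  simp

/-- derivative of the determinant at the identity, entrywise form -/
lemma hasDerivAt_detM {A : ℝ → Matrix n n ℂ} {A' : Matrix n n ℂ}
    (hA : ∀ i j, HasDerivAt (fun t => A t i j) (A' i j) 0) (h0 : A 0 = 1) :
    HasDerivAt (fun t => (A t).det) A'.trace 0 := by
  have hA1 : HasDerivAt (fun t => (fun i j => A t i j : n → n → ℂ)) (fun i j => A' i j) 0 := by
    rw [hasDerivAt_pi]; intro i
    rw [hasDerivAt_pi]; intro j
    exact hA i j
  have h1 := (differentiable_detF (n := n) (fun i j => A 0 i j)).hasFDerivAt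
  have h2 := h1.comp_hasDerivAt (0 : ℝ) hA1
  have h2' : HasDerivAt (fun t => (A t).det)
      (fderiv ℝ (fun B : n → n → ℂ => (Matrix.of B).det) (fun i j => A 0 i j)
        (fun i j => A' i j)) 0 := h2
  refine h2'.congr_deriv ?_
  have h3 : HasDerivAt (fun t : ℝ => (fun i j => (1 + (t : ℂ) • A' : Matrix n n ℂ) i j : n → n → ℂ))
      (fun i j => A' i j) 0 := by
    rw [hasDerivAt_pi]; intro i
    rw [hasDerivAt_pi]; intro j
    have h0 : HasDerivAt (fun t : ℝ => (t : ℂ)) 1 0 := Complex.ofRealCLM.hasDerivAt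
    have := (h0.mul_const (A' i j)).const_add ((1 : Matrix n n ℂ) i j)
    simpa using this
  have h4 : HasFDerivAt (fun B : n → n → ℂ => (Matrix.of B).det)
      (fderiv ℝ (fun B : n → n → ℂ => (Matrix.of B).det) (fun i j => A 0 i j))
      (fun i j => (1 + ((0 : ℝ) : ℂ) • A' : Matrix n n ℂ) i j) := by
    have e : (fun i j => (1 + ((0 : ℝ) : ℂ) • A' : Matrix n n ℂ) i j : n → n → ℂ)
        = fun i j => A 0 i j := by
      rw [h0]; ext i j; simp
    rw [e]; exact h1
  have h5 := h4.comp_hasDerivAt (0 : ℝ) h3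
  exact h5.unique (hasDerivAt_det_one_add A')

end Mat

variable {E : Type*} [NormedAddCommGroup E] [NormedSpace ℂ E] [FiniteDimensional ℂ E]

/-- derivative of `det` along a real curve of complex linear maps through the identity. -/
theorem hasDerivAt_det {M : ℝ → E →L[ℂ] E} {M' : E →L[ℂ] E}
    (h : ∀ ξ, HasDerivAt (fun t => M t ξ) (M' ξ) 0) (h0 : M 0 = ContinuousLinearMap.id ℂ E) :
    HasDerivAt (fun t => (M t).det) (LinearMap.trace ℂ E (M' : E →ₗ[ℂ] E)) 0 := by
  set b := Module.finBasis ℂ E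
  have e1 : ∀ t, (M t).det = (LinearMap.toMatrix b b (M t : E →ₗ[ℂ] E)).det := by
    intro t
    rw [LinearMap.det_toMatrix]
  have e2 : LinearMap.trace ℂ E (M' : E →ₗ[ℂ] E)
      = (LinearMap.toMatrix b b (M' : E →ₗ[ℂ] E)).trace :=
    LinearMap.trace_eq_matrix_trace ℂ b _
  simp only [e1, e2]
  apply hasDerivAt_detM
  · intro i j
    simp only [LinearMap.toMatrix_apply]
    set l : E →L[ℝ] ℂ :=
      (LinearMap.toContinuousLinearMap ((b.coord i))).restrictScalars ℝ with hl
    have h1 := l.hasFDerivAt.comp_hasDerivAt (0 : ℝ) (h (b j))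
    exact h1
  · rw [h0]
    exact LinearMap.toMatrix_id b

/-- derivative of `log |det|`. -/
theorem hasDerivAt_log_det {M : ℝ → E →L[ℂ] E} {M' : E →L[ℂ] E}
    (h : ∀ ξ, HasDerivAt (fun t => M t ξ) (M' ξ) 0) (h0 : M 0 = ContinuousLinearMap.id ℂ E) :
    HasDerivAt (fun t => Real.log ‖(M t).det‖) (LinearMap.trace ℂ E (M' : E →ₗ[ℂ] E)).re 0 := by
  have h1 := hasDerivAt_det h h0
  have hd : (M 0).det = 1 := by
    rw [h0]; exact LinearMap.det_id
  have h2 : HasDerivAt (fun t => ‖(M t).det‖ ^ 2)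
      (2 * (LinearMap.trace ℂ E (M' : E →ₗ[ℂ] E)).re) 0 := by
    have e : (fun t => ‖(M t).det‖ ^ 2) = fun t => ((M t).det).re ^ 2 + ((M t).det).im ^ 2 := by
      ext t
      rw [← Complex.normSq_eq_norm_sq, Complex.normSq_apply]; ring
    rw [e]
    have hr : HasDerivAt (fun t => ((M t).det).re) (LinearMap.trace ℂ E (M' : E →ₗ[ℂ] E)).re 0 :=
      Complex.reCLM.hasFDerivAt.comp_hasDerivAt (0 : ℝ) h1
    have hi : HasDerivAt (fun t => ((M t).det).im) (LinearMap.trace ℂ E (M' : E →ₗ[ℂ] E)).im 0 :=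
      Complex.imCLM.hasFDerivAt.comp_hasDerivAt (0 : ℝ) h1
    have := (hr.pow 2).add (hi.pow 2)
    refine this.congr_deriv ?_
    rw [hd]; simp
  have h3 : HasDerivAt (fun t => Real.log (‖(M t).det‖ ^ 2))
      (2 * (LinearMap.trace ℂ E (M' : E →ₗ[ℂ] E)).re) 0 := by
    have := h2.log (by rw [hd]; simp)
    refine this.congr_deriv ?_
    rw [hd]; simp
  have h4 := h3.const_mul (1 / 2 : ℝ)
  refine (h4.congr_deriv (by ring)).congr_of_eventuallyEq (Eventually.of_forall fun t => ?_)
  simp only [Real.log_pow]; push_cast; ring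

end Crest.Agent.R264.D8d
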