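import Crest.Agent.R264.DIface
import Crest.Agent.R264.D8dDet
import Crest.Agent.R266.Osgood

/-!
Row 264 (S0402), part D8(d): the functional `δ`, identity (*), its (0,1)-derivative (helper868).

`u` is the function of D5 (`u = log K`).
* `pU u x ξ = (1/2) (Du(x) ξ - i Du(x)(i ξ))`
* `delta P hD hx Y = P.div x Y + pU u x (Y x)`
-/

set_option autoImplicit false

open Filter Topology Set Complex
open scoped ComplexConjugate ContDiff

noncomputable section

namespace Crest.Agent.R264.D8d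

variable {E : Type*} [NormedAddCommGroup E] [NormedSpace ℂ E]

/-- the complex linear part of the real differential (times 1): `(1/2)(Du ξ - i Du(iξ))`. -/
def pU (u : E → ℝ) (x : E) : E →ₗ[ℂ] ℂ where
  toFun ξ := (1 / 2 : ℂ) * ((fderiv ℝ u x ξ : ℂ) - I * (fderiv ℝ u x (I • ξ) : ℂ))
  map_add' ξ η := by
    simp only [smul_add, map_add]; push_cast; ring
  map_smul' c ξ := by
    have hc : c • ξ = c.re • ξ + c.im • (I • ξ) := by
      conv_lhs => rw [← Complex.re_add_im c]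
      rw [add_smul, mul_smul]
      simp only [Complex.coe_smul]
    have hc2 : I • (c • ξ) = c.re • (I • ξ) - c.im • ξ := by
      rw [hc, smul_add, smul_comm I c.re ξ, smul_comm I c.im (I • ξ), smul_smul I I ξ, I_mul_I,
        neg_one_smul, smul_neg, sub_eq_add_neg]
    rw [hc2, hc]
    simp only [map_add, map_sub, map_smul, smul_eq_mul, RingHom.id_apply]
    push_cast
    conv_rhs => rw [← Complex.re_add_im c]
    ring_nf
    simp only [I_sq]
    ring

lemma pU_apply (u : E → ℝ) (x ξ : E) :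
    pU u x ξ = (1 / 2 : ℂ) * ((fderiv ℝ u x ξ : ℂ) - I * (fderiv ℝ u x (I • ξ) : ℂ)) := rfl

lemma pU_re (u : E → ℝ) (x ξ : E) : (pU u x ξ).re = (1 / 2) * fderiv ℝ u x ξ := by
  rw [pU_apply]; simp

/-- divergence of a field -/
def dvF (b : E → E) (x : E) : ℂ := LinearMap.trace ℂ E ((fderiv ℂ b x : E →L[ℂ] E) : E →ₗ[ℂ] E)

section Calc

variable [FiniteDimensional ℂ E]

/-- the trace as a continuous linear map -/
def trL : (E →L[ℂ] E) →L[ℂ] ℂ :=
  LinearMap.toContinuousLinearMap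
    ((LinearMap.trace ℂ E).comp (ContinuousLinearMap.coeLM ℂ : (E →L[ℂ] E) →ₗ[ℂ] (E →ₗ[ℂ] E)))

lemma trL_apply (s : E →L[ℂ] E) : trL s = LinearMap.trace ℂ E (s : E →ₗ[ℂ] E) := rfl

lemma dvF_eq (b : E → E) (x : E) : dvF b x = trL (fderiv ℂ b x) := rfl

lemma trL_comm (s t : E →L[ℂ] E) : trL (s.comp t) = trL (t.comp s) := by
  rw [trL_apply, trL_apply]
  exact LinearMap.trace_mul_comm ℂ (s : E →ₗ[ℂ] E) (t : E →ₗ[ℂ] E)

variable {D : Set E} (hD : IsOpen D)
include hD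

lemma analyticAt_of_hol {b : E → E} (hb : DifferentiableOn ℂ b D) {x : E} (hx : x ∈ D) :
    AnalyticAt ℂ b x := by
  have : CompleteSpace E := FiniteDimensional.complete ℂ E
  exact Crest.Agent.R266.SCV.analyticOnNhd_of_differentiableOn hD hb x hx

lemma hasFDerivAt_fderiv {b : E → E} (hb : DifferentiableOn ℂ b D) {x : E} (hx : x ∈ D) :
    HasFDerivAt (fderiv ℂ b) (fderiv ℂ (fderiv ℂ b) x) x := by
  have : CompleteSpace E := FiniteDimensional.complete ℂ E
  exact ((analyticAt_of_hol hD hb hx).fderiv).differentiableAt.hasFDerivAt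

lemma hasFDerivAt_dvF {b : E → E} (hb : DifferentiableOn ℂ b D) {x : E} (hx : x ∈ D) :
    HasFDerivAt (dvF b) (trL.comp (fderiv ℂ (fderiv ℂ b) x)) x :=
  (trL (E := E)).hasFDerivAt.comp x (hasFDerivAt_fderiv hD hb hx)

lemma fderiv_dvF {b : E → E} (hb : DifferentiableOn ℂ b D) {x : E} (hx : x ∈ D) (ξ : E) :
    fderiv ℂ (dvF b) x ξ = trL (fderiv ℂ (fderiv ℂ b) x ξ) := by
  rw [(hasFDerivAt_dvF hD hb hx).fderiv]; rfl

lemma symm2 {b : E → E} (hb : DifferentiableOn ℂ b D) {x : E} (hx : x ∈ D) (ξ η : E) :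
    fderiv ℂ (fderiv ℂ b) x ξ η = fderiv ℂ (fderiv ℂ b) x η ξ := by
  have : CompleteSpace E := FiniteDimensional.complete ℂ E
  have h := (analyticAt_of_hol hD hb hx).contDiffAt (n := 2)
  exact (h.isSymmSndFDerivAt (by simp [minSmoothness_of_isRCLikeNormedField])).eq ξ η

/-- divergence of a bracket -/
lemma dvF_bracket {a b : E → E} (ha : DifferentiableOn ℂ a D) (hb : DifferentiableOn ℂ b D)
    {x : E} (hx : x ∈ D) :
    dvF (fun z => fderiv ℂ b z (a z) - fderiv ℂ a z (b z)) x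
      = fderiv ℂ (dvF b) x (a x) - fderiv ℂ (dvF a) x (b x) := by
  have hda := (ha.differentiableAt (hD.mem_nhds hx)).hasFDerivAt
  have hdb := (hb.differentiableAt (hD.mem_nhds hx)).hasFDerivAt
  have h1 := (hasFDerivAt_fderiv hD hb hx).clm_apply hda
  have h2 := (hasFDerivAt_fderiv hD ha hx).clm_apply hdb
  have h3 := h1.sub h2
  have h4 : fderiv ℂ (fun z => fderiv ℂ b z (a z) - fderiv ℂ a z (b z)) x = _ := h3.fderiv
  rw [dvF_eq, h4, map_sub, map_add, map_add, trL_comm (fderiv ℂ a x),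
    fderiv_dvF hD hb hx, fderiv_dvF hD ha hx]
  have e1 : (fderiv ℂ (fderiv ℂ b) x).flip (a x) = fderiv ℂ (fderiv ℂ b) x (a x) := by
    ext η; rw [ContinuousLinearMap.flip_apply]; exact symm2 hD hb hx _ _
  have e2 : (fderiv ℂ (fderiv ℂ a) x).flip (b x) = fderiv ℂ (fderiv ℂ a) x (b x) := by
    ext η; rw [ContinuousLinearMap.flip_apply]; exact symm2 hD ha hx _ _
  rw [e1, e2]
  ring

/-- the function `z ↦ div y z + pU u z (y z)` -/
def FF (u : E → ℝ) (y : E → E) (z : E) : ℂ := dvF y z + pU u z (y z)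

/-- derivative of `FF` along a real line -/
lemma hasDerivAt_FF {u : E → ℝ} (hu : ContDiffOn ℝ 2 u D) {y : E → E}
    (hy : DifferentiableOn ℂ y D) {x : E} (hx : x ∈ D) (η : E) :
    HasDerivAt (fun t : ℝ => FF u y (x + t • η))
      (fderiv ℂ (dvF y) x η +
        (1 / 2 : ℂ) * ((fderiv ℝ (fderiv ℝ u) x η (y x) : ℂ) -
          I * (fderiv ℝ (fderiv ℝ u) x η (I • y x) : ℂ)) +
        pU u x (fderiv ℂ y x η)) 0 := by
  have hline : HasDerivAt (fun t : ℝ => x + t • η) η 0 := by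
    simpa using ((hasDerivAt_id (0 : ℝ)).smul_const η).const_add x
  have hx0 : x + (0 : ℝ) • η = x := by simp
  have hua : ContDiffAt ℝ 2 u x := hu.contDiffAt (hD.mem_nhds hx)
  have hu2 : HasFDerivAt (fderiv ℝ u) (fderiv ℝ (fderiv ℝ u) x) (x + (0 : ℝ) • η) := by
    rw [hx0]
    exact ((hua.fderiv_right (m := 1) (by norm_num)).differentiableAt (by norm_num)).hasFDerivAt
  have hy1 : HasFDerivAt y ((fderiv ℂ y x).restrictScalars ℝ) (x + (0 : ℝ) • η) := by
    rw [hx0]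
    exact (hy.differentiableAt (hD.mem_nhds hx)).hasFDerivAt.restrictScalars ℝ
  have hd1 : HasFDerivAt (dvF y) ((trL.comp (fderiv ℂ (fderiv ℂ y) x)).restrictScalars ℝ)
      (x + (0 : ℝ) • η) := by
    rw [hx0]
    exact (hasFDerivAt_dvF hD hy hx).restrictScalars ℝ
  have h1 := hd1.comp_hasDerivAt (0 : ℝ) hline
  have h2 := hu2.comp_hasDerivAt (0 : ℝ) hline
  have h3 := hy1.comp_hasDerivAt (0 : ℝ) hline
  have h3' : HasDerivAt (fun t : ℝ => I • y (x + t • η)) (I • fderiv ℂ y x η) 0 :=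
    HasDerivAt.const_smul I h3
  have h4 := h2.clm_apply h3
  have h5 := h2.clm_apply h3'
  have h6 : HasDerivAt (fun t : ℝ => ((fderiv ℝ u (x + t • η) (y (x + t • η)) : ℝ) : ℂ)) _ 0 :=
    h4.ofReal_comp
  have h7 : HasDerivAt (fun t : ℝ => ((fderiv ℝ u (x + t • η) (I • y (x + t • η)) : ℝ) : ℂ)) _ 0 :=
    h5.ofReal_comp
  have h8 := h1.add ((h6.sub (h7.const_mul I)).const_mul (1 / 2 : ℂ))
  refine h8.congr_deriv ?_
  rw [fderiv_dvF hD hy hx, pU_apply]
  simp only [Function.comp, hx0]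
  push_cast
  simp only [ContinuousLinearMap.coe_restrictScalars', ContinuousLinearMap.coe_comp, Function.comp]
  ring

/-- The (0,1)-derivative of identity (*). -/
lemma lev_id {u : E → ℝ} (hu : ContDiffOn ℝ 2 u D) {y ys : E → E}
    (hy : DifferentiableOn ℂ y D) (hys : DifferentiableOn ℂ ys D)
    (hG : ∀ z ∈ D, FF u y z + conj (FF u ys z) = 0) {x : E} (hx : x ∈ D) (h0 : ys x = 0) :
    ((Berg.Lev u x (y x) : ℝ) : ℂ)
      = - conj (fderiv ℂ (dvF ys) x (y x) + pU u x (fderiv ℂ ys x (y x))) := by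
  have key : ∀ η : E,
      (fderiv ℂ (dvF y) x η +
        (1 / 2 : ℂ) * ((fderiv ℝ (fderiv ℝ u) x η (y x) : ℂ) -
          I * (fderiv ℝ (fderiv ℝ u) x η (I • y x) : ℂ)) +
        pU u x (fderiv ℂ y x η)) +
      conj (fderiv ℂ (dvF ys) x η + pU u x (fderiv ℂ ys x η)) = 0 := by
    intro η
    have h1 := hasDerivAt_FF hD hu hy hx η
    have h2 := hasDerivAt_FF hD hu hys hx η
    have h3 : HasDerivAt (fun t : ℝ => conj (FF u ys (x + t • η)))
        (conj (fderiv ℂ (dvF ys) x η + pU u x (fderiv ℂ ys x η))) 0 := by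
      have h4 : HasDerivAt (fun t : ℝ => conj (FF u ys (x + t • η))) _ 0 :=
        Complex.conjCLE.hasFDerivAt.comp_hasDerivAt (0 : ℝ) h2
      refine h4.congr_deriv ?_
      rw [h0]
      simp
    have h5 := h1.add h3
    have h6 : (fun t : ℝ => FF u y (x + t • η) + conj (FF u ys (x + t • η))) =ᶠ[𝓝 0]
        fun _ => (0 : ℂ) := by
      have hc : ContinuousAt (fun t : ℝ => x + t • η) 0 := by fun_prop
      have hm : D ∈ 𝓝 (x + (0 : ℝ) • η) := by simpa using hD.mem_nhds hx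
      filter_upwards [hc.preimage_mem_nhds hm] with t ht
      exact hG _ ht
    have h7 : HasDerivAt (fun t : ℝ => FF u y (x + t • η) + conj (FF u ys (x + t • η))) 0 0 :=
      (hasDerivAt_const (0 : ℝ) (0 : ℂ)).congr_of_eventuallyEq h6
    exact h5.unique h7
  have k1 := key (y x)
  have k2 := key (I • y x)
  have hua : ContDiffAt ℝ 2 u x := hu.contDiffAt (hD.mem_nhds hx)
  have hs : fderiv ℝ (fderiv ℝ u) x (I • y x) (y x) = fderiv ℝ (fderiv ℝ u) x (y x) (I • y x) :=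
    (hua.isSymmSndFDerivAt (by simp)).eq _ _
  simp only [map_smul, smul_eq_mul, hs] at k1 k2
  rw [Berg.Lev]
  set s := fderiv ℂ (dvF ys) x (y x) + pU u x (fderiv ℂ ys x (y x)) with hsdef
  have k3 : conj (I * fderiv ℂ (dvF ys) x (y x) + I * pU u x (fderiv ℂ ys x (y x)))
      = - I * conj s := by
    rw [hsdef]; simp only [map_add, map_mul, conj_I]; ring
  rw [k3] at k2
  push_cast
  linear_combination (exp := 1) (1 / 2 : ℂ) * k1 + (1 / 2 * I : ℂ) * k2 +
    (1 / 4 * (fderiv ℝ (fderiv ℝ u) x (I • y x) (I • y x) : ℂ) + 1 / 2 * conj s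
      - 1 / 2 * fderiv ℂ (dvF y) x (y x) - 1 / 2 * pU u x (fderiv ℂ y x (y x))) * I_sq

end Calc

end Crest.Agent.R264.D8d

namespace Crest.Agent.R264.D8d

variable {E : Type*} [NormedAddCommGroup E] [NormedSpace ℂ E] [FiniteDimensional ℂ E]
variable {D : Set E} {g : Type*} [LieRing g] [LieAlgebra ℝ g] (P : Pack D g)

/-- What is used about the Bergman function `u = log K`. -/
structure Pot (D : Set E) (u : E → ℝ) : Prop where
  smooth : ContDiffOn ℝ 2 u D
  lev_pos : ∀ x ∈ D, ∀ ξ, ξ ≠ 0 → 0 < Berg.Lev u x ξ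
  trans : ∀ f h, AutPair D f h → ∀ x ∈ D,
    u (f x) = u x - 2 * Real.log ‖(fderiv ℂ f x).det‖

variable {u : E → ℝ}

/-- real identity: `Du(x)(A x) = - 2 Re div A (x)` -/
lemma real_id (hD : IsOpen D) (hu : Pot D u) (A : g) {x : E} (hx : x ∈ D) :
    fderiv ℝ u x (P.ev A x) = -(2 * (dvF (P.ev A) x).re) := by
  have h0 : P.flow A 0 x = x := (P.isFlow A).zero x hx
  have hud : HasFDerivAt u (fderiv ℝ u x) (P.flow A 0 x) := by
    rw [h0]
    exact ((hu.smooth.contDiffAt (hD.mem_nhds hx)).differentiableAt (by norm_num)).hasFDerivAt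
  have h1 : HasDerivAt (fun t => P.flow A t x) (P.ev A x) 0 := (P.isFlow A).gen x hx
  have h2 := hud.comp_hasDerivAt (0 : ℝ) h1
  have hM : ∀ ξ, HasDerivAt (fun t : ℝ => fderiv ℂ (P.flow A t) x ξ) (fderiv ℂ (P.ev A) x ξ) 0 := by
    intro ξ
    have h3 := ((ContinuousLinearMap.apply ℂ E ξ).restrictScalars ℝ).hasFDerivAt.comp_hasDerivAt
      (0 : ℝ) (P.flow_fderiv A x hx)
    exact h3
  have hM0 : fderiv ℂ (P.flow A 0) x = ContinuousLinearMap.id ℂ E := by
    have : P.flow A 0 =ᶠ[𝓝 x] id :=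
      Filter.eventually_of_mem (hD.mem_nhds hx) fun y hy => (P.isFlow A).zero y hy
    rw [this.fderiv_eq, fderiv_id]
  have h3 := hasDerivAt_log_det hM hM0
  have h4 := (h3.const_mul 2).const_sub (u x)
  have h5 : (u ∘ fun t => P.flow A t x)
      = fun t => u x - 2 * Real.log ‖(fderiv ℂ (P.flow A t) x).det‖ := by
    funext t
    exact hu.trans _ _ (P.flow_pair A t) x hx
  rw [h5] at h2
  exact h2.unique h4

/-- `δ` on real fields -/
def deltaR (u : E → ℝ) (hD : IsOpen D) {x : E} (hx : x ∈ D) : g →ₗ[ℝ] ℂ where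
  toFun A := dvF (P.ev A) x + pU u x (P.ev A x)
  map_add' A B := by
    have h1 := (P.hol A).differentiableAt (hD.mem_nhds hx)
    have h2 := (P.hol B).differentiableAt (hD.mem_nhds hx)
    rw [map_add, dvF_eq, dvF_eq, dvF_eq, fderiv_add h1 h2]
    simp only [Pi.add_apply, map_add]
    ring
  map_smul' c A := by
    have h1 := (P.hol A).differentiableAt (hD.mem_nhds hx)
    have e : P.ev (c • A) = (c : ℂ) • P.ev A := by
      rw [map_smul]; funext z; simp
    rw [e, dvF_eq, dvF_eq, fderiv_const_smul h1]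
    simp only [Pi.smul_apply, map_smul, smul_eq_mul, RingHom.id_apply, Complex.real_smul]
    ring

/-- The functional `δ Y = div Y (x) + (1/2)(Du(x)(Y x) - i Du(x)(i Y x))`. -/
def delta (u : E → ℝ) (hD : IsOpen D) {x : E} (hx : x ∈ D) : CX g →ₗ[ℂ] ℂ :=
  CX.lift (deltaR P u hD hx)

lemma delta_apply (hD : IsOpen D) {x : E} (hx : x ∈ D) (Y : CX g) :
    delta P u hD hx Y = P.div x Y + pU u x (P.evC Y x) := by
  rw [delta, CX.lift_apply, Pack.div, P.fderiv_evC hD Y hx, P.evC_apply]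
  change dvF _ _ + pU u x _ + I • (dvF _ _ + pU u x _) = _
  rw [dvF_eq, dvF_eq, ← trL_apply]
  simp only [map_add, map_smul, smul_eq_mul]
  ring

lemma delta_eq_FF (hD : IsOpen D) {x : E} (hx : x ∈ D) (Y : CX g) :
    delta P u hD hx Y = FF u (P.evC Y) x := delta_apply P hD hx Y

lemma deltaR_re (hD : IsOpen D) (hu : Pot D u) {x : E} (hx : x ∈ D) (A : g) :
    conj (deltaR P u hD hx A) = - deltaR P u hD hx A := by
  have h1 : (deltaR P u hD hx A).re = 0 := by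
    change (dvF (P.ev A) x + pU u x (P.ev A x)).re = 0
    rw [Complex.add_re, pU_re, real_id P hD hu A hx]; ring
  apply Complex.ext
  · simp [h1]
  · simp

/-- hypothesis `dsig` of the algebra unit -/
theorem dsig (hD : IsOpen D) (hu : Pot D u) {x : E} (hx : x ∈ D) (Y : CX g) :
    delta P u hD hx ((CX.cc g).σ Y) = - conj (delta P u hD hx Y) := by
  rw [delta, CX.lift_apply, CX.lift_apply, CX.cc_σ_re, CX.cc_σ_im, map_neg]
  simp only [smul_eq_mul, map_add, map_mul, deltaR_re P hD hu hx, conj_I]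
  ring

lemma div_lie (hD : IsOpen D) {x : E} (hx : x ∈ D) (X Y : CX g) :
    P.div x ⁅X, Y⁆ = fderiv ℂ (dvF (P.evC Y)) x (P.evC X x)
      - fderiv ℂ (dvF (P.evC X)) x (P.evC Y x) := by
  rw [← dvF_bracket hD (P.evC_hol X) (P.evC_hol Y) hx]
  rw [Pack.div, dvF]
  have : P.evC ⁅X, Y⁆ =ᶠ[𝓝 x] fun z => fderiv ℂ (P.evC Y) z (P.evC X z)
      - fderiv ℂ (P.evC X) z (P.evC Y z) :=
    Filter.eventually_of_mem (hD.mem_nhds hx) fun y hy => P.evC_lie hD X Y hy
  rw [this.fderiv_eq]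

/-- hypothesis `dh` of the algebra unit -/
theorem dh (hD : IsOpen D) {x : E} (hx : x ∈ D) (Y : CX g) (hY : Y ∈ P.stab hD hx)
    (W : CX g) (hW : W ∈ P.stab hD hx) : delta P u hD hx ⁅Y, W⁆ = 0 := by
  have h1 : ⁅Y, W⁆ ∈ P.stab hD hx := (P.stab hD hx).lie_mem hY hW
  rw [P.mem_stab] at h1 hY hW
  rw [delta_apply, div_lie P hD hx, h1, hY, hW]
  simp

/-- hypothesis `dperp` of the algebra unit, from (a) and (b) -/
theorem dperp (hD : IsOpen D) {x : E} (hx : x ∈ D) (Y : CX g)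
    (ha : Y ∈ P.stab hD hx) (hb : P.div x Y = 0) : delta P u hD hx Y = 0 := by
  rw [P.mem_stab] at ha
  rw [delta_apply, ha, hb]
  simp

/-- Levi identity: `-δ [Y, σ Y] = Lev u x (Y x)` if `σ Y` vanishes at `x` -/
theorem lev_eq (hD : IsOpen D) (hu : Pot D u) {x : E} (hx : x ∈ D) (Y : CX g)
    (hY : (CX.cc g).σ Y ∈ P.stab hD hx) :
    -(delta P u hD hx ⁅Y, (CX.cc g).σ Y⁆) = ((Berg.Lev u x (P.evC Y x) : ℝ) : ℂ) := by
  rw [P.mem_stab] at hY
  have hG : ∀ z ∈ D, FF u (P.evC Y) z + conj (FF u (P.evC ((CX.cc g).σ Y)) z) = 0 := by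
    intro z hz
    rw [← delta_eq_FF P hD hz, ← delta_eq_FF P hD hz, dsig P hD hu hz]
    simp
  have h1 := lev_id hD hu.smooth (P.evC_hol Y) (P.evC_hol ((CX.cc g).σ Y)) hG hx hY
  have h2 : delta P u hD hx ⁅Y, (CX.cc g).σ Y⁆ =
      fderiv ℂ (dvF (P.evC ((CX.cc g).σ Y))) x (P.evC Y x)
        + pU u x (fderiv ℂ (P.evC ((CX.cc g).σ Y)) x (P.evC Y x)) := by
    rw [delta_apply, div_lie P hD hx, P.evC_lie hD _ _ hx, hY]
    simp
  rw [← h2] at h1
  have h3 := congrArg conj h1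
  rw [map_neg, Complex.conj_conj, Complex.conj_ofReal] at h3
  exact h3.symm

/-- hypothesis `lev` of the algebra unit -/
theorem lev (hD : IsOpen D) (hu : Pot D u) {x : E} (hx : x ∈ D) (Y : CX g)
    (hY : (CX.cc g).σ Y ∈ P.stab hD hx) (hY2 : Y ∉ P.stab hD hx) :
    0 < (-(delta P u hD hx ⁅Y, (CX.cc g).σ Y⁆)).re := by
  rw [lev_eq P hD hu hx Y hY, Complex.ofReal_re]
  exact hu.lev_pos x hx _ (fun h => hY2 ((P.mem_stab hD hx Y).2 h))

end Crest.Agent.R264.D8d

namespace Crest.Agent.R264.D8d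

/-- the Bergman function satisfies `Pot` -/
theorem pot_of_isBerg {n : ℕ} {D : Set (Fin n → ℂ)} {u : (Fin n → ℂ) → ℝ} (h : Berg.IsBerg D u) :
    Pot D u where
  smooth := h.smooth.of_le ENat.LEInfty.out
  lev_pos := h.lev_pos
  trans := fun f k hf x hx =>
    h.trans f k ⟨hf.hF, hf.hG, hf.mapsF, hf.mapsG, hf.left, hf.right⟩ x hx

/-- Glue for `D8Stmt`: all fields of `DA.Hyp` from D5 (`IsBerg`), D8(a),(b) (`hperp`, `hdiv`),
D3 (`hss`) and D8(f) (`hnc`). -/
theorem hyp_of {n : ℕ} {D : Set (Fin n → ℂ)} {g : Type*} [LieRing g] [LieAlgebra ℝ g]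
    (P : Pack D g) (hD : IsOpen D) {u : (Fin n → ℂ) → ℝ} (hu : Berg.IsBerg D u)
    {x : Fin n → ℂ} (hx : x ∈ D)
    (hperp : ∀ Y, DA.Perp (P.stab hD hx) Y → Y ∈ P.stab hD hx)
    (hdiv : ∀ Y, DA.Perp (P.stab hD hx) Y → P.div x Y = 0)
    (hss : ∀ A ∈ P.stab hD hx, (CX.cc g).σ A = A → DA.ImDiag A)
    (hnc : ∀ (y : CX g) (l : ℝ), DA.Perp (P.stab hD hx) ((CX.cc g).σ y) → y ∉ P.stab hD hx →
      l < 0 → ⁅y, (CX.cc g).σ y⁆ ∈ P.stab hD hx →
      ⁅⁅y, (CX.cc g).σ y⁆, y⁆ = (l : ℂ) • y → False) :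
    DA.Hyp (CX.cc g) (P.stab hD hx) (delta P u hD hx) where
  perp := hperp
  ss := hss
  dsig := dsig P hD (pot_of_isBerg hu) hx
  dperp Y hY := dperp P hD hx Y (hperp Y hY) (hdiv Y hY)
  dh := dh P hD hx
  lev Y hY hY2 := lev P hD (pot_of_isBerg hu) hx Y (hperp _ hY) hY2
  nocurve := hnc

end Crest.Agent.R264.D8d
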