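import Crest.Agent.R264.D8Asm
import Crest.Agent.R264.D8dMain

/-!
Row 264 (S0402), part D8: `D8Stmt` holds (helper469).
-/

set_option autoImplicit false

open Set Filter Topology

namespace Crest.Agent.R264

/-- **NODE D8**. -/
theorem d8Stmt : D8Stmt := by
  intro n D Γ hn hD hDc hDb hG g i1 i2 hfin hK P hspan x hx
  have hperp : ∀ Y, DA.Perp (P.stab hD hx) Y → Y ∈ P.stab hD hx := fun Y hY =>
    Cas.perp_stab hD hDc hDb hG P hx Y hY
  exact ⟨_, D8d.hyp_of P hD (Berg.isBerg hD hDb) hx hperp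
    (fun Y hY => Cas.perp_dv hD hDc hDb hG P hx Y hY) (DA.pack_ss P hD hx)
    (Ent.nocurve P hD hDb hx hperp)⟩

/-- Theorem D from the remaining nodes. -/
theorem thmD_of' (h3 : D3Stmt) (h7 : D7Stmt) (ha : DAlgStmt) : ThmD :=
  thmD_of h3 h7 d8Stmt ha

end Crest.Agent.R264
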