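import Crest.Agent.R264.D8dMain
import Crest.Agent.R264.D8Asm

/-!
Row 264 (S0402), part D8(d): final form (helper868).
-/

set_option autoImplicit false

namespace Crest.Agent.R264.D8d

theorem d8d : D8dStmt := by
  intro n D hD u hu g i1 i2 P x hx
  refine ⟨delta P u hD hx, fun Y hY => ?_, dsig P hD (pot_of_isBerg hu) hx, dh P hD hx,
    fun Y hY hY2 => lev P hD (pot_of_isBerg hu) hx Y hY hY2⟩
  rw [P.mem_stab] at hY
  rw [delta_apply, hY, map_zero, add_zero]

/-- NODE D8 of row 264. -/
theorem d8 : D8Stmt := d8_of d8d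

end Crest.Agent.R264.D8d
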