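import Mathlib
import Crest.Agent.R264.DADefs
import Crest.Agent.R264.CX
import Crest.Agent.R264.DIface

/-!
Row 264, Part D, D8alg, first file: Killing form and conjugation, negativity of the Killing form,
`CX g` is Killing, `ImDiag` from bounded one-parameter groups.
-/

set_option autoImplicit false
set_option linter.unusedSectionVars false

open scoped ComplexConjugate
open Module

namespace Crest.Agent.R264.DA

section Conj

variable {L : Type*} [LieRing L] [LieAlgebra ℂ L]

lemma Conj.zero (S : Conj L) : S.σ 0 = 0 := by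
  have := S.smul 0 0
  simpa using this

lemma Conj.neg (S : Conj L) (x : L) : S.σ (-x) = - S.σ x := by
  have := S.smul (-1) x
  simpa using this

lemma Conj.sub (S : Conj L) (x y : L) : S.σ (x - y) = S.σ x - S.σ y := by
  rw [sub_eq_add_neg, S.add, S.neg, sub_eq_add_neg]

lemma Conj.injective (S : Conj L) : Function.Injective S.σ := fun x y h => by
  rw [← S.inv x, h, S.inv y]

lemma Conj.eq_zero (S : Conj L) {x : L} (h : S.σ x = 0) : x = 0 := by
  rw [← S.inv x, h, S.zero]

/-- the conjugate of a basis, as coordinates -/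
noncomputable def conjEquiv (S : Conj L) {ι : Type*} [Fintype ι] (b : Basis ι ℂ L) :
    L ≃ₗ[ℂ] (ι → ℂ) where
  toFun x := fun i => conj (b.equivFun (S.σ x) i)
  map_add' x y := by funext i; simp [S.add]
  map_smul' c x := by funext i; simp [S.smul]
  invFun f := S.σ (b.equivFun.symm fun i => conj (f i))
  left_inv x := by simp [S.inv]
  right_inv f := by
    funext i
    beta_reduce
    rw [S.inv, LinearEquiv.apply_symm_apply, Complex.conj_conj]

lemma conjEquiv_apply (S : Conj L) {ι : Type*} [Fintype ι] (b : Basis ι ℂ L) (x : L) (i : ι) :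
    conjEquiv S b x i = conj (b.equivFun (S.σ x) i) := rfl

lemma conjEquiv_symm_apply (S : Conj L) {ι : Type*} [Fintype ι] (b : Basis ι ℂ L) (f : ι → ℂ) :
    (conjEquiv S b).symm f = S.σ (b.equivFun.symm fun i => conj (f i)) := rfl

lemma trace_conj (S : Conj L) [FiniteDimensional ℂ L] (T T' : L →ₗ[ℂ] L)
    (h : ∀ x, T' x = S.σ (T (S.σ x))) :
    LinearMap.trace ℂ L T' = conj (LinearMap.trace ℂ L T) := by
  classical
  have hbi : ∀ i, Basis.ofEquivFun (conjEquiv S (Module.finBasis ℂ L)) i
      = S.σ (Module.finBasis ℂ L i) := by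
    intro i
    rw [Basis.coe_ofEquivFun]
    beta_reduce
    rw [conjEquiv_symm_apply]
    congr 1
    have : (fun j => conj ((Pi.single i (1 : ℂ) : Fin _ → ℂ) j)) = Pi.single i (1 : ℂ) := by
      funext j
      by_cases hj : j = i
      · subst hj; simp
      · simp [Pi.single_eq_of_ne hj]
    rw [this]
    exact Basis.equivFun_symm_single _ _
  generalize Module.finBasis ℂ L = b at hbi
  set b' := Basis.ofEquivFun (conjEquiv S b) with hb'
  rw [LinearMap.trace_eq_matrix_trace ℂ b' T', LinearMap.trace_eq_matrix_trace ℂ b T,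
    Matrix.trace, Matrix.trace, map_sum]
  refine Finset.sum_congr rfl fun i _ => ?_
  simp only [Matrix.diag_apply, LinearMap.toMatrix_apply]
  have h1 : ∀ x, b'.repr x i = conjEquiv S b x i := fun x => by
    rw [hb', ← Basis.equivFun_apply, Basis.equivFun_ofEquivFun]
  rw [hbi, h, S.inv, h1, conjEquiv_apply, S.inv, Basis.equivFun_apply]

lemma killing_conj (S : Conj L) [FiniteDimensional ℂ L] (x y : L) :
    killingForm ℂ L (S.σ x) (S.σ y) = conj (killingForm ℂ L x y) := by
  rw [killingForm_apply_apply, killingForm_apply_apply]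
  refine trace_conj S _ _ fun z => ?_
  simp only [LinearMap.comp_apply, LieAlgebra.ad_apply]
  rw [S.lie, S.lie, S.inv]

end Conj

section Diag

variable {V : Type*} [AddCommGroup V] [Module ℂ V] [FiniteDimensional ℂ V]

/-- semisimplicity in the `(T - μ)² v = 0 → (T - μ) v = 0` form -/
def SS (T : End ℂ V) : Prop :=
  ∀ (μ : ℂ) (v : V), T (T v) - (2 * μ) • T v + (μ * μ) • v = 0 → T v = μ • v

omit [FiniteDimensional ℂ V] in
lemma SS.pow {T : End ℂ V} (hT : SS T) (μ : ℂ) (k : ℕ) (v : V)
    (h : ((T - μ • (1 : End ℂ V)) ^ (k + 1)) v = 0) : T v = μ • v := by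
  induction k with
  | zero =>
    simpa [sub_eq_zero] using h
  | succ k ih =>
    apply ih
    set w := ((T - μ • (1 : End ℂ V)) ^ k) v with hw
    have h2 : (T - μ • (1 : End ℂ V)) ((T - μ • (1 : End ℂ V)) w) = 0 := by
      have e : (T - μ • (1 : End ℂ V)) ^ (k + 1 + 1)
          = (T - μ • 1) * ((T - μ • 1) * (T - μ • 1) ^ k) := by
        rw [pow_succ', pow_succ']
      rw [e] at h
      exact h
    have h3 : T w = μ • w := by
      apply hT
      rw [← h2]
      simp only [LinearMap.sub_apply, LinearMap.smul_apply, Module.End.one_apply, map_sub,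
        map_smul, smul_sub, smul_smul, two_mul, add_smul]
      abel
    rw [pow_succ', Module.End.mul_apply, ← hw]
    simp [h3]

lemma SS.iSup_eq_top {T : End ℂ V} (hT : SS T) : (⨆ μ : ℂ, T.eigenspace μ) = ⊤ := by
  rw [eq_top_iff, ← Module.End.iSup_maxGenEigenspace_eq_top T]
  refine iSup_mono fun μ => ?_
  intro v hv
  rw [Module.End.mem_maxGenEigenspace] at hv
  obtain ⟨k, hk⟩ := hv
  rw [Module.End.mem_eigenspace_iff]
  refine hT.pow μ k v ?_
  rw [pow_succ', Module.End.mul_apply, hk, map_zero]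

lemma SS.exists_basis {T : End ℂ V} (hT : SS T) :
    ∃ (ι : Type) (_ : Fintype ι) (b : Basis ι ℂ V) (μ : ι → ℂ), ∀ i, T (b i) = μ i • b i := by
  classical
  have hint : DirectSum.IsInternal fun μ : ℂ => T.eigenspace μ :=
    (DirectSum.isInternal_submodule_iff_iSupIndep_and_iSup_eq_top _).mpr
      ⟨T.eigenspaces_iSupIndep, hT.iSup_eq_top⟩
  set b := hint.collectedBasis fun μ => Module.finBasis ℂ (T.eigenspace μ) with hb
  refine ⟨_, FiniteDimensional.fintypeBasisIndex b, b, fun i => i.1, fun i => ?_⟩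
  exact Module.End.mem_eigenspace_iff.mp (hint.collectedBasis_mem _ i)

end Diag

section Neg

variable {L : Type*} [LieRing L] [LieAlgebra ℂ L] [FiniteDimensional ℂ L]

lemma ImDiag.ss {A : L} (h : ImDiag A) : SS (LieAlgebra.ad ℂ L A : End ℂ L) :=
  fun μ v hv => (h μ v hv).1

lemma ImDiag.exists_basis {A : L} (h : ImDiag A) :
    ∃ (ι : Type) (_ : Fintype ι) (b : Basis ι ℂ L) (τ : ι → ℝ),
      ∀ i, ⁅A, b i⁆ = ((τ i : ℂ) * Complex.I) • b i := by
  obtain ⟨ι, hι, b, μ, hb⟩ := h.ss.exists_basis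
  refine ⟨ι, hι, b, fun i => (μ i).im, fun i => ?_⟩
  have h1 : ⁅A, b i⁆ = μ i • b i := hb i
  have h2 : (μ i).re = 0 := by
    refine (h (μ i) (b i) ?_).2 (b.ne_zero i)
    rw [h1, lie_smul, h1, smul_smul, smul_smul, two_mul, add_mul, add_smul]
    abel
  rw [h1]
  congr 1
  apply Complex.ext <;> simp [h2]

lemma trace_sq {A : L} {ι : Type} [Fintype ι] (b : Basis ι ℂ L) (τ : ι → ℝ)
    (hb : ∀ i, ⁅A, b i⁆ = ((τ i : ℂ) * Complex.I) • b i) :
    killingForm ℂ L A A = ((-∑ i, (τ i) ^ 2 : ℝ) : ℂ) := by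
  classical
  rw [killingForm_apply_apply, LinearMap.trace_eq_matrix_trace ℂ b, Matrix.trace]
  push_cast
  rw [← Finset.sum_neg_distrib]
  refine Finset.sum_congr rfl fun i _ => ?_
  simp only [Matrix.diag_apply, LinearMap.toMatrix_apply, LinearMap.comp_apply,
    LieAlgebra.ad_apply, hb, map_smul, Finsupp.smul_apply, Basis.repr_self,
    Finsupp.single_eq_same, smul_eq_mul, mul_one]
  have : ((τ i : ℂ) * Complex.I) * ((τ i : ℂ) * Complex.I) = -(τ i : ℂ) ^ 2 := by
    have hI : Complex.I * Complex.I = -1 := Complex.I_mul_I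
    linear_combination ((τ i : ℂ) ^ 2) * hI
  exact this

lemma killing_im {A : L} (h : ImDiag A) : (killingForm ℂ L A A).im = 0 := by
  obtain ⟨ι, _, b, τ, hb⟩ := h.exists_basis
  rw [trace_sq b τ hb]; exact Complex.ofReal_im _

lemma eq_zero_of_lie [LieAlgebra.IsKilling ℂ L] {A : L} (h : ∀ v : L, ⁅A, v⁆ = 0) : A = 0 :=
  (LieDerivation.IsKilling.ad_apply_eq_zero_iff ℂ L A).mp
    (LieDerivation.ext fun v => by simpa using h v)

lemma killing_neg [LieAlgebra.IsKilling ℂ L] {A : L} (h : ImDiag A) (hA : A ≠ 0) :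
    (killingForm ℂ L A A).re < 0 := by
  obtain ⟨ι, _, b, τ, hb⟩ := h.exists_basis
  rw [trace_sq b τ hb, Complex.ofReal_re, neg_lt_zero]
  by_contra hle
  push Not at hle
  have h0 : ∑ i, (τ i) ^ 2 = 0 := le_antisymm hle (Finset.sum_nonneg fun i _ => sq_nonneg _)
  rw [Finset.sum_eq_zero_iff_of_nonneg (fun i _ => sq_nonneg _)] at h0
  apply hA
  apply eq_zero_of_lie
  have : (LieAlgebra.ad ℂ L A : L →ₗ[ℂ] L) = 0 := by
    refine b.ext fun i => ?_
    have := h0 i (Finset.mem_univ i)
    rw [LieAlgebra.ad_apply, hb, pow_eq_zero_iff two_ne_zero |>.mp this]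
    simp
  intro v
  exact LinearMap.congr_fun this v

lemma killing_nondeg [LieAlgebra.IsKilling ℂ L] {x : L}
    (h : ∀ y, killingForm ℂ L x y = 0) : x = 0 := by
  have : x ∈ LinearMap.ker (killingForm ℂ L) := by
    rw [LinearMap.mem_ker]; ext y; exact h y
  rwa [LieAlgebra.IsKilling.ker_killingForm_eq_bot] at this

end Neg

section CXK

variable {g : Type*} [LieRing g] [LieAlgebra ℝ g]

lemma CX_basis_apply {ι : Type*} [Fintype ι] (b : Basis ι ℝ g) (i : ι) :
    CX.basis b i = CX.of (b i) := by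
  classical
  rw [CX.basis, Basis.coe_ofEquivFun]
  change (⟨∑ j, ((Pi.single i (1 : ℂ) : ι → ℂ) j).re • b j,
    ∑ j, ((Pi.single i (1 : ℂ) : ι → ℂ) j).im • b j⟩ : CX g) = _
  ext
  · simp only [CX.of_re]
    rw [Finset.sum_eq_single i]
    · simp
    · intro j _ hj; simp [Pi.single_eq_of_ne hj]
    · simp
  · simp only [CX.of_im]
    refine Finset.sum_eq_zero fun j _ => ?_
    by_cases hj : j = i
    · subst hj; simp
    · simp [Pi.single_eq_of_ne hj]

lemma CX_repr_of {ι : Type*} [Fintype ι] (b : Basis ι ℝ g) (v : g) (i : ι) :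
    (CX.basis b).repr (CX.of v) i = ((b.repr v i : ℝ) : ℂ) := by
  change (⟨b.repr v i, b.repr (0 : g) i⟩ : ℂ) = _
  apply Complex.ext <;> simp

variable [Module.Finite ℝ g]

lemma killing_of (x y : g) :
    killingForm ℂ (CX g) (CX.of x) (CX.of y) = ((killingForm ℝ g x y : ℝ) : ℂ) := by
  classical
  set b := Module.finBasis ℝ g
  rw [killingForm_apply_apply, killingForm_apply_apply,
    LinearMap.trace_eq_matrix_trace ℂ (CX.basis b), LinearMap.trace_eq_matrix_trace ℝ b,
    Matrix.trace, Matrix.trace]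
  push_cast
  refine Finset.sum_congr rfl fun i _ => ?_
  simp only [Matrix.diag_apply, LinearMap.toMatrix_apply, LinearMap.comp_apply,
    LieAlgebra.ad_apply, CX_basis_apply, ← CX.of_lie, CX_repr_of]

instance CX_isKilling [LieAlgebra.IsKilling ℝ g] : LieAlgebra.IsKilling ℂ (CX g) := by
  constructor
  rw [eq_bot_iff]
  intro x hx
  rw [LieIdeal.mem_killingCompl] at hx
  rw [LieSubmodule.mem_bot]
  have key : ∀ c : g, killingForm ℝ g c x.re = 0 ∧ killingForm ℝ g c x.im = 0 := by
    intro c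
    have h1 := hx (CX.of c) trivial
    rw [CX.eq_of_add x, map_add, map_smul, killing_of, killing_of] at h1
    constructor
    · simpa using congrArg Complex.re h1
    · simpa using congrArg Complex.im h1
  have hz : ∀ a : g, (∀ c, killingForm ℝ g c a = 0) → a = 0 := by
    intro a ha
    have : a ∈ LinearMap.ker (killingForm ℝ g) := by
      rw [LinearMap.mem_ker]; ext y
      rw [LieModule.traceForm_comm]; exact ha y
    rwa [LieAlgebra.IsKilling.ker_killingForm_eq_bot] at this
  ext
  · exact hz _ fun c => (key c).1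
  · exact hz _ fun c => (key c).2

end CXK

end Crest.Agent.R264.DA
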