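import Mathlib
import Crest.Agent.R264.DADefs
import Crest.Agent.R264.DAKill

/-!
Row 264, Part D, D8alg: the main argument ((c), (e), (f)), given the maximiser lemma and the
graded unit.
-/

set_option autoImplicit false
set_option linter.unusedSectionVars false

open scoped ComplexConjugate
open Module

namespace Crest.Agent.R264.DA

variable {L : Type*} [LieRing L] [LieAlgebra ℂ L]

local notation "κ" => killingForm ℂ L

/-- statement of the maximiser lemma for `(L, S)` -/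
def MaxProp (S : Conj L) : Prop :=
  ∀ (s : ℝ), (s = 1 ∨ s = -1) → ∀ V : Submodule ℂ L, V ≠ ⊥ →
    (∀ y ∈ V, y ≠ 0 → 0 < s * (killingForm ℂ L y (S.σ y)).re) →
    (∀ y ∈ V, ∀ w ∈ V, ⁅⁅y, S.σ y⁆, w⁆ ∈ V) →
    ∃ y ∈ V, y ≠ 0 ∧ ∃ l : ℝ, ⁅⁅y, S.σ y⁆, y⁆ = (l : ℂ) • y ∧
      l * (killingForm ℂ L y (S.σ y)).re = (killingForm ℂ L ⁅y, S.σ y⁆ ⁅y, S.σ y⁆).re

/-- statement of the graded unit for `(L, S)` -/
def GrProp (S : Conj L) : Prop :=
  ∀ M : L, S.σ M = -M →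
    (⨆ r : ℝ, Module.End.eigenspace (LieAlgebra.ad ℂ L M) (r : ℂ)) = ⊤ →
    (∀ r : ℝ, r ≠ 0 → ∀ Y : L, ⁅M, Y⁆ = (r : ℂ) • Y → Y ≠ 0 → 0 < (killingForm ℂ L Y (S.σ Y)).re) →
    (∀ Y : L, ⁅M, Y⁆ = 0 → Y ≠ 0 → (killingForm ℂ L Y (S.σ Y)).re < 0) →
    (∀ A : L, ⁅M, A⁆ = 0 → S.σ A = A → ImDiag A) →
    ∃ Z : L, S.σ Z = Z ∧ ⁅M, Z⁆ = 0 ∧
      ∀ r : ℝ, 0 < r → ∀ Y : L, ⁅M, Y⁆ = (r : ℂ) • Y → ⁅Z, Y⁆ = (-Complex.I) • Y

lemma B_comm (x y : L) : κ x y = κ y x := LieModule.traceForm_comm ℂ L L x y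

lemma B_inv (x y z : L) : κ ⁅x, y⁆ z = κ x ⁅y, z⁆ := LieModule.traceForm_apply_lie_apply ℂ L L x y z

lemma B_inv' (x y z : L) : κ ⁅x, y⁆ z = - κ y ⁅x, z⁆ :=
  LieModule.traceForm_apply_lie_apply' ℂ L L x y z

section

variable (S : Conj L) (h : LieSubalgebra ℂ L)

/-- `n = h^⊥` -/
def nS : Submodule ℂ L where
  carrier := {Y | Perp h Y}
  zero_mem' := fun X _ => by simp
  add_mem' {a b} ha hb := fun X hX => by rw [map_add, LinearMap.add_apply, ha X hX, hb X hX, add_zero]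
  smul_mem' c a ha := fun X hX => by rw [map_smul, LinearMap.smul_apply, ha X hX, smul_zero]

/-- `nb = σ n` -/
def nbS : Submodule ℂ L where
  carrier := {Y | Perp h (S.σ Y)}
  zero_mem' := fun X _ => by rw [S.zero]; simp
  add_mem' {a b} ha hb := fun X hX => by
    rw [S.add, map_add, LinearMap.add_apply, ha X hX, hb X hX, add_zero]
  smul_mem' c a ha := fun X hX => by
    rw [S.smul, map_smul, LinearMap.smul_apply, ha X hX, smul_zero]

/-- `k_C = h ∩ σ h` -/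
def kS : Submodule ℂ L where
  carrier := {Y | Y ∈ h ∧ S.σ Y ∈ h}
  zero_mem' := ⟨zero_mem _, by rw [S.zero]; exact zero_mem _⟩
  add_mem' {a b} ha hb := ⟨add_mem ha.1 hb.1, by rw [S.add]; exact add_mem ha.2 hb.2⟩
  smul_mem' c a ha := ⟨h.smul_mem c ha.1, by rw [S.smul]; exact h.smul_mem _ ha.2⟩

lemma mem_nS {Y : L} : Y ∈ nS h ↔ Perp h Y := Iff.rfl
lemma mem_nbS {Y : L} : Y ∈ nbS S h ↔ Perp h (S.σ Y) := Iff.rfl
lemma mem_kS {Y : L} : Y ∈ kS S h ↔ Y ∈ h ∧ S.σ Y ∈ h := Iff.rfl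

lemma σ_kS {Y : L} (hY : Y ∈ kS S h) : S.σ Y ∈ kS S h := ⟨hY.2, by rw [S.inv]; exact hY.1⟩

lemma lie_k_n {X Y : L} (hX : X ∈ h) (hY : Perp h Y) : Perp h ⁅X, Y⁆ := fun Z hZ => by
  rw [B_inv', hY _ (h.lie_mem hX hZ), neg_zero]

lemma lie_k_nb {X Y : L} (hX : S.σ X ∈ h) (hY : Perp h (S.σ Y)) : Perp h (S.σ ⁅X, Y⁆) := by
  rw [S.lie]; exact lie_k_n h hX hY

end

section Main

variable [FiniteDimensional ℂ L] [LieAlgebra.IsKilling ℂ L]
variable {S : Conj L} {h : LieSubalgebra ℂ L} {δ : L →ₗ[ℂ] ℂ} (H : Hyp S h δ)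

include H

/-- `B(Y, σ Y) < 0` on `k_C`. -/
lemma Hyp.neg {Y : L} (hY : Y ∈ kS S h) (h0 : Y ≠ 0) : (κ Y (S.σ Y)).re < 0 := by
  set A := Y + S.σ Y with hA
  set A' := (-Complex.I) • (Y - S.σ Y) with hA'
  have hσA : S.σ A = A := by rw [hA, S.add, S.inv, add_comm]
  have hσA' : S.σ A' = A' := by
    rw [hA', S.smul, S.sub, S.inv, map_neg, Complex.conj_I, neg_neg, neg_smul, ← smul_neg, neg_sub]
  have hAm : A ∈ h := add_mem hY.1 hY.2
  have hAm' : A' ∈ h := h.smul_mem _ (sub_mem hY.1 hY.2)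
  have e : 4 * κ Y (S.σ Y) = κ A A + κ A' A' := by
    have hI : Complex.I * Complex.I = -1 := Complex.I_mul_I
    simp only [hA, hA', map_add, map_sub, map_smul, LinearMap.add_apply, LinearMap.sub_apply,
      LinearMap.smul_apply, smul_eq_mul]
    rw [B_comm (S.σ Y) Y]
    linear_combination (-(κ Y Y - κ Y (S.σ Y) - (κ Y (S.σ Y) - κ (S.σ Y) (S.σ Y)))) * hI
  have hle : ∀ C ∈ h, S.σ C = C → (κ C C).re ≤ 0 := by
    intro C hC hσC
    by_cases hC0 : C = 0
    · rw [hC0]; simp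
    · exact (killing_neg (H.ss C hC hσC) hC0).le
  have h1 := hle A hAm hσA
  have h2 := hle A' hAm' hσA'
  have hor : A ≠ 0 ∨ A' ≠ 0 := by
    by_contra hcon
    push Not at hcon
    apply h0
    have h3 : Y - S.σ Y = 0 := by
      have := hcon.2
      rw [hA', smul_eq_zero] at this
      rcases this with h4 | h4
      · exact absurd h4 (by simp)
      · exact h4
    have h4 : (2 : ℂ) • Y = 0 := by
      have : (2 : ℂ) • Y = A + (Y - S.σ Y) := by rw [hA, two_smul]; abel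
      rw [this, hcon.1, h3, add_zero]
    simpa using h4
  have e2 : 4 * (κ Y (S.σ Y)).re = (κ A A).re + (κ A' A').re := by
    have := congrArg Complex.re e
    simpa using this
  rcases hor with h3 | h3
  · have := killing_neg (H.ss A hAm hσA) h3
    linarith
  · have := killing_neg (H.ss A' hAm' hσA') h3
    linarith

lemma Hyp.nb_h {Y : L} (hY : Perp h (S.σ Y)) (hh : Y ∈ h) : Y = 0 := by
  by_contra h0
  have hk : Y ∈ kS S h := ⟨hh, H.perp _ hY⟩
  have h1 := H.neg hk h0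
  have h2 : κ Y (S.σ Y) = 0 := by rw [B_comm]; exact hY Y hh
  rw [h2] at h1
  simp at h1

lemma Hyp.n_σh {Y : L} (hY : Perp h Y) (hh : S.σ Y ∈ h) : Y = 0 := by
  refine S.eq_zero (H.nb_h (Y := S.σ Y) ?_ hh)
  rwa [S.inv]

/-- independence of `nb`, `k_C`, `n` -/
lemma Hyp.indep {a b c : L} (ha : Perp h (S.σ a)) (hb : b ∈ kS S h) (hc : Perp h c)
    (e : a + b + c = 0) : a = 0 ∧ b = 0 ∧ c = 0 := by
  have hb0 : b = 0 := by
    by_contra h0
    have h1 := H.neg hb h0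
    have h2 : κ b (S.σ b) = 0 := by
      have e2 : b = -(a + c) := by
        have : b = (a + b + c) - (a + c) := by abel
        rw [this, e, zero_sub]
      have h3 : κ a (S.σ b) = 0 := by
        have h4 := killing_conj S (S.σ a) b
        rw [S.inv, ha b hb.1, map_zero] at h4
        exact h4
      have h5 : κ c (S.σ b) = 0 := hc _ hb.2
      nth_rw 1 [e2]
      rw [map_neg, map_add, LinearMap.neg_apply, LinearMap.add_apply, h3, h5]
      simp
    rw [h2] at h1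
    simp at h1
  have hac : a + c = 0 := by rw [hb0, add_zero] at e; exact e
  have ha0 : a = 0 := H.nb_h ha (by
    have : a = -c := eq_neg_of_add_eq_zero_left hac
    rw [this]; exact neg_mem (H.perp c hc))
  refine ⟨ha0, hb0, ?_⟩
  rw [ha0, zero_add] at hac
  exact hac

/-- `(n + nb)^⊥ ⊆ k_C` -/
lemma Hyp.perp_mem_k {Y : L} (h1 : ∀ X, Perp h X → κ X Y = 0)
    (h2 : ∀ X, Perp h (S.σ X) → κ X Y = 0) : Y ∈ kS S h := by
  have hnd := LieAlgebra.IsKilling.killingForm_nondegenerate ℂ L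
  have hrefl := (LieModule.traceForm_isSymm ℂ L L).isRefl
  have key : ∀ W : L, (∀ X, Perp h X → κ X W = 0) → W ∈ h := by
    intro W hW
    have h3 := LinearMap.BilinForm.orthogonal_orthogonal hnd hrefl h.toSubmodule
    have h4 : W ∈ (killingForm ℂ L).orthogonal ((killingForm ℂ L).orthogonal h.toSubmodule) := by
      rw [LinearMap.BilinForm.mem_orthogonal_iff]
      intro X hX
      rw [LinearMap.BilinForm.mem_orthogonal_iff] at hX
      exact hW X fun Z hZ => by rw [B_comm]; exact hX Z hZ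
    rw [h3] at h4
    exact h4
  refine ⟨key Y h1, key _ fun X hX => ?_⟩
  have h3 := killing_conj S (S.σ X) Y
  rw [S.inv] at h3
  rw [h3, h2 (S.σ X) (by rwa [S.inv]), map_zero]

lemma Hyp.decomp (X : L) : ∃ a b c, Perp h (S.σ a) ∧ b ∈ kS S h ∧ Perp h c ∧ X = a + b + c := by
  have hnd := LieAlgebra.IsKilling.killingForm_nondegenerate ℂ L
  have hrefl := (LieModule.traceForm_isSymm ℂ L L).isRefl
  set K := kS S h with hK
  set N := nS h ⊔ nbS S h with hN
  have h1 : (killingForm ℂ L).orthogonal N ≤ K := by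
    intro Y hY
    rw [LinearMap.BilinForm.mem_orthogonal_iff] at hY
    exact H.perp_mem_k (fun Z hZ => hY Z (Submodule.mem_sup_left hZ))
      (fun Z hZ => hY Z (Submodule.mem_sup_right hZ))
  have h2 : (killingForm ℂ L).orthogonal K ≤ N := by
    have := LinearMap.BilinForm.orthogonal_le (B := killingForm ℂ L) h1
    rwa [LinearMap.BilinForm.orthogonal_orthogonal hnd hrefl] at this
  have h3 : Disjoint K ((killingForm ℂ L).orthogonal K) := by
    rw [Submodule.disjoint_def]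
    intro Y hY hY'
    by_contra h0
    have h4 := H.neg hY h0
    rw [LinearMap.BilinForm.mem_orthogonal_iff] at hY'
    have h5 : κ (S.σ Y) Y = 0 := hY' _ (σ_kS S h hY)
    rw [B_comm, h5] at h4
    simp at h4
  have h6 : IsCompl K ((killingForm ℂ L).orthogonal K) :=
    (LinearMap.BilinForm.isCompl_orthogonal_iff_disjoint hrefl).mpr h3
  have h7 : X ∈ K ⊔ (killingForm ℂ L).orthogonal K := by rw [h6.sup_eq_top]; trivial
  obtain ⟨b, hb, w, hw, rfl⟩ := Submodule.mem_sup.mp h7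
  obtain ⟨c, hc, a, ha, rfl⟩ := Submodule.mem_sup.mp (h2 hw)
  exact ⟨a, b, c, ha, hb, hc, by abel⟩

/-- the Koszul element -/
lemma Hyp.exists_M : ∃ M : L, (∀ Y, δ Y = - κ M Y) ∧ S.σ M = -M ∧ M ∈ kS S h ∧
    ∀ Y ∈ kS S h, ⁅M, Y⁆ = 0 := by
  have hnd := LieAlgebra.IsKilling.killingForm_nondegenerate ℂ L
  set M := -((killingForm ℂ L).toDual hnd).symm δ with hM
  have h1 : ∀ Y, δ Y = - κ M Y := by
    intro Y
    rw [hM, map_neg, LinearMap.neg_apply, neg_neg]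
    exact (LinearMap.BilinForm.apply_toDual_symm_apply (hB := hnd) δ Y).symm
  have hδnb : ∀ Y, Perp h (S.σ Y) → δ Y = 0 := by
    intro Y hY
    have h2 := H.dsig (S.σ Y)
    rw [S.inv, H.dperp _ hY, map_zero, neg_zero] at h2
    exact h2
  have hMk : M ∈ kS S h := by
    refine H.perp_mem_k (fun X hX => ?_) (fun X hX => ?_)
    · have := h1 X
      rw [H.dperp X hX] at this
      rw [B_comm]; simpa using this.symm
    · have := h1 X
      rw [hδnb X hX] at this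
      rw [B_comm]; simpa using this.symm
  have hσM : S.σ M = -M := by
    rw [← sub_eq_zero, sub_neg_eq_add]
    apply killing_nondeg
    intro Y
    have h2 : κ (S.σ M) Y = conj (κ M (S.σ Y)) := by
      have := killing_conj S M (S.σ Y)
      rwa [S.inv] at this
    have h3 : κ M (S.σ Y) = - δ (S.σ Y) := by rw [h1]; ring
    rw [map_add, LinearMap.add_apply, h2, h3, H.dsig, neg_neg, Complex.conj_conj, h1]
    ring
  refine ⟨M, h1, hσM, hMk, fun Y hY => ?_⟩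
  apply killing_nondeg
  intro W
  obtain ⟨a, b, c, ha, hb, hc, rfl⟩ := H.decomp W
  have h2 : κ ⁅M, Y⁆ (a + b + c) = - δ ⁅Y, a + b + c⁆ := by
    rw [B_inv, h1]; ring
  have h3 : δ ⁅Y, b + c⁆ = 0 := H.dh Y hY.1 _ (add_mem hb.1 (H.perp c hc))
  have h4 : δ ⁅Y, a⁆ = 0 := hδnb _ (lie_k_nb S h hY.2 ha)
  rw [h2, add_assoc, lie_add, map_add, h3, h4]
  simp

/-- `I • M` is a fixed element of `h`, so `ad M` is diagonalisable with real eigenvalues -/
lemma Hyp.M_real {M : L} (hσ : S.σ M = -M) (hM : M ∈ kS S h) (μ : ℂ) (v : L)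
    (hv : ⁅M, ⁅M, v⁆⁆ - (2 * μ) • ⁅M, v⁆ + (μ * μ) • v = 0) :
    ⁅M, v⁆ = μ • v ∧ (v ≠ 0 → μ.im = 0) := by
  have hA : (Complex.I • M) ∈ h := h.smul_mem _ hM.1
  have hσA : S.σ (Complex.I • M) = Complex.I • M := by
    rw [S.smul, Complex.conj_I, hσ, neg_smul, smul_neg, neg_neg]
  have hI : Complex.I * Complex.I = -1 := Complex.I_mul_I
  have h1 := H.ss _ hA hσA (Complex.I * μ) v (by
    rw [smul_lie, smul_lie, lie_smul, smul_smul, smul_smul, hI]
    have e1 : 2 * (Complex.I * μ) * Complex.I = -(2 * μ) := by linear_combination (2 * μ) * hI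
    have e2 : Complex.I * μ * (Complex.I * μ) = -(μ * μ) := by linear_combination (μ * μ) * hI
    rw [e1, e2]
    have : (-1 : ℂ) • ⁅M, ⁅M, v⁆⁆ - (-(2 * μ)) • ⁅M, v⁆ + (-(μ * μ)) • v
        = -(⁅M, ⁅M, v⁆⁆ - (2 * μ) • ⁅M, v⁆ + (μ * μ) • v) := by
      rw [neg_one_smul, neg_smul, neg_smul]; abel
    rw [this, hv, neg_zero])
  constructor
  · have h2 := h1.1
    rw [smul_lie, mul_smul] at h2
    exact smul_right_injective L Complex.I_ne_zero h2
  · intro hne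
    have := h1.2 hne
    simpa using this

lemma Hyp.M_top {M : L} (hσ : S.σ M = -M) (hM : M ∈ kS S h) :
    (⨆ r : ℝ, Module.End.eigenspace (LieAlgebra.ad ℂ L M) (r : ℂ)) = ⊤ := by
  have hss : SS (LieAlgebra.ad ℂ L M : End ℂ L) := fun μ v hv => (H.M_real hσ hM μ v hv).1
  rw [eq_top_iff, ← hss.iSup_eq_top]
  refine iSup_le fun μ => ?_
  intro v hv
  by_cases h0 : v = 0
  · rw [h0]; exact zero_mem _
  have hv1 : ⁅M, v⁆ = μ • v := Module.End.mem_eigenspace_iff.mp hv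
  have him : μ.im = 0 := (H.M_real hσ hM μ v (by
    rw [hv1, lie_smul, hv1, smul_smul, smul_smul, two_mul, add_mul, add_smul]; abel)).2 h0
  have hμ : μ = ((μ.re : ℝ) : ℂ) := by apply Complex.ext <;> simp [him]
  rw [hμ] at hv
  exact Submodule.mem_iSup_of_mem μ.re hv

lemma Hyp.sign {M : L} (hδ : ∀ Y, δ Y = - κ M Y) {r : ℝ} {Y : L} (hY : Perp h (S.σ Y))
    (hMY : ⁅M, Y⁆ = (r : ℂ) • Y) (h0 : Y ≠ 0) : 0 < r * (κ Y (S.σ Y)).re := by
  have h1 := H.lev Y hY (fun hh => h0 (H.nb_h hY hh))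
  rw [hδ, neg_neg, ← B_inv, hMY, map_smul, LinearMap.smul_apply, smul_eq_mul,
    Complex.re_ofReal_mul] at h1
  exact h1

/-- splitting of an eigenvector -/
lemma Hyp.split {M : L} (hM : M ∈ kS S h) (hk : ∀ Y ∈ kS S h, ⁅M, Y⁆ = 0)
    {r : ℝ} {X : L} (hX : ⁅M, X⁆ = (r : ℂ) • X) :
    ∃ a b c, Perp h (S.σ a) ∧ b ∈ kS S h ∧ Perp h c ∧ X = a + b + c ∧
      ⁅M, a⁆ = (r : ℂ) • a ∧ (r : ℂ) • b = 0 ∧ ⁅M, c⁆ = (r : ℂ) • c := by
  obtain ⟨a, b, c, ha, hb, hc, rfl⟩ := H.decomp X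
  have ha' : Perp h (S.σ (⁅M, a⁆ - (r : ℂ) • a)) :=
    (nbS S h).sub_mem (lie_k_nb S h hM.2 ha) ((nbS S h).smul_mem _ ha)
  have hc' : Perp h (⁅M, c⁆ - (r : ℂ) • c) :=
    (nS h).sub_mem (lie_k_n h hM.1 hc) ((nS h).smul_mem _ hc)
  have hb' : (-((r : ℂ) • b)) ∈ kS S h := (kS S h).neg_mem ((kS S h).smul_mem _ hb)
  obtain ⟨h1, h2, h3⟩ := H.indep ha' hb' hc' (by
    rw [lie_add, lie_add, hk b hb, smul_add, smul_add] at hX
    have : ⁅M, a⁆ - (r : ℂ) • a + -((r : ℂ) • b) + (⁅M, c⁆ - (r : ℂ) • c)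
        = (⁅M, a⁆ + 0 + ⁅M, c⁆) - ((r : ℂ) • a + (r : ℂ) • b + (r : ℂ) • c) := by abel
    rw [this, hX, sub_self])
  exact ⟨a, b, c, ha, hb, hc, rfl, sub_eq_zero.mp h1, neg_eq_zero.mp h2, sub_eq_zero.mp h3⟩

theorem main_of (hmax : MaxProp S) (hgr : GrProp S) : Concl S h := by
  obtain ⟨M, hδ, hσM, hMk, hk⟩ := H.exists_M
  have hσlie : ∀ (r : ℝ) (Y : L), ⁅M, Y⁆ = (r : ℂ) • Y → ⁅M, S.σ Y⁆ = ((-r : ℝ) : ℂ) • S.σ Y := by
    intro r Y hY
    have h1 := congrArg S.σ hY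
    rw [S.lie, hσM, S.smul, Complex.conj_ofReal, neg_lie] at h1
    rw [neg_eq_iff_eq_neg.mp h1]
    push_cast
    rw [neg_smul]
  -- `L_0 = k`
  have hL0 : ∀ X : L, ⁅M, X⁆ = 0 → X ∈ kS S h := by
    intro X hX
    obtain ⟨a, b, c, ha, hb, hc, rfl, h1, -, h3⟩ := H.split hMk hk (r := 0) (X := X) (by
      rw [hX]; simp)
    have ha0 : a = 0 := by
      by_contra h0
      have := H.sign hδ ha h1 h0
      simp at this
    have hc0 : c = 0 := by
      by_contra h0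
      have h4 := hσlie 0 c h3
      have h5 : Perp h (S.σ (S.σ c)) := by rwa [S.inv]
      have := H.sign hδ (r := -0) h5 h4 (fun h6 => h0 (S.eq_zero h6))
      simp at this
    rw [ha0, hc0, zero_add, add_zero]
    exact hb
  -- (f) no negative eigenvalue on `nb`
  have hf : ∀ r : ℝ, r < 0 → ∀ Y : L, Perp h (S.σ Y) → ⁅M, Y⁆ = (r : ℂ) • Y → Y = 0 := by
    intro r hr Y hY hMY
    by_contra h0
    set V : Submodule ℂ L := nbS S h ⊓ Module.End.eigenspace (LieAlgebra.ad ℂ L M) (r : ℂ) with hV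
    have hVm : ∀ y, y ∈ V ↔ Perp h (S.σ y) ∧ ⁅M, y⁆ = (r : ℂ) • y := by
      intro y
      rw [hV, Submodule.mem_inf, Module.End.mem_eigenspace_iff]
      rfl
    have hVne : V ≠ ⊥ := by
      intro hbot
      apply h0
      have : Y ∈ V := (hVm Y).mpr ⟨hY, hMY⟩
      rw [hbot] at this
      simpa using this
    have hneg : ∀ y ∈ V, y ≠ 0 → (κ y (S.σ y)).re < 0 := by
      intro y hy hy0
      have h1 := H.sign hδ ((hVm y).mp hy).1 ((hVm y).mp hy).2 hy0
      nlinarith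
    have hh0 : ∀ y ∈ V, ⁅y, S.σ y⁆ ∈ kS S h := by
      intro y hy
      apply hL0
      have h1 := ((hVm y).mp hy).2
      have h2 := hσlie r y h1
      rw [leibniz_lie, h1, h2, smul_lie, lie_smul, ← add_smul]
      simp
    obtain ⟨y, hy, hy0, l, hl1, hl2⟩ := hmax (-1) (Or.inr rfl) V hVne
      (fun y hy hy0 => by have := hneg y hy hy0; linarith)
      (fun y hy w hw => by
        have h1 := hh0 y hy
        refine (hVm _).mpr ⟨lie_k_nb S h h1.2 ((hVm w).mp hw).1, ?_⟩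
        rw [leibniz_lie, hk _ h1, zero_lie, zero_add, ((hVm w).mp hw).2, lie_smul])
    have h1 := hh0 y hy
    have h2 : ⁅y, S.σ y⁆ ≠ 0 := by
      intro h3
      have h4 : κ M ⁅y, S.σ y⁆ = (r : ℂ) * κ y (S.σ y) := by
        rw [← B_inv, ((hVm y).mp hy).2, map_smul, LinearMap.smul_apply, smul_eq_mul]
      rw [h3, map_zero] at h4
      have h5 := congrArg Complex.re h4
      rw [Complex.re_ofReal_mul] at h5
      have h6 := hneg y hy hy0
      simp only [Complex.zero_re] at h5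
      nlinarith
    have h3 := H.neg h1 h2
    have h4 : S.σ ⁅y, S.σ y⁆ = -⁅y, S.σ y⁆ := by rw [S.lie, S.inv, ← lie_skew]
    rw [h4, map_neg, Complex.neg_re] at h3
    have h5 := hneg y hy hy0
    have hl : l < 0 := by
      by_contra hcon
      push Not at hcon
      nlinarith
    exact H.nocurve y l ((hVm y).mp hy).1
      (fun hh => hy0 (H.nb_h ((hVm y).mp hy).1 hh)) hl h1.1 hl1
  -- location of the eigenspaces
  have hpos' : ∀ r : ℝ, 0 < r → ∀ Y : L, ⁅M, Y⁆ = (r : ℂ) • Y → Perp h (S.σ Y) := by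
    intro r hr Y hY
    obtain ⟨a, b, c, ha, hb, hc, rfl, h1, h2, h3⟩ := H.split hMk hk hY
    have hb0 : b = 0 := by
      rcases smul_eq_zero.mp h2 with h4 | h4
      · exact absurd (by exact_mod_cast h4) hr.ne'
      · exact h4
    have hc0 : c = 0 := S.eq_zero (hf (-r) (by linarith) (S.σ c) (by rwa [S.inv]) (hσlie r c h3))
    rw [hb0, hc0, add_zero, add_zero]
    exact ha
  have hneg' : ∀ r : ℝ, r < 0 → ∀ Y : L, ⁅M, Y⁆ = (r : ℂ) • Y → Perp h Y := by
    intro r hr Y hY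
    have := hpos' (-r) (by linarith) (S.σ Y) (hσlie r Y hY)
    rwa [S.inv] at this
  have hP : ∀ r : ℝ, r ≠ 0 → ∀ Y : L, ⁅M, Y⁆ = (r : ℂ) • Y → Y ≠ 0 → 0 < (κ Y (S.σ Y)).re := by
    intro r hr Y hY h0
    rcases lt_or_gt_of_ne hr with h1 | h1
    · have h2 := hσlie r Y hY
      have h3 := hpos' (-r) (by linarith) (S.σ Y) h2
      have h4 := H.sign hδ h3 h2 (fun h6 => h0 (S.eq_zero h6))
      rw [S.inv, B_comm] at h4
      by_contra h5
      push Not at h5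
      nlinarith
    · have h4 := H.sign hδ (hpos' r h1 Y hY) hY h0
      by_contra h5
      push Not at h5
      nlinarith
  obtain ⟨Z, hσZ, hMZ, hZ⟩ := hgr M hσM (H.M_top hσM hMk) hP
    (fun Y hY h0 => H.neg (hL0 Y hY) h0)
    (fun A hA hσA => H.ss A (hL0 A hA).1 hσA)
  refine ⟨⟨Z, (hL0 Z hMZ).1, hσZ, fun Y hY => ?_⟩, fun X => ?_⟩
  · -- `nb` is spanned by its eigenvectors
    have hst : ∀ x ∈ nbS S h, (LieAlgebra.ad ℂ L M) x ∈ nbS S h := fun x hx =>
      lie_k_nb S h hMk.2 hx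
    have hss : SS (LieAlgebra.ad ℂ L M : End ℂ L) := fun μ v hv => (H.M_real hσM hMk μ v hv).1
    have h1 := Submodule.inf_iSup_genEigenspace hst 1
    have h2 : (⨆ μ, Module.End.genEigenspace (LieAlgebra.ad ℂ L M) μ 1) = ⊤ := hss.iSup_eq_top
    rw [h2, inf_top_eq] at h1
    have h3 : Y ∈ ⨆ μ, nbS S h ⊓ Module.End.genEigenspace (LieAlgebra.ad ℂ L M) μ 1 := by
      rw [← h1]; exact hY
    clear hY h1
    induction h3 using Submodule.iSup_induction' with
    | mem μ v hv =>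
      by_cases h0 : v = 0
      · rw [h0]; simp
      have hv1 : ⁅M, v⁆ = μ • v := Module.End.mem_eigenspace_iff.mp hv.2
      have him : μ.im = 0 := (H.M_real hσM hMk μ v (by
        rw [hv1, lie_smul, hv1, smul_smul, smul_smul, two_mul, add_mul, add_smul]; abel)).2 h0
      have hμ : μ = ((μ.re : ℝ) : ℂ) := by apply Complex.ext <;> simp [him]
      rw [hμ] at hv1
      have hr : 0 < μ.re := by
        rcases lt_trichotomy μ.re 0 with h4 | h4 | h4
        · exact absurd (hf _ h4 v hv.1 hv1) h0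
        · exfalso
          have := H.sign hδ hv.1 hv1 h0
          rw [h4, zero_mul] at this
          exact lt_irrefl _ this
        · exact h4
      exact hZ _ hr v hv1
    | zero => simp
    | add x y _ _ hx hy => rw [lie_add, hx, hy, smul_add]
  · obtain ⟨a, b, c, ha, hb, hc, rfl⟩ := H.decomp X
    exact ⟨b + c, add_mem hb.1 (H.perp c hc), a, ha, by abel⟩

end Main

end Crest.Agent.R264.DA
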