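import Mathlib
import Crest.Agent.R264.DAMain

/-!
Row 264, Part D, D8alg: the graded unit ((g), (h)): `nb` is abelian and the complex structure
element `Z` exists.
-/

set_option autoImplicit false
set_option linter.unusedSectionVars false

open scoped ComplexConjugate
open Module

namespace Crest.Agent.R264.DA

variable {L : Type*} [LieRing L] [LieAlgebra ℂ L]

local notation "κ" => killingForm ℂ L

section

variable [FiniteDimensional ℂ L] [LieAlgebra.IsKilling ℂ L]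
variable {S : Conj L} {M : L}

lemma gr_lie {a b : L} {r s : ℝ} (ha : ⁅M, a⁆ = (r : ℂ) • a) (hb : ⁅M, b⁆ = (s : ℂ) • b) :
    ⁅M, ⁅a, b⁆⁆ = ((r + s : ℝ) : ℂ) • ⁅a, b⁆ := by
  rw [leibniz_lie, ha, hb, smul_lie, lie_smul, ← add_smul]; push_cast; rfl

lemma gr_σ (hσ : S.σ M = -M) {a : L} {r : ℝ} (ha : ⁅M, a⁆ = (r : ℂ) • a) :
    ⁅M, S.σ a⁆ = ((-r : ℝ) : ℂ) • S.σ a := by
  have h1 := congrArg S.σ ha
  rw [S.lie, hσ, S.smul, Complex.conj_ofReal, neg_lie] at h1
  rw [neg_eq_iff_eq_neg.mp h1]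
  push_cast
  rw [neg_smul]

lemma gr_orth {a b : L} {r s : ℝ} (ha : ⁅M, a⁆ = (r : ℂ) • a) (hb : ⁅M, b⁆ = (s : ℂ) • b)
    (hrs : r + s ≠ 0) : κ a b = 0 := by
  have h1 : κ ⁅M, a⁆ b = - κ a ⁅M, b⁆ := B_inv' M a b
  rw [ha, hb, map_smul, map_smul, LinearMap.smul_apply, smul_eq_mul, smul_eq_mul] at h1
  have h2 : (((r + s : ℝ)) : ℂ) * κ a b = 0 := by push_cast; linear_combination h1
  rcases mul_eq_zero.mp h2 with h3 | h3
  · exact absurd (by exact_mod_cast h3) hrs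
  · exact h3

/-- induction over the eigenspace decomposition -/
lemma gr_ind (hdiag : (⨆ r : ℝ, Module.End.eigenspace (LieAlgebra.ad ℂ L M) (r : ℂ)) = ⊤)
    {P : L → Prop} (h0 : P 0) (hadd : ∀ x y, P x → P y → P (x + y))
    (h : ∀ (r : ℝ) (v : L), ⁅M, v⁆ = (r : ℂ) • v → P v) (v : L) : P v := by
  have hv : v ∈ ⨆ r : ℝ, Module.End.eigenspace (LieAlgebra.ad ℂ L M) (r : ℂ) := by
    rw [hdiag]; trivial
  induction hv using Submodule.iSup_induction' with
  | mem r v hv => exact h r v (Module.End.mem_eigenspace_iff.mp hv)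
  | zero => exact h0
  | add x y _ _ hx hy => exact hadd x y hx hy

/-- (g): `nb` is abelian -/
theorem gr_abelian (hmax : MaxProp S) (hσ : S.σ M = -M)
    (hpos : ∀ r : ℝ, r ≠ 0 → ∀ Y : L, ⁅M, Y⁆ = (r : ℂ) • Y → Y ≠ 0 → 0 < (κ Y (S.σ Y)).re)
    (hneg : ∀ Y : L, ⁅M, Y⁆ = 0 → Y ≠ 0 → (κ Y (S.σ Y)).re < 0)
    (him : ∀ A : L, ⁅M, A⁆ = 0 → S.σ A = A → ImDiag A) :
    ∀ (r s : ℝ), 0 < r → 0 < s → ∀ a b : L, ⁅M, a⁆ = (r : ℂ) • a → ⁅M, b⁆ = (s : ℂ) • b →
      ⁅a, b⁆ = 0 := by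
  by_contra hcon
  push Not at hcon
  set T : Set ℝ := {μ | ∃ r s : ℝ, 0 < r ∧ 0 < s ∧ r + s = μ ∧ ∃ a b : L,
    ⁅M, a⁆ = (r : ℂ) • a ∧ ⁅M, b⁆ = (s : ℂ) • b ∧ ⁅a, b⁆ ≠ 0} with hT
  have hTne : T.Nonempty := by
    obtain ⟨r, s, hr, hs, a, b, ha, hb, hab⟩ := hcon
    exact ⟨r + s, r, s, hr, hs, rfl, a, b, ha, hb, hab⟩
  have hTfin : T.Finite := by
    have h1 : (fun μ : ℝ => (μ : ℂ)) '' T ⊆
        {μ : ℂ | (LieAlgebra.ad ℂ L M : End ℂ L).HasEigenvalue μ} := by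
      rintro _ ⟨μ, ⟨r, s, hr, hs, rfl, a, b, ha, hb, hab⟩, rfl⟩
      exact Module.End.hasEigenvalue_of_hasEigenvector (x := ⁅a, b⁆)
        ⟨Module.End.mem_eigenspace_iff.mpr (gr_lie ha hb), hab⟩
    have h2 : {μ : ℂ | (LieAlgebra.ad ℂ L M : End ℂ L).HasEigenvalue μ}.Finite :=
      Module.End.finite_hasEigenvalue _
    exact (h2.subset h1).of_finite_image (Complex.ofReal_injective.injOn)
  obtain ⟨μ1, hμ1, hmaxT⟩ := hTfin.exists_maximal hTne
  have hmaxT' : ∀ ν ∈ T, ν ≤ μ1 := fun ν hν => by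
    by_contra hlt
    push Not at hlt
    exact absurd (hmaxT hν hlt.le) (not_le.mpr hlt)
  obtain ⟨r0, s0, hr0, hs0, hrs0, a0, b0, ha0, hb0, hab0⟩ := hμ1
  have hμpos : 0 < μ1 := by linarith
  set V : Submodule ℂ L := Submodule.span ℂ {v | ∃ r s : ℝ, 0 < r ∧ 0 < s ∧ r + s = μ1 ∧
    ∃ a b : L, ⁅M, a⁆ = (r : ℂ) • a ∧ ⁅M, b⁆ = (s : ℂ) • b ∧ ⁅a, b⁆ = v} with hV
  have hVne : V ≠ ⊥ := by
    intro hbot
    have : ⁅a0, b0⁆ ∈ V := Submodule.subset_span ⟨r0, s0, hr0, hs0, hrs0, a0, b0, ha0, hb0, rfl⟩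
    rw [hbot] at this
    exact hab0 (by simpa using this)
  have hVeig : ∀ v ∈ V, ⁅M, v⁆ = (μ1 : ℂ) • v := by
    intro v hv
    induction hv using Submodule.span_induction with
    | mem v hv =>
      obtain ⟨r, s, hr, hs, hrs, a, b, ha, hb, rfl⟩ := hv
      rw [← hrs]; exact gr_lie ha hb
    | zero => simp
    | add x y _ _ hx hy => rw [lie_add, hx, hy, smul_add]
    | smul c x _ hx => rw [lie_smul, hx, smul_comm]
  -- `[V, E ν] = 0`, `ν > 0`
  have hVcomm : ∀ v ∈ V, ∀ (ν : ℝ) (w : L), 0 < ν → ⁅M, w⁆ = (ν : ℂ) • w → ⁅v, w⁆ = 0 := by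
    intro v hv ν w hν hw
    by_contra h0
    have := hmaxT' (μ1 + ν) ⟨μ1, ν, hμpos, hν, rfl, v, w, hVeig v hv, hw, h0⟩
    linarith
  -- `V` is stable under `E 0`
  have hVst : ∀ x : L, ⁅M, x⁆ = 0 → ∀ v ∈ V, ⁅x, v⁆ ∈ V := by
    intro x hx v hv
    have hx' : ⁅M, x⁆ = ((0 : ℝ) : ℂ) • x := by rw [hx]; simp
    induction hv using Submodule.span_induction with
    | mem v hv =>
      obtain ⟨r, s, hr, hs, hrs, a, b, ha, hb, rfl⟩ := hv
      rw [leibniz_lie]
      refine Submodule.add_mem _ (Submodule.subset_span ?_) (Submodule.subset_span ?_)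
      · refine ⟨r, s, hr, hs, hrs, ⁅x, a⁆, b, ?_, hb, rfl⟩
        have := gr_lie hx' ha
        rwa [zero_add] at this
      · refine ⟨r, s, hr, hs, hrs, a, ⁅x, b⁆, ha, ?_, rfl⟩
        have := gr_lie hx' hb
        rwa [zero_add] at this
    | zero => simp
    | add a b _ _ ha hb => rw [lie_add]; exact Submodule.add_mem _ ha hb
    | smul c a _ ha => rw [lie_smul]; exact Submodule.smul_mem _ _ ha
  have hh0 : ∀ y ∈ V, ⁅M, ⁅y, S.σ y⁆⁆ = 0 := by
    intro y hy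
    have := gr_lie (hVeig y hy) (gr_σ hσ (hVeig y hy))
    simpa using this
  obtain ⟨y, hy, hy0, l, hl1, hl2⟩ := hmax 1 (Or.inl rfl) V hVne
    (fun y hy hy0 => by rw [one_mul]; exact hpos μ1 hμpos.ne' y (hVeig y hy) hy0)
    (fun y hy w hw => hVst _ (hh0 y hy) w hw)
  set hh := ⁅y, S.σ y⁆ with hhh
  have hMy := hVeig y hy
  have hMσy := gr_σ hσ hMy
  have hMh : ⁅M, hh⁆ = 0 := hh0 y hy
  have hβ := hpos μ1 hμpos.ne' y hMy hy0
  have hhne : hh ≠ 0 := by
    intro h3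
    have h4 : κ M hh = (μ1 : ℂ) * κ y (S.σ y) := by
      rw [hhh, ← B_inv, hMy, map_smul, LinearMap.smul_apply, smul_eq_mul]
    rw [h3, map_zero] at h4
    have h5 := congrArg Complex.re h4
    rw [Complex.re_ofReal_mul] at h5
    simp only [Complex.zero_re] at h5
    nlinarith
  have hσh : S.σ hh = -hh := by rw [hhh, S.lie, S.inv, ← lie_skew]
  have hl : 0 < l := by
    have h3 := hneg hh hMh hhne
    rw [hσh, map_neg, Complex.neg_re] at h3
    by_contra hcon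
    push Not at hcon
    nlinarith
  have hlc : (l : ℂ) ≠ 0 := by exact_mod_cast hl.ne'
  have hhσy : ⁅hh, S.σ y⁆ = -((l : ℂ) • S.σ y) := by
    have h1 := congrArg S.σ hl1
    rw [S.lie, hσh, S.smul, Complex.conj_ofReal, neg_lie] at h1
    exact neg_eq_iff_eq_neg.mp h1
  have hsl : IsSl2Triple ((2 / (l : ℂ)) • hh) y ((2 / (l : ℂ)) • S.σ y) := by
    refine ⟨?_, ?_, ?_, ?_⟩
    · exact smul_ne_zero (div_ne_zero two_ne_zero hlc) hhne
    · rw [lie_smul]
    · rw [smul_lie, hl1, smul_smul, div_mul_cancel₀ _ hlc, ← Nat.cast_smul_eq_nsmul ℂ 2 y]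
      norm_num
    · rw [smul_lie, lie_smul, hhσy, smul_neg, smul_neg, ← Nat.cast_smul_eq_nsmul ℂ 2, smul_smul,
        smul_smul, smul_smul]
      congr 2
      field_simp
      norm_num
  -- ad hh is diagonalisable
  have hss : SS (LieAlgebra.ad ℂ L hh : End ℂ L) := by
    have hA : S.σ (Complex.I • hh) = Complex.I • hh := by
      rw [S.smul, Complex.conj_I, hσh, neg_smul, smul_neg, neg_neg]
    have hMA : ⁅M, Complex.I • hh⁆ = 0 := by rw [lie_smul, hMh, smul_zero]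
    have hI : Complex.I * Complex.I = -1 := Complex.I_mul_I
    intro μ v hv
    have hv' : ⁅hh, ⁅hh, v⁆⁆ - (2 * μ) • ⁅hh, v⁆ + (μ * μ) • v = 0 := hv
    have h1 := (him _ hMA hA (Complex.I * μ) v (by
      rw [smul_lie, smul_lie, lie_smul, smul_smul, smul_smul, hI]
      have e1 : 2 * (Complex.I * μ) * Complex.I = -(2 * μ) := by linear_combination (2 * μ) * hI
      have e2 : Complex.I * μ * (Complex.I * μ) = -(μ * μ) := by linear_combination (μ * μ) * hI
      rw [e1, e2]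
      have : (-1 : ℂ) • ⁅hh, ⁅hh, v⁆⁆ - (-(2 * μ)) • ⁅hh, v⁆ + (-(μ * μ)) • v
          = -(⁅hh, ⁅hh, v⁆⁆ - (2 * μ) • ⁅hh, v⁆ + (μ * μ) • v) := by
        rw [neg_one_smul, neg_smul, neg_smul]; abel
      rw [this, hv', neg_zero])).1
    rw [smul_lie, mul_smul] at h1
    exact smul_right_injective L Complex.I_ne_zero h1
  -- `[σ y, E ν] = 0` for `ν > 0`, `ν ≠ μ1`
  have hkill : ∀ (ν : ℝ) (w : L), 0 < ν → ν ≠ μ1 → ⁅M, w⁆ = (ν : ℂ) • w → ⁅S.σ y, w⁆ = 0 := by
    intro ν w hν hνμ hw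
    set W : Submodule ℂ L := Module.End.eigenspace (LieAlgebra.ad ℂ L M) (ν : ℂ) with hW
    have hst : ∀ x ∈ W, (LieAlgebra.ad ℂ L hh) x ∈ W := by
      intro x hx
      rw [hW, Module.End.mem_eigenspace_iff] at hx ⊢
      have hx' : ⁅M, x⁆ = (ν : ℂ) • x := hx
      change ⁅M, ⁅hh, x⁆⁆ = (ν : ℂ) • ⁅hh, x⁆
      rw [leibniz_lie, hMh, zero_lie, zero_add, hx', lie_smul]
    have h1 := Submodule.inf_iSup_genEigenspace hst 1
    have h2 : (⨆ μ, Module.End.genEigenspace (LieAlgebra.ad ℂ L hh) μ 1) = ⊤ := hss.iSup_eq_top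
    rw [h2, inf_top_eq] at h1
    have h3 : w ∈ ⨆ μ, W ⊓ Module.End.genEigenspace (LieAlgebra.ad ℂ L hh) μ 1 := by
      rw [← h1]; exact Module.End.mem_eigenspace_iff.mpr hw
    clear hw h1
    induction h3 using Submodule.iSup_induction' with
    | mem c v hv =>
      have hv1 : ⁅M, v⁆ = (ν : ℂ) • v := Module.End.mem_eigenspace_iff.mp hv.1
      have hv2 : ⁅hh, v⁆ = c • v := Module.End.mem_eigenspace_iff.mp hv.2
      by_contra h0
      have hv0 : v ≠ 0 := by rintro rfl; simp at h0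
      have hyv : ⁅y, v⁆ = 0 := hVcomm y hy ν v hν hv1
      have hprim : hsl.HasPrimitiveVectorWith v ((2 / (l : ℂ)) * c) :=
        ⟨hv0, by rw [smul_lie, hv2, smul_smul], hyv⟩
      obtain ⟨n, hn⟩ := hprim.exists_nat
      have hc : c = ((l * n / 2 : ℝ) : ℂ) := by
        push_cast
        rw [← hn]
        field_simp
      have hM2 : ⁅M, ⁅S.σ y, v⁆⁆ = ((-μ1 + ν : ℝ) : ℂ) • ⁅S.σ y, v⁆ := gr_lie hMσy hv1
      have h5 := hpos (-μ1 + ν) (fun h6 => hνμ (by linarith)) _ hM2 h0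
      have h6 : κ ⁅S.σ y, v⁆ (S.σ ⁅S.σ y, v⁆) = -(c * κ v (S.σ v)) := by
        rw [S.lie, S.inv, ← B_inv, ← lie_skew ⁅S.σ y, v⁆ y, leibniz_lie, hyv, lie_zero, add_zero,
          ← hhh, hv2, map_neg, LinearMap.neg_apply, map_smul, LinearMap.smul_apply, smul_eq_mul]
      rw [h6, hc, Complex.neg_re, Complex.re_ofReal_mul] at h5
      have h7 := hpos ν hν.ne' v hv1 hv0
      have h8 : 0 ≤ l * n / 2 := by positivity
      nlinarith
    | zero => simp
    | add x z _ _ hx hz => rw [lie_add, hx, hz, add_zero]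
  -- contradiction
  have hzero : ∀ v ∈ V, κ v (S.σ y) = 0 := by
    intro v hv
    induction hv using Submodule.span_induction with
    | mem v hv =>
      obtain ⟨r, s, hr, hs, hrs, a, b, ha, hb, rfl⟩ := hv
      rw [B_inv, ← lie_skew, hkill s b hs (by linarith) hb, neg_zero, map_zero]
    | zero => simp
    | add a b _ _ ha hb => rw [map_add, LinearMap.add_apply, ha, hb, add_zero]
    | smul c a _ ha => rw [map_smul, LinearMap.smul_apply, ha, smul_zero]
  rw [hzero y hy] at hβ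
  simp at hβ

/-- `ε(r) = - i sgn r` -/
noncomputable def eps (z : ℂ) : ℂ := if 0 < z.re then -Complex.I else if z.re < 0 then Complex.I else 0

lemma eps_pos {r : ℝ} (h : 0 < r) : eps (r : ℂ) = -Complex.I := by simp [eps, h]
lemma eps_neg {r : ℝ} (h : r < 0) : eps (r : ℂ) = Complex.I := by
  simp [eps, h, not_lt.mpr h.le]
lemma eps_zero : eps ((0 : ℝ) : ℂ) = 0 := by simp [eps]

lemma eps_conj (r : ℝ) : conj (eps ((-r : ℝ) : ℂ)) = eps (r : ℂ) := by
  rcases lt_trichotomy r 0 with h | h | h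
  · rw [eps_neg h, eps_pos (by linarith)]; simp
  · subst h; simp [eps]
  · rw [eps_pos h, eps_neg (by linarith)]; simp

theorem gr_main (hmax : MaxProp S) : GrProp S := by
  intro M hσ hdiag hpos hneg him
  have hab := gr_abelian hmax hσ hpos hneg him
  have hab' : ∀ (r s : ℝ), r < 0 → s < 0 → ∀ a b : L, ⁅M, a⁆ = (r : ℂ) • a →
      ⁅M, b⁆ = (s : ℂ) • b → ⁅a, b⁆ = 0 := by
    intro r s hr hs a b ha hb
    apply S.eq_zero
    rw [S.lie]
    exact hab (-r) (-s) (by linarith) (by linarith) _ _ (gr_σ hσ ha) (gr_σ hσ hb)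
  -- mixed brackets live in degree zero
  have hmix : ∀ (r s : ℝ), 0 < r → s < 0 → r + s ≠ 0 → ∀ a b : L, ⁅M, a⁆ = (r : ℂ) • a →
      ⁅M, b⁆ = (s : ℂ) • b → ⁅a, b⁆ = 0 := by
    intro r s hr hs hrs a b ha hb
    apply killing_nondeg
    intro x
    refine gr_ind (M := M) hdiag (P := fun x => κ ⁅a, b⁆ x = 0) (by simp)
      (fun x y hx hy => by rw [map_add, hx, hy, add_zero]) (fun t x hx => ?_) x
    rcases lt_trichotomy t 0 with ht | ht | ht
    · rw [B_inv, hab' s t hs ht b x hb hx, map_zero]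
    · refine gr_orth (gr_lie ha hb) hx ?_
      rw [ht, add_zero]; exact hrs
    · have h1 : κ ⁅b, a⁆ x = 0 := by rw [B_inv, hab r t hr ht a x ha hx, map_zero]
      rw [← lie_skew, map_neg, LinearMap.neg_apply, h1, neg_zero]
  -- the derivation
  set f : End ℂ L := LieAlgebra.ad ℂ L M with hf
  have hfin : {μ : ℂ | f.HasEigenvalue μ}.Finite := Module.End.finite_hasEigenvalue f
  set p : Polynomial ℂ := Lagrange.interpolate hfin.toFinset id eps with hp
  set D : End ℂ L := Polynomial.aeval f p with hD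
  have hDv : ∀ (r : ℝ) (v : L), ⁅M, v⁆ = (r : ℂ) • v → D v = eps (r : ℂ) • v := by
    intro r v hv
    by_cases h0 : v = 0
    · rw [h0]; simp
    have hev : f.HasEigenvector (r : ℂ) v := ⟨Module.End.mem_eigenspace_iff.mpr hv, h0⟩
    have h1 : (r : ℂ) ∈ hfin.toFinset := by
      rw [Set.Finite.mem_toFinset]
      exact Module.End.hasEigenvalue_of_hasEigenvector hev
    have h2 : p.eval (r : ℂ) = eps (r : ℂ) := by
      have := Lagrange.eval_interpolate_at_node (v := id) (r := eps)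
        (Function.injective_id.injOn) h1
      exact this
    rw [hD, Module.End.aeval_apply_of_hasEigenvector hev, h2]
  have hleib : ∀ a b : L, D ⁅a, b⁆ = ⁅a, D b⁆ - ⁅b, D a⁆ := by
    intro a
    refine gr_ind (M := M) hdiag (P := fun b => D ⁅a, b⁆ = ⁅a, D b⁆ - ⁅b, D a⁆) (by simp)
      (fun x y hx hy => by rw [lie_add, map_add, hx, hy, map_add, lie_add, add_lie]; abel) ?_
    intro s b hb
    refine gr_ind (M := M) hdiag (P := fun a => D ⁅a, b⁆ = ⁅a, D b⁆ - ⁅b, D a⁆) (by simp)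
      (fun x y hx hy => by rw [add_lie, map_add, hx, hy, map_add, lie_add, add_lie]; abel) ?_ a
    intro r a ha
    rw [hDv _ _ (gr_lie ha hb), hDv s b hb, hDv r a ha, lie_smul, lie_smul, ← lie_skew b a,
      smul_neg, sub_neg_eq_add, ← add_smul]
    rcases lt_trichotomy r 0 with hr | hr | hr
    · rcases lt_trichotomy s 0 with hs | hs | hs
      · rw [hab' r s hr hs a b ha hb]; simp
      · subst hs; rw [add_zero, eps_zero, zero_add]
      · by_cases hrs : r + s = 0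
        · rw [hrs, eps_neg hr, eps_pos hs, eps_zero]; simp
        · have : ⁅b, a⁆ = 0 := hmix s r hs hr (by rwa [add_comm]) b a hb ha
          rw [← lie_skew, this]; simp
    · subst hr
      rw [zero_add, eps_zero, add_zero]
    · rcases lt_trichotomy s 0 with hs | hs | hs
      · by_cases hrs : r + s = 0
        · rw [hrs, eps_pos hr, eps_neg hs, eps_zero]; simp
        · rw [hmix r s hr hs hrs a b ha hb]; simp
      · subst hs; rw [add_zero, eps_zero, zero_add]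
      · rw [hab r s hr hs a b ha hb]; simp
  let DD : LieDerivation ℂ L L := ⟨D, hleib⟩
  obtain ⟨Z, hZ⟩ := LieDerivation.IsKilling.exists_eq_ad DD
  have hZv : ∀ v : L, ⁅Z, v⁆ = D v := by
    intro v
    have := congrArg (fun d : LieDerivation ℂ L L => d v) hZ
    have h2 : ⁅Z, v⁆ = DD v := by simpa using this
    exact h2
  refine ⟨Z, ?_, ?_, ?_⟩
  · rw [← sub_eq_zero]
    apply eq_zero_of_lie
    refine gr_ind (M := M) hdiag (by simp) (fun x y hx hy => by rw [lie_add, hx, hy, add_zero]) ?_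
    intro r v hv
    have h1 : ⁅S.σ Z, v⁆ = S.σ ⁅Z, S.σ v⁆ := by rw [S.lie, S.inv]
    rw [sub_lie, h1, hZv, hZv, hDv _ _ (gr_σ hσ hv), hDv r v hv, S.smul, S.inv, eps_conj, sub_self]
  · rw [← lie_skew, hZv, hDv 0 M (by simp), eps_zero]; simp
  · intro r hr Y hY
    rw [hZv, hDv r Y hY, eps_pos hr]

end

end Crest.Agent.R264.DA
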