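import Crest.Agent.R264.DADefs

/-!
Row 264, Part D, node D8alg, piece DAMax (helper415): existence of a "critical" vector
`y ∈ V` with `[[y, σ y], y] = l y` on a space on which the hermitian form `B(y, σ y)` is definite.
-/

set_option autoImplicit false

open scoped ComplexConjugate
open Set Filter Topology

namespace Crest.Agent.R264.DA

namespace MaxAux

/-- a real quartic which is nonnegative and vanishes at `0` has no linear term -/
lemma linear_coeff_zero {a b c d : ℝ}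
    (h : ∀ t : ℝ, 0 ≤ a * t + b * t ^ 2 + c * t ^ 3 + d * t ^ 4) : a = 0 := by
  have h1 : HasDerivAt (fun t : ℝ => a * t + b * t ^ 2 + c * t ^ 3 + d * t ^ 4) a 0 := by
    have h0 := ((((hasDerivAt_id' (0 : ℝ)).const_mul a).fun_add
      (((hasDerivAt_pow 2 (0 : ℝ))).const_mul b)).fun_add
      (((hasDerivAt_pow 3 (0 : ℝ))).const_mul c)).fun_add
      (((hasDerivAt_pow 4 (0 : ℝ))).const_mul d)
    refine h0.congr_deriv ?_
    norm_num
  have h2 : IsLocalMin (fun t : ℝ => a * t + b * t ^ 2 + c * t ^ 3 + d * t ^ 4) 0 := by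
    refine Filter.Eventually.of_forall (fun t => ?_)
    simpa using h t
  exact h2.hasDerivAt_eq_zero h1

variable {L : Type*} [LieRing L] [LieAlgebra ℂ L]

lemma σ_zero (S : Conj L) : S.σ 0 = 0 := by
  have h := S.add 0 0
  simpa using h

lemma σ_sum (S : Conj L) {ι : Type*} (s : Finset ι) (f : ι → L) :
    S.σ (∑ i ∈ s, f i) = ∑ i ∈ s, S.σ (f i) := by
  classical
  induction s using Finset.induction_on with
  | empty => simp [σ_zero]
  | insert a s ha ih => rw [Finset.sum_insert ha, Finset.sum_insert ha, S.add, ih]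

lemma σ_neg (S : Conj L) (x : L) : S.σ (-x) = - S.σ x := by
  have h := S.smul (-1) x
  simpa using h

lemma σ_smul_real (S : Conj L) (r : ℝ) (x : L) : S.σ ((r : ℂ) • x) = (r : ℂ) • S.σ x := by
  rw [S.smul, Complex.conj_ofReal]

lemma B_smul_smul (B : LinearMap.BilinForm ℂ L) (a b : ℂ) (x y : L) :
    B (a • x) (b • y) = a * (b * B x y) := by
  simp [mul_left_comm]

lemma B_sum_sum (B : LinearMap.BilinForm ℂ L) {ι κ : Type*} [Fintype ι] [Fintype κ]
    (a : ι → ℂ) (b : κ → ℂ) (x : ι → L) (y : κ → L) :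
    B (∑ i, a i • x i) (∑ j, b j • y j) = ∑ i, ∑ j, a i * (b j * B (x i) (y j)) := by
  simp only [map_sum, LinearMap.sum_apply, B_smul_smul]
  rw [Finset.sum_comm]

lemma lie_sum_sum {ι κ : Type*} [Fintype ι] [Fintype κ]
    (a : ι → ℂ) (b : κ → ℂ) (x : ι → L) (y : κ → L) :
    ⁅∑ i, a i • x i, ∑ j, b j • y j⁆ = ∑ p : ι × κ, (a p.1 * b p.2) • ⁅x p.1, y p.2⁆ := by
  rw [Fintype.sum_prod_type]
  simp only [sum_lie, lie_sum, smul_lie, lie_smul]
  rw [Finset.sum_congr rfl (fun j _ => Finset.smul_sum), Finset.sum_comm]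
  refine Finset.sum_congr rfl (fun i _ => Finset.sum_congr rfl (fun j _ => ?_))
  rw [smul_smul, mul_comm]

end MaxAux

open MaxAux

variable {L : Type*} [LieRing L] [LieAlgebra ℂ L]

theorem exists_max_ratio [FiniteDimensional ℂ L] (S : Conj L) (B : LinearMap.BilinForm ℂ L)
    (s : ℝ) (V : Submodule ℂ L) (hV : V ≠ ⊥)
    (hpos : ∀ y ∈ V, y ≠ 0 → 0 < s * (B y (S.σ y)).re) :
    ∃ y ∈ V, y ≠ 0 ∧ ∀ w ∈ V, (B ⁅w, S.σ w⁆ ⁅w, S.σ w⁆).re * (s * (B y (S.σ y)).re) ^ 2 ≤
      (B ⁅y, S.σ y⁆ ⁅y, S.σ y⁆).re * (s * (B w (S.σ w)).re) ^ 2 := by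
  classical
  set q : L → ℝ := fun y => s * (B y (S.σ y)).re with hq
  set f : L → ℝ := fun y => (B ⁅y, S.σ y⁆ ⁅y, S.σ y⁆).re with hf
  have hqsmul : ∀ (r : ℝ) (y : L), q ((r : ℂ) • y) = r ^ 2 * q y := by
    intro r y
    simp only [hq]
    rw [σ_smul_real, B_smul_smul]
    simp
    ring
  have hfsmul : ∀ (r : ℝ) (y : L), f ((r : ℂ) • y) = r ^ 4 * f y := by
    intro r y
    simp only [hf]
    rw [σ_smul_real, smul_lie, lie_smul, smul_smul, B_smul_smul]
    have h : ((r : ℂ) * r * ((r : ℂ) * r * (B ⁅y, S.σ y⁆) ⁅y, S.σ y⁆)) =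
        ((r ^ 4 : ℝ) : ℂ) * (B ⁅y, S.σ y⁆) ⁅y, S.σ y⁆ := by
      push_cast; ring
    rw [h, Complex.re_ofReal_mul]
  set b := Module.finBasis ℂ V with hb
  set d := Module.finrank ℂ V with hd
  have hd0 : 0 < d := by
    have : Nontrivial V := Submodule.nontrivial_iff_ne_bot.2 hV
    exact Module.finrank_pos
  set Y : (Fin d → ℂ) → L := fun x => ∑ i, x i • (b i : L) with hY
  have hYV : ∀ x, Y x ∈ V := fun x => V.sum_mem (fun i _ => V.smul_mem _ (b i).2)
  have hYcoe : ∀ x : Fin d → ℂ, Y x = ((∑ i, x i • b i : V) : L) := by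
    intro x
    simp [hY]
  have hYsmul : ∀ (c : ℂ) (x : Fin d → ℂ), Y (c • x) = c • Y x := by
    intro c x
    simp [hY, Finset.smul_sum, smul_smul]
  have hYrep : ∀ w : V, Y (b.repr w) = w := by
    intro w
    rw [hYcoe, b.sum_repr w]
  have hYne : ∀ x, x ≠ 0 → Y x ≠ 0 := by
    intro x hx h
    apply hx
    rw [hYcoe] at h
    have h1 : (∑ i, x i • b i) = 0 := by
      apply Subtype.ext
      simpa using h
    have h2 := (Fintype.linearIndependent_iff.1 b.linearIndependent) x h1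
    ext i
    exact h2 i
  have hσY : ∀ x, S.σ (Y x) = ∑ i, conj (x i) • S.σ (b i) := by
    intro x
    rw [hY]
    simp only
    rw [σ_sum]
    simp [S.smul]
  have hqc : Continuous (fun x => q (Y x)) := by
    have h1 : (fun x => q (Y x)) = fun x : Fin d → ℂ =>
        s * (∑ i, ∑ j, x i * (conj (x j) * B (b i) (S.σ (b j)))).re := by
      ext x
      simp only [hq]
      rw [hσY, hY, B_sum_sum]
    rw [h1]
    refine continuous_const.mul (Complex.continuous_re.comp ?_)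
    refine continuous_finsetSum _ (fun i _ => continuous_finsetSum _ (fun j _ => ?_))
    exact (continuous_apply i).mul
      ((Complex.continuous_conj.comp (continuous_apply j)).mul continuous_const)
  have hfc : Continuous (fun x => f (Y x)) := by
    have h1 : (fun x => f (Y x)) = fun x : Fin d → ℂ =>
        (∑ p : Fin d × Fin d, ∑ p' : Fin d × Fin d, (x p.1 * conj (x p.2)) *
          ((x p'.1 * conj (x p'.2)) *
          B ⁅(b p.1 : L), S.σ (b p.2)⁆ ⁅(b p'.1 : L), S.σ (b p'.2)⁆)).re := by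
      ext x
      simp only [hf]
      rw [hσY, hY]
      simp only
      rw [lie_sum_sum, B_sum_sum]
    rw [h1]
    refine Complex.continuous_re.comp ?_
    refine continuous_finsetSum _ (fun p _ => continuous_finsetSum _ (fun p' _ => ?_))
    exact ((continuous_apply p.1).mul (Complex.continuous_conj.comp (continuous_apply p.2))).mul
      (((continuous_apply p'.1).mul
        (Complex.continuous_conj.comp (continuous_apply p'.2))).mul continuous_const)
  have hqpos : ∀ x, x ≠ 0 → 0 < q (Y x) := fun x hx => hpos _ (hYV x) (hYne x hx)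
  have hcomp : IsCompact (Metric.sphere (0 : Fin d → ℂ) 1) := isCompact_sphere _ _
  have hne : (Metric.sphere (0 : Fin d → ℂ) 1).Nonempty := by
    refine ⟨fun _ => 1, ?_⟩
    have : Nonempty (Fin d) := ⟨⟨0, hd0⟩⟩
    rw [mem_sphere_zero_iff_norm]
    rw [pi_norm_const]
    simp
  have hs0 : ∀ x ∈ Metric.sphere (0 : Fin d → ℂ) 1, x ≠ 0 := by
    intro x hx h
    rw [h, mem_sphere_zero_iff_norm, norm_zero] at hx
    norm_num at hx
  obtain ⟨x₀, hx₀, hx₀max⟩ := hcomp.exists_isMaxOn hne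
    (f := fun x => f (Y x) / (q (Y x)) ^ 2)
    ((hfc.continuousOn).div ((hqc.pow 2).continuousOn)
      (fun x hx => (pow_pos (hqpos x (hs0 x hx)) 2).ne'))
  refine ⟨Y x₀, hYV _, hYne _ (hs0 _ hx₀), ?_⟩
  intro w hw
  change f w * (q (Y x₀)) ^ 2 ≤ f (Y x₀) * (q w) ^ 2
  set x : Fin d → ℂ := ⇑(b.repr ⟨w, hw⟩) with hx
  have hYx : Y x = w := hYrep ⟨w, hw⟩
  rw [← hYx]
  rcases eq_or_ne x 0 with h0 | h0
  · rw [h0]
    have hY0 : Y 0 = 0 := by simp [hY]
    have hf0 : f (Y 0) = 0 := by simp [hf, hY0]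
    have hq0 : q (Y 0) = 0 := by simp [hq, hY0]
    rw [hf0, hq0]
    simp
  · have hn : 0 < ‖x‖ := norm_pos_iff.2 h0
    set x' : Fin d → ℂ := ((‖x‖⁻¹ : ℝ) : ℂ) • x with hx'
    have hx's : x' ∈ Metric.sphere (0 : Fin d → ℂ) 1 := by
      rw [mem_sphere_zero_iff_norm, hx', norm_smul]
      simp [hn.ne']
    have hxx' : Y x = ((‖x‖ : ℝ) : ℂ) • Y x' := by
      rw [← hYsmul, hx', smul_smul]
      have : ((‖x‖ : ℝ) : ℂ) * ((‖x‖⁻¹ : ℝ) : ℂ) = 1 := by
        rw [← Complex.ofReal_mul, mul_inv_cancel₀ hn.ne', Complex.ofReal_one]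
      rw [this, one_smul]
    have h1 : f (Y x') / (q (Y x')) ^ 2 ≤ f (Y x₀) / (q (Y x₀)) ^ 2 := hx₀max hx's
    have h2 : 0 < q (Y x') ^ 2 := pow_pos (hqpos x' (hs0 x' hx's)) 2
    have h3 : 0 < q (Y x₀) ^ 2 := pow_pos (hqpos x₀ (hs0 x₀ hx₀)) 2
    rw [div_le_div_iff₀ h2 h3] at h1
    rw [hxx', hfsmul, hqsmul]
    have h4 : 0 ≤ ‖x‖ ^ 4 := by positivity
    calc ‖x‖ ^ 4 * f (Y x') * q (Y x₀) ^ 2 = ‖x‖ ^ 4 * (f (Y x') * q (Y x₀) ^ 2) := by ring
      _ ≤ ‖x‖ ^ 4 * (f (Y x₀) * q (Y x') ^ 2) := by gcongr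
      _ = f (Y x₀) * (‖x‖ ^ 2 * q (Y x')) ^ 2 := by ring


theorem exists_maximizer [FiniteDimensional ℂ L] (S : Conj L)
    (hB : ∀ x y, killingForm ℂ L (S.σ x) (S.σ y) = conj (killingForm ℂ L x y))
    (s : ℝ) (hs : s = 1 ∨ s = -1) (V : Submodule ℂ L) (hV : V ≠ ⊥)
    (hpos : ∀ y ∈ V, y ≠ 0 → 0 < s * (killingForm ℂ L y (S.σ y)).re)
    (hst : ∀ y ∈ V, ∀ w ∈ V, ⁅⁅y, S.σ y⁆, w⁆ ∈ V) :
    ∃ y ∈ V, y ≠ 0 ∧ ∃ l : ℝ, ⁅⁅y, S.σ y⁆, y⁆ = (l : ℂ) • y ∧
      l * (killingForm ℂ L y (S.σ y)).re = (killingForm ℂ L ⁅y, S.σ y⁆ ⁅y, S.σ y⁆).re := by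
  classical
  obtain ⟨y, hyV, hy0, hmax⟩ := exists_max_ratio S (killingForm ℂ L) s V hV hpos
  have hcomm : ∀ x z : L, killingForm ℂ L x z = killingForm ℂ L z x := fun x z =>
    LieModule.traceForm_comm ℂ L L x z
  have hinv : ∀ x z w : L, killingForm ℂ L ⁅x, z⁆ w = killingForm ℂ L x ⁅z, w⁆ := fun x z w =>
    LieModule.traceForm_apply_lie_apply ℂ L L x z w
  set B := killingForm ℂ L with hBdef
  have hs2 : s * s = 1 := by rcases hs with h | h <;> rw [h] <;> norm_num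
  have hs0 : s ≠ 0 := by rintro rfl; norm_num at hs2
  set h := ⁅y, S.σ y⁆ with hh
  have hσh : S.σ h = -h := by
    rw [hh, S.lie, S.inv, ← lie_skew]
  -- `B w (σ w)` is real
  have hreal : ∀ w, (B w (S.σ w)).im = 0 := by
    intro w
    have h1 := hB w (S.σ w)
    rw [S.inv, hcomm] at h1
    have h2 := congrArg Complex.im h1
    simp only [Complex.conj_im] at h2
    linarith
  set q0 : ℝ := (B y (S.σ y)).re with hq0
  have hq0' : B y (S.σ y) = (q0 : ℂ) := Complex.ext (by simp [hq0]) (by simp [hreal])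
  have hq0ne : q0 ≠ 0 := by
    intro h0
    have := hpos y hyV hy0
    rw [← hq0, h0] at this
    simp at this
  -- first variation
  have key : ∀ w ∈ V, B w (S.σ y) = 0 → (B ⁅h, y⁆ (S.σ w)).re = 0 := by
    intro w hw hwy
    have hyw : B y (S.σ w) = 0 := by
      have h1 := hB w (S.σ y)
      rw [S.inv, hwy, map_zero, hcomm] at h1
      exact h1
    -- expansion
    set c := ⁅w, S.σ y⁆ + ⁅y, S.σ w⁆ with hc
    set e := ⁅w, S.σ w⁆ with he
    have hexp : ∀ t : ℝ, ⁅y + (t : ℂ) • w, S.σ (y + (t : ℂ) • w)⁆ =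
        h + (t : ℂ) • c + ((t : ℂ) ^ 2) • e := by
      intro t
      rw [S.add, σ_smul_real]
      simp only [add_lie, lie_add, smul_lie, lie_smul, hc, he, hh, smul_add, smul_smul]
      rw [pow_two]
      abel
    have hlin : (B h c).re = 2 * (B ⁅h, y⁆ (S.σ w)).re := by
      have h1 : B h ⁅y, S.σ w⁆ = B ⁅h, y⁆ (S.σ w) := (hinv _ _ _).symm
      have h2 : B h ⁅w, S.σ y⁆ = conj (B ⁅h, y⁆ (S.σ w)) := by
        have e1 : B (S.σ ⁅h, y⁆) (S.σ (S.σ w)) = - B ⁅h, S.σ y⁆ w := by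
          rw [S.lie, S.inv, hσh, neg_lie, map_neg, LinearMap.neg_apply]
        have e2 : B h ⁅w, S.σ y⁆ = - B ⁅h, S.σ y⁆ w := by
          rw [hcomm, hinv, ← lie_skew, map_neg, hcomm]
        rw [← hB, e1, e2]
      rw [hc, map_add, h1, h2, Complex.add_re, Complex.conj_re]
      ring
    have hquart : ∀ t : ℝ, 0 ≤ (-(2 * (B h c).re) * (s * q0) ^ 2) * t +
        ((2 * (B h h).re * q0 * (B w (S.σ w)).re - (2 * (B h e).re + (B c c).re) * q0 ^ 2)) *
          t ^ 2 + (-(2 * (B c e).re) * q0 ^ 2) * t ^ 3 +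
        ((B h h).re * (B w (S.σ w)).re ^ 2 - (B e e).re * q0 ^ 2) * t ^ 4 := by
      intro t
      have hm := hmax (y + (t : ℂ) • w) (V.add_mem hyV (V.smul_mem _ hw))
      rw [hexp t] at hm
      have hqt : (B (y + (t : ℂ) • w) (S.σ (y + (t : ℂ) • w))).re =
          q0 + t ^ 2 * (B w (S.σ w)).re := by
        rw [S.add, σ_smul_real]
        simp only [map_add, LinearMap.add_apply, map_smul, LinearMap.smul_apply, smul_eq_mul,
          hwy, hyw, mul_zero, add_zero, zero_add]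
        rw [Complex.add_re, ← hq0]
        congr 1
        rw [← mul_assoc, ← Complex.ofReal_mul, Complex.re_ofReal_mul, pow_two]
      rw [hqt] at hm
      have hft : (B (h + (t : ℂ) • c + ((t : ℂ) ^ 2) • e)
          (h + (t : ℂ) • c + ((t : ℂ) ^ 2) • e)).re =
          (B h h).re + 2 * t * (B h c).re + t ^ 2 * (2 * (B h e).re + (B c c).re) +
            2 * t ^ 3 * (B c e).re + t ^ 4 * (B e e).re := by
        simp only [map_add, LinearMap.add_apply, map_smul, LinearMap.smul_apply, smul_eq_mul]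
        rw [hcomm c h, hcomm e h, hcomm e c]
        simp only [← Complex.ofReal_pow, Complex.add_re, Complex.re_ofReal_mul]
        ring
      rw [hft] at hm
      have hsq : ∀ z : ℝ, (s * z) ^ 2 = z ^ 2 := by
        intro z
        rw [mul_pow, pow_two, hs2, one_mul]
      rw [hsq, hsq] at hm
      rw [hsq]
      nlinarith [hm]
    have h0 := linear_coeff_zero hquart
    have h1 : (s * q0) ^ 2 ≠ 0 := pow_ne_zero _ (mul_ne_zero hs0 hq0ne)
    have h2 : (B h c).re = 0 := by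
      rcases mul_eq_zero.1 h0 with h3 | h3
      · linarith
      · exact absurd h3 h1
    rw [hlin] at h2
    linarith
  have key' : ∀ w ∈ V, B w (S.σ y) = 0 → B ⁅h, y⁆ (S.σ w) = 0 := by
    intro w hw hwy
    have h1 := key w hw hwy
    have h2 := key (Complex.I • w) (V.smul_mem _ hw) (by
      rw [map_smul, LinearMap.smul_apply, hwy, smul_zero])
    rw [S.smul, map_smul, smul_eq_mul, Complex.conj_I] at h2
    apply Complex.ext
    · exact h1
    · simpa using h2
  -- decomposition of `[h, y]`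
  have hhyV : ⁅h, y⁆ ∈ V := hst y hyV y hyV
  set a : ℂ := B ⁅h, y⁆ (S.σ y) / B y (S.σ y) with ha
  have hne : B y (S.σ y) ≠ 0 := by
    rw [hq0']
    exact_mod_cast hq0ne
  set w := ⁅h, y⁆ - a • y with hw
  have hwV : w ∈ V := V.sub_mem hhyV (V.smul_mem _ hyV)
  have hwy : B w (S.σ y) = 0 := by
    rw [hw, map_sub, LinearMap.sub_apply, map_smul, LinearMap.smul_apply, smul_eq_mul, ha,
      div_mul_cancel₀ _ hne, sub_self]
  have hyw : B y (S.σ w) = 0 := by
    have h1 := hB w (S.σ y)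
    rw [S.inv, hwy, map_zero, hcomm] at h1
    exact h1
  have hww : B w (S.σ w) = 0 := by
    have h1 := key' w hwV hwy
    have h2 : ⁅h, y⁆ = w + a • y := by rw [hw]; abel
    rw [h2, map_add, LinearMap.add_apply, map_smul, LinearMap.smul_apply, hyw, smul_zero,
      add_zero] at h1
    exact h1
  have hw0 : w = 0 := by
    by_contra hne0
    have := hpos w hwV hne0
    rw [hww] at this
    simp at this
  have hhy : ⁅h, y⁆ = a • y := by
    rw [hw, sub_eq_zero] at hw0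
    exact hw0
  -- `a` is real
  have hhh : B ⁅h, y⁆ (S.σ y) = B h h := hinv _ _ _
  have hhhim : (B h h).im = 0 := by
    have h1 := hB h h
    have e1 : B (-h) (-h) = B h h := by simp
    rw [hσh, e1] at h1
    have h2 := congrArg Complex.im h1
    simp only [Complex.conj_im] at h2
    linarith
  have ha' : a = (((B h h).re / q0 : ℝ) : ℂ) := by
    rw [ha, hhh, hq0', Complex.ofReal_div]
    congr 1
    exact Complex.ext (by simp) (by simp [hhhim])
  refine ⟨y, hyV, hy0, (B h h).re / q0, ?_, ?_⟩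
  · rw [← ha']
    exact hhy
  · rw [← hq0, div_mul_cancel₀ _ hq0ne]

end Crest.Agent.R264.DA
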