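import Mathlib
import Crest.Agent.R264.DIface
import Crest.Agent.R264.DAMax
import Crest.Agent.R264.DAGr

/-!
Row 264, Part D: node D8alg, final statement.
-/

set_option autoImplicit false

namespace Crest.Agent.R264

namespace DA

theorem maxProp {L : Type*} [LieRing L] [LieAlgebra ℂ L] [FiniteDimensional ℂ L] (S : Conj L) :
    MaxProp S := fun s hs V hV hpos hst =>
  exists_maximizer S (killing_conj S) s hs V hV hpos hst

/-- **The algebra unit.** -/
theorem main {L : Type*} [LieRing L] [LieAlgebra ℂ L] [FiniteDimensional ℂ L]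
    [LieAlgebra.IsKilling ℂ L] (S : Conj L) (h : LieSubalgebra ℂ L) (δ : L →ₗ[ℂ] ℂ)
    (H : Hyp S h δ) : Concl S h :=
  main_of H (maxProp S) (gr_main (maxProp S))

end DA

theorem dAlg : DAlgStmt := by
  intro g _ _ _ _ h δ H
  exact DA.main (CX.cc g) h δ H

end Crest.Agent.R264
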