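import Crest.Agent.R264.GD2
import Crest.Agent.R264.DIface

/-!
Row 264, part D3 (helper938): adjoint action, flows, and the final `Pack` (node D3).
-/

set_option autoImplicit false
set_option linter.unusedSectionVars false

open Set Filter Topology Metric

namespace Crest.Agent.R264

variable {E : Type*} [NormedAddCommGroup E] [NormedSpace ℂ E]

section

variable [FiniteDimensional ℂ E] {D : Set E}

/-- the one-parameter group of a holomorphic field is unique -/
theorem flow_unique (hD : IsOpen D) {X : E → E} (hX : DifferentiableOn ℂ X D)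
    {φ ψ : ℝ → E → E} (hφ : IsFlow D X φ) (hψ : IsFlow D X ψ) :
    ∀ t, ∀ x ∈ D, φ t x = ψ t x := by
  intro t x hx
  have hcφ : Continuous (fun s => φ s x) := hφ.continuous hx
  have hcψ : Continuous (fun s => ψ s x) := hψ.continuous hx
  have hclosed : IsClosed {s : ℝ | φ s x = ψ s x} := isClosed_eq hcφ hcψ
  have hopen : IsOpen {s : ℝ | φ s x = ψ s x} := by
    rw [isOpen_iff_mem_nhds]
    intro t₀ ht₀
    have ht₀' : φ t₀ x = ψ t₀ x := ht₀
    obtain ⟨r, M, K, hr, hM0, hsub, hM, hK⟩ := exists_good hD hX (hφ.maps t₀ hx)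
    have hb : closedBall (φ t₀ x) (2 * r) ∈ 𝓝 (φ t₀ x) := closedBall_mem_nhds _ (by positivity)
    have h1 := ODE_solution_unique_of_eventually (v := fun _ => X)
      (s := fun _ => closedBall (φ t₀ x) (2 * r)) (K := K) (f := fun s => φ s x)
      (g := fun s => ψ s x) (t₀ := t₀)
      (Filter.Eventually.of_forall (fun _ => hK))
      ((hcφ.continuousAt.eventually_mem hb).mono (fun s hs => ⟨hφ.hasDerivAt hx s, hs⟩))
      ((hcψ.continuousAt.eventually_mem (by rwa [ht₀'] at hb ⊢)).mono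
        (fun s hs => ⟨hψ.hasDerivAt hx s, hs⟩)) ht₀'
    exact h1
  have huniv := IsClopen.eq_univ ⟨hclosed, hopen⟩ ⟨0, by
    simp [hφ.zero x hx, hψ.zero x hx]⟩
  have : t ∈ {s : ℝ | φ s x = ψ s x} := huniv ▸ mem_univ t
  exact this

lemma inverse_fderiv (hD : IsOpen D) {f h : E → E} (hfh : AutPair D f h) {y : E} (hy : y ∈ D) :
    (fderiv ℂ h y).inverse = fderiv ℂ f (h y) := by
  refine ContinuousLinearMap.inverse_eq ?_ ?_
  · have h1 := hfh.fderiv_comp hD (hfh.mapsG hy)
    rw [hfh.right y hy] at h1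
    exact h1
  · exact hfh.symm.fderiv_comp hD hy

lemma push_brk (hD : IsOpen D) {f h : E → E} (hfh : AutPair D f h) {X Y : E → E}
    (hX : DifferentiableOn ℂ X D) (hY : DifferentiableOn ℂ Y D) :
    push D f h (brk D X Y) = brk D (push D f h X) (push D f h Y) := by
  have hc : CompleteSpace E := FiniteDimensional.complete ℂ E
  ext y
  by_cases hy : y ∈ D
  swap
  · rw [push_of_notMem hy, brk_of_notMem hy]
  have e : ∀ V : E → E, push D f h V =ᶠ[𝓝 y] VectorField.pullback ℂ h V := by
    intro V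
    filter_upwards [hD.mem_nhds hy] with z hz
    rw [push_of_mem hz, VectorField.pullback, inverse_fderiv hD hfh hz]
  have h1 : brk D (push D f h X) (push D f h Y) y =
      VectorField.lieBracket ℂ (VectorField.pullback ℂ h X) (VectorField.pullback ℂ h Y) y := by
    rw [brk_of_mem hy, (e X).fderiv_eq, (e Y).fderiv_eq, (e X).eq_of_nhds, (e Y).eq_of_nhds]
    rfl
  have hhd : ContDiffAt ℂ 2 h y :=
    (R266.SCV.analyticOnNhd_of_differentiableOn hD hfh.hG y hy).contDiffAt
  rw [h1, ← VectorField.pullback_lieBracket (n := 2) (by simp) hhd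
    (hX.differentiableAt (hD.mem_nhds (hfh.mapsG hy)))
    (hY.differentiableAt (hD.mem_nhds (hfh.mapsG hy)))]
  rw [push_of_mem hy, brk_of_mem (hfh.mapsG hy), VectorField.pullback, inverse_fderiv hD hfh hy]
  rfl

lemma push_push (hD : IsOpen D) {f h : E → E} (hfh : AutPair D f h) {X : E → E}
    (hX : ∀ x ∉ D, X x = 0) : push D h f (push D f h X) = X := by
  ext x
  by_cases hx : x ∈ D
  · rw [push_of_mem hx, push_of_mem (hfh.mapsF hx), hfh.left x hx]
    exact hfh.fderiv_apply hD hx _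
  · rw [push_of_notMem hx, hX x hx]

/-- the adjoint action of an automorphism -/
noncomputable def AdG (d : Dm D) {f h : E → E} (hfh : AutPair D f h) : gD d ≃ₗ⁅ℝ⁆ gD d where
  toFun X := ⟨push D f h X, push_mem d hfh X.2⟩
  invFun X := ⟨push D h f X, push_mem d hfh.symm X.2⟩
  left_inv X := Subtype.ext (push_push d.op hfh X.2.2)
  right_inv X := Subtype.ext (push_push d.op hfh.symm X.2.2)
  map_add' X Y := by
    ext x
    by_cases hx : x ∈ D
    · simp [push_of_mem hx]
    · simp [push_of_notMem hx]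
  map_smul' c X := by
    ext x
    by_cases hx : x ∈ D
    · simp only [Submodule.coe_smul, push_of_mem hx, Pi.smul_apply, RingHom.id_apply]
      exact (fderiv ℂ f (h x)).map_smul_of_tower c _
    · simp [push_of_notMem hx]
  map_lie' {X Y} := by
    ext1
    exact push_brk d.op hfh X.2.1.1 Y.2.1.1

lemma coe_AdG (d : Dm D) {f h : E → E} (hfh : AutPair D f h) (X : gD d) :
    ((AdG d hfh X : gD d) : E → E) = push D f h X := rfl

/-- pointwise derivative of `Ad(φ_s) Y` at every time -/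
lemma hasDerivAt_push' (hD : IsOpen D) {X Y : E → E} {φ : ℝ → E → E} (hφ : IsFlow D X φ)
    (hX : DifferentiableOn ℂ X D) (hY : DifferentiableOn ℂ Y D) (y : E) (t : ℝ) :
    HasDerivAt (fun s : ℝ => push D (φ s) (φ (-s)) Y y) (-(push D (φ t) (φ (-t)) (brk D X Y) y))
      t := by
  by_cases hy : y ∈ D
  swap
  · simp only [push_of_notMem hy, neg_zero]
    exact hasDerivAt_const t _
  have hz : φ (-t) y ∈ D := hφ.maps (-t) hy
  have h1 := hasDerivAt_push hD hφ hX hY (φ (-t) y)
  have h2 : HasDerivAt (fun s : ℝ => push D (φ (s - t)) (φ (-(s - t))) Y (φ (-t) y))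
      (-(brk D X Y (φ (-t) y))) t := by
    have h6 : HasDerivAt (fun s : ℝ => push D (φ s) (φ (-s)) Y (φ (-t) y))
      (-(brk D X Y (φ (-t) y))) (t - t) := by rwa [sub_self]
    have h7 : HasDerivAt (fun s : ℝ => s - t) 1 t := (hasDerivAt_id t).sub_const t
    simpa [Function.comp_def] using HasDerivAt.scomp (h := fun s : ℝ => s - t) t h6 h7
  have h3 := ((fderiv ℂ (φ t) (φ (-t) y)).restrictScalars ℝ).hasFDerivAt.comp_hasDerivAt t h2
  have h4 : ((fderiv ℂ (φ t) (φ (-t) y)).restrictScalars ℝ) (-(brk D X Y (φ (-t) y)))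
      = -(push D (φ t) (φ (-t)) (brk D X Y) y) := by
    rw [push_of_mem hy, map_neg]
    rfl
  rw [h4] at h3
  refine h3.congr_of_eventuallyEq (Filter.Eventually.of_forall (fun s => ?_))
  change push D (φ s) (φ (-s)) Y y =
    fderiv ℂ (φ t) (φ (-t) y) (push D (φ (s - t)) (φ (-(s - t))) Y (φ (-t) y))
  rw [push_of_mem hy, push_of_mem hz]
  have e1 : φ (-(s - t)) (φ (-t) y) = φ (-s) y := by
    rw [← hφ.add _ _ y hy]; congr 1; ring
  rw [e1]
  have hw : φ (-s) y ∈ D := hφ.maps (-s) hy
  have e2 : φ s =ᶠ[𝓝 (φ (-s) y)] φ t ∘ φ (s - t) := by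
    filter_upwards [hD.mem_nhds hw] with z hz
    rw [Function.comp_apply, ← hφ.add _ _ z hz]
    congr 1
    ring
  have e3 : φ (s - t) (φ (-s) y) = φ (-t) y := by
    rw [← hφ.add _ _ y hy]; congr 1; ring
  rw [e2.fderiv_eq, fderiv_comp (φ (-s) y)]
  · rw [e3]; rfl
  · rw [e3]; exact (hφ.hol t).differentiableAt (hD.mem_nhds hz)
  · exact (hφ.hol (s - t)).differentiableAt (hD.mem_nhds hw)

/-- derivative of `Ad(φ_s) Y` tested on functionals -/
lemma AdG_deriv (d : Dm D) {A Y : gD d} {φ : ℝ → E → E} (hφ : IsFlow D (A : E → E) φ)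
    (l : gD d →ₗ[ℝ] ℝ) (p : ∀ t : ℝ, AutPair D (φ t) (φ (-t))) (t : ℝ) :
    HasDerivAt (fun s => l (AdG d (p s) Y)) (-(l (AdG d (p t) ⁅A, Y⁆))) t := by
  have hl : Continuous l := l.continuous_of_finiteDimensional
  rw [hasDerivAt_iff_tendsto_slope]
  have h1 : Tendsto (fun s => (s - t)⁻¹ • (AdG d (p s) Y - AdG d (p t) Y)) (𝓝[≠] t)
      (𝓝 (-(AdG d (p t) ⁅A, Y⁆))) := by
    rw [tendsto_subtype_rng, tendsto_pi_nhds]
    intro y
    have h2 := hasDerivAt_push' d.op hφ A.2.1.1 Y.2.1.1 y t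
    rw [hasDerivAt_iff_tendsto_slope] at h2
    exact h2.congr (fun s => rfl)
  have h3 := (hl.tendsto _).comp h1
  rw [map_neg] at h3
  refine h3.congr (fun s => ?_)
  simp only [Function.comp_apply, map_smul, map_sub, slope_def_module]

/-- bounded isotropy -/
lemma AdG_bdd (d : Dm D) {A : gD d} {φ : ℝ → E → E} (hφ : IsFlow D (A : E → E) φ) {x : E}
    (hx : x ∈ D) (hA : (A : E → E) x = 0) (p : ∀ t : ℝ, AutPair D (φ t) (φ (-t))) (Y : gD d)
    (l : gD d →ₗ[ℝ] ℝ) : ∃ C : ℝ, ∀ t, |l (AdG d (p t) Y)| ≤ C := by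
  have hc : CompleteSpace E := FiniteDimensional.complete ℂ E
  have hproper : ProperSpace E := FiniteDimensional.proper ℂ E
  have hfd1 : FiniteDimensional ℝ E := FiniteDimensional.complexToReal E
  have hfd2 : FiniteDimensional ℝ (E →L[ℂ] E) := FiniteDimensional.complexToReal _
  -- `x` is fixed by the flow
  have hfix : ∀ t, φ t x = x := by
    intro t
    have hder : ∀ t, HasDerivAt (fun s => φ s x) 0 t := by
      intro t
      have h2 : HasDerivAt (fun s : ℝ => φ t (φ s x)) (fderiv ℂ (φ t) x ((A : E → E) x)) 0 := by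
        have h3 : DifferentiableAt ℂ (φ t) (φ 0 x) := by
          rw [hφ.zero x hx]
          exact (hφ.hol t).differentiableAt (d.op.mem_nhds hx)
        have h4 := (h3.hasFDerivAt.restrictScalars ℝ).comp_hasDerivAt (0 : ℝ) (hφ.gen x hx)
        rw [hφ.zero x hx] at h4
        exact h4
      rw [hA, map_zero] at h2
      have h5 : HasDerivAt (fun s : ℝ => φ t (φ (s - t) x)) 0 t := by
        have h6 : HasDerivAt (fun s : ℝ => φ t (φ s x)) 0 (t - t) := by rwa [sub_self]
        have h7 : HasDerivAt (fun s : ℝ => s - t) 1 t := (hasDerivAt_id t).sub_const t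
        simpa [Function.comp_def] using HasDerivAt.scomp (h := fun s : ℝ => s - t) t h6 h7
      refine h5.congr_of_eventuallyEq (Filter.Eventually.of_forall (fun s => ?_))
      simp only
      rw [← hφ.add _ _ x hx]
      congr 1
      ring
    have h2 := is_const_of_deriv_eq_zero (f := fun s => φ s x)
      (fun t => (hder t).differentiableAt) (fun t => (hder t).deriv) t 0
    simpa [hφ.zero x hx] using h2
  obtain ⟨M, hM⟩ := d.bdd.exists_norm_le
  have hM0 : 0 ≤ M := (norm_nonneg _).trans (hM x hx)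
  obtain ⟨s, hs, hsD⟩ := Metric.isOpen_iff.1 d.op x hx
  set r := s / 3 with hr
  have hr0 : 0 < r := by positivity
  have hb2 : ball x (2 * r) ⊆ D := (ball_subset_ball (by linarith)).trans hsD
  have hcb : closedBall x r ⊆ D := (closedBall_subset_ball (by linarith)).trans hb2
  -- bound of `Y` on `closedBall x r`
  obtain ⟨CY, hCY⟩ := (isCompact_closedBall x r).exists_bound_of_continuousOn
    ((Y.2.1.1.continuousOn).mono hcb)
  have hCY0 : 0 ≤ CY := (norm_nonneg _).trans (hCY x (mem_closedBall_self hr0.le))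
  -- small radius
  set ρ := min r (r * r / (M + 1)) with hρ
  have hρ0 : 0 < ρ := lt_min hr0 (by positivity)
  have hlip : ∀ t, ∀ z ∈ ball x ρ, φ t z ∈ ball x r := by
    intro t z hz
    have hz' : z ∈ ball x r := ball_subset_ball (min_le_left _ _) hz
    have h1 := norm_sub_le_of_bounded (hφ.hol t) (fun z hz => hM _ (hφ.maps t hz)) hr0 hb2
      (mem_ball_self hr0) hz'
    rw [hfix t] at h1
    rw [mem_ball, dist_eq_norm]
    rw [mem_ball, dist_eq_norm] at hz
    refine h1.trans_lt ?_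
    have h2 : ‖z - x‖ < r * r / (M + 1) := hz.trans_le (min_le_right _ _)
    rw [lt_div_iff₀ (by positivity)] at h2
    rw [div_mul_eq_mul_div, div_lt_iff₀ hr0]
    have h3 : M * ‖z - x‖ ≤ ‖z - x‖ * (M + 1) := by nlinarith [norm_nonneg (z - x)]
    linarith
  have hD' : ∀ t, ∀ w ∈ ball x r, ‖fderiv ℂ (φ t) w‖ ≤ M / r := by
    intro t w hw
    have hsub : ball w r ⊆ D := by
      refine (ball_subset_ball' ?_).trans hb2
      rw [mem_ball] at hw
      linarith
    exact R266.SCV.norm_fderiv_le_of_ball hr0 ((hφ.hol t).mono hsub)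
      (fun y hy => hM _ (hφ.maps t (hsub hy)))
  have hball : ball x ρ ⊆ D := (ball_subset_ball (by
    have := min_le_left r (r * r / (M + 1)); linarith)).trans hb2
  have hval : ∀ t, ∀ z ∈ ball x ρ, ‖push D (φ t) (φ (-t)) Y z‖ ≤ M / r * CY := by
    intro t z hz
    rw [push_of_mem (hball hz)]
    have hw := hlip (-t) z hz
    calc ‖fderiv ℂ (φ t) (φ (-t) z) ((Y : E → E) (φ (-t) z))‖
        ≤ ‖fderiv ℂ (φ t) (φ (-t) z)‖ * ‖(Y : E → E) (φ (-t) z)‖ :=
          ContinuousLinearMap.le_opNorm _ _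
      _ ≤ M / r * CY := mul_le_mul (hD' t _ hw) (hCY _ (ball_subset_closedBall hw))
          (norm_nonneg _) (by positivity)
  have hjet : ∀ t, ‖jetMap d x hx (AdG d (p t) Y)‖ ≤ max (M / r * CY) (M / r * CY / ρ) := by
    intro t
    rw [Prod.norm_def]
    refine max_le_max ?_ ?_
    · exact hval t x (mem_ball_self hρ0)
    · exact R266.SCV.norm_fderiv_le_of_ball hρ0
        ((push_differentiableOn d.op (p t) Y.2.1.1).mono hball) (hval t)
  obtain ⟨J, hJ⟩ := (jetMap d x hx).exists_leftInverse_of_injective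
    (LinearMap.ker_eq_bot.2 (jetMap_injective d x hx))
  set l' : (E × (E →L[ℂ] E)) →L[ℝ] ℝ := LinearMap.toContinuousLinearMap (l ∘ₗ J) with hl'
  refine ⟨‖l'‖ * max (M / r * CY) (M / r * CY / ρ), fun t => ?_⟩
  have h1 : l (AdG d (p t) Y) = l' (jetMap d x hx (AdG d (p t) Y)) := by
    have h2 : J (jetMap d x hx (AdG d (p t) Y)) = AdG d (p t) Y := by
      have := LinearMap.congr_fun hJ (AdG d (p t) Y)
      simpa using this
    simp only [hl', LinearMap.coe_toContinuousLinearMap', LinearMap.comp_apply, h2]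
  rw [h1, ← Real.norm_eq_abs]
  exact (l'.le_opNorm _).trans (mul_le_mul_of_nonneg_left (hjet t) (norm_nonneg _))

/-- the package of the complete holomorphic fields of a bounded domain -/
noncomputable def gPack (d : Dm D) : Pack D (gD d) where
  ev := (gD d).subtype
  off X x hx := X.2.2 x hx
  hol X := X.2.1.1
  lie X Y x hx := brk_of_mem hx
  jet X x hx h0 h1 := by
    ext y
    by_cases hy : y ∈ D
    · exact jet_zero d X.2.1 hx h0 h1 y hy
    · exact X.2.2 y hy
  flow X := Classical.choose X.2.1.2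
  isFlow X := Classical.choose_spec X.2.1.2
  flow_deriv X x hx t := (Classical.choose_spec X.2.1.2).hasDerivAt hx t
  flow_fderiv X x hx := (Classical.choose_spec X.2.1.2).hasDerivAt_fderiv d.op X.2.1.1 hx
  surj Y hY := by
    classical
    refine ⟨⟨fun x => if x ∈ D then Y x else 0, ?_, ?_⟩, ?_⟩
    · exact hY.congr' (fun x hx => by simp [hx])
    · intro x hx; simp [hx]
    · intro x hx
      simp [hx]
  uniq X φ hφ t x hx := flow_unique d.op X.2.1.1 hφ (Classical.choose_spec X.2.1.2) t x hx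
  Ad hf := AdG d hf
  ev_Ad {f h} hf X x hx := by
    change push D f h (X : E → E) (f x) = _
    rw [push_of_mem (hf.mapsF hx), hf.left x hx]
    rfl
  Ad_deriv A Y l p t := AdG_deriv d (Classical.choose_spec A.2.1.2) l p t
  Ad_bdd A x hx h0 p Y l := AdG_bdd d (Classical.choose_spec A.2.1.2) hx h0 p Y l

end

/-- **NODE D3.** -/
theorem d3Stmt : D3Stmt := by
  intro n D h1 h2 h3
  have d : Dm D := ⟨h1, h2, h3⟩
  exact ⟨gD d, inferInstance, inferInstance, inferInstance, ⟨gPack d⟩⟩

end Crest.Agent.R264
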