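/-
Row 264, Part D: Theorem D modulo Lemma K and the algebraic node.
-/
import Crest.Agent.R264.D8Fin
import Crest.Agent.R264.GD3
import Crest.Agent.R264.AbI6
import Crest.Agent.R264.Berg4

namespace Crest.Agent.R264

theorem d7_of_K (hK : ∀ n, K.LemmaK n) : D7Stmt := AbI.d7_of Berg.berg hK

theorem thmD_of_K_alg (hK : ∀ n, K.LemmaK n) (ha : DAlgStmt) : ThmD :=
  thmD_of' d3Stmt (d7_of_K hK) ha

end Crest.Agent.R264
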