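import Mathlib

/-!
Row 264, node D8(f)-analysis (helper551), part A: ODE tools.
* `exists_curve`: local holomorphic solution of `c' = y(c)`;
* `ode_unique`: uniqueness of real integral curves of a `C¹` field inside an open set;
* `lin_zero`: a solution of a linear ODE on a disc vanishing at the centre vanishes.
-/

set_option autoImplicit false

open Set Filter Topology Metric
open scoped NNReal

noncomputable section

namespace Crest.Agent.R264.Ent

variable {E : Type*} [NormedAddCommGroup E] [NormedSpace ℂ E]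

/-- a primitive on a disc, normalised at the centre -/
theorem exists_prim [CompleteSpace E] {f : ℂ → E} {ρ : ℝ} (hρ : 0 < ρ)
    (hf : DifferentiableOn ℂ f (ball 0 ρ)) (x : E) :
    ∃ g : ℂ → E, g 0 = x ∧ ∀ z ∈ ball (0 : ℂ) ρ, HasDerivAt g (f z) z := by
  obtain ⟨g, hg⟩ := hf.isExactOn_ball
  refine ⟨fun z => g z - g 0 + x, by simp, fun z hz => ?_⟩
  exact ((hg z hz).sub_const _).add_const _

/-- mean value inequality on a disc -/
theorem norm_sub_le {g g' : ℂ → E} {ρ C : ℝ}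
    (hg : ∀ z ∈ ball (0 : ℂ) ρ, HasDerivAt g (g' z) z) (hC : ∀ z ∈ ball (0 : ℂ) ρ, ‖g' z‖ ≤ C)
    {z : ℂ} (hz : z ∈ ball (0 : ℂ) ρ) : ‖g z - g 0‖ ≤ C * ‖z‖ := by
  have hρ : 0 < ρ := by
    rw [mem_ball, dist_zero_right] at hz
    exact lt_of_le_of_lt (norm_nonneg _) hz
  have := (convex_ball (0 : ℂ) ρ).norm_image_sub_le_of_norm_hasDerivWithin_le
    (fun w hw => (hg w hw).hasDerivWithinAt) hC (mem_ball_self hρ) hz
  simpa using this

theorem exists_curve_aux [CompleteSpace E] {y : E → E} {x : E} {r0 M ρ : ℝ} {K : ℝ≥0}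
    (hr0 : 0 < r0) (hρ : 0 < ρ) (hy : DifferentiableOn ℂ y (ball x (2 * r0)))
    (hK : LipschitzOnWith K y (closedBall x r0)) (hM : ∀ z ∈ closedBall x r0, ‖y z‖ ≤ M)
    (hρM : M * ρ ≤ r0) (hρK : K * ρ ≤ 1 / 2) :
    ∃ c : ℂ → E, c 0 = x ∧ ∀ ζ ∈ ball (0 : ℂ) ρ, c ζ ∈ closedBall x r0 ∧
      HasDerivAt c (y (c ζ)) ζ := by
  classical
  have hsub : closedBall x r0 ⊆ ball x (2 * r0) := closedBall_subset_ball (by linarith)
  let S := {c : ℂ → E // DifferentiableOn ℂ c (ball 0 ρ) ∧ MapsTo c (ball 0 ρ) (closedBall x r0)}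
  have hM0 : 0 ≤ M := le_trans (norm_nonneg _) (hM x (mem_closedBall_self hr0.le))
  have step : ∀ c : S, ∃ c' : S, c'.1 0 = x ∧ ∀ z ∈ ball (0 : ℂ) ρ, HasDerivAt c'.1 (y (c.1 z)) z := by
    intro c
    have hd : DifferentiableOn ℂ (fun z => y (c.1 z)) (ball 0 ρ) :=
      hy.comp c.2.1 (fun z hz => hsub (c.2.2 hz))
    obtain ⟨g, hg0, hg⟩ := exists_prim hρ hd x
    refine ⟨⟨g, fun z hz => (hg z hz).differentiableAt.differentiableWithinAt, ?_⟩, hg0, hg⟩
    intro z hz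
    have := norm_sub_le hg (fun w hw => hM _ (c.2.2 hw)) hz
    rw [hg0] at this
    rw [mem_closedBall, dist_eq_norm]
    refine this.trans (le_trans ?_ hρM)
    have hz' : ‖z‖ ≤ ρ := by simpa using (mem_ball.1 hz).le
    exact mul_le_mul_of_nonneg_left hz' hM0
  choose nxt hn0 hn using step
  let c0 : S := ⟨fun _ => x, differentiableOn_const _, fun z _ => mem_closedBall_self hr0.le⟩
  let cs : ℕ → S := fun n => nxt^[n] c0
  have hcs : ∀ n, cs (n + 1) = nxt (cs n) := fun n => Function.iterate_succ_apply' nxt n c0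
  have hz0 : ∀ n, (cs (n + 1)).1 0 = x := fun n => by rw [hcs]; exact hn0 _
  have hder : ∀ n, ∀ z ∈ ball (0 : ℂ) ρ, HasDerivAt (cs (n + 1)).1 (y ((cs n).1 z)) z := by
    intro n; rw [hcs]; exact hn _
  have hdiff : ∀ n, ∀ z ∈ ball (0 : ℂ) ρ,
      ‖(cs (n + 1)).1 z - (cs n).1 z‖ ≤ r0 * (1 / 2) ^ n := by
    intro n
    induction n with
    | zero =>
      intro z hz
      have h1 := (cs 1).2.2 hz
      rw [mem_closedBall, dist_eq_norm] at h1
      simpa [cs, c0] using h1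
    | succ n ih =>
      intro z hz
      have h1 : ∀ w ∈ ball (0 : ℂ) ρ, HasDerivAt (fun z => (cs (n + 2)).1 z - (cs (n + 1)).1 z)
          (y ((cs (n + 1)).1 w) - y ((cs n).1 w)) w := fun w hw =>
        (hder (n + 1) w hw).sub (hder n w hw)
      have h2 : ∀ w ∈ ball (0 : ℂ) ρ, ‖y ((cs (n + 1)).1 w) - y ((cs n).1 w)‖
          ≤ K * (r0 * (1 / 2) ^ n) := by
        intro w hw
        have := hK.norm_sub_le ((cs (n + 1)).2.2 hw) ((cs n).2.2 hw)
        exact this.trans (mul_le_mul_of_nonneg_left (ih w hw) K.2)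
      have h3 := norm_sub_le h1 h2 hz
      have h4 : (cs (n + 2)).1 0 - (cs (n + 1)).1 0 = 0 := by rw [hz0, hz0, sub_self]
      simp only [h4, sub_zero] at h3
      have hz' : ‖z‖ ≤ ρ := by simpa using (mem_ball.1 hz).le
      refine h3.trans ?_
      have h5 : (K : ℝ) * (r0 * (1 / 2) ^ n) * ‖z‖ ≤ K * (r0 * (1 / 2) ^ n) * ρ :=
        mul_le_mul_of_nonneg_left hz' (by positivity)
      refine h5.trans ?_
      have h6 : (K : ℝ) * (r0 * (1 / 2) ^ n) * ρ = (K * ρ) * (r0 * (1 / 2) ^ n) := by ring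
      rw [h6]
      calc (K * ρ) * (r0 * (1 / 2) ^ n) ≤ (1 / 2) * (r0 * (1 / 2) ^ n) :=
            mul_le_mul_of_nonneg_right hρK (by positivity)
        _ = r0 * (1 / 2) ^ (n + 1) := by ring
  have hcau : ∀ z ∈ ball (0 : ℂ) ρ, ∃ l, Tendsto (fun n => (cs n).1 z) atTop (𝓝 l) := by
    intro z hz
    refine cauchySeq_tendsto_of_complete (cauchySeq_of_le_geometric (1 / 2) r0 (by norm_num) ?_)
    intro n
    rw [dist_comm, dist_eq_norm]
    exact hdiff n z hz
  have hex : ∀ z : ℂ, ∃ l, z ∈ ball (0 : ℂ) ρ → Tendsto (fun n => (cs n).1 z) atTop (𝓝 l) := by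
    intro z
    by_cases hz : z ∈ ball (0 : ℂ) ρ
    · obtain ⟨l, hl⟩ := hcau z hz; exact ⟨l, fun _ => hl⟩
    · exact ⟨x, fun h => (hz h).elim⟩
  choose c hc using hex
  have hunif : TendstoUniformlyOn (fun n => (cs n).1) c atTop (ball (0 : ℂ) ρ) := by
    rw [Metric.tendstoUniformlyOn_iff]
    intro ε hε
    have h1 : Tendsto (fun n : ℕ => r0 * (1 / 2) ^ n / (1 - 1 / 2) : ℕ → ℝ) atTop (𝓝 0) := by
      have := (tendsto_pow_atTop_nhds_zero_of_lt_one (r := (1 / 2 : ℝ)) (by norm_num)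
        (by norm_num)).const_mul (r0 / (1 - 1 / 2))
      rw [mul_zero] at this
      refine this.congr (fun n => by ring)
    filter_upwards [h1.eventually (gt_mem_nhds hε)] with n hn z hz
    have := dist_le_of_le_geometric_of_tendsto (1 / 2) r0 (by norm_num)
      (f := fun n => (cs n).1 z) (fun n => by
        rw [dist_comm, dist_eq_norm]; exact hdiff n z hz) (hc z hz) n
    rw [dist_comm]
    exact lt_of_le_of_lt this hn
  have hcm : MapsTo c (ball 0 ρ) (closedBall x r0) := fun z hz =>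
    isClosed_closedBall.mem_of_tendsto (hc z hz) (Eventually.of_forall fun n => (cs n).2.2 hz)
  have h0m : (0 : ℂ) ∈ ball (0 : ℂ) ρ := mem_ball_self hρ
  have hc0 : c 0 = x := by
    refine tendsto_nhds_unique ((hc 0 h0m).comp (tendsto_add_atTop_nat 1)) ?_
    exact tendsto_const_nhds.congr (fun n => (hz0 n).symm)
  have hcd : DifferentiableOn ℂ c (ball 0 ρ) :=
    hunif.tendstoLocallyUniformlyOn.differentiableOn
      (Eventually.of_forall fun n => (cs n).2.1) isOpen_ball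
  have hcdd := hunif.tendstoLocallyUniformlyOn.deriv
    (Eventually.of_forall fun n => (cs n).2.1) isOpen_ball
  refine ⟨c, hc0, fun z hz => ⟨hcm hz, ?_⟩⟩
  have h1 : Tendsto (fun n => deriv (cs n).1 z) atTop (𝓝 (deriv c z)) :=
    hcdd.tendsto_at hz
  have h2 : Tendsto (fun n => deriv (cs (n + 1)).1 z) atTop (𝓝 (y (c z))) := by
    have h3 : Tendsto (fun n => y ((cs n).1 z)) atTop (𝓝 (y (c z))) := by
      have hcont : ContinuousWithinAt y (closedBall x r0) (c z) := hK.continuousOn _ (hcm hz)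
      exact hcont.tendsto.comp (tendsto_nhdsWithin_iff.2
        ⟨hc z hz, Eventually.of_forall fun n => (cs n).2.2 hz⟩)
    exact h3.congr (fun n => ((hder n z hz).deriv).symm)
  have h4 := tendsto_nhds_unique (h1.comp (tendsto_add_atTop_nat 1)) h2
  have h5 := (hcd.differentiableAt (isOpen_ball.mem_nhds hz)).hasDerivAt
  rw [h4] at h5
  exact h5

/-- local holomorphic integral curve -/
theorem exists_curve [CompleteSpace E] {y : E → E} {D : Set E} (hD : IsOpen D)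
    (hy : ContDiffOn ℂ 1 y D) {x : E} (hx : x ∈ D) :
    ∃ ρ > 0, ∃ c : ℂ → E, c 0 = x ∧ ∀ ζ ∈ ball (0 : ℂ) ρ, c ζ ∈ D ∧
      HasDerivAt c (y (c ζ)) ζ := by
  have hya : ContDiffAt ℂ 1 y x := hy.contDiffAt (hD.mem_nhds hx)
  obtain ⟨K, t, ht, hK⟩ := hya.exists_lipschitzOnWith
  obtain ⟨r1, hr1, hr1t⟩ := Metric.mem_nhds_iff.1 (Filter.inter_mem ht (hD.mem_nhds hx))
  set r0 := r1 / 2 with hr0
  have hr0p : 0 < r0 := by positivity
  have hsub : ball x (2 * r0) ⊆ t ∩ D := by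
    rw [hr0, mul_div_cancel₀ _ (two_ne_zero)]; exact hr1t
  have hcb : closedBall x r0 ⊆ t ∩ D :=
    (closedBall_subset_ball (by linarith)).trans hsub
  have hK' : LipschitzOnWith K y (closedBall x r0) := hK.mono (hcb.trans inter_subset_left)
  set M : ℝ := ‖y x‖ + K * r0 with hM
  have hMb : ∀ z ∈ closedBall x r0, ‖y z‖ ≤ M := by
    intro z hz
    have := hK'.norm_sub_le hz (mem_closedBall_self hr0p.le)
    have h2 : ‖z - x‖ ≤ r0 := by rwa [mem_closedBall, dist_eq_norm] at hz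
    calc ‖y z‖ = ‖y x + (y z - y x)‖ := by congr 1; abel
      _ ≤ ‖y x‖ + ‖y z - y x‖ := norm_add_le _ _
      _ ≤ ‖y x‖ + K * r0 := by
        have := this.trans (mul_le_mul_of_nonneg_left h2 K.2)
        linarith
  have hM0 : 0 ≤ M := by positivity
  set ρ : ℝ := min (r0 / (M + 1)) (1 / (2 * (K + 1))) with hρ
  have hρp : 0 < ρ := by
    refine lt_min (by positivity) (by positivity)
  have hρM : M * ρ ≤ r0 := by
    have h1 : ρ ≤ r0 / (M + 1) := min_le_left _ _
    calc M * ρ ≤ M * (r0 / (M + 1)) := mul_le_mul_of_nonneg_left h1 hM0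
      _ = (M / (M + 1)) * r0 := by ring
      _ ≤ 1 * r0 := by
        refine mul_le_mul_of_nonneg_right ?_ hr0p.le
        rw [div_le_one (by linarith)]; linarith
      _ = r0 := one_mul _
  have hρK : K * ρ ≤ 1 / 2 := by
    have h1 : ρ ≤ 1 / (2 * (K + 1)) := min_le_right _ _
    have hK0 : (0 : ℝ) ≤ K := K.2
    calc (K : ℝ) * ρ ≤ K * (1 / (2 * (K + 1))) := mul_le_mul_of_nonneg_left h1 hK0
      _ = (K / (K + 1)) * (1 / 2) := by field_simp
      _ ≤ 1 * (1 / 2) := by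
        refine mul_le_mul_of_nonneg_right ?_ (by norm_num)
        rw [div_le_one (by linarith)]; linarith
      _ = 1 / 2 := one_mul _
  have hyd : DifferentiableOn ℂ y (ball x (2 * r0)) :=
    (hy.differentiableOn (by norm_num)).mono (hsub.trans inter_subset_right)
  obtain ⟨c, hc0, hc⟩ := exists_curve_aux hr0p hρp hyd hK' hMb hρM hρK
  exact ⟨ρ, hρp, c, hc0, fun z hz => ⟨(hcb (hc z hz).1).2, (hc z hz).2⟩⟩

/-- uniqueness of integral curves inside an open set -/
theorem ode_unique {A : E → E} {D : Set E} (hD : IsOpen D) (hA : ContDiffOn ℝ 1 A D)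
    {γ₁ γ₂ : ℝ → E} {T : ℝ}
    (h1 : ∀ t ∈ Icc 0 T, γ₁ t ∈ D ∧ HasDerivAt γ₁ (A (γ₁ t)) t)
    (h2 : ∀ t ∈ Icc 0 T, γ₂ t ∈ D ∧ HasDerivAt γ₂ (A (γ₂ t)) t) (h0 : γ₁ 0 = γ₂ 0) :
    EqOn γ₁ γ₂ (Icc 0 T) := by
  have c1 : ContinuousOn γ₁ (Icc 0 T) := fun t ht => (h1 t ht).2.continuousAt.continuousWithinAt
  have c2 : ContinuousOn γ₂ (Icc 0 T) := fun t ht => (h2 t ht).2.continuousAt.continuousWithinAt
  set L : Set E := γ₁ '' Icc 0 T ∪ γ₂ '' Icc 0 T with hL
  have hLc : IsCompact L := (isCompact_Icc.image_of_continuousOn c1).union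
    (isCompact_Icc.image_of_continuousOn c2)
  have hLD : L ⊆ D := by
    rintro _ (⟨t, ht, rfl⟩ | ⟨t, ht, rfl⟩)
    · exact (h1 t ht).1
    · exact (h2 t ht).1
  have hloc : LocallyLipschitzOn L A := by
    intro z hz
    obtain ⟨K, t, ht, hK⟩ := (hA.contDiffAt (hD.mem_nhds (hLD hz))).exists_lipschitzOnWith
    exact ⟨K, t, mem_nhdsWithin_of_mem_nhds ht, hK⟩
  obtain ⟨K, hK⟩ := hloc.exists_lipschitzOnWith_of_compact hLc
  exact ODE_solution_unique_of_mem_Icc_right (v := fun _ => A) (s := fun _ => L) (K := K)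
    (fun t _ => hK) c1 (fun t ht => (h1 t (Ico_subset_Icc_self ht)).2.hasDerivWithinAt)
    (fun t ht => Or.inl ⟨t, Ico_subset_Icc_self ht, rfl⟩) c2
    (fun t ht => (h2 t (Ico_subset_Icc_self ht)).2.hasDerivWithinAt)
    (fun t ht => Or.inr ⟨t, Ico_subset_Icc_self ht, rfl⟩) h0

/-- linear ODE on a disc: zero at the centre implies zero -/
theorem lin_zero {u : ℂ → E} {B : ℂ → E →L[ℂ] E} {ρ : ℝ}
    (hB : ContinuousOn B (ball 0 ρ)) (hu : ∀ z ∈ ball (0 : ℂ) ρ, HasDerivAt u (B z (u z)) z)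
    (h0 : u 0 = 0) {z : ℂ} (hz : z ∈ ball (0 : ℂ) ρ) : u z = 0 := by
  have hseg : ∀ s ∈ Icc (0 : ℝ) 1, (s : ℂ) * z ∈ ball (0 : ℂ) ρ := by
    intro s hs
    rw [mem_ball, dist_zero_right] at hz ⊢
    rw [norm_mul, Complex.norm_real, Real.norm_of_nonneg hs.1]
    calc s * ‖z‖ ≤ 1 * ‖z‖ := mul_le_mul_of_nonneg_right hs.2 (norm_nonneg _)
      _ < ρ := by rwa [one_mul]
  have hcB : ContinuousOn (fun s : ℝ => B ((s : ℂ) * z)) (Icc 0 1) :=
    hB.comp (by fun_prop) hseg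
  obtain ⟨C, hC⟩ := isCompact_Icc.exists_bound_of_continuousOn hcB
  have hder : ∀ s ∈ Icc (0 : ℝ) 1, HasDerivAt (fun s : ℝ => u ((s : ℂ) * z))
      (z • B ((s : ℂ) * z) (u ((s : ℂ) * z))) s := by
    intro s hs
    have h1 : HasDerivAt (fun s : ℝ => (s : ℂ) * z) z s := by
      simpa using (Complex.ofRealCLM.hasDerivAt (x := s)).mul_const z
    exact (hu _ (hseg s hs)).scomp s h1
  have key := norm_le_gronwallBound_of_norm_deriv_right_le (f := fun s : ℝ => u ((s : ℂ) * z))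
    (f' := fun s : ℝ => z • B ((s : ℂ) * z) (u ((s : ℂ) * z))) (δ := 0) (K := ‖z‖ * C) (ε := 0)
    (a := 0) (b := 1)
    (fun s hs => (hder s hs).continuousAt.continuousWithinAt)
    (fun s hs => (hder s (Ico_subset_Icc_self hs)).hasDerivWithinAt) (by simp [h0])
    (fun s hs => by
      rw [norm_smul, add_zero, mul_assoc]
      refine mul_le_mul_of_nonneg_left ?_ (norm_nonneg _)
      refine (ContinuousLinearMap.le_opNorm _ _).trans ?_
      exact mul_le_mul_of_nonneg_right (hC s (Ico_subset_Icc_self hs)) (norm_nonneg _))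
    1 (right_mem_Icc.2 zero_le_one)
  rw [gronwallBound_ε0_δ0] at key
  simpa using key

end Crest.Agent.R264.Ent
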