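import Crest.Agent.R264.EntA

/-!
Row 264, node D8(f)-analysis (helper551), part B: the curve lemma (purely local proof).
-/

set_option autoImplicit false

open Set Filter Topology Metric
open scoped NNReal

noncomputable section

namespace Crest.Agent.R264.Ent

variable {E : Type*} [NormedAddCommGroup E] [NormedSpace ℂ E]

/-- along an integral curve of `y` the field `ys` equals `κ ζ² y` -/
theorem curve_rel {D : Set E} (hD : IsOpen D) {y ys h : E → E}
    (hy : ContDiffOn ℂ 1 y D) (hys : DifferentiableOn ℂ ys D) (hh : DifferentiableOn ℂ h D)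
    (hdef : ∀ z ∈ D, h z = fderiv ℂ ys z (y z) - fderiv ℂ y z (ys z)) {lam : ℝ}
    (hlie : ∀ z ∈ D, fderiv ℂ y z (h z) - fderiv ℂ h z (y z) = (lam : ℂ) • y z)
    {x : E} (h1 : ys x = 0) (h2 : h x = 0) {ρ : ℝ} {c : ℂ → E} (hc0 : c 0 = x)
    (hc : ∀ ζ ∈ ball (0 : ℂ) ρ, c ζ ∈ D ∧ HasDerivAt c (y (c ζ)) ζ) {ζ : ℂ}
    (hζ : ζ ∈ ball (0 : ℂ) ρ) :
    ys (c ζ) = (((-lam / 2 : ℝ) : ℂ) * ζ ^ 2) • y (c ζ) := by
  have hcc : ContinuousOn c (ball 0 ρ) := fun z hz => (hc z hz).2.continuousAt.continuousWithinAt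
  have hB : ContinuousOn (fun z => fderiv ℂ y (c z)) (ball 0 ρ) :=
    (hy.continuousOn_fderiv_of_isOpen hD le_rfl).comp hcc (fun z hz => (hc z hz).1)
  have hyd : DifferentiableOn ℂ y D := hy.differentiableOn (by norm_num)
  have dY : ∀ z ∈ ball (0 : ℂ) ρ, HasDerivAt (fun z => y (c z)) (fderiv ℂ y (c z) (y (c z))) z :=
    fun z hz => ((hyd.differentiableAt (hD.mem_nhds (hc z hz).1)).hasFDerivAt).comp_hasDerivAt z
      (hc z hz).2
  have dYs : ∀ z ∈ ball (0 : ℂ) ρ, HasDerivAt (fun z => ys (c z)) (fderiv ℂ ys (c z) (y (c z))) z :=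
    fun z hz => ((hys.differentiableAt (hD.mem_nhds (hc z hz).1)).hasFDerivAt).comp_hasDerivAt z
      (hc z hz).2
  have dH : ∀ z ∈ ball (0 : ℂ) ρ, HasDerivAt (fun z => h (c z)) (fderiv ℂ h (c z) (y (c z))) z :=
    fun z hz => ((hh.differentiableAt (hD.mem_nhds (hc z hz).1)).hasFDerivAt).comp_hasDerivAt z
      (hc z hz).2
  -- first relation
  have r1 : ∀ z ∈ ball (0 : ℂ) ρ, h (c z) + ((lam : ℂ) * z) • y (c z) = 0 := by
    intro z hz
    refine lin_zero (u := fun z => h (c z) + ((lam : ℂ) * z) • y (c z)) hB ?_ (by simp [hc0, h2]) hz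
    intro w hw
    have hlw : HasDerivAt (fun z : ℂ => (lam : ℂ) * z) (lam : ℂ) w := by
      simpa using (hasDerivAt_id w).const_mul (lam : ℂ)
    have := (dH w hw).add (hlw.smul (dY w hw))
    refine HasDerivAt.congr_deriv this ?_
    have h3 : fderiv ℂ h (c w) (y (c w)) = fderiv ℂ y (c w) (h (c w)) - (lam : ℂ) • y (c w) := by
      rw [← hlie (c w) (hc w hw).1]; abel
    rw [h3, map_add, map_smul]
    abel
  have r2 : ∀ z ∈ ball (0 : ℂ) ρ, ys (c z) - (((-lam / 2 : ℝ) : ℂ) * z ^ 2) • y (c z) = 0 := by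
    intro z hz
    refine lin_zero (u := fun z => ys (c z) - (((-lam / 2 : ℝ) : ℂ) * z ^ 2) • y (c z)) hB ?_
      (by simp [hc0, h1]) hz
    intro w hw
    have hlw : HasDerivAt (fun z : ℂ => ((-lam / 2 : ℝ) : ℂ) * z ^ 2) (-((lam : ℂ) * w)) w := by
      have := ((hasDerivAt_id w).pow 2).const_mul (((-lam / 2 : ℝ) : ℂ))
      refine HasDerivAt.congr_deriv this ?_
      simp only [id]; push_cast; ring
    have := (dYs w hw).sub (hlw.smul (dY w hw))
    refine HasDerivAt.congr_deriv this ?_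
    have h3 : fderiv ℂ ys (c w) (y (c w)) = h (c w) + fderiv ℂ y (c w) (ys (c w)) := by
      rw [hdef (c w) (hc w hw).1]; abel
    have h4 : h (c w) = -(((lam : ℂ) * w) • y (c w)) := eq_neg_of_add_eq_zero_left (r1 w hw)
    rw [h3, h4, map_sub, map_smul, neg_smul]
    abel
  exact sub_eq_zero.1 (r2 ζ hζ)

/-- the Moebius curve -/
def mobN (s : ℝ) (ω η : ℂ) (t : ℝ) : ℂ := η * Real.cos (s * t) + ω * (Real.sin (s * t) / s)
def mobD (s : ℝ) (ω η : ℂ) (t : ℝ) : ℂ :=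
  Real.cos (s * t) - s * (starRingEnd ℂ ω) * Real.sin (s * t) * η

theorem mob_hasDerivAt {s : ℝ} (hs : s ≠ 0) {ω η : ℂ} (hω : ‖ω‖ = 1) {t : ℝ}
    (hQ : mobD s ω η t ≠ 0) :
    HasDerivAt (fun t => mobN s ω η t / mobD s ω η t)
      (ω + (s : ℂ) ^ 2 * (starRingEnd ℂ ω) * (mobN s ω η t / mobD s ω η t) ^ 2) t := by
  have hω' : ω * (starRingEnd ℂ ω) = 1 := by
    rw [Complex.mul_conj, Complex.normSq_eq_norm_sq, hω]; simp
  have hsc : (s : ℂ) ≠ 0 := Complex.ofReal_ne_zero.2 hs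
  have hst : HasDerivAt (fun t : ℝ => s * t) s t := by simpa using (hasDerivAt_id t).const_mul s
  have hcos : HasDerivAt (fun t : ℝ => ((Real.cos (s * t) : ℝ) : ℂ))
      ((-Real.sin (s * t) * s : ℝ) : ℂ) t := (hst.cos).ofReal_comp
  have hsin : HasDerivAt (fun t : ℝ => ((Real.sin (s * t) : ℝ) : ℂ))
      ((Real.cos (s * t) * s : ℝ) : ℂ) t := (hst.sin).ofReal_comp
  have hN : HasDerivAt (mobN s ω η) (ω * mobD s ω η t) t := by
    have := (hcos.const_mul η).add ((hsin.div_const (s : ℂ)).const_mul ω)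
    refine HasDerivAt.congr_deriv this ?_
    simp only [mobD]
    push_cast
    have : ω * (Complex.cos (s * t) - s * (starRingEnd ℂ ω) * Complex.sin (s * t) * η)
        = ω * Complex.cos (s * t) - (ω * (starRingEnd ℂ ω)) * (s * Complex.sin (s * t) * η) := by
      ring
    rw [this, hω']
    field_simp
    ring
  have hD' : HasDerivAt (mobD s ω η) (-((s : ℂ) ^ 2 * (starRingEnd ℂ ω) * mobN s ω η t)) t := by
    have h3 : HasDerivAt (fun t : ℝ => (s : ℂ) * (starRingEnd ℂ ω) * ((Real.sin (s * t) : ℝ) : ℂ) * η)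
        ((s : ℂ) * (starRingEnd ℂ ω) * ((Real.cos (s * t) * s : ℝ) : ℂ) * η) t :=
      (hsin.const_mul ((s : ℂ) * (starRingEnd ℂ ω))).mul_const η
    have := hcos.sub h3
    refine HasDerivAt.congr_deriv this ?_
    simp only [mobN]
    push_cast
    have : (s : ℂ) ^ 2 * (starRingEnd ℂ ω) * (η * Complex.cos (s * t) + ω * (Complex.sin (s * t) / s))
        = s ^ 2 * (starRingEnd ℂ ω) * η * Complex.cos (s * t)
          + (ω * (starRingEnd ℂ ω)) * (s ^ 2 * (Complex.sin (s * t) / s)) := by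
      ring
    rw [this, hω']
    field_simp
    ring
  have := hN.div hD' hQ
  refine HasDerivAt.congr_deriv this ?_
  field_simp
  ring

/-- bound keeping the Moebius curve in the disc of radius `ρ` -/
theorem mob_lt {s r ρ C0 : ℝ} (hs : 0 < s) (hr : r < ρ) (hρ : 0 < ρ) {ω η : ℂ}
    (hω : ‖ω‖ = 1) {t : ℝ} (hC0 : 0 < C0) (hcos : C0 ≤ Real.cos (s * t))
    (hsin0 : 0 ≤ Real.sin (s * t)) (hsin : Real.sin (s * t) ≤ s * r * Real.cos (s * t))
    (hη : ‖η‖ < C0 * (ρ - r) / (1 + ρ * s)) :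
    mobD s ω η t ≠ 0 ∧ ‖mobN s ω η t / mobD s ω η t‖ < ρ := by
  have hden : 0 < 1 + ρ * s := by positivity
  rw [lt_div_iff₀ hden] at hη
  have hη0 := norm_nonneg η
  have hN : ‖mobN s ω η t‖ ≤ ‖η‖ + r * Real.cos (s * t) := by
    unfold mobN
    refine (norm_add_le _ _).trans (add_le_add ?_ ?_)
    · rw [norm_mul, Complex.norm_real, Real.norm_of_nonneg (hC0.le.trans hcos)]
      exact mul_le_of_le_one_right hη0 (Real.cos_le_one _)
    · rw [norm_mul, hω, one_mul, norm_div, Complex.norm_real, Complex.norm_real,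
        Real.norm_of_nonneg hsin0, Real.norm_of_nonneg hs.le, div_le_iff₀ hs]
      linarith [hsin]
  have hDl : Real.cos (s * t) - s * ‖η‖ ≤ ‖mobD s ω η t‖ := by
    unfold mobD
    have h1 : ‖((Real.cos (s * t) : ℝ) : ℂ)‖ = Real.cos (s * t) := by
      rw [Complex.norm_real, Real.norm_of_nonneg (hC0.le.trans hcos)]
    have h2 : ‖(s : ℂ) * (starRingEnd ℂ ω) * ((Real.sin (s * t) : ℝ) : ℂ) * η‖ ≤ s * ‖η‖ := by
      rw [norm_mul, norm_mul, norm_mul, Complex.norm_real, Complex.norm_real,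
        Real.norm_of_nonneg hs.le, Real.norm_of_nonneg hsin0, RCLike.norm_conj, hω, mul_one]
      have : s * Real.sin (s * t) * ‖η‖ ≤ s * 1 * ‖η‖ := by
        gcongr; exact Real.sin_le_one _
      linarith
    calc Real.cos (s * t) - s * ‖η‖
        ≤ ‖((Real.cos (s * t) : ℝ) : ℂ)‖ - ‖(s : ℂ) * (starRingEnd ℂ ω) * ((Real.sin (s * t) : ℝ) : ℂ) * η‖ := by
          rw [h1]; linarith
      _ ≤ _ := norm_sub_norm_le _ _
  have hkey : ‖η‖ + r * Real.cos (s * t) < ρ * (Real.cos (s * t) - s * ‖η‖) := by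
    have h3 : C0 * (ρ - r) ≤ Real.cos (s * t) * (ρ - r) :=
      mul_le_mul_of_nonneg_right hcos (by linarith)
    nlinarith [h3, hη]
  have hpos : 0 < ‖mobD s ω η t‖ := by
    rcases le_or_gt ‖mobD s ω η t‖ 0 with h | h
    · exfalso
      have h4 : ρ * (Real.cos (s * t) - s * ‖η‖) ≤ 0 :=
        mul_nonpos_of_nonneg_of_nonpos hρ.le (hDl.trans h)
      have h5 := norm_nonneg (mobN s ω η t)
      linarith
    · exact h
  refine ⟨norm_pos_iff.1 hpos, ?_⟩
  rw [norm_div, div_lt_iff₀ hpos]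
  calc ‖mobN s ω η t‖ ≤ ‖η‖ + r * Real.cos (s * t) := hN
    _ < ρ * (Real.cos (s * t) - s * ‖η‖) := hkey
    _ ≤ ρ * ‖mobD s ω η t‖ := mul_le_mul_of_nonneg_left hDl hρ.le

end Crest.Agent.R264.Ent
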