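import Crest.Agent.R264.EntB
import Crest.Agent.R266.Osgood

/-!
Row 264, node D8(f)-analysis (helper551), part C: final statement.
-/

set_option autoImplicit false

open Set Filter Topology Metric
open scoped NNReal

noncomputable section

namespace Crest.Agent.R264.Ent

variable {E : Type*} [NormedAddCommGroup E] [NormedSpace ℂ E]

/-- a one-parameter family of holomorphic self-maps of `D` integrating the field `A` -/
def HasFlow (D : Set E) (A : E → E) : Prop :=
  ∃ φ : ℝ → E → E, (∀ t, DifferentiableOn ℂ (φ t) D) ∧ (∀ t, MapsTo (φ t) D D) ∧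
    (∀ z ∈ D, φ 0 z = z) ∧ ∀ z ∈ D, ∀ t, HasDerivAt (fun t => φ t z) (A (φ t z)) t

/-- an automorphism acting on the local curve `c` by a Moebius map -/
theorem exists_mob [CompleteSpace E] {D : Set E} (hD : IsOpen D) {y ys : E → E}
    (hy : ContDiffOn ℂ 1 y D) (hys : ContDiffOn ℂ 1 ys D) {s : ℝ} (hs : 0 < s)
    {ρ : ℝ} (hρ : 0 < ρ) {c : ℂ → E}
    (hc : ∀ ζ ∈ ball (0 : ℂ) ρ, c ζ ∈ D ∧ HasDerivAt c (y (c ζ)) ζ)
    (hrel : ∀ ζ ∈ ball (0 : ℂ) ρ, ys (c ζ) = ((s : ℂ) ^ 2 * ζ ^ 2) • y (c ζ))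
    {r : ℝ} (hr0 : 0 < r) (hr : r < ρ) {ω : ℂ} (hω : ‖ω‖ = 1)
    (hfl : HasFlow D (fun z => ω • y z + (starRingEnd ℂ ω) • ys z)) :
    ∃ g : E → E, DifferentiableOn ℂ g D ∧ MapsTo g D D ∧ ∀ᶠ η in 𝓝 (0 : ℂ),
      g (c η) = c ((η + ω * r) / (1 - s ^ 2 * (starRingEnd ℂ ω) * r * η)) := by
  obtain ⟨φ, hφd, hφm, hφ0, hφ⟩ := hfl
  have hω' : ω * (starRingEnd ℂ ω) = 1 := by
    rw [Complex.mul_conj, Complex.normSq_eq_norm_sq, hω]; simp
  set T : ℝ := Real.arctan (s * r) / s with hT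
  have hsT : s * T = Real.arctan (s * r) := by rw [hT]; field_simp
  have hsr : 0 < s * r := by positivity
  have hT0 : 0 ≤ T := div_nonneg (Real.arctan_nonneg.2 hsr.le) hs.le
  set C0 : ℝ := Real.cos (Real.arctan (s * r)) with hC0d
  have hC0 : 0 < C0 := Real.cos_arctan_pos _
  have hAlt : Real.arctan (s * r) < Real.pi / 2 := Real.arctan_lt_pi_div_two _
  -- trigonometric bounds
  have htr : ∀ t ∈ Icc 0 T, C0 ≤ Real.cos (s * t) ∧ 0 ≤ Real.sin (s * t) ∧
      Real.sin (s * t) ≤ s * r * Real.cos (s * t) := by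
    intro t ht
    have h0 : 0 ≤ s * t := mul_nonneg hs.le ht.1
    have h1 : s * t ≤ Real.arctan (s * r) := by
      rw [← hsT]; exact mul_le_mul_of_nonneg_left ht.2 hs.le
    have hcosp : 0 < Real.cos (s * t) :=
      Real.cos_pos_of_mem_Ioo ⟨by linarith [Real.pi_pos], by linarith⟩
    refine ⟨Real.cos_le_cos_of_nonneg_of_le_pi h0 (by linarith [Real.pi_pos]) h1,
      Real.sin_nonneg_of_nonneg_of_le_pi h0 (by linarith [Real.pi_pos]), ?_⟩
    have h2 : Real.tan (s * t) ≤ s * r := by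
      rw [← Real.tan_arctan (s * r)]
      exact Real.strictMonoOn_tan.monotoneOn ⟨by linarith [Real.pi_pos], by linarith⟩
        ⟨by linarith [Real.pi_pos], hAlt⟩ h1
    rw [Real.tan_eq_sin_div_cos, div_le_iff₀ hcosp] at h2
    exact h2
  refine ⟨φ T, hφd T, hφm T, ?_⟩
  have hδ : 0 < C0 * (ρ - r) / (1 + ρ * s) := by
    have : 0 < ρ - r := by linarith
    positivity
  have hA : ContDiffOn ℝ 1 (fun z => ω • y z + (starRingEnd ℂ ω) • ys z) D :=
    ((hy.const_smul ω).add (hys.const_smul (starRingEnd ℂ ω))).restrict_scalars ℝ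
  filter_upwards [Metric.ball_mem_nhds (0 : ℂ) (lt_min hδ hρ)] with η hη
  rw [mem_ball, dist_zero_right, lt_min_iff] at hη
  have hηρ : η ∈ ball (0 : ℂ) ρ := by simpa using hη.2
  have hmob : ∀ t ∈ Icc 0 T, mobD s ω η t ≠ 0 ∧
      mobN s ω η t / mobD s ω η t ∈ ball (0 : ℂ) ρ := by
    intro t ht
    obtain ⟨h1, h2, h3⟩ := htr t ht
    have := mob_lt hs hr hρ hω (C0 := C0) hC0 h1 h2 h3 hη.1
    exact ⟨this.1, by simpa using this.2⟩
  have key := ode_unique hD hA (γ₁ := fun t => φ t (c η))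
    (γ₂ := fun t => c (mobN s ω η t / mobD s ω η t)) (T := T)
    (fun t _ => ⟨hφm t (hc η hηρ).1, hφ _ (hc η hηρ).1 t⟩)
    (fun t ht => by
      obtain ⟨hQ, hm⟩ := hmob t ht
      refine ⟨(hc _ hm).1, ?_⟩
      have h1 := mob_hasDerivAt hs.ne' hω hQ
      have h2 := (hc _ hm).2.scomp t h1
      refine HasDerivAt.congr_deriv h2 ?_
      rw [hrel _ hm, smul_smul, ← add_smul]
      congr 1; ring)
    (by
      have : mobN s ω η 0 / mobD s ω η 0 = η := by simp [mobN, mobD]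
      simp only [this]
      exact hφ0 _ (hc η hηρ).1)
  have hkey := key (right_mem_Icc.2 hT0)
  simp only at hkey
  rw [hkey]
  congr 1
  have hcosC : (Real.cos (s * T) : ℂ) ≠ 0 := by
    rw [hsT]; exact_mod_cast hC0.ne'
  have hsin : Real.sin (s * T) = s * r * Real.cos (s * T) := by
    rw [hsT]
    have := Real.tan_arctan (s * r)
    rw [Real.tan_eq_sin_div_cos, div_eq_iff hC0.ne'] at this
    exact this
  have hsc : (s : ℂ) ≠ 0 := Complex.ofReal_ne_zero.2 hs.ne'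
  have hN : mobN s ω η T = Real.cos (s * T) * (η + ω * r) := by
    unfold mobN
    rw [hsin]; push_cast; field_simp
  have hDd : mobD s ω η T = Real.cos (s * T) * (1 - s ^ 2 * (starRingEnd ℂ ω) * r * η) := by
    unfold mobD
    rw [hsin]; push_cast; ring
  rw [hN, hDd, mul_div_mul_left _ _ hcosC]

/-- **Curve lemma** (D8(f)): -/
theorem main [CompleteSpace E] {D : Set E} (hD : IsOpen D) (hb : Bornology.IsBounded D)
    {y ys h : E → E} (hy : ContDiffOn ℂ 1 y D) (hys : ContDiffOn ℂ 1 ys D)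
    (hh : DifferentiableOn ℂ h D)
    (hdef : ∀ z ∈ D, h z = fderiv ℂ ys z (y z) - fderiv ℂ y z (ys z)) {lam : ℝ} (hlam : lam < 0)
    (hlie : ∀ z ∈ D, fderiv ℂ y z (h z) - fderiv ℂ h z (y z) = (lam : ℂ) • y z)
    {x : E} (hx : x ∈ D) (h1 : ys x = 0) (h2 : h x = 0)
    (hfl : ∀ ω : ℂ, ‖ω‖ = 1 → HasFlow D (fun z => ω • y z + (starRingEnd ℂ ω) • ys z)) :
    y x = 0 := by
  obtain ⟨ρ, hρ, c, hc0, hc⟩ := exists_curve hD hy hx
  set s : ℝ := Real.sqrt (-lam / 2) with hsd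
  have hs : 0 < s := Real.sqrt_pos.2 (by linarith)
  have hs2 : s ^ 2 = -lam / 2 := Real.sq_sqrt (by linarith)
  have hrel : ∀ ζ ∈ ball (0 : ℂ) ρ, ys (c ζ) = ((s : ℂ) ^ 2 * ζ ^ 2) • y (c ζ) := by
    intro ζ hζ
    rw [curve_rel hD hy (hys.differentiableOn (by norm_num)) hh hdef hlie h1 h2 hc0 hc hζ,
      ← hs2]
    push_cast; rfl
  set r : ℝ := ρ / 2 with hrd
  have hr0 : 0 < r := by positivity
  have hr : r < ρ := by rw [hrd]; linarith
  -- the class of test functions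
  let 𝓕 : Set (E → ℂ) := {F | DifferentiableOn ℂ F D ∧ ∀ z ∈ D, ‖F z‖ ≤ 1}
  have hcd : DifferentiableOn ℂ c (ball 0 ρ) := fun z hz =>
    (hc z hz).2.differentiableAt.differentiableWithinAt
  have hcm : MapsTo c (ball 0 ρ) D := fun z hz => (hc z hz).1
  have hFc : ∀ F ∈ 𝓕, DifferentiableOn ℂ (fun z => F (c z)) (ball 0 ρ) := fun F hF =>
    hF.1.comp hcd hcm
  let S : Set ℝ := (fun F : E → ℂ => ‖deriv (fun z => F (c z)) 0‖) '' 𝓕
  have hSb : BddAbove S := by
    refine ⟨1 / r, ?_⟩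
    rintro _ ⟨F, hF, rfl⟩
    refine Complex.norm_deriv_le_of_forall_mem_sphere_norm_le hr0 ?_ ?_
    · refine (DifferentiableOn.diffContOnCl_ball (hFc F hF) ?_)
      exact closedBall_subset_ball hr
    · intro z hz
      exact hF.2 _ (hcm (sphere_subset_closedBall.trans (closedBall_subset_ball hr) hz))
  set N : ℝ := sSup S with hN
  have hle : ∀ F ∈ 𝓕, ‖deriv (fun z => F (c z)) 0‖ ≤ N := fun F hF =>
    le_csSup hSb ⟨F, hF, rfl⟩
  have hSne : S.Nonempty := ⟨_, ⟨fun _ => 0, ⟨differentiableOn_const _, by simp⟩, rfl⟩⟩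
  set q : ℝ := 1 + s ^ 2 * r ^ 2 with hq
  have hq1 : 1 < q := by
    have : 0 < s ^ 2 * r ^ 2 := by positivity
    linarith
  -- bound on the circle of radius `r`
  have hcirc : ∀ F ∈ 𝓕, ∀ ω : ℂ, ‖ω‖ = 1 → ‖deriv (fun z => F (c z)) (ω * r)‖ ≤ N / q := by
    intro F hF ω hω
    have hω' : ω * (starRingEnd ℂ ω) = 1 := by
      rw [Complex.mul_conj, Complex.normSq_eq_norm_sq, hω]; simp
    obtain ⟨g, hgd, hgm, hg⟩ := exists_mob hD hy hys hs hρ hc hrel hr0 hr hω (hfl ω hω)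
    have hmem : (fun z => F (g z)) ∈ 𝓕 := ⟨hF.1.comp hgd hgm, fun z hz => hF.2 _ (hgm hz)⟩
    have hωr : ω * r ∈ ball (0 : ℂ) ρ := by
      rw [mem_ball, dist_zero_right, norm_mul, hω, one_mul, Complex.norm_real,
        Real.norm_of_nonneg hr0.le]
      exact hr
    have hdM : HasDerivAt (fun η : ℂ => (η + ω * r) / (1 - s ^ 2 * (starRingEnd ℂ ω) * r * η))
        (q : ℂ) 0 := by
      have hn : HasDerivAt (fun η : ℂ => η + ω * r) 1 0 := (hasDerivAt_id _).add_const _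
      have hd : HasDerivAt (fun η : ℂ => 1 - s ^ 2 * (starRingEnd ℂ ω) * r * η)
          (-(s ^ 2 * (starRingEnd ℂ ω) * r)) 0 := by
        have := ((hasDerivAt_id (0 : ℂ)).const_mul ((s : ℂ) ^ 2 * (starRingEnd ℂ ω) * r)).const_sub 1
        simpa using this
      have := hn.div hd (by simp)
      refine HasDerivAt.congr_deriv this ?_
      rw [hq]; push_cast
      simp only [zero_add, mul_zero, sub_zero, one_mul, one_pow, div_one]
      linear_combination ((s : ℂ) ^ 2 * (r : ℂ) ^ 2) * hω'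
    have hdF : HasDerivAt (fun z => F (c z)) (deriv (fun z => F (c z)) (ω * r))
        ((fun η : ℂ => (η + ω * r) / (1 - s ^ 2 * (starRingEnd ℂ ω) * r * η)) 0) := by
      have : ((fun η : ℂ => (η + ω * r) / (1 - s ^ 2 * (starRingEnd ℂ ω) * r * η)) 0) = ω * r := by
        simp
      rw [this]
      exact ((hFc F hF).differentiableAt (isOpen_ball.mem_nhds hωr)).hasDerivAt
    have hcomp := hdF.comp 0 hdM
    have heq : deriv (fun z => F (g (c z))) 0 = deriv (fun z => F (c z)) (ω * r) * q := by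
      have h3 : (fun z => F (g (c z))) =ᶠ[𝓝 0] ((fun z => F (c z)) ∘
          fun η : ℂ => (η + ω * r) / (1 - s ^ 2 * (starRingEnd ℂ ω) * r * η)) := by
        filter_upwards [hg] with η hη
        simp only [Function.comp, hη]
      rw [h3.deriv_eq]
      exact hcomp.deriv
    have h4 := hle _ hmem
    rw [heq, norm_mul, Complex.norm_real, Real.norm_of_nonneg (by linarith)] at h4
    rw [le_div_iff₀ (by linarith)]
    exact h4
  -- maximum modulus
  have hmax : ∀ F ∈ 𝓕, ‖deriv (fun z => F (c z)) 0‖ ≤ N / q := by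
    intro F hF
    have hdd : DifferentiableOn ℂ (deriv (fun z => F (c z))) (ball 0 ρ) :=
      (hFc F hF).deriv isOpen_ball
    have hcl : DiffContOnCl ℂ (deriv (fun z => F (c z))) (ball 0 r) :=
      DifferentiableOn.diffContOnCl_ball hdd (closedBall_subset_ball hr)
    refine Complex.norm_le_of_forall_mem_frontier_norm_le isBounded_ball hcl (C := N / q) ?_
      (subset_closure (mem_ball_self hr0))
    intro z hz
    rw [frontier_ball _ hr0.ne'] at hz
    have hzr : ‖z‖ = r := by simpa using hz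
    have hrc : (r : ℂ) ≠ 0 := Complex.ofReal_ne_zero.2 hr0.ne'
    have hz1 : ‖z / r‖ = 1 := by
      rw [norm_div, hzr, Complex.norm_real, Real.norm_of_nonneg hr0.le, div_self hr0.ne']
    have := hcirc F hF (z / r) hz1
    rwa [div_mul_cancel₀ _ hrc] at this
  have hN0 : N ≤ 0 := by
    have h5 : N ≤ N / q := csSup_le hSne (by rintro _ ⟨F, hF, rfl⟩; exact hmax F hF)
    by_contra hpos
    push Not at hpos
    have : N / q < N := div_lt_self hpos hq1
    linarith
  -- conclusion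
  obtain ⟨B, hB⟩ := hb.exists_norm_le
  have hB0 : 0 ≤ B := (norm_nonneg _).trans (hB x hx)
  refine (SeparatingDual.eq_zero_iff_forall_dual_eq_zero (R := ℂ) _).2 (fun l => ?_)
  set K : ℝ := ‖l‖ * B + 1 with hK
  have hKp : 0 < K := by positivity
  have hmem : (fun z => (K : ℂ)⁻¹ * l z) ∈ 𝓕 := by
    refine ⟨(l.differentiable.differentiableOn).const_mul _, fun z hz => ?_⟩
    rw [norm_mul, norm_inv, Complex.norm_real, Real.norm_of_nonneg hKp.le,
      inv_mul_le_iff₀ hKp, mul_one]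
    calc ‖l z‖ ≤ ‖l‖ * ‖z‖ := l.le_opNorm z
      _ ≤ ‖l‖ * B := mul_le_mul_of_nonneg_left (hB z hz) (norm_nonneg _)
      _ ≤ K := by rw [hK]; linarith
  have h6 := (hle _ hmem).trans hN0
  have h7 : deriv (fun z => (K : ℂ)⁻¹ * l (c z)) 0 = (K : ℂ)⁻¹ * l (y x) := by
    have h8 : HasDerivAt (fun z => l (c z)) (l (y (c 0))) 0 :=
      l.hasFDerivAt.comp_hasDerivAt 0 (hc 0 (mem_ball_self hρ)).2
    rw [hc0] at h8
    exact (h8.const_mul _).deriv
  rw [h7] at h6
  have h9 : (K : ℂ)⁻¹ * l (y x) = 0 := norm_le_zero_iff.1 h6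
  have hKc : (K : ℂ)⁻¹ ≠ 0 := inv_ne_zero (Complex.ofReal_ne_zero.2 hKp.ne')
  exact (mul_eq_zero.1 h9).resolve_left hKc

/-- finite-dimensional version: the fields are just assumed holomorphic -/
theorem main_fin [FiniteDimensional ℂ E] {D : Set E} (hD : IsOpen D)
    (hb : Bornology.IsBounded D) {y ys h : E → E} (hy : DifferentiableOn ℂ y D)
    (hys : DifferentiableOn ℂ ys D)
    (hdef : ∀ z ∈ D, h z = fderiv ℂ ys z (y z) - fderiv ℂ y z (ys z)) {lam : ℝ} (hlam : lam < 0)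
    (hlie : ∀ z ∈ D, fderiv ℂ y z (h z) - fderiv ℂ h z (y z) = (lam : ℂ) • y z)
    {x : E} (hx : x ∈ D) (h1 : ys x = 0) (h2 : h x = 0)
    (hfl : ∀ ω : ℂ, ‖ω‖ = 1 → HasFlow D (fun z => ω • y z + (starRingEnd ℂ ω) • ys z)) :
    y x = 0 := by
  have : CompleteSpace E := FiniteDimensional.complete ℂ E
  have hy' : ContDiffOn ℂ 2 y D :=
    (R266.SCV.contDiffOn_omega_of_differentiableOn hD hy).of_le le_top
  have hys' : ContDiffOn ℂ 2 ys D :=
    (R266.SCV.contDiffOn_omega_of_differentiableOn hD hys).of_le le_top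
  have hfy : DifferentiableOn ℂ (fderiv ℂ y) D :=
    (hy'.fderiv_of_isOpen hD (m := 1) (by norm_num)).differentiableOn (by norm_num)
  have hfys : DifferentiableOn ℂ (fderiv ℂ ys) D :=
    (hys'.fderiv_of_isOpen hD (m := 1) (by norm_num)).differentiableOn (by norm_num)
  have hh : DifferentiableOn ℂ h D := by
    refine ((hfys.clm_apply hy).sub (hfy.clm_apply hys)).congr hdef
  exact main hD hb (hy'.of_le (by norm_num)) (hys'.of_le (by norm_num)) hh hdef hlam hlie hx h1 h2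
    hfl

end Crest.Agent.R264.Ent
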