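import Crest.Agent.R264.FlowLoc

/-!
Row 264, part D3 (helper938): the Euler limit lemma (CV).
-/

set_option autoImplicit false

open Set Filter Topology Metric

namespace Crest.Agent.R264

variable {E : Type*} [NormedAddCommGroup E] [NormedSpace ℂ E]

/-- Montel along an ultrafilter, for self maps of `D` -/
def MontelU (D : Set E) : Prop :=
  ∀ (U : Ultrafilter ℕ) (f : ℕ → E → E), (∀ k, DifferentiableOn ℂ (f k) D) →
    (∀ k, MapsTo (f k) D D) → ∃ F : E → E, TendstoLocallyUniformlyOn f F (U : Filter ℕ) D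

/-- Cartan's theorem on limits of automorphisms, along any filter -/
def AutLimU (D : Set E) : Prop :=
  ∀ (U : Filter ℕ) [U.NeBot] (f g : ℕ → E → E) (F : E → E) (p : E),
    (∀ k, AutPair D (f k) (g k)) → TendstoLocallyUniformlyOn f F U D → p ∈ D → F p ∈ D →
    ∃ G : E → E, AutPair D F G ∧ TendstoLocallyUniformlyOn g G U D

section comp

variable {ι : Type*} {α β γ : Type*} [TopologicalSpace α] [PseudoMetricSpace β]
  [PseudoMetricSpace γ]

/-- locally uniform convergence of compositions -/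
theorem tlu_comp {F : ι → β → γ} {f : β → γ} {G : ι → α → β} {g : α → β} {l : Filter ι}
    {s : Set α} {t : Set β} (ht : IsOpen t) (hF : TendstoLocallyUniformlyOn F f l t)
    (hf : ContinuousOn f t) (hG : TendstoLocallyUniformlyOn G g l s) (hg : ContinuousOn g s)
    (hst : MapsTo g s t) : TendstoLocallyUniformlyOn (fun k x => F k (G k x)) (fun x => f (g x))
      l s := by
  rw [Metric.tendstoLocallyUniformlyOn_iff] at *
  intro ε hε x hx
  obtain ⟨V, hV, hFV⟩ := hF (ε / 2) (half_pos hε) (g x) (hst hx)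
  rw [ht.nhdsWithin_eq (hst hx)] at hV
  have hfc : ContinuousAt f (g x) := hf.continuousAt (ht.mem_nhds (hst hx))
  have hV2 : ∀ᶠ y in 𝓝 (g x), y ∈ V ∧ dist (f y) (f (g x)) < ε / 4 := by
    filter_upwards [hV, Metric.tendsto_nhds.1 hfc (ε / 4) (by positivity)] with y h1 h2
      using ⟨h1, h2⟩
  obtain ⟨δ, hδ, hδV⟩ := Metric.nhds_basis_ball.mem_iff.1 hV2
  obtain ⟨W, hW, hGW⟩ := hG (δ / 2) (half_pos hδ) x hx
  have hgc : ∀ᶠ y in 𝓝[s] x, dist (g y) (g x) < δ / 2 :=
    Metric.tendsto_nhds.1 (hg x hx) (δ / 2) (half_pos hδ)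
  refine ⟨W ∩ {y | dist (g y) (g x) < δ / 2}, inter_mem hW hgc, ?_⟩
  filter_upwards [hFV, hGW] with k h1 h2 y hy
  have h3 : dist (g y) (G k y) < δ / 2 := h2 y hy.1
  have h4 : G k y ∈ ball (g x) δ := by
    rw [mem_ball]
    calc dist (G k y) (g x) ≤ dist (G k y) (g y) + dist (g y) (g x) := dist_triangle _ _ _
      _ < δ / 2 + δ / 2 := add_lt_add (by rwa [dist_comm]) hy.2
      _ = δ := add_halves δ
  have h5 : g y ∈ ball (g x) δ := by
    rw [mem_ball]
    exact hy.2.trans (half_lt_self hδ)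
  have h6 := hδV h4
  have h7 := hδV h5
  calc dist (f (g y)) (F k (G k y))
      ≤ dist (f (g y)) (f (g x)) + dist (f (g x)) (f (G k y)) + dist (f (G k y)) (F k (G k y)) :=
        dist_triangle4 _ _ _ _
    _ < ε / 4 + ε / 4 + ε / 2 := by
        refine add_lt_add (add_lt_add h7.2 ?_) (h1 _ h6.1)
        rw [dist_comm]; exact h6.2
    _ = ε := by ring

end comp

section Euler

variable {D : Set E} {X : E → E}

/-- discrete Euler estimate -/
lemma euler_est {x₀ : E} {r M ε m : ℝ} {K : NNReal} {f : E → E}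
    (hM : ∀ y ∈ closedBall x₀ (2 * r), ‖X y‖ ≤ M)
    (hK : LipschitzOnWith K X (closedBall x₀ (2 * r))) (hM0 : 0 ≤ M) (hr : 0 < r)
    (hε : 0 ≤ ε) (hε1 : ε ≤ 1) (hm : 0 < m)
    (hf : ∀ y ∈ closedBall x₀ (2 * r), ‖m • (f y - y) - X y‖ ≤ ε)
    {x : E} (hx : x ∈ closedBall x₀ r) (j : ℕ) (hj : j / m * (M + 1) ≤ r) :
    ‖f^[j] x - x‖ ≤ j / m * (M + 1) ∧
      ‖f^[j] x - x - (j / m) • X x‖ ≤ j / m * (ε + K * (j / m * (M + 1))) := by
  have hxx : x ∈ closedBall x₀ (2 * r) := closedBall_subset_closedBall (by linarith) hx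
  have hball : ∀ y, ‖y - x‖ ≤ r → y ∈ closedBall x₀ (2 * r) := by
    intro y hy
    rw [mem_closedBall] at hx ⊢
    calc dist y x₀ ≤ dist y x + dist x x₀ := dist_triangle _ _ _
      _ ≤ r + r := add_le_add (by rwa [dist_eq_norm]) hx
      _ = 2 * r := by ring
  induction j with
  | zero => simp
  | succ j ih =>
    have hj' : (j : ℝ) / m * (M + 1) ≤ r := by
      refine le_trans ?_ hj
      push_cast
      gcongr
      linarith
    obtain ⟨h1, h2⟩ := ih hj'
    set y := f^[j] x with hy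
    have hyB : y ∈ closedBall x₀ (2 * r) := hball y (h1.trans hj')
    have hstep : ‖m • (f y - y) - X y‖ ≤ ε := hf y hyB
    have hs1 : ‖f y - y‖ ≤ 1 / m * (M + 1) := by
      have h3 : ‖m • (f y - y)‖ ≤ M + 1 := by
        calc ‖m • (f y - y)‖ = ‖(m • (f y - y) - X y) + X y‖ := by congr 1; abel
          _ ≤ ‖m • (f y - y) - X y‖ + ‖X y‖ := norm_add_le _ _
          _ ≤ 1 + M := add_le_add (hstep.trans hε1) (hM y hyB)
          _ = M + 1 := by ring
      rw [norm_smul, Real.norm_eq_abs, abs_of_pos hm] at h3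
      rw [one_div, ← div_eq_inv_mul, le_div_iff₀ hm]
      linarith
    rw [Function.iterate_succ_apply', ← hy]
    have hjm : ((j + 1 : ℕ) : ℝ) / m = j / m + 1 / m := by push_cast; ring
    rw [hjm]
    constructor
    · calc ‖f y - x‖ = ‖(f y - y) + (y - x)‖ := by congr 1; abel
        _ ≤ ‖f y - y‖ + ‖y - x‖ := norm_add_le _ _
        _ ≤ 1 / m * (M + 1) + j / m * (M + 1) := add_le_add hs1 h1
        _ = (j / m + 1 / m) * (M + 1) := by ring
    · have hKy : ‖X y - X x‖ ≤ K * (j / m * (M + 1)) := by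
        calc ‖X y - X x‖ ≤ K * ‖y - x‖ := by
              simpa [dist_eq_norm] using hK.dist_le_mul _ hyB _ hxx
          _ ≤ K * (j / m * (M + 1)) := by gcongr
      have h4 : ‖f y - y - (1 / m) • X x‖ ≤ 1 / m * (ε + K * (j / m * (M + 1))) := by
        have h5 : f y - y - (1 / m) • X x
            = (1 / m) • ((m • (f y - y) - X y) + (X y - X x)) := by
          rw [smul_add, smul_sub (1 / m), smul_smul, one_div, inv_mul_cancel₀ hm.ne', one_smul,
            smul_sub m⁻¹]
          abel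
        rw [h5, norm_smul, Real.norm_eq_abs, abs_of_pos (by positivity)]
        gcongr
        exact (norm_add_le _ _).trans (add_le_add hstep hKy)
      calc ‖f y - x - (j / m + 1 / m) • X x‖
          = ‖(f y - y - (1 / m) • X x) + (y - x - (j / m) • X x)‖ := by
            congr 1; rw [add_smul]; abel
        _ ≤ 1 / m * (ε + K * (j / m * (M + 1))) + j / m * (ε + K * (j / m * (M + 1))) :=
            (norm_add_le _ _).trans (add_le_add h4 h2)
        _ = (j / m + 1 / m) * (ε + K * (j / m * (M + 1))) := by ring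
        _ ≤ (j / m + 1 / m) * (ε + K * ((j / m + 1 / m) * (M + 1))) := by
            gcongr
            have : 0 ≤ 1 / m := by positivity
            linarith

/-- limit form: if `f_k^{[m_k t]} → Φ` along `U` then `Φ` satisfies the second order estimate -/
lemma euler_limit_est {x₀ : E} {r M : ℝ} {K : NNReal}
    (hM : ∀ y ∈ closedBall x₀ (2 * r), ‖X y‖ ≤ M)
    (hK : LipschitzOnWith K X (closedBall x₀ (2 * r))) (hM0 : 0 ≤ M) (hr : 0 < r)
    {f : ℕ → E → E} {m : ℕ → ℝ} {l : Filter ℕ} [l.NeBot] (hl : l ≤ atTop)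
    (hm : Tendsto m atTop atTop)
    (hf : ∀ ε > 0, ∀ᶠ k in atTop, ∀ y ∈ closedBall x₀ (2 * r), ‖m k • (f k y - y) - X y‖ ≤ ε)
    {x : E} (hx : x ∈ closedBall x₀ r) {t : ℝ} (ht : 0 ≤ t) (htr : t * (M + 1) ≤ r) {y : E}
    (hy : Tendsto (fun k => (f k)^[⌊m k * t⌋₊] x) l (𝓝 y)) :
    ‖y - x‖ ≤ t * (M + 1) ∧ ‖y - x - t • X x‖ ≤ K * (M + 1) * t ^ 2 := by
  have hmt : Tendsto (fun k => (⌊m k * t⌋₊ : ℝ) / m k) l (𝓝 t) := by
    have h1 : Tendsto (fun k => (⌊t * m k⌋₊ : ℝ) / m k) atTop (𝓝 t) :=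
      (tendsto_nat_floor_mul_div_atTop ht).comp hm
    refine (h1.congr (fun k => ?_)).mono_left hl
    rw [mul_comm]
  have hmpos : ∀ᶠ k in l, 0 < m k := hl (hm.eventually (eventually_gt_atTop 0))
  have hle : ∀ᶠ k in l, (⌊m k * t⌋₊ : ℝ) / m k ≤ t := by
    filter_upwards [hmpos] with k hk
    rw [div_le_iff₀ hk, mul_comm]
    exact Nat.floor_le (by positivity)
  have key : ∀ ε > 0, ε ≤ 1 → ∀ᶠ k in l, ‖(f k)^[⌊m k * t⌋₊] x - x‖ ≤ t * (M + 1) ∧
      ‖(f k)^[⌊m k * t⌋₊] x - x - ((⌊m k * t⌋₊ : ℝ) / m k) • X x‖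
        ≤ t * (ε + K * (t * (M + 1))) := by
    intro ε hε hε1
    filter_upwards [hmpos, hle, hl (hf ε hε)] with k h1 h2 h3
    have h4 : (⌊m k * t⌋₊ : ℝ) / m k * (M + 1) ≤ t * (M + 1) := by gcongr
    obtain ⟨h5, h6⟩ := euler_est hM hK hM0 hr hε.le hε1 h1 h3 hx ⌊m k * t⌋₊ (h4.trans htr)
    have h7 : 0 ≤ (⌊m k * t⌋₊ : ℝ) / m k := by positivity
    refine ⟨h5.trans h4, h6.trans ?_⟩
    gcongr
  constructor
  · refine le_of_tendsto ((hy.sub_const x).norm) ?_
    exact (key 1 one_pos le_rfl).mono (fun k hk => hk.1)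
  · have h1 : ∀ ε > 0, ε ≤ 1 → ‖y - x - t • X x‖ ≤ t * (ε + K * (t * (M + 1))) := by
      intro ε hε hε1
      refine le_of_tendsto (((hy.sub_const x).sub (hmt.smul_const (X x))).norm) ?_
      exact (key ε hε hε1).mono (fun k hk => hk.2)
    have h2 : Tendsto (fun ε : ℝ => t * (ε + K * (t * (M + 1)))) (𝓝[>] 0)
        (𝓝 (t * (0 + K * (t * (M + 1))))) := by
      refine Tendsto.mono_left ?_ nhdsWithin_le_nhds
      exact Continuous.tendsto (by fun_prop) 0
    have h3 : ‖y - x - t • X x‖ ≤ t * (0 + K * (t * (M + 1))) := by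
      refine ge_of_tendsto h2 ?_
      have : ∀ᶠ ε in 𝓝[>] (0 : ℝ), ε ∈ Ioo (0 : ℝ) 1 := Ioo_mem_nhdsGT one_pos
      filter_upwards [this] with ε hε
      exact h1 ε hε.1 hε.2.le
    refine h3.trans (le_of_eq ?_)
    ring

/-- extension of an additive one-parameter semigroup in a group to a one-parameter group -/
lemma exists_group_ext {G : Type*} [Group G] (Φ : ℝ → G)
    (h : ∀ s t, 0 ≤ s → 0 ≤ t → Φ (s + t) = Φ s * Φ t) :
    ∃ φ : ℝ → G, (∀ s t, φ (s + t) = φ s * φ t) ∧ (∀ t, 0 ≤ t → φ t = Φ t) ∧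
      ∀ t, 0 ≤ t → φ (-t) = (Φ t)⁻¹ := by
  have h0 : Φ 0 = 1 := by
    have := h 0 0 le_rfl le_rfl
    rw [add_zero] at this
    exact left_eq_mul.1 this
  refine ⟨fun t => if 0 ≤ t then Φ t else (Φ (-t))⁻¹, ?_, ?_, ?_⟩
  · intro s t
    by_cases hs : 0 ≤ s <;> by_cases ht : 0 ≤ t <;> simp only [hs, ht, if_true, if_false]
    · rw [if_pos (add_nonneg hs ht), h s t hs ht]
    · push Not at ht
      by_cases hst : 0 ≤ s + t
      · rw [if_pos hst, eq_mul_inv_iff_mul_eq, ← h _ _ hst (by linarith)]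
        congr 1; ring
      · rw [if_neg hst]
        push Not at hst
        rw [eq_comm, mul_inv_eq_iff_eq_mul, eq_inv_mul_iff_mul_eq, ← h _ _ (by linarith) hs]
        congr 1; ring
    · push Not at hs
      by_cases hst : 0 ≤ s + t
      · rw [if_pos hst, eq_inv_mul_iff_mul_eq, ← h _ _ (by linarith) hst]
        congr 1; ring
      · rw [if_neg hst]
        push Not at hst
        rw [inv_eq_iff_eq_inv, mul_inv_rev, inv_inv, eq_inv_mul_iff_mul_eq,
          ← h _ _ ht (by linarith)]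
        congr 1; ring
    · push Not at hs ht
      rw [if_neg (by linarith), ← mul_inv_rev, ← h _ _ (by linarith) (by linarith)]
      congr 2; ring
  · intro t ht
    simp [ht]
  · intro t ht
    rcases ht.eq_or_lt with rfl | ht'
    · simp [h0]
    · simp [ht'.not_ge]

lemma hasDerivAt_of_sq {c : ℝ → E} {v : E} {δ C : ℝ} (hδ : 0 < δ)
    (h : ∀ t, |t| ≤ δ → ‖c t - c 0 - t • v‖ ≤ C * t ^ 2) : HasDerivAt c v 0 := by
  rw [hasDerivAt_iff_isLittleO]
  have h1 : (fun t : ℝ => c t - c 0 - (t - 0) • v) =O[𝓝 0] (fun t : ℝ => t ^ 2) := by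
    refine Asymptotics.IsBigO.of_bound C ?_
    have : ∀ᶠ t in 𝓝 (0 : ℝ), |t| ≤ δ := by
      have hc : ContinuousAt (fun t : ℝ => |t|) 0 := by fun_prop
      exact (hc.eventually (gt_mem_nhds (by simpa using hδ))).mono (fun t ht => ht.le)
    filter_upwards [this] with t ht
    rw [sub_zero, Real.norm_eq_abs, abs_of_nonneg (sq_nonneg t)]
    exact h t ht
  refine h1.trans_isLittleO ?_
  have h2 : (fun t : ℝ => t ^ 2) =o[𝓝 0] (fun t : ℝ => t ^ 1) :=
    Asymptotics.isLittleO_pow_pow (by norm_num)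
  simpa using h2

lemma AutPair.iter {D : Set E} {f g : E → E} (h : AutPair D f g) (n : ℕ) :
    AutPair D (f^[n]) (g^[n]) := by
  induction n with
  | zero => exact ⟨differentiableOn_id, differentiableOn_id, mapsTo_id _, mapsTo_id _,
      fun x _ => rfl, fun x _ => rfl⟩
  | succ n ih =>
    refine ⟨?_, ?_, ?_, ?_, ?_, ?_⟩
    · rw [Function.iterate_succ]
      exact ih.hF.comp h.hF h.mapsF
    · rw [Function.iterate_succ]
      exact ih.hG.comp h.hG h.mapsG
    · rw [Function.iterate_succ]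
      exact ih.mapsF.comp h.mapsF
    · rw [Function.iterate_succ]
      exact ih.mapsG.comp h.mapsG
    · intro x hx
      rw [Function.iterate_succ' f, Function.iterate_succ g, Function.comp_apply,
        Function.comp_apply, h.left _ (ih.mapsF hx), ih.left x hx]
    · intro x hx
      rw [Function.iterate_succ' g, Function.iterate_succ f, Function.comp_apply,
        Function.comp_apply, h.right _ (ih.mapsG hx), ih.right x hx]

lemma AutPair.comp' {D : Set E} {f g f' g' : E → E} (h : AutPair D f g) (h' : AutPair D f' g') :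
    AutPair D (f ∘ f') (g' ∘ g) where
  hF := h.hF.comp h'.hF h'.mapsF
  hG := h'.hG.comp h.hG h.mapsG
  mapsF := h.mapsF.comp h'.mapsF
  mapsG := h'.mapsG.comp h.mapsG
  left x hx := by
    simp only [Function.comp_apply]
    rw [h.left _ (h'.mapsF hx), h'.left x hx]
  right x hx := by
    simp only [Function.comp_apply]
    rw [h'.right _ (h.mapsG hx), h.right x hx]

lemma AutPair.congr' {D : Set E} {f g f' g' : E → E} (h : AutPair D f g) (hf : EqOn f' f D)
    (hg : EqOn g' g D) : AutPair D f' g' where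
  hF := h.hF.congr hf
  hG := h.hG.congr hg
  mapsF := h.mapsF.congr hf.symm
  mapsG := h.mapsG.congr hg.symm
  left x hx := by rw [hf hx, hg (h.mapsF hx), h.left x hx]
  right x hx := by rw [hg hx, hf (h.mapsG hx), h.right x hx]

lemma AutPair.id' (D : Set E) : AutPair D (fun x => x) (fun x => x) :=
  ⟨differentiableOn_id, differentiableOn_id, mapsTo_id _, mapsTo_id _, fun _ _ => rfl,
    fun _ _ => rfl⟩

/-- an automorphism as a permutation of `D` -/
noncomputable def AutPair.perm {D : Set E} {f g : E → E} (h : AutPair D f g) :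
    Equiv.Perm D where
  toFun x := ⟨f x, h.mapsF x.2⟩
  invFun x := ⟨g x, h.mapsG x.2⟩
  left_inv x := Subtype.ext (h.left x x.2)
  right_inv x := Subtype.ext (h.right x x.2)

/-- convergence of the generators of the inverse maps -/
lemma gen_inv [FiniteDimensional ℂ E] (hD : IsOpen D) (hne : D.Nonempty) (hL : AutLimU D)
    {f g : ℕ → E → E} (h : ∀ k, AutPair D (f k) (g k)) {m : ℕ → ℝ}
    (hm : Tendsto m atTop atTop)
    (hX : TendstoLocallyUniformlyOn (fun k x => m k • (f k x - x)) X atTop D) :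
    TendstoLocallyUniformlyOn f (fun x => x) atTop D ∧
    TendstoLocallyUniformlyOn (fun k x => m k • (g k x - x)) (fun x => - X x) atTop D := by
  have hXc : ContinuousOn X D := hX.continuousOn (Filter.Eventually.of_forall (fun k =>
    (((h k).hF.sub differentiableOn_id).const_smul (m k : ℝ)).continuousOn)).frequently
  have h1 : TendstoLocallyUniformlyOn f (fun x => x) atTop D := by
    rw [Metric.tendstoLocallyUniformlyOn_iff] at hX ⊢
    intro ε hε x hx
    obtain ⟨V, hV, hV2⟩ := hX 1 one_pos x hx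
    have hc : ∀ᶠ y in 𝓝[D] x, ‖X y‖ < ‖X x‖ + 1 :=
      (hXc x hx).norm.eventually (gt_mem_nhds (lt_add_one _))
    refine ⟨V ∩ {y | ‖X y‖ < ‖X x‖ + 1}, inter_mem hV hc, ?_⟩
    have hmbig : ∀ᶠ k in atTop, (‖X x‖ + 2) / ε < m k := hm.eventually (eventually_gt_atTop _)
    have hmpos : ∀ᶠ k in atTop, 0 < m k := hm.eventually (eventually_gt_atTop 0)
    filter_upwards [hV2, hmbig, hmpos] with k h2 h3 h4 y hy
    have h5 := h2 y hy.1
    rw [dist_comm, dist_eq_norm] at h5
    have h6 : ‖m k • (f k y - y)‖ < ‖X x‖ + 2 := by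
      calc ‖m k • (f k y - y)‖ = ‖(m k • (f k y - y) - X y) + X y‖ := by congr 1; abel
        _ ≤ ‖m k • (f k y - y) - X y‖ + ‖X y‖ := norm_add_le _ _
        _ < 1 + (‖X x‖ + 1) := add_lt_add h5 hy.2
        _ = ‖X x‖ + 2 := by ring
    rw [norm_smul, Real.norm_eq_abs, abs_of_pos h4] at h6
    rw [dist_comm, dist_eq_norm]
    rw [div_lt_iff₀ hε] at h3
    by_contra hcon
    push Not at hcon
    have : m k * ε ≤ m k * ‖f k y - y‖ := mul_le_mul_of_nonneg_left hcon h4.le
    linarith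
  refine ⟨h1, ?_⟩
  obtain ⟨p, hp⟩ := hne
  obtain ⟨G, hG, hgG⟩ := hL atTop f g (fun x => x) p h h1 hp hp
  have hGid : ∀ x ∈ D, G x = x := fun x hx => hG.left x hx
  have hG2 : TendstoLocallyUniformlyOn g (fun x => x) atTop D :=
    hgG.congr_right (fun x hx => hGid x hx)
  have h2 := tlu_comp hD hX hXc hG2 continuousOn_id (mapsTo_id D)
  have h3 : TendstoLocallyUniformlyOn (fun k x => - (m k • (f k (g k x) - g k x)))
      (fun x => - X x) atTop D := h2.neg
  refine h3.congr (fun k x hx => ?_)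
  simp only
  rw [(h k).right x hx, ← smul_neg]
  congr 1
  abel

theorem euler_limit [FiniteDimensional ℂ E] (hD : IsOpen D) (hne : D.Nonempty)
    (hMon : MontelU D) (hL : AutLimU D)
    {f g : ℕ → E → E} (h : ∀ k, AutPair D (f k) (g k)) {m : ℕ → ℝ}
    (hm : Tendsto m atTop atTop)
    (hX : TendstoLocallyUniformlyOn (fun k x => m k • (f k x - x)) X atTop D) :
    IsComplete D X := by
  classical
  have hXd : DifferentiableOn ℂ X D :=
    (R266.SCV.analyticOnNhd_of_tendstoLocallyUniformlyOn hD hX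
      (Filter.Eventually.of_forall (fun k =>
        ((h k).hF.sub differentiableOn_id).const_smul (m k : ℝ)))).differentiableOn
  have hXnd : DifferentiableOn ℂ (fun x => - X x) D := hXd.neg
  obtain ⟨hfid, hXn⟩ := gen_inv hD hne hL h hm hX
  set U : Ultrafilter ℕ := hyperfilter ℕ with hU
  have hUle : (U : Filter ℕ) ≤ atTop := Nat.hyperfilter_le_atTop
  -- the limits of the iterates
  have hch : ∀ t : ℝ, ∃ F : E → E, TendstoLocallyUniformlyOn
      (fun k => (f k)^[⌊m k * t⌋₊]) F (U : Filter ℕ) D := fun t =>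
    hMon U _ (fun k => ((h k).iter _).hF) (fun k => ((h k).iter _).mapsF)
  choose Φ hΦ using hch
  have hΦc : ∀ t, ContinuousOn (Φ t) D := fun t => (hΦ t).continuousOn
    (Filter.Eventually.of_forall (fun k => ((h k).iter _).hF.continuousOn)).frequently
  -- uniform closeness on balls
  have hunif : ∀ (F : ℕ → E → E) (Y : E → E),
      TendstoLocallyUniformlyOn (fun k x => m k • (F k x - x)) Y atTop D →
      ∀ (x₀ : E) (r : ℝ), closedBall x₀ (2 * r) ⊆ D → ∀ ε > 0, ∀ᶠ k in atTop,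
        ∀ y ∈ closedBall x₀ (2 * r), ‖m k • (F k y - y) - Y y‖ ≤ ε := by
    intro F Y hFY x₀ r hsub ε hε
    have : ProperSpace E := FiniteDimensional.proper ℂ E
    have h1 := (tendstoLocallyUniformlyOn_iff_forall_isCompact hD).1 hFY _ hsub
      (isCompact_closedBall x₀ (2 * r))
    rw [Metric.tendstoUniformlyOn_iff] at h1
    filter_upwards [h1 ε hε] with k hk y hy
    have := hk y hy
    rw [dist_comm, dist_eq_norm] at this
    exact this.le
  -- semigroup property
  have hsemi : ∀ s t : ℝ, 0 ≤ s → 0 ≤ t → MapsTo (Φ t) D D → ∀ x ∈ D,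
      Φ (s + t) x = Φ s (Φ t x) := by
    intro s t hs ht hmaps x hx
    have hmpos : ∀ᶠ k in atTop, 0 ≤ m k := hm.eventually (eventually_ge_atTop 0)
    set δ : ℕ → ℕ := fun k => ⌊m k * (s + t)⌋₊ - ⌊m k * s⌋₊ - ⌊m k * t⌋₊ with hδ
    have hfl : ∀ᶠ k in (U : Filter ℕ), ⌊m k * (s + t)⌋₊ = ⌊m k * s⌋₊ + (⌊m k * t⌋₊ + δ k) ∧
        δ k ≤ 1 := by
      filter_upwards [hUle hmpos] with k hk
      have ha : 0 ≤ m k * s := by positivity
      have hb : 0 ≤ m k * t := by positivity
      have h1 : ⌊m k * s⌋₊ + ⌊m k * t⌋₊ ≤ ⌊m k * (s + t)⌋₊ := by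
        refine Nat.le_floor ?_
        push_cast
        rw [mul_add]
        exact add_le_add (Nat.floor_le ha) (Nat.floor_le hb)
      have h2 : ⌊m k * (s + t)⌋₊ < ⌊m k * s⌋₊ + ⌊m k * t⌋₊ + 2 := by
        rw [Nat.floor_lt (by positivity)]
        push_cast
        have h3 := Nat.lt_floor_add_one (m k * s)
        have h4 := Nat.lt_floor_add_one (m k * t)
        rw [mul_add]
        linarith
      simp only [hδ]
      omega
    have hxk : Tendsto (fun k => (f k)^[δ k] x) (U : Filter ℕ) (𝓝 x) := by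
      rw [Metric.tendsto_nhds]
      intro ε hε
      have h1 : ∀ᶠ k in atTop, dist (f k x) x < ε :=
        Metric.tendsto_nhds.1 (hfid.tendsto_at hx) ε hε
      filter_upwards [hfl, hUle h1] with k hk h2
      have : δ k = 0 ∨ δ k = 1 := by omega
      rcases this with h3 | h3
      · rw [h3]; simpa using hε
      · rw [h3]; simpa using h2
    have hxkD : ∀ k, (f k)^[δ k] x ∈ D := fun k => ((h k).iter _).mapsF hx
    have h1 : Tendsto (fun k => (f k)^[⌊m k * t⌋₊] ((f k)^[δ k] x)) (U : Filter ℕ)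
        (𝓝 (Φ t x)) :=
      (hΦ t).tendsto_comp (hΦc t x hx) hx
        (tendsto_nhdsWithin_iff.2 ⟨hxk, Filter.Eventually.of_forall hxkD⟩)
    have h2 : Tendsto (fun k => (f k)^[⌊m k * s⌋₊] ((f k)^[⌊m k * t⌋₊] ((f k)^[δ k] x)))
        (U : Filter ℕ) (𝓝 (Φ s (Φ t x))) :=
      (hΦ s).tendsto_comp (hΦc s _ (hmaps hx)) (hmaps hx)
        (tendsto_nhdsWithin_iff.2 ⟨h1, Filter.Eventually.of_forall
          (fun k => ((h k).iter _).mapsF (hxkD k))⟩)
    have h3 : Tendsto (fun k => (f k)^[⌊m k * (s + t)⌋₊] x) (U : Filter ℕ)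
        (𝓝 (Φ (s + t) x)) := (hΦ (s + t)).tendsto_at hx
    refine tendsto_nhds_unique h3 (h2.congr' ?_)
    filter_upwards [hfl] with k hk
    rw [hk.1, Function.iterate_add_apply, Function.iterate_add_apply]
  -- small times
  obtain ⟨p, hp⟩ := hne
  obtain ⟨r, M, K, hr, hM0, hsub, hM, hK⟩ := exists_good hD hXd hp
  have hpball : p ∈ closedBall p r := mem_closedBall_self hr.le
  have hsmall : ∀ t : ℝ, 0 ≤ t → t * (M + 1) ≤ r → ∃ G, AutPair D (Φ t) G := by
    intro t ht htr
    have h1 := euler_limit_est hM hK hM0.le hr hUle hm (hunif f X hX p r hsub) hpball ht htr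
      ((hΦ t).tendsto_at hp)
    have h2 : Φ t p ∈ D := by
      refine hsub ?_
      rw [mem_closedBall, dist_eq_norm]
      linarith [h1.1]
    obtain ⟨G, hG, _⟩ := hL U _ _ (Φ t) p (fun k => (h k).iter _) (hΦ t) hp h2
    exact ⟨G, hG⟩
  have hadd : ∀ s t : ℝ, 0 ≤ s → 0 ≤ t → (∃ G, AutPair D (Φ s) G) →
      (∃ G, AutPair D (Φ t) G) → ∃ G, AutPair D (Φ (s + t)) G := by
    rintro s t hs ht ⟨G, hG⟩ ⟨G', hG'⟩
    exact ⟨G' ∘ G, (hG.comp' hG').congr' (fun x hx => hsemi s t hs ht hG'.mapsF x hx)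
      (fun x _ => rfl)⟩
  have hall : ∀ t : ℝ, 0 ≤ t → ∃ G, AutPair D (Φ t) G := by
    intro t ht
    have hM1 : 0 < M + 1 := by linarith
    obtain ⟨N, hN⟩ := exists_nat_gt (t * (M + 1) / r)
    have hNpos : (0 : ℝ) < N := lt_of_le_of_lt (by positivity) hN
    have h1 : ∀ n : ℕ, ∃ G, AutPair D (Φ (n * (t / N))) G := by
      intro n
      induction n with
      | zero => exact hsmall _ (by simp) (by simpa using hr.le)
      | succ n ih =>
        have h2 : ((n + 1 : ℕ) : ℝ) * (t / N) = n * (t / N) + t / N := by push_cast; ring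
        rw [h2]
        refine hadd _ _ (by positivity) (by positivity) ih (hsmall _ (by positivity) ?_)
        rw [div_lt_iff₀ hr] at hN
        rw [div_mul_eq_mul_div, div_le_iff₀ hNpos]
        linarith
    have h3 := h1 N
    rwa [mul_div_cancel₀ _ hNpos.ne'] at h3
  have hall2 : ∀ t : ℝ, 0 ≤ t → ∃ G, AutPair D (Φ t) G ∧
      TendstoLocallyUniformlyOn (fun k => (g k)^[⌊m k * t⌋₊]) G (U : Filter ℕ) D := by
    intro t ht
    obtain ⟨G, hG⟩ := hall t ht
    exact hL U _ _ (Φ t) p (fun k => (h k).iter _) (hΦ t) hp (hG.mapsF hp)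
  choose! Γ hΓ hΓl using hall2
  -- the group
  set P : ℝ → Equiv.Perm D := fun t => if ht : 0 ≤ t then (hΓ t ht).perm else 1 with hP
  have hPadd : ∀ s t, 0 ≤ s → 0 ≤ t → P (s + t) = P s * P t := by
    intro s t hs ht
    ext x
    simp only [hP, hs, ht, add_nonneg hs ht, dif_pos]
    exact hsemi s t hs ht (hΓ t ht).mapsF x x.2
  obtain ⟨φ', hφadd, hφpos, hφneg⟩ := exists_group_ext P hPadd
  set φ : ℝ → E → E := fun t x => if hx : x ∈ D then (φ' t ⟨x, hx⟩ : E) else x with hφ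
  have hφ1 : ∀ t, 0 ≤ t → EqOn (φ t) (Φ t) D := by
    intro t ht x hx
    simp only [hφ, hx, dif_pos, hφpos t ht]
    simp only [hP, ht, dif_pos]
    rfl
  have hφ2 : ∀ t, 0 ≤ t → EqOn (φ (-t)) (Γ t) D := by
    intro t ht x hx
    simp only [hφ, hx, dif_pos, hφneg t ht]
    simp only [hP, ht, dif_pos]
    rfl
  have hφmaps : ∀ t, MapsTo (φ t) D D := by
    intro t x hx
    simp only [hφ, hx, dif_pos]
    exact (φ' t ⟨x, hx⟩).2
  have hφ'0 : φ' 0 = 1 := by
    have := hφadd 0 0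
    rw [add_zero] at this
    exact left_eq_mul.1 this
  refine ⟨hXd, φ, ?_, hφmaps, ?_, ?_, ?_⟩
  · intro t
    rcases le_total 0 t with ht | ht
    · exact (hΓ t ht).hF.congr (hφ1 t ht)
    · have ht' : 0 ≤ -t := by linarith
      have h1 := (hΓ (-t) ht').hG.congr (hφ2 (-t) ht')
      rwa [neg_neg] at h1
  · intro x hx
    simp [hφ, hx, hφ'0]
  · intro s t x hx
    have h1 : φ t x ∈ D := hφmaps t hx
    have h2 : φ t x = (φ' t ⟨x, hx⟩ : E) := by simp only [hφ, hx, dif_pos]
    have h3 : φ s (φ t x) = (φ' s ⟨φ t x, h1⟩ : E) := by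
      simp only [hφ] at h1 ⊢
      rw [dif_pos h1]
    rw [h3]
    have h4 : (⟨φ t x, h1⟩ : D) = φ' t ⟨x, hx⟩ := Subtype.ext h2
    rw [h4]
    have h5 : φ (s + t) x = (φ' (s + t) ⟨x, hx⟩ : E) := by simp only [hφ, hx, dif_pos]
    rw [h5, hφadd]
    rfl
  · intro x hx
    obtain ⟨r, M, K, hr, hM0, hsub, hM, hK⟩ := exists_good hD hXd hx
    have hxball : x ∈ closedBall x r := mem_closedBall_self hr.le
    have hMn : ∀ y ∈ closedBall x (2 * r), ‖(fun x => - X x) y‖ ≤ M := by
      intro y hy; simpa using hM y hy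
    have hKn : LipschitzOnWith K (fun x => - X x) (closedBall x (2 * r)) := by
      intro a ha b hb
      simpa using hK ha hb
    have hM1 : 0 < M + 1 := by linarith
    have hφ0 : φ 0 x = x := by simp [hφ, hx, hφ'0]
    refine hasDerivAt_of_sq (δ := r / (M + 1)) (C := K * (M + 1)) (by positivity) ?_
    intro t ht
    rw [le_div_iff₀ hM1] at ht
    rw [hφ0]
    rcases le_total 0 t with ht0 | ht0
    · rw [abs_of_nonneg ht0] at ht
      have h1 := euler_limit_est hM hK hM0.le hr hUle hm (hunif f X hX x r hsub) hxball ht0 ht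
        ((hΦ t).tendsto_at hx)
      rw [hφ1 t ht0 hx]
      exact h1.2
    · rw [abs_of_nonpos ht0] at ht
      have ht0' : 0 ≤ -t := by linarith
      have h1 := euler_limit_est hMn hKn hM0.le hr hUle hm (hunif g _ hXn x r hsub) hxball ht0' ht
        ((hΓl (-t) ht0').tendsto_at hx)
      have h2 := hφ2 (-t) ht0' hx
      rw [neg_neg] at h2
      rw [h2]
      have h3 := h1.2
      simp only [smul_neg, neg_smul, neg_neg] at h3
      have h4 : (-t) ^ 2 = t ^ 2 := by ring
      rwa [h4] at h3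

end Euler

end Crest.Agent.R264
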