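import Crest.Agent.R264.AutDefs
import Crest.Agent.R266.SCV
import Crest.Agent.R264.AutLem

/-!
Row 264, part D3 (helper938): local estimates for flows of holomorphic vector fields.
-/

set_option autoImplicit false

open Set Filter Topology Metric

namespace Crest.Agent.R264

variable {E : Type*} [NormedAddCommGroup E] [NormedSpace ℂ E]

/-- local data: a closed ball inside `D` on which `X` is bounded and Lipschitz -/
lemma exists_good [FiniteDimensional ℂ E] {D : Set E} (hD : IsOpen D) {X : E → E}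
    (hX : DifferentiableOn ℂ X D) {x₀ : E} (hx₀ : x₀ ∈ D) :
    ∃ r M : ℝ, ∃ K : NNReal, 0 < r ∧ 0 < M ∧ closedBall x₀ (2 * r) ⊆ D ∧
      (∀ y ∈ closedBall x₀ (2 * r), ‖X y‖ ≤ M) ∧ LipschitzOnWith K X (closedBall x₀ (2 * r)) := by
  have hA : AnalyticOnNhd ℂ X D := R266.SCV.analyticOnNhd_of_differentiableOn hD hX
  have h1 : ContDiffAt ℂ 1 X x₀ := (hA x₀ hx₀).contDiffAt
  obtain ⟨K, t, ht, hK⟩ := h1.exists_lipschitzOnWith
  have h2 : ∀ᶠ y in 𝓝 x₀, ‖X y‖ < ‖X x₀‖ + 1 :=
    h1.continuousAt.norm.eventually (gt_mem_nhds (lt_add_one _))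
  have h3 : ∀ᶠ y in 𝓝 x₀, y ∈ t ∧ y ∈ D ∧ ‖X y‖ < ‖X x₀‖ + 1 := by
    filter_upwards [ht, hD.mem_nhds hx₀, h2] with y h4 h5 h6 using ⟨h4, h5, h6⟩
  obtain ⟨ρ, hρ, hsub⟩ := Metric.nhds_basis_closedBall.mem_iff.1 h3
  refine ⟨ρ / 2, ‖X x₀‖ + 1, K, by positivity, by positivity, ?_, ?_, ?_⟩
  · intro y hy
    rw [mul_div_cancel₀ _ two_ne_zero] at hy
    exact (hsub hy).2.1
  · intro y hy
    rw [mul_div_cancel₀ _ two_ne_zero] at hy
    exact (hsub hy).2.2.le
  · refine hK.mono (fun y hy => ?_)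
    rw [mul_div_cancel₀ _ two_ne_zero] at hy
    exact (hsub hy).1

section Flow

variable {D : Set E} {X : E → E} {φ : ℝ → E → E}

lemma IsFlow.hasDerivAt' (h : IsFlow D X φ) {x : E} (hx : x ∈ D) (t : ℝ) :
    HasDerivAt (fun s => φ s x) (X (φ t x)) t := by
  have h1 := h.gen (φ t x) (h.maps t hx)
  have h2 : HasDerivAt (fun s : ℝ => φ (s - t) (φ t x)) (X (φ t x)) t := by
    have h3 : HasDerivAt (fun s => φ s (φ t x)) (X (φ t x)) (t - t) := by simpa using h1
    have h4 : HasDerivAt (fun s : ℝ => s - t) 1 t := (hasDerivAt_id t).sub_const t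
    simpa [Function.comp_def] using HasDerivAt.scomp (h := fun s : ℝ => s - t) t h3 h4
  refine h2.congr_of_eventuallyEq (Filter.Eventually.of_forall (fun s => ?_))
  change φ s x = φ (s - t) (φ t x)
  rw [← h.add _ _ x hx]
  congr 1
  ring

/-- reversed flow -/
lemma IsFlow.rev (h : IsFlow D X φ) : IsFlow D (fun x => - X x) (fun t => φ (-t)) where
  hol t := h.hol _
  maps t := h.maps _
  zero x hx := by simpa using h.zero x hx
  add s t x hx := by
    rw [neg_add, h.add _ _ x hx]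
  gen x hx := by
    have h1 : HasDerivAt (fun s => φ s x) (X x) (-(0 : ℝ)) := by simpa using h.gen x hx
    simpa [Function.comp_def] using h1.scomp (0 : ℝ) (hasDerivAt_neg (0 : ℝ))

/-- rescaled flow -/
lemma IsFlow.smul (h : IsFlow D X φ) (c : ℝ) :
    IsFlow D (fun x => c • X x) (fun t => φ (c * t)) where
  hol t := h.hol _
  maps t := h.maps _
  zero x hx := by simpa using h.zero x hx
  add s t x hx := by
    rw [mul_add, h.add _ _ x hx]
  gen x hx := by
    have h1 : HasDerivAt (fun s => φ s x) (X x) (c * 0) := by simpa using h.gen x hx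
    have h2 : HasDerivAt (fun t : ℝ => c * t) c 0 := by
      simpa using (hasDerivAt_id (0 : ℝ)).const_mul c
    exact h1.scomp (0 : ℝ) h2

/-- forward speed bound -/
lemma IsFlow.norm_sub_le_pos (h : IsFlow D X φ) {x₀ : E} {r M : ℝ}
    (hsub : closedBall x₀ (2 * r) ⊆ D) (hM : ∀ y ∈ closedBall x₀ (2 * r), ‖X y‖ ≤ M)
    (hr : 0 < r) {M' : ℝ} (hM' : M < M') (hM'0 : 0 < M') {x : E} (hx : x ∈ closedBall x₀ r)
    {t : ℝ} (ht : 0 ≤ t) (htr : t * M' ≤ r) : ‖φ t x - x‖ ≤ M' * t := by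
  have hxD : x ∈ D := hsub (closedBall_subset_closedBall (by linarith) hx)
  have hd : ∀ s : ℝ, HasDerivAt (fun s => φ s x - x) (X (φ s x)) s := fun s =>
    (h.hasDerivAt' hxD s).sub_const x
  have key := image_norm_le_of_norm_deriv_right_lt_deriv_boundary (a := 0) (b := t)
    (f := fun s => φ s x - x) (f' := fun s => X (φ s x)) (B := fun s => M' * s)
    (B' := fun _ => M')
    (fun s _ => (hd s).continuousAt.continuousWithinAt)
    (fun s _ => (hd s).hasDerivWithinAt) (by simp [h.zero x hxD])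
    (fun s => by simpa using (hasDerivAt_id s).const_mul M') ?_
  · exact key ⟨ht, le_rfl⟩
  · intro s hs heq
    refine lt_of_le_of_lt (hM _ ?_) hM'
    rw [mem_closedBall] at hx ⊢
    calc dist (φ s x) x₀ ≤ dist (φ s x) x + dist x x₀ := dist_triangle _ _ _
      _ ≤ r + r := by
        refine add_le_add ?_ hx
        rw [dist_eq_norm, heq]
        calc M' * s ≤ M' * t := by
              exact mul_le_mul_of_nonneg_left hs.2.le hM'0.le
          _ = t * M' := mul_comm _ _
          _ ≤ r := htr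
      _ = 2 * r := by ring

/-- forward second order estimate -/
lemma IsFlow.taylor_pos (h : IsFlow D X φ) {x₀ : E} {r M : ℝ} {K : NNReal}
    (hsub : closedBall x₀ (2 * r) ⊆ D) (hM : ∀ y ∈ closedBall x₀ (2 * r), ‖X y‖ ≤ M)
    (hK : LipschitzOnWith K X (closedBall x₀ (2 * r)))
    (hr : 0 < r) {M' : ℝ} (hM' : M < M') (hM'0 : 0 < M') {x : E} (hx : x ∈ closedBall x₀ r)
    {t : ℝ} (ht : 0 ≤ t) (htr : t * M' ≤ r) : ‖φ t x - x - t • X x‖ ≤ K * M' * t ^ 2 := by
  have hxD : x ∈ D := hsub (closedBall_subset_closedBall (by linarith) hx)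
  have hd : ∀ s : ℝ, HasDerivAt (fun s : ℝ => φ s x - s • X x) (X (φ s x) - X x) s := fun s => by
    have h1 : HasDerivAt (fun s : ℝ => s • X x) ((1 : ℝ) • X x) s :=
      (hasDerivAt_id s).smul_const _
    have h2 := (h.hasDerivAt' hxD s).sub h1
    rw [one_smul] at h2
    exact h2
  have hbd : ∀ s ∈ Ico (0 : ℝ) t, ‖X (φ s x) - X x‖ ≤ K * (M' * t) := by
    intro s hs
    have hsr : s * M' ≤ r := (mul_le_mul_of_nonneg_right hs.2.le hM'0.le).trans htr
    have h1 := h.norm_sub_le_pos hsub hM hr hM' hM'0 hx hs.1 hsr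
    have h2 : φ s x ∈ closedBall x₀ (2 * r) := by
      rw [mem_closedBall] at hx ⊢
      calc dist (φ s x) x₀ ≤ dist (φ s x) x + dist x x₀ := dist_triangle _ _ _
        _ ≤ r + r := by
          refine add_le_add ?_ hx
          rw [dist_eq_norm]
          linarith
        _ = 2 * r := by ring
    have h3 : x ∈ closedBall x₀ (2 * r) := closedBall_subset_closedBall (by linarith) hx
    calc ‖X (φ s x) - X x‖ ≤ K * ‖φ s x - x‖ := by
          simpa [dist_eq_norm] using hK.dist_le_mul _ h2 _ h3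
      _ ≤ K * (M' * t) := by
          refine mul_le_mul_of_nonneg_left ?_ K.2
          exact h1.trans (mul_le_mul_of_nonneg_left hs.2.le hM'0.le)
  have key := norm_image_sub_le_of_norm_deriv_le_segment' (a := 0) (b := t)
    (f := fun s : ℝ => φ s x - s • X x) (f' := fun s => X (φ s x) - X x) (C := K * (M' * t))
    (fun s _ => (hd s).hasDerivWithinAt) hbd t ⟨ht, le_rfl⟩
  simp only [zero_smul, sub_zero, h.zero x hxD] at key
  have e1 : φ t x - x - t • X x = φ t x - t • X x - x := by abel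
  rw [e1]
  refine key.trans (le_of_eq ?_)
  ring

/-- a uniform second order estimate near a point, both directions of time -/
lemma IsFlow.taylor [FiniteDimensional ℂ E] (h : IsFlow D X φ) (hD : IsOpen D)
    (hX : DifferentiableOn ℂ X D) {x₀ : E} (hx₀ : x₀ ∈ D) :
    ∃ r δ C : ℝ, 0 < r ∧ 0 < δ ∧ 0 ≤ C ∧ closedBall x₀ (2 * r) ⊆ D ∧
      ∀ x ∈ closedBall x₀ r, ∀ t : ℝ, |t| ≤ δ →
        ‖φ t x - x‖ ≤ C * |t| ∧ φ t x ∈ closedBall x₀ (2 * r) ∧
        ‖φ t x - x - t • X x‖ ≤ C * t ^ 2 := by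
  obtain ⟨r, M, K, hr, hM0, hsub, hM, hK⟩ := exists_good hD hX hx₀
  have hM1 : M < M + 1 := lt_add_one M
  have hM10 : 0 < M + 1 := by linarith
  have hXn : ∀ y ∈ closedBall x₀ (2 * r), ‖(fun x => - X x) y‖ ≤ M := by
    intro y hy; simpa using hM y hy
  have hKn : LipschitzOnWith K (fun x => - X x) (closedBall x₀ (2 * r)) := by
    intro a ha b hb
    simpa using hK ha hb
  refine ⟨r, r / (M + 1), max (M + 1) (K * (M + 1)), hr, by positivity, by positivity, hsub, ?_⟩
  intro x hx t ht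
  have hball : ∀ y, ‖y - x‖ ≤ (M + 1) * |t| → y ∈ closedBall x₀ (2 * r) := by
    intro y hy
    rw [mem_closedBall] at hx ⊢
    have h1 : (M + 1) * |t| ≤ r := by
      rw [le_div_iff₀ hM10] at ht
      linarith
    calc dist y x₀ ≤ dist y x + dist x x₀ := dist_triangle _ _ _
      _ ≤ r + r := add_le_add (by rw [dist_eq_norm]; linarith) hx
      _ = 2 * r := by ring
  rcases le_total 0 t with h0 | h0
  · rw [abs_of_nonneg h0] at ht hball ⊢
    have htr : t * (M + 1) ≤ r := by rwa [le_div_iff₀ hM10] at ht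
    have h1 := h.norm_sub_le_pos hsub hM hr hM1 hM10 hx h0 htr
    have h2 := h.taylor_pos hsub hM hK hr hM1 hM10 hx h0 htr
    refine ⟨h1.trans (mul_le_mul_of_nonneg_right (le_max_left _ _) h0), hball _ h1,
      h2.trans (mul_le_mul_of_nonneg_right (le_max_right _ _) (sq_nonneg t))⟩
  · rw [abs_of_nonpos h0] at ht hball ⊢
    have h0' : 0 ≤ -t := by linarith
    have htr : (-t) * (M + 1) ≤ r := by rwa [le_div_iff₀ hM10] at ht
    have h1 := h.rev.norm_sub_le_pos hsub hXn hr hM1 hM10 hx h0' htr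
    have h2 := h.rev.taylor_pos hsub hXn hKn hr hM1 hM10 hx h0' htr
    simp only [neg_neg, smul_neg, neg_smul] at h1 h2
    refine ⟨h1.trans (mul_le_mul_of_nonneg_right (le_max_left _ _) h0'), hball _ h1, ?_⟩
    have h3 : (-t) ^ 2 = t ^ 2 := by ring
    rw [h3] at h2
    exact h2.trans (mul_le_mul_of_nonneg_right (le_max_right _ _) (sq_nonneg t))

/-- pointwise generator + holomorphy => locally uniform generator -/
theorem IsFlow.lflow [FiniteDimensional ℂ E] (h : IsFlow D X φ) (hD : IsOpen D)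
    (hX : DifferentiableOn ℂ X D) : LFlow D X φ where
  hol := h.hol
  maps := h.maps
  zero := h.zero
  add := h.add
  lgen := by
    rw [Metric.tendstoLocallyUniformlyOn_iff]
    intro ε hε x₀ hx₀
    obtain ⟨r, δ, C, hr, hδ, hC, hsub, hest⟩ := h.taylor hD hX hx₀
    refine ⟨closedBall x₀ r, mem_nhdsWithin_of_mem_nhds (closedBall_mem_nhds _ hr), ?_⟩
    have h1 : ∀ᶠ t in 𝓝[≠] (0 : ℝ), |t| ≤ δ ∧ C * |t| < ε := by
      have h2 : ∀ᶠ t in 𝓝 (0 : ℝ), |t| < δ ∧ C * |t| < ε := by
        have hc : ContinuousAt (fun t : ℝ => |t|) 0 := by fun_prop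
        have hc2 : ContinuousAt (fun t : ℝ => C * |t|) 0 := by fun_prop
        refine (hc.eventually (gt_mem_nhds (by simpa using hδ))).and
          (hc2.eventually (gt_mem_nhds (by simpa using hε)))
      exact (h2.mono (fun t ht => ⟨ht.1.le, ht.2⟩)).filter_mono nhdsWithin_le_nhds
    filter_upwards [h1, self_mem_nhdsWithin] with t ht ht0 x hx
    have ht0' : t ≠ 0 := ht0
    have h3 := (hest x hx t ht.1).2.2
    rw [dist_eq_norm]
    have h4 : X x - t⁻¹ • (φ t x - x) = -(t⁻¹ • (φ t x - x - t • X x)) := by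
      rw [smul_sub t⁻¹ (φ t x - x), smul_smul, inv_mul_cancel₀ ht0', one_smul]
      abel
    rw [h4, norm_neg, norm_smul, norm_inv, Real.norm_eq_abs]
    have htp : 0 < |t| := abs_pos.2 ht0'
    calc |t|⁻¹ * ‖φ t x - x - t • X x‖ ≤ |t|⁻¹ * (C * t ^ 2) := by gcongr
      _ = C * |t| := by
        rw [← sq_abs t]
        field_simp
      _ < ε := ht.2

theorem LFlow.isFlow (h : LFlow D X φ) : IsFlow D X φ where
  hol := h.hol
  maps := h.maps
  zero := h.zero
  add := h.add
  gen x hx := by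
    rw [hasDerivAt_iff_tendsto_slope]
    have h1 := h.lgen.tendsto_at hx
    refine h1.congr' ?_
    filter_upwards [self_mem_nhdsWithin] with t ht
    simp [slope_def_module, h.zero x hx]

theorem LFlow.differentiableOn [FiniteDimensional ℂ E] (h : LFlow D X φ) (hD : IsOpen D) :
    DifferentiableOn ℂ X D := by
  refine (R266.SCV.analyticOnNhd_of_tendstoLocallyUniformlyOn hD h.lgen
    (Filter.Eventually.of_forall (fun t => ?_))).differentiableOn
  exact ((h.hol t).sub differentiableOn_id).const_smul (t⁻¹ : ℝ)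

theorem LFlow.isComplete [FiniteDimensional ℂ E] (h : LFlow D X φ) (hD : IsOpen D) :
    IsComplete D X := ⟨h.differentiableOn hD, φ, h.isFlow⟩

end Flow

end Crest.Agent.R264
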