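import Crest.Agent.R264.EulerLim
import Crest.Agent.R264.AutLimit
import Crest.Agent.R264.CartanU

/-!
Row 264, part D3 (helper938): the finite-dimensional real vector space of complete holomorphic
vector fields on a bounded domain.
-/

set_option autoImplicit false
set_option linter.unusedSectionVars false

open Set Filter Topology Metric

namespace Crest.Agent.R264

variable {E : Type*} [NormedAddCommGroup E] [NormedSpace ℂ E]

/-- bounded domain -/
structure Dm (D : Set E) : Prop where
  op : IsOpen D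
  conn : IsConnected D
  bdd : Bornology.IsBounded D

section

variable [FiniteDimensional ℂ E] {D : Set E}

lemma Dm.montelU (d : Dm D) : MontelU D := by
  intro U f hf hm
  obtain ⟨M, hM⟩ := d.bdd.exists_norm_le
  obtain ⟨g, hg, -, -⟩ := montel_ultra U d.op hf (fun k z hz => hM _ (hm k hz))
  exact ⟨g, hg⟩

lemma Dm.autLimU (d : Dm D) : AutLimU D := by
  intro U _ f g F p h hF hp hFp
  exact aut_limit_gen d.op d.conn.isPreconnected d.bdd h hF hp hFp

/-- **Euler limit lemma** (CV). -/
theorem Dm.euler (d : Dm D) {X : E → E} {f g : ℕ → E → E} (h : ∀ k, AutPair D (f k) (g k))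
    {m : ℕ → ℝ} (hm : Tendsto m atTop atTop)
    (hX : TendstoLocallyUniformlyOn (fun k x => m k • (f k x - x)) X atTop D) :
    IsComplete D X :=
  euler_limit d.op d.conn.nonempty d.montelU d.autLimU h hm hX

lemma tlu_index {ι κ α β : Type*} [TopologicalSpace α] [UniformSpace β] {F : ι → α → β}
    {f : α → β} {p : Filter ι} {s : Set α} (h : TendstoLocallyUniformlyOn F f p s)
    {q : Filter κ} {τ : κ → ι} (hτ : Tendsto τ q p) :
    TendstoLocallyUniformlyOn (fun k => F (τ k)) f q s := by
  intro u hu x hx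
  obtain ⟨t, ht, h2⟩ := h u hu x hx
  exact ⟨t, ht, hτ.eventually h2⟩

lemma IsComplete.congr' {X Y : E → E} (h : IsComplete D X) (hXY : EqOn Y X D) :
    IsComplete D Y := by
  obtain ⟨hd, φ, hφ⟩ := h
  refine ⟨hd.congr hXY, φ, hφ.hol, hφ.maps, hφ.zero, hφ.add, ?_⟩
  intro x hx
  rw [hXY hx]
  exact hφ.gen x hx

lemma isComplete_zero : IsComplete D (0 : E → E) :=
  ⟨differentiableOn_const 0, fun _ x => x, fun _ => differentiableOn_id, fun _ => mapsTo_id _,
    fun _ _ => rfl, fun _ _ _ _ => rfl, fun x _ => hasDerivAt_const 0 x⟩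

lemma IsComplete.smul {X : E → E} (h : IsComplete D X) (c : ℝ) : IsComplete D (c • X) := by
  obtain ⟨hd, φ, hφ⟩ := h
  exact ⟨hd.const_smul c, _, hφ.smul c⟩

theorem IsComplete.add (d : Dm D) {X Y : E → E} (hX : IsComplete D X) (hY : IsComplete D Y) :
    IsComplete D (X + Y) := by
  obtain ⟨hXd, φ, hφ⟩ := hX
  obtain ⟨hYd, ψ, hψ⟩ := hY
  have lφ := hφ.lflow d.op hXd
  have lψ := hψ.lflow d.op hYd
  set τ : ℕ → ℝ := fun k => ((k : ℝ) + 1)⁻¹ with hτ
  have hτpos : ∀ k, 0 < τ k := fun k => by simp only [hτ]; positivity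
  have hτ0 : Tendsto τ atTop (𝓝[≠] (0 : ℝ)) := by
    rw [tendsto_nhdsWithin_iff]
    refine ⟨?_, Filter.Eventually.of_forall (fun k => (hτpos k).ne')⟩
    exact tendsto_inv_atTop_zero.comp
      (tendsto_atTop_add_const_right _ _ tendsto_natCast_atTop_atTop)
  have hτi : Tendsto (fun k => (τ k)⁻¹) atTop atTop := by
    simp only [hτ, inv_inv]
    exact tendsto_atTop_add_const_right _ _ tendsto_natCast_atTop_atTop
  have h1 := tlu_index lφ.lgen hτ0
  have h2 := tlu_index lψ.lgen hτ0
  have h3 : TendstoLocallyUniformlyOn (fun k => ψ (τ k)) (fun x => x) atTop D :=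
    (gen_inv d.op d.conn.nonempty d.autLimU (fun k => hψ.autPair (τ k)) hτi h2).1
  have h4 := tlu_comp d.op h1 hXd.continuousOn h3 continuousOn_id (mapsTo_id D)
  have h5 := h4.add h2
  refine d.euler (f := fun k => φ (τ k) ∘ ψ (τ k)) (g := fun k => ψ (-τ k) ∘ φ (-τ k))
    (m := fun k => (τ k)⁻¹) (fun k => (hφ.autPair (τ k)).comp (hψ.autPair (τ k))) hτi ?_
  refine TendstoLocallyUniformlyOn.congr (h5.congr_right (g := X + Y) (fun x hx => rfl))
    (fun k x hx => ?_)
  change (τ k)⁻¹ • (φ (τ k) (ψ (τ k) x) - ψ (τ k) x) + (τ k)⁻¹ • (ψ (τ k) x - x)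
    = (τ k)⁻¹ • (φ (τ k) (ψ (τ k) x) - x)
  rw [← smul_add]
  congr 1
  abel

/-- the real vector space of complete holomorphic vector fields -/
noncomputable def gD (d : Dm D) : Submodule ℝ (E → E) where
  carrier := gSet D
  zero_mem' := ⟨isComplete_zero, fun _ _ => rfl⟩
  add_mem' := by
    intro X Y hX hY
    refine ⟨hX.1.add d hY.1, fun x hx => ?_⟩
    simp [hX.2 x hx, hY.2 x hx]
  smul_mem' := by
    intro c X hX
    refine ⟨hX.1.smul c, fun x hx => ?_⟩
    simp [hX.2 x hx]

lemma mem_gD (d : Dm D) {X : E → E} : X ∈ gD d ↔ IsComplete D X ∧ ∀ x ∉ D, X x = 0 := Iff.rfl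

/-! ### jets -/

/-- derivative at time zero of the space derivative of a flow -/
lemma IsFlow.hasDerivAt_fderiv (hD : IsOpen D) {X : E → E} {φ : ℝ → E → E} (h : IsFlow D X φ)
    (hX : DifferentiableOn ℂ X D) {x : E} (hx : x ∈ D) :
    HasDerivAt (fun t : ℝ => fderiv ℂ (φ t) x) (fderiv ℂ X x) 0 := by
  have hc : CompleteSpace E := FiniteDimensional.complete ℂ E
  have h1 := tlu_fderiv hD (h.lflow hD hX).lgen (Filter.Eventually.of_forall (fun t =>
    (((h.hol t).sub differentiableOn_id).const_smul (t⁻¹ : ℝ))))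
  have h2 := h1.tendsto_at hx
  rw [hasDerivAt_iff_tendsto_slope]
  refine h2.congr' ?_
  filter_upwards [self_mem_nhdsWithin] with t ht
  have h0 : fderiv ℂ (φ 0) x = ContinuousLinearMap.id ℂ E := by
    have : φ 0 =ᶠ[𝓝 x] fun y => y := by
      filter_upwards [hD.mem_nhds hx] with y hy using h.zero y hy
    rw [this.fderiv_eq]
    exact fderiv_id
  have hd : DifferentiableAt ℂ (φ t) x := (h.hol t).differentiableAt (hD.mem_nhds hx)
  rw [slope_def_module, h0, sub_zero]
  have h3 : HasFDerivAt (fun y => t⁻¹ • (φ t y - y))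
      (t⁻¹ • (fderiv ℂ (φ t) x - ContinuousLinearMap.id ℂ E)) x :=
    (hd.hasFDerivAt.sub (hasFDerivAt_id x)).const_smul (t⁻¹ : ℝ)
  exact h3.fderiv

lemma jet_zero (d : Dm D) {X : E → E} (hX : IsComplete D X) {p : E} (hp : p ∈ D)
    (h0 : X p = 0) (h1 : fderiv ℂ X p = 0) : ∀ x ∈ D, X x = 0 := by
  obtain ⟨hXd, φ, hφ⟩ := hX
  -- the point is fixed
  have hfix : ∀ t, φ t p = p := by
    have hder : ∀ t, HasDerivAt (fun s => φ s p) 0 t := by
      intro t
      have h2 : HasDerivAt (fun s : ℝ => φ t (φ s p)) (fderiv ℂ (φ t) p (X p)) 0 := by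
        have h3 : DifferentiableAt ℂ (φ t) (φ 0 p) := by
          rw [hφ.zero p hp]
          exact (hφ.hol t).differentiableAt (d.op.mem_nhds hp)
        have h4 := (h3.hasFDerivAt.restrictScalars ℝ).comp_hasDerivAt (0 : ℝ) (hφ.gen p hp)
        rw [hφ.zero p hp] at h4
        exact h4
      rw [h0, map_zero] at h2
      have h5 : HasDerivAt (fun s : ℝ => φ t (φ (s - t) p)) 0 t := by
        have h6 : HasDerivAt (fun s : ℝ => φ t (φ s p)) 0 (t - t) := by rwa [sub_self]
        have h7 : HasDerivAt (fun s : ℝ => s - t) 1 t := (hasDerivAt_id t).sub_const t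
        simpa [Function.comp_def] using HasDerivAt.scomp (h := fun s : ℝ => s - t) t h6 h7
      refine h5.congr_of_eventuallyEq (Filter.Eventually.of_forall (fun s => ?_))
      simp only
      rw [← hφ.add _ _ p hp]
      congr 1
      ring
    intro t
    have h2 := is_const_of_deriv_eq_zero (f := fun s => φ s p)
      (fun t => (hder t).differentiableAt) (fun t => (hder t).deriv) t 0
    simpa [hφ.zero p hp] using h2
  -- the derivative at the point is constant
  have hA : ∀ t, fderiv ℂ (φ t) p = ContinuousLinearMap.id ℂ E := by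
    have hgrp : ∀ s t, fderiv ℂ (φ (s + t)) p = (fderiv ℂ (φ s) p).comp (fderiv ℂ (φ t) p) := by
      intro s t
      have h2 : φ (s + t) =ᶠ[𝓝 p] φ s ∘ φ t := by
        filter_upwards [d.op.mem_nhds hp] with y hy using hφ.add s t y hy
      rw [h2.fderiv_eq, fderiv_comp p]
      · rw [hfix t]
      · rw [hfix t]
        exact (hφ.hol s).differentiableAt (d.op.mem_nhds hp)
      · exact (hφ.hol t).differentiableAt (d.op.mem_nhds hp)
    have hder : ∀ t, HasDerivAt (fun s => fderiv ℂ (φ s) p) 0 t := by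
      intro t
      have h2 := hφ.hasDerivAt_fderiv d.op hXd hp
      rw [h1] at h2
      have h3 : HasDerivAt (fun s : ℝ => (fderiv ℂ (φ t) p).comp (fderiv ℂ (φ s) p)) 0 0 := by
        have h4 : HasFDerivAt (fun L : E →L[ℂ] E => (fderiv ℂ (φ t) p).comp L)
            ((ContinuousLinearMap.compL ℂ E E E (fderiv ℂ (φ t) p)).restrictScalars ℝ)
            (fderiv ℂ (φ 0) p) :=
          ((ContinuousLinearMap.compL ℂ E E E (fderiv ℂ (φ t) p)).restrictScalars ℝ).hasFDerivAt
        have h5 := h4.comp_hasDerivAt (0 : ℝ) h2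
        rw [map_zero] at h5
        exact h5
      have h5 : HasDerivAt (fun s : ℝ => (fderiv ℂ (φ t) p).comp (fderiv ℂ (φ (s - t)) p)) 0 t := by
        have h6 : HasDerivAt (fun s : ℝ => (fderiv ℂ (φ t) p).comp (fderiv ℂ (φ s) p)) 0
            (t - t) := by rwa [sub_self]
        have h7 : HasDerivAt (fun s : ℝ => s - t) 1 t := (hasDerivAt_id t).sub_const t
        simpa [Function.comp_def] using HasDerivAt.scomp (h := fun s : ℝ => s - t) t h6 h7
      refine h5.congr_of_eventuallyEq (Filter.Eventually.of_forall (fun s => ?_))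
      simp only
      rw [← hgrp]
      congr 2
      ring
    intro t
    have h2 := is_const_of_deriv_eq_zero (f := fun s => fderiv ℂ (φ s) p)
      (fun t => (hder t).differentiableAt) (fun t => (hder t).deriv) t 0
    rw [h2]
    have : φ 0 =ᶠ[𝓝 p] fun y => y := by
      filter_upwards [d.op.mem_nhds hp] with y hy using hφ.zero y hy
    rw [this.fderiv_eq]
    exact fderiv_id
  intro x hx
  have h2 : ∀ t, φ t x = x := fun t => cartan_unique d.op d.conn.isPreconnected d.bdd
    (hφ.hol t) (hφ.maps t) hp (hfix t) (hA t) x hx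
  have h3 := hφ.gen x hx
  have h4 : HasDerivAt (fun t => φ t x) 0 0 := by
    simp only [h2]
    exact hasDerivAt_const 0 x
  exact h3.unique h4

/-- the one-jet at `p` -/
noncomputable def jetMap (d : Dm D) (p : E) (hp : p ∈ D) : gD d →ₗ[ℝ] E × (E →L[ℂ] E) where
  toFun X := ((X : E → E) p, fderiv ℂ (X : E → E) p)
  map_add' := by
    intro X Y
    have hX : DifferentiableAt ℂ (X : E → E) p := X.2.1.1.differentiableAt (d.op.mem_nhds hp)
    have hY : DifferentiableAt ℂ (Y : E → E) p := Y.2.1.1.differentiableAt (d.op.mem_nhds hp)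
    ext1
    · rfl
    · exact fderiv_add hX hY
  map_smul' := by
    intro c X
    have hX : DifferentiableAt ℂ (X : E → E) p := X.2.1.1.differentiableAt (d.op.mem_nhds hp)
    ext1
    · rfl
    · exact fderiv_const_smul hX c

lemma jetMap_injective (d : Dm D) (p : E) (hp : p ∈ D) : Function.Injective (jetMap d p hp) := by
  rw [injective_iff_map_eq_zero]
  intro X hX
  have h1 : (X : E → E) p = 0 := congrArg Prod.fst hX
  have h2 : fderiv ℂ (X : E → E) p = 0 := congrArg Prod.snd hX
  ext x
  by_cases hx : x ∈ D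
  · exact jet_zero d X.2.1 hp h1 h2 x hx
  · exact X.2.2 x hx

instance (d : Dm D) : FiniteDimensional ℝ (gD d) := by
  obtain ⟨p, hp⟩ := d.conn.nonempty
  have : FiniteDimensional ℝ E := FiniteDimensional.complexToReal E
  have : FiniteDimensional ℝ (E →L[ℂ] E) := FiniteDimensional.complexToReal _
  exact Module.Finite.of_injective _ (jetMap_injective d p hp)

end

end Crest.Agent.R264
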