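import Crest.Agent.R264.GD1

/-!
Row 264, part D3 (helper938): push-forward, bracket, Lie algebra structure.
-/

set_option autoImplicit false
set_option linter.unusedSectionVars false

open Set Filter Topology Metric

namespace Crest.Agent.R264

variable {E : Type*} [NormedAddCommGroup E] [NormedSpace ℂ E]

section

variable [FiniteDimensional ℂ E] {D : Set E}

lemma differentiableOn_fderiv (hD : IsOpen D) {F : Type*} [NormedAddCommGroup F]
    [NormedSpace ℂ F] [CompleteSpace F] {f : E → F}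
    (hf : DifferentiableOn ℂ f D) : DifferentiableOn ℂ (fderiv ℂ f) D :=
  (R266.SCV.analyticOnNhd_of_differentiableOn hD hf).fderiv.differentiableOn

lemma push_differentiableOn (hD : IsOpen D) {f h X : E → E} (hfh : AutPair D f h)
    (hX : DifferentiableOn ℂ X D) : DifferentiableOn ℂ (push D f h X) D := by
  have hc : CompleteSpace E := FiniteDimensional.complete ℂ E
  have h1 : DifferentiableOn ℂ (fun y => fderiv ℂ f (h y) (X (h y))) D :=
    ((differentiableOn_fderiv hD hfh.hF).comp hfh.hG hfh.mapsG).clm_apply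
      (hX.comp hfh.hG hfh.mapsG)
  exact h1.congr (fun y hy => push_of_mem hy)

/-- the flow of a push-forward -/
lemma push_isFlow (hD : IsOpen D) {f h X : E → E} (hfh : AutPair D f h) {φ : ℝ → E → E}
    (hφ : IsFlow D X φ) : IsFlow D (push D f h X) (fun t y => f (φ t (h y))) where
  hol t := (hfh.hF.comp ((hφ.hol t).comp hfh.hG hfh.mapsG) ((hφ.maps t).comp hfh.mapsG))
  maps t := hfh.mapsF.comp ((hφ.maps t).comp hfh.mapsG)
  zero x hx := by rw [hφ.zero _ (hfh.mapsG hx), hfh.right x hx]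
  add s t x hx := by
    rw [hfh.left _ (hφ.maps t (hfh.mapsG hx)), hφ.add _ _ _ (hfh.mapsG hx)]
  gen x hx := by
    rw [push_of_mem hx]
    have h3 : DifferentiableAt ℂ f (φ 0 (h x)) := by
      rw [hφ.zero _ (hfh.mapsG hx)]
      exact hfh.hF.differentiableAt (hD.mem_nhds (hfh.mapsG hx))
    have h4 := (h3.hasFDerivAt.restrictScalars ℝ).comp_hasDerivAt (0 : ℝ)
      (hφ.gen (h x) (hfh.mapsG hx))
    rw [hφ.zero _ (hfh.mapsG hx)] at h4
    exact h4

lemma IsComplete.push (hD : IsOpen D) {f h X : E → E} (hfh : AutPair D f h)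
    (hX : IsComplete D X) : IsComplete D (push D f h X) := by
  obtain ⟨hXd, φ, hφ⟩ := hX
  exact ⟨push_differentiableOn hD hfh hXd, _, push_isFlow hD hfh hφ⟩

lemma push_mem (d : Dm D) {f h X : E → E} (hfh : AutPair D f h) (hX : X ∈ gD d) :
    push D f h X ∈ gD d := ⟨hX.1.push d.op hfh, fun _ hx => push_of_notMem hx⟩

/-- derivative of the push-forward along a flow at time zero -/
lemma hasDerivAt_push (hD : IsOpen D) {X Y : E → E} {φ : ℝ → E → E} (hφ : IsFlow D X φ)
    (hX : DifferentiableOn ℂ X D) (hY : DifferentiableOn ℂ Y D) (y : E) :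
    HasDerivAt (fun s : ℝ => push D (φ s) (φ (-s)) Y y) (-(brk D X Y y)) 0 := by
  by_cases hy : y ∈ D
  swap
  · simp only [push_of_notMem hy, brk_of_notMem hy, neg_zero]
    exact hasDerivAt_const 0 _
  have hc : CompleteSpace E := FiniteDimensional.complete ℂ E
  have hrev : HasDerivAt (fun s : ℝ => φ (-s) y) (-X y) 0 := hφ.rev.gen y hy
  have hφ0 : φ 0 y = y := hφ.zero y hy
  -- `C s = Dφ_s (φ_{-s} y)`
  set C : ℝ → (E →L[ℂ] E) := fun s => fderiv ℂ (φ s) (φ (-s) y) with hC
  set B : ℝ → (E →L[ℂ] E) := fun s => fderiv ℂ (φ (-s)) y with hB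
  have hCB : ∀ s, (C s).comp (B s) = ContinuousLinearMap.id ℂ E := by
    intro s
    have h1 := (hφ.autPair (-s)).fderiv_comp hD hy
    simp only [neg_neg] at h1
    exact h1
  have hBC : ∀ s, (B s).comp (C s) = ContinuousLinearMap.id ℂ E := by
    intro s
    have h1 := (hφ.autPair s).fderiv_comp hD (hφ.maps (-s) hy)
    have h2 : φ s (φ (-s) y) = y := (hφ.autPair s).right y hy
    rw [h2] at h1
    exact h1
  have hid0 : fderiv ℂ (φ 0) y = ContinuousLinearMap.id ℂ E := by
    have : φ 0 =ᶠ[𝓝 y] fun y => y := by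
      filter_upwards [hD.mem_nhds hy] with z hz using hφ.zero z hz
    rw [this.fderiv_eq]
    exact fderiv_id
  have hB' : HasDerivAt B (-(fderiv ℂ X y)) 0 := by
    have h1 := hφ.rev.hasDerivAt_fderiv hD hX.neg hy
    have h2 : fderiv ℂ (fun x => - X x) y = -(fderiv ℂ X y) := fderiv_fun_neg
    rw [h2] at h1
    exact h1
  have hB0 : B 0 = ContinuousLinearMap.id ℂ E := by simp only [hB, neg_zero, hid0]
  have hC0 : C 0 = ContinuousLinearMap.id ℂ E := by simp only [hC, neg_zero, hφ0, hid0]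
  -- `C s → id`
  have hCinv : ∀ s, C s = Ring.inverse (B s) := by
    intro s
    have hu : IsUnit (B s) := ⟨⟨B s, C s, hBC s, hCB s⟩, rfl⟩
    have h1 : Ring.inverse (B s) * B s = 1 := Ring.inverse_mul_cancel _ hu
    have h2 : (C s) * (B s) = 1 := hCB s
    exact hu.mul_right_cancel (h2.trans h1.symm)
  have hC' : HasDerivAt C (fderiv ℂ X y) 0 := by
    have hu : IsUnit (B 0) := ⟨⟨B 0, C 0, hBC 0, hCB 0⟩, rfl⟩
    have h1 := hasFDerivAt_ringInverse (𝕜 := ℝ) hu.unit
    have h2 : HasFDerivAt (Ring.inverse (M₀ := E →L[ℂ] E))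
      (-((ContinuousLinearMap.mulLeftRight ℝ (E →L[ℂ] E)) ↑hu.unit⁻¹) ↑hu.unit⁻¹) (B 0) := h1
    have h3 := h2.comp_hasDerivAt (0 : ℝ) hB'
    have h4 : ((hu.unit⁻¹ : (E →L[ℂ] E)ˣ) : E →L[ℂ] E) = 1 := by
      have : hu.unit = 1 := Units.ext hB0
      rw [this]; simp
    rw [h4] at h3
    have h5 : (-((ContinuousLinearMap.mulLeftRight ℝ (E →L[ℂ] E)) 1) 1) (-(fderiv ℂ X y))
        = fderiv ℂ X y := by
      simp
    rw [h5] at h3
    refine h3.congr_of_eventuallyEq (Filter.Eventually.of_forall (fun s => ?_))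
    exact hCinv s
  -- product rule
  have hYd : DifferentiableAt ℂ Y (φ (-(0:ℝ)) y) := by
    rw [neg_zero, hφ0]; exact hY.differentiableAt (hD.mem_nhds hy)
  have hv : HasDerivAt (fun s : ℝ => Y (φ (-s) y)) (-(fderiv ℂ Y y (X y))) 0 := by
    have h4 := (hYd.hasFDerivAt.restrictScalars ℝ).comp_hasDerivAt (0 : ℝ) hrev
    rw [neg_zero, hφ0] at h4
    have h5 : (ContinuousLinearMap.restrictScalars ℝ (fderiv ℂ Y y)) (-X y)
        = -(fderiv ℂ Y y (X y)) := by simp
    rw [h5] at h4
    exact h4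
  have hprod : HasDerivAt (fun s : ℝ => C s (Y (φ (-s) y)))
      (fderiv ℂ X y (Y y) + (-(fderiv ℂ Y y (X y)))) 0 := by
    have h1 : HasDerivAt (fun s : ℝ => (C s).restrictScalars ℝ)
        ((fderiv ℂ X y).restrictScalars ℝ) 0 := by
      have h2 := ((ContinuousLinearMap.restrictScalarsL ℂ E E ℝ ℝ).hasFDerivAt
        (x := C 0)).comp_hasDerivAt (0 : ℝ) hC'
      exact h2
    have h2 := h1.clm_apply hv
    rw [hC0, neg_zero, hφ0] at h2
    exact h2
  refine (hprod.congr_deriv ?_).congr_of_eventuallyEq (Filter.Eventually.of_forall (fun s => ?_))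
  · rw [brk_of_mem hy]; abel
  · exact push_of_mem hy

/-- `gD` is closed for pointwise convergence -/
lemma gD_closed (d : Dm D) : IsClosed (gD d : Set (E → E)) :=
  (gD d).closed_of_finiteDimensional

lemma brk_mem (d : Dm D) {X Y : E → E} (hX : X ∈ gD d) (hY : Y ∈ gD d) : brk D X Y ∈ gD d := by
  obtain ⟨hXd, φ, hφ⟩ := hX.1
  have h1 : Tendsto (fun s : ℝ => s⁻¹ • (push D (φ s) (φ (-s)) Y - Y)) (𝓝[≠] 0)
      (𝓝 (-(brk D X Y))) := by
    rw [tendsto_pi_nhds]
    intro y
    have h2 := hasDerivAt_push d.op hφ hXd hY.1.1 y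
    rw [hasDerivAt_iff_tendsto_slope] at h2
    refine h2.congr (fun s => ?_)
    have h3 : push D (φ 0) (φ (-0)) Y y = Y y := by
      by_cases hy : y ∈ D
      · rw [push_of_mem hy, neg_zero, hφ.zero y hy]
        have : φ 0 =ᶠ[𝓝 y] fun y => y := by
          filter_upwards [d.op.mem_nhds hy] with z hz using hφ.zero z hz
        rw [this.fderiv_eq, fderiv_fun_id]
        rfl
      · rw [push_of_notMem hy, hY.2 y hy]
    rw [slope_def_module, h3, sub_zero]
    rfl
  have h2 : -(brk D X Y) ∈ (gD d : Set (E → E)) := by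
    refine (gD_closed d).mem_of_tendsto h1 (Filter.Eventually.of_forall (fun s => ?_))
    exact (gD d).smul_mem _ ((gD d).sub_mem (push_mem d (hφ.autPair s) hY) hY)
  have h3 := (gD d).neg_mem h2
  rwa [neg_neg] at h3

noncomputable instance (d : Dm D) : Bracket (gD d) (gD d) :=
  ⟨fun X Y => ⟨brk D X Y, brk_mem d X.2 Y.2⟩⟩

lemma coe_lie (d : Dm D) (X Y : gD d) : ((⁅X, Y⁆ : gD d) : E → E) = brk D X Y := rfl

lemma gD_diffAt (d : Dm D) (X : gD d) {x : E} (hx : x ∈ D) : DifferentiableAt ℂ (X : E → E) x :=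
  X.2.1.1.differentiableAt (d.op.mem_nhds hx)

lemma gD_contDiffAt (d : Dm D) (X : gD d) {x : E} (hx : x ∈ D) :
    ContDiffAt ℂ 2 (X : E → E) x :=
  (R266.SCV.analyticOnNhd_of_differentiableOn d.op X.2.1.1 x hx).contDiffAt

lemma brk_eventuallyEq (d : Dm D) (X Y : E → E) {x : E} (hx : x ∈ D) :
    brk D X Y =ᶠ[𝓝 x] VectorField.lieBracket ℂ X Y := by
  filter_upwards [d.op.mem_nhds hx] with y hy
  rw [brk_of_mem hy]
  rfl

noncomputable instance (d : Dm D) : LieRing (gD d) where
  add_lie X Y Z := by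
    ext x
    simp only [coe_lie, Submodule.coe_add, Pi.add_apply]
    by_cases hx : x ∈ D
    · simp only [brk_of_mem hx, Pi.add_apply]
      rw [fderiv_add (gD_diffAt d X hx) (gD_diffAt d Y hx)]
      simp only [map_add, add_apply]
      abel
    · simp [brk_of_notMem hx]
  lie_add X Y Z := by
    ext x
    simp only [coe_lie, Submodule.coe_add, Pi.add_apply]
    by_cases hx : x ∈ D
    · simp only [brk_of_mem hx, Pi.add_apply]
      rw [fderiv_add (gD_diffAt d Y hx) (gD_diffAt d Z hx)]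
      simp only [map_add, add_apply]
      abel
    · simp [brk_of_notMem hx]
  lie_self X := by
    ext x
    simp only [coe_lie]
    by_cases hx : x ∈ D
    · simp [brk_of_mem hx]
    · simp [brk_of_notMem hx]
  leibniz_lie X Y Z := by
    ext x
    simp only [coe_lie, Submodule.coe_add, Pi.add_apply]
    by_cases hx : x ∈ D
    · have hc : CompleteSpace E := FiniteDimensional.complete ℂ E
      have h1 := VectorField.leibniz_identity_lieBracket (𝕜 := ℂ) (n := 2) (by simp)
        (gD_contDiffAt d X hx) (gD_contDiffAt d Y hx) (gD_contDiffAt d Z hx)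
      have e : ∀ U V W : E → E, brk D U (brk D V W) x =
          VectorField.lieBracket ℂ U (VectorField.lieBracket ℂ V W) x := by
        intro U V W
        rw [brk_of_mem hx, (brk_eventuallyEq d V W hx).fderiv_eq,
          (brk_eventuallyEq d V W hx).eq_of_nhds]
        rfl
      have e' : ∀ U V W : E → E, brk D (brk D U V) W x =
          VectorField.lieBracket ℂ (VectorField.lieBracket ℂ U V) W x := by
        intro U V W
        rw [brk_of_mem hx, (brk_eventuallyEq d U V hx).fderiv_eq,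
          (brk_eventuallyEq d U V hx).eq_of_nhds]
        rfl
      rw [e, e', e, h1]
    · simp [brk_of_notMem hx]

noncomputable instance (d : Dm D) : LieAlgebra ℝ (gD d) where
  lie_smul c X Y := by
    ext x
    simp only [coe_lie, Submodule.coe_smul, Pi.smul_apply]
    by_cases hx : x ∈ D
    · simp only [brk_of_mem hx, Pi.smul_apply]
      rw [fderiv_const_smul (gD_diffAt d Y hx)]
      simp only [smul_apply, smul_sub]
      congr 1
      exact (fderiv ℂ (X : E → E) x).map_smul_of_tower c _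
    · simp [brk_of_notMem hx]

end

end Crest.Agent.R264
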