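import Crest.Agent.R264.JLLim

set_option autoImplicit false

open Topology Filter Set Metric Complex

namespace Crest.Agent.R264.JL

variable {m k : ℕ}

lemma tendsto_apply {ι V W : Type*}
    [NormedAddCommGroup V] [NormedSpace ℂ V] [NormedAddCommGroup W] [NormedSpace ℂ W]
    {l : Filter ι} {A : ι → V →L[ℂ] W} {B : ι → V} {A0 : V →L[ℂ] W} {B0 : V}
    (hA : Tendsto A l (𝓝 A0)) (hB : Tendsto B l (𝓝 B0)) :
    Tendsto (fun j => A j (B j)) l (𝓝 (A0 B0)) :=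
  ((isBoundedBilinearMap_apply (𝕜 := ℂ) (E := V) (F := W)).continuous.tendsto
    (A0, B0)).comp (hA.prodMk_nhds hB)

section

variable {Ht : P m k → (Fin k → ℝ)} {a : P m k}

lemma cont_fderiv (hC : ContDiffAt ℝ 2 Ht a) : Tendsto (fderiv ℝ Ht) (𝓝 a) (𝓝 (fderiv ℝ Ht a)) :=
  (ht_fderiv hC).continuousAt.tendsto

lemma cont_sig (hC : ContDiffAt ℝ 2 Ht a) :
    Tendsto (fun a' => (sig Ht a').2) (𝓝 a) (𝓝 (sig Ht a).2) := by
  have h1 : Tendsto Ht (𝓝 a) (𝓝 (Ht a)) := hC.continuousAt.tendsto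
  have h2 : Tendsto (fun a' : P m k => ofR a'.2) (𝓝 a) (𝓝 (ofR a.2)) :=
    (ofR.continuous.comp continuous_snd).tendsto a
  exact h2.add (((ofR.continuous.tendsto _).comp h1).const_smul I)

lemma cont_Tmap (hC : ContDiffAt ℝ 2 Ht a) (ε : ℝ) (p : E m k) :
    Tendsto (fun a' => Tmap Ht a' ε p) (𝓝 a) (𝓝 (Tmap Ht a ε p)) := by
  have hD := cont_fderiv hC
  have hs := cont_sig hC
  have h1 : Tendsto (fun a' : P m k => p.1 - a'.1) (𝓝 a) (𝓝 (p.1 - a.1)) :=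
    (continuous_const.sub continuous_fst).tendsto a
  have hX : Tendsto (fun a' => XD (fderiv ℝ Ht a')) (𝓝 a) (𝓝 (XD (fderiv ℝ Ht a))) :=
    (continuous_XD.tendsto _).comp hD
  have hA : Tendsto (fun a' => alpha (fderiv ℝ Ht a')) (𝓝 a) (𝓝 (alpha (fderiv ℝ Ht a))) :=
    (alphaC.continuous.tendsto _).comp hD
  have h2 : Tendsto (fun a' => XD (fderiv ℝ Ht a') (p.2 - (sig Ht a').2)) (𝓝 a)
      (𝓝 (XD (fderiv ℝ Ht a) (p.2 - (sig Ht a).2))) := tendsto_apply hX (hs.const_sub p.2)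
  have h3 : Tendsto (fun a' => (2 * I) • alpha (fderiv ℝ Ht a') (p.1 - a'.1)) (𝓝 a)
      (𝓝 ((2 * I) • alpha (fderiv ℝ Ht a) (p.1 - a.1))) := (tendsto_apply hA h1).const_smul _
  exact (h1.const_smul ε⁻¹).prodMk_nhds ((h2.sub h3).const_smul (ε⁻¹ ^ 2))

lemma cont_trans (hC : ContDiffAt ℝ 2 Ht a) (hD : ‖fderiv ℝ Ht a‖ ≤ 1 / 4) (ε : ℝ) :
    Tendsto (fun a' => trans Ht a a' ε) (𝓝 a)
      (𝓝 ((0, 1, 0, 0) : Th m k)) := by
  have hD' := cont_fderiv hC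
  have hs := cont_sig hC
  have hone : XD (fderiv ℝ Ht a) ∘L XI (fderiv ℝ Ht a) = (1 : (Fin k → ℂ) →L[ℂ] (Fin k → ℂ)) := by
    ext1 w
    rw [ContinuousLinearMap.comp_apply, XD_XI hD]
    rfl
  have hXI : Tendsto (fun a' => XI (fderiv ℝ Ht a')) (𝓝 a) (𝓝 (XI (fderiv ℝ Ht a))) :=
    (continuousAt_XI hD).tendsto.comp hD'
  have hA : Tendsto (fun a' => alpha (fderiv ℝ Ht a')) (𝓝 a) (𝓝 (alpha (fderiv ℝ Ht a))) :=
    (alphaC.continuous.tendsto _).comp hD'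
  have hz : Tendsto (fun a' : P m k => a'.1 - a.1) (𝓝 a) (𝓝 0) := by
    have := (continuous_fst.tendsto a).sub_const a.1
    simpa using this
  have hw : Tendsto (fun a' : P m k => (sig Ht a').2 - (sig Ht a).2) (𝓝 a) (𝓝 0) := by
    simpa using hs.sub_const (sig Ht a).2
  refine Tendsto.prodMk_nhds ?_ (Tendsto.prodMk_nhds ?_ (Tendsto.prodMk_nhds ?_ ?_))
  · simpa using hz.const_smul ε⁻¹
  · rw [← hone]
    exact tendsto_comp tendsto_const_nhds hXI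
  · have h1 : Tendsto (fun a' => XD (fderiv ℝ Ht a) ∘L XI (fderiv ℝ Ht a') ∘L
        alpha (fderiv ℝ Ht a')) (𝓝 a) (𝓝 (XD (fderiv ℝ Ht a) ∘L XI (fderiv ℝ Ht a) ∘L
        alpha (fderiv ℝ Ht a))) := tendsto_comp tendsto_const_nhds (tendsto_comp hXI hA)
    have h2 : XD (fderiv ℝ Ht a) ∘L XI (fderiv ℝ Ht a) ∘L alpha (fderiv ℝ Ht a)
        = alpha (fderiv ℝ Ht a) := by
      ext1 w
      rw [ContinuousLinearMap.comp_apply, ContinuousLinearMap.comp_apply, XD_XI hD]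
    rw [h2] at h1
    have h3 := h1.sub_const (alpha (fderiv ℝ Ht a))
    rw [sub_self] at h3
    have h4 := (h3.const_smul ε⁻¹).const_smul (2 * I)
    rw [smul_zero, smul_zero] at h4
    exact h4
  · have h1 : Tendsto (fun a' => XD (fderiv ℝ Ht a) ((sig Ht a').2 - (sig Ht a).2)) (𝓝 a)
        (𝓝 (XD (fderiv ℝ Ht a) 0)) := ((XD (fderiv ℝ Ht a)).continuous.tendsto _).comp hw
    have h2 : Tendsto (fun a' : P m k => (2 * I) • alpha (fderiv ℝ Ht a) (a'.1 - a.1)) (𝓝 a)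
        (𝓝 ((2 * I) • alpha (fderiv ℝ Ht a) 0)) :=
      (((alpha (fderiv ℝ Ht a)).continuous.tendsto _).comp hz).const_smul _
    have h3 := (h1.sub h2).const_smul (ε⁻¹ ^ 2)
    rw [map_zero, map_zero, smul_zero, sub_zero, smul_zero] at h3
    exact h3

lemma Aff_id (y : E m k) : Aff ((0, 1, 0, 0) : Th m k) y = y := by
  simp [Aff]

end

/-- `Far` is monotone in `r` and Lipschitz in `x`. -/
lemma Far.mono {UU : Set (E m k)} {Ht : P m k → (Fin k → ℝ)} {a : P m k} {ε : ℝ} {x y : E m k}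
    {r s : ℝ} (h : Far UU Ht a ε x r) (hs : s ≤ r - dist x y) : Far UU Ht a ε y s := by
  intro p hp
  have h1 := h p hp
  have h2 := dist_triangle (Tmap Ht a ε p) y x
  rw [dist_comm y x] at h2
  linarith

section Baire

variable (UU : Set (E m k)) (Ht : P m k → (Fin k → ℝ)) (O : Set (P m k))

/-- `Far` for all small `ε`. -/
def S1 (x : E m k) (r : ℝ) (K : ℕ) : Set (P m k) :=
  {a | a ∈ O ∧ ∀ ε ∈ Ioc (0 : ℝ) (1 / ((K : ℝ) + 1)), Far UU Ht a ε x r}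

/-- not `Far` for all small `ε`. -/
def S2 (x : E m k) (r : ℝ) (K : ℕ) : Set (P m k) :=
  {a | a ∈ O ∧ ∀ ε ∈ Ioc (0 : ℝ) (1 / ((K : ℝ) + 1)), ¬ Far UU Ht a ε x r}

variable {UU Ht O}

lemma S1_closure (hO : IsOpen O) (hC : ContDiffOn ℝ 2 Ht O) {x : E m k} {r : ℝ} {K : ℕ}
    {a : P m k} (ha : a ∈ O) (hcl : a ∈ closure (S1 UU Ht O x r K)) :
    ∀ ε ∈ Ioc (0 : ℝ) (1 / ((K : ℝ) + 1)), Far UU Ht a ε x r := by
  intro ε hε p hp
  have hCa : ContDiffAt ℝ 2 Ht a := (hC a ha).contDiffAt (hO.mem_nhds ha)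
  have hfr := mem_closure_iff_frequently.1 hcl
  by_contra hcon
  push Not at hcon
  have hev : ∀ᶠ a' in 𝓝 a, dist (Tmap Ht a' ε p) x < r :=
    ((cont_Tmap hCa ε p).dist tendsto_const_nhds).eventually (gt_mem_nhds hcon)
  obtain ⟨a', ha', h1⟩ := (hfr.and_eventually hev).exists
  exact absurd (ha'.2 ε hε p hp) (not_le.2 h1)

lemma S2_closure (hO : IsOpen O) (hC : ContDiffOn ℝ 2 Ht O)
    (hsm : ∀ a ∈ O, ‖fderiv ℝ Ht a‖ ≤ 1 / 4) {x : E m k} {r : ℝ} {K : ℕ}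
    {a : P m k} (ha : a ∈ O) (hcl : a ∈ closure (S2 UU Ht O x r K)) :
    ∀ ε ∈ Ioc (0 : ℝ) (1 / ((K : ℝ) + 1)), ∀ r', r < r' → ¬ Far UU Ht a ε x r' := by
  intro ε hε r' hr' hfar
  have hCa : ContDiffAt ℝ 2 Ht a := (hC a ha).contDiffAt (hO.mem_nhds ha)
  have hfr := mem_closure_iff_frequently.1 hcl
  have hev := Aff_tendsto (cont_trans hCa (hsm a ha) ε) (‖x‖ + r) (sub_pos.2 hr')
  obtain ⟨a', ha', h1⟩ := (hfr.and_eventually hev).exists
  have h2 := ha'.2 ε hε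
  simp only [Far, not_forall, not_le] at h2
  obtain ⟨p, hp, hlt⟩ := h2
  have h3 : ‖Tmap Ht a' ε p‖ ≤ ‖x‖ + r := by
    calc ‖Tmap Ht a' ε p‖ = ‖(Tmap Ht a' ε p - x) + x‖ := by rw [sub_add_cancel]
      _ ≤ ‖Tmap Ht a' ε p - x‖ + ‖x‖ := norm_add_le _ _
      _ ≤ ‖x‖ + r := by rw [← dist_eq_norm]; linarith
  have h4 := h1 _ h3
  rw [Aff_id, ← Tmap_trans (hsm a' ha'.1)] at h4
  have h5 := hfar p hp
  have h6 := dist_triangle (Tmap Ht a ε p) (Tmap Ht a' ε p) x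
  linarith

/-- joint limit property at `a0`. -/
def Joint (UU : Set (E m k)) (Ht : P m k → (Fin k → ℝ)) (a0 : P m k) : Prop :=
  ∀ (x : E m k) (R : ℝ), 0 < R →
    (∃ᶠ q in 𝓝 a0 ×ˢ 𝓝[>] (0 : ℝ), Far UU Ht q.1 q.2 x R) →
    ∃ r > 0, ∀ᶠ q in 𝓝 a0 ×ˢ 𝓝[>] (0 : ℝ), Far UU Ht q.1 q.2 x r

/-- A6: the joint limit property holds on a residual subset of `O`. -/
theorem joint_residual (hO : IsOpen O) (hC : ContDiffOn ℝ 2 Ht O)
    (hsm : ∀ a ∈ O, ‖fderiv ℝ Ht a‖ ≤ 1 / 4)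
    (hSA : ∀ a ∈ O, ∀ (x : E m k) (r : ℝ), 0 < r →
      (∀ᶠ ε in 𝓝[>] (0 : ℝ), Far UU Ht a ε x r) ∨
      (∀ᶠ ε in 𝓝[>] (0 : ℝ), ¬ Far UU Ht a ε x r)) :
    ∃ R : Set (P m k), Dense R ∧ IsGδ R ∧ ∀ a0 ∈ R, a0 ∈ O → Joint UU Ht a0 := by
  classical
  let f : (ℕ × ℚ) → Option (Bool × ℕ) → Set (P m k) := fun i j =>
    match j with
    | none => Oᶜ
    | some (true, K) => closure (S1 UU Ht O (TopologicalSpace.denseSeq (E m k) i.1) i.2 K)
    | some (false, K) => closure (S2 UU Ht O (TopologicalSpace.denseSeq (E m k) i.1) i.2 K)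
  have hf_closed : ∀ i j, IsClosed (f i j) := by
    intro i j
    match j with
    | none => exact hO.isClosed_compl
    | some (true, K) => exact isClosed_closure
    | some (false, K) => exact isClosed_closure
  have hsmall : ∀ {p : ℝ → Prop}, (∀ᶠ ε in 𝓝[>] (0 : ℝ), p ε) →
      ∃ K : ℕ, ∀ ε ∈ Ioc (0 : ℝ) (1 / ((K : ℝ) + 1)), p ε := by
    intro p hp
    obtain ⟨η, hη, h⟩ := mem_nhdsGT_iff_exists_Ioo_subset.1 hp
    obtain ⟨K, hK⟩ := exists_nat_one_div_lt (show (0 : ℝ) < η from hη)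
    exact ⟨K, fun ε hε => h ⟨hε.1, lt_of_le_of_lt hε.2 hK⟩⟩
  have hf_cover : ∀ i, ⋃ j, f i j = univ := by
    intro i
    rw [eq_univ_iff_forall]
    intro a
    by_cases ha : a ∈ O
    · have hdich : (∀ᶠ ε in 𝓝[>] (0 : ℝ), Far UU Ht a ε
          (TopologicalSpace.denseSeq (E m k) i.1) i.2) ∨
          (∀ᶠ ε in 𝓝[>] (0 : ℝ), ¬ Far UU Ht a ε
          (TopologicalSpace.denseSeq (E m k) i.1) i.2) := by
        by_cases hq : (0 : ℝ) < i.2
        · exact hSA a ha _ _ hq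
        · left
          refine Eventually.of_forall fun ε p _ => ?_
          exact (not_lt.1 hq).trans dist_nonneg
      rcases hdich with h | h
      · obtain ⟨K, hK⟩ := hsmall h
        exact mem_iUnion.2 ⟨some (true, K), subset_closure ⟨ha, hK⟩⟩
      · obtain ⟨K, hK⟩ := hsmall h
        exact mem_iUnion.2 ⟨some (false, K), subset_closure ⟨ha, hK⟩⟩
    · exact mem_iUnion.2 ⟨none, ha⟩
  have hW_dense : ∀ i, Dense (⋃ j, interior (f i j)) := fun i =>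
    dense_iUnion_interior_of_closed (hf_closed i) (hf_cover i)
  have hW_open : ∀ i, IsOpen (⋃ j, interior (f i j)) := fun i =>
    isOpen_iUnion fun j => isOpen_interior
  refine ⟨⋂ i, ⋃ j, interior (f i j), dense_iInter_of_isOpen hW_open hW_dense,
    IsGδ.iInter_of_isOpen hW_open, ?_⟩
  intro a0 ha0 haO x R hR hfreq
  -- the dichotomy at `a0` for the dense data
  have hkey : ∀ (n : ℕ) (q : ℚ),
      (∀ᶠ z in 𝓝 a0 ×ˢ 𝓝[>] (0 : ℝ), Far UU Ht z.1 z.2 (TopologicalSpace.denseSeq (E m k) n) q) ∨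
      (∀ᶠ z in 𝓝 a0 ×ˢ 𝓝[>] (0 : ℝ), ∀ r' : ℝ, (q : ℝ) < r' →
        ¬ Far UU Ht z.1 z.2 (TopologicalSpace.denseSeq (E m k) n) r') := by
    intro n q
    have h1 := mem_iInter.1 ha0 (n, q)
    obtain ⟨j, hj⟩ := mem_iUnion.1 h1
    have hev : ∀ᶠ a in 𝓝 a0, a ∈ f (n, q) j ∧ a ∈ O :=
      inter_mem (mem_interior_iff_mem_nhds.1 hj) (hO.mem_nhds haO)
    have hevε : ∀ K : ℕ, ∀ᶠ ε in 𝓝[>] (0 : ℝ), ε ∈ Ioc (0 : ℝ) (1 / ((K : ℝ) + 1)) := fun K =>
      Ioc_mem_nhdsGT (by positivity)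
    match j, hev with
    | none, hev => exact absurd haO (interior_subset hj)
    | some (true, K), hev =>
      left
      filter_upwards [hev.prod_mk (hevε K)] with z hz
      exact S1_closure hO hC hz.1.2 hz.1.1 z.2 hz.2
    | some (false, K), hev =>
      right
      filter_upwards [hev.prod_mk (hevε K)] with z hz
      exact S2_closure hO hC hsm hz.1.2 hz.1.1 z.2 hz.2
  obtain ⟨n, hn⟩ : ∃ n, dist x (TopologicalSpace.denseSeq (E m k) n) < R / 4 := by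
    have := (TopologicalSpace.denseRange_denseSeq (E m k)).exists_dist_lt x
      (show (0 : ℝ) < R / 4 by positivity)
    exact this
  obtain ⟨q, hq1, hq2⟩ := exists_rat_btwn (show R / 4 < R / 2 by linarith)
  rcases hkey n q with h | h
  · refine ⟨q - dist x (TopologicalSpace.denseSeq (E m k) n), by linarith, ?_⟩
    filter_upwards [h] with z hz
    exact hz.mono (by rw [dist_comm])
  · exfalso
    obtain ⟨z, hz1, hz2⟩ := (hfreq.and_eventually h).exists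
    refine hz2 (R - dist x (TopologicalSpace.denseSeq (E m k) n)) (by linarith) ?_
    exact hz1.mono le_rfl

end Baire

end Crest.Agent.R264.JL
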