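import Crest.Agent.R264.JLAlg

set_option autoImplicit false

open Topology Filter Set Metric Complex

namespace Crest.Agent.R264.JL

variable {m k : ℕ}

/-- second order Taylor expansion with Peano remainder. -/
lemma taylor2 {F : Type*} [NormedAddCommGroup F] [NormedSpace ℝ F] {h h' : ℝ → F} {h2 : F}
    (h1 : ∀ᶠ s in 𝓝 (0 : ℝ), HasDerivAt h (h' s) s) (hh : HasDerivAt h' h2 0) :
    Tendsto (fun ε : ℝ => (ε⁻¹ ^ 2) • (h ε - h 0 - ε • h' 0)) (𝓝[>] 0)
      (𝓝 ((1 / 2 : ℝ) • h2)) := by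
  rw [Metric.tendsto_nhds]
  intro c hc
  have hc2 : 0 < c / 2 := by positivity
  have hlo : ∀ᶠ s in 𝓝 (0 : ℝ), ‖h' s - h' 0 - (s - 0) • h2‖ ≤ (c / 2) * ‖s - 0‖ :=
    (hasDerivAt_iff_isLittleO.1 hh).def hc2
  obtain ⟨η, hη, hball⟩ := Metric.eventually_nhds_iff_ball.1 (h1.and hlo)
  have : ∀ᶠ ε in 𝓝[>] (0 : ℝ), ε ∈ Ioo (0 : ℝ) η := Ioo_mem_nhdsGT hη
  filter_upwards [this] with ε hε
  obtain ⟨hε0, hεη⟩ := hε
  set φ : ℝ → F := fun s => h s - h 0 - s • h' 0 - (s ^ 2 / 2) • h2 with hφ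
  have hmem : ∀ s ∈ Icc (0 : ℝ) ε, s ∈ ball (0 : ℝ) η := fun s hs => by
    rw [mem_ball, dist_zero_right, Real.norm_eq_abs, abs_of_nonneg hs.1]
    exact lt_of_le_of_lt hs.2 hεη
  have hder : ∀ s ∈ Icc (0 : ℝ) ε, HasDerivWithinAt φ (h' s - h' 0 - s • h2) (Icc 0 ε) s := by
    intro s hs
    have a1 := (hball s (hmem s hs)).1
    have a2 : HasDerivAt (fun s : ℝ => s • h' 0) ((1 : ℝ) • h' 0) s :=
      (hasDerivAt_id s).smul_const _
    have a3 : HasDerivAt (fun s : ℝ => (s ^ 2 / 2) • h2) (s • h2) s := by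
      have : HasDerivAt (fun s : ℝ => s ^ 2 / 2) s s := by
        have := (hasDerivAt_pow 2 s).div_const 2
        simpa using this
      exact this.smul_const _
    have := ((a1.sub_const (h 0)).sub a2).sub a3
    rw [one_smul] at this
    exact this.hasDerivWithinAt
  have hbd : ∀ s ∈ Icc (0 : ℝ) ε, ‖h' s - h' 0 - s • h2‖ ≤ (c / 2) * ε := by
    intro s hs
    have := (hball s (hmem s hs)).2
    rw [sub_zero, Real.norm_eq_abs, abs_of_nonneg hs.1] at this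
    refine this.trans ?_
    have := hs.2
    gcongr
  have hmv := Convex.norm_image_sub_le_of_norm_hasDerivWithin_le (𝕜 := ℝ) hder hbd
    (convex_Icc 0 ε) (left_mem_Icc.2 hε0.le) (right_mem_Icc.2 hε0.le)
  have hφ0 : φ 0 = 0 := by simp [hφ]
  rw [hφ0, sub_zero, sub_zero, Real.norm_eq_abs, abs_of_pos hε0] at hmv
  rw [dist_eq_norm]
  have : (ε⁻¹ ^ 2) • (h ε - h 0 - ε • h' 0) - (1 / 2 : ℝ) • h2 = (ε⁻¹ ^ 2) • φ ε := by
    simp only [hφ, smul_sub, smul_smul]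
    congr 2
    field_simp
  rw [this, norm_smul, Real.norm_eq_abs, abs_of_pos (by positivity)]
  calc ε⁻¹ ^ 2 * ‖φ ε‖ ≤ ε⁻¹ ^ 2 * (c / 2 * ε * ε) := by gcongr
    _ = c / 2 := by field_simp
    _ < c := by linarith

/-! ### The data at the base point -/

section base

variable (D0 : P m k →L[ℝ] (Fin k → ℝ)) (D2 : P m k →L[ℝ] (P m k →L[ℝ] (Fin k → ℝ)))

/-- `B u = D0 (0,u)`. -/
noncomputable def BB : (Fin k → ℝ) →L[ℝ] (Fin k → ℝ) :=
  D0 ∘L ContinuousLinearMap.inr ℝ (Fin m → ℂ) (Fin k → ℝ)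

lemma BB_apply (u : Fin k → ℝ) : BB D0 u = D0 (0, u) := rfl

/-- `G = (1 + B²)⁻¹`. -/
noncomputable def GG : (Fin k → ℝ) →L[ℝ] (Fin k → ℝ) :=
  Ring.inverse (1 + BB D0 * BB D0)

variable {D0}

lemma GG_spec (hD : ‖D0‖ ≤ 1 / 4) (u : Fin k → ℝ) :
    GG D0 u + BB D0 (BB D0 (GG D0 u)) = u := by
  have hB : ‖BB D0‖ ≤ 1 / 4 := by
    refine ContinuousLinearMap.opNorm_le_bound _ (by norm_num) fun w => ?_
    rw [BB_apply]
    refine (D0.le_opNorm _).trans ?_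
    rw [Prod.norm_mk, norm_zero, max_eq_right (norm_nonneg _)]
    gcongr
  have hu : IsUnit (1 + BB D0 * BB D0) := by
    have : (1 + BB D0 * BB D0) = 1 - (-(BB D0 * BB D0)) := by rw [sub_neg_eq_add]
    rw [this]
    apply isUnit_one_sub_of_norm_lt_one
    rw [norm_neg]
    calc ‖BB D0 * BB D0‖ ≤ ‖BB D0‖ * ‖BB D0‖ := norm_mul_le _ _
      _ ≤ (1 / 4) * (1 / 4) := by gcongr
      _ < 1 := by norm_num
  have := Ring.mul_inverse_cancel _ hu
  calc GG D0 u + BB D0 (BB D0 (GG D0 u)) = ((1 + BB D0 * BB D0) * GG D0) u := rfl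
    _ = u := by rw [GG, this]; rfl

variable (D0)

/-- `δ(b) = (b, u1(b))`, the tangent direction of the path. -/
noncomputable def dl : (Fin m → ℂ) →ₗ[ℝ] P m k where
  toFun b := (b, GG D0 (D0 (I • b, 0) - BB D0 (D0 (b, 0))))
  map_add' x y := by
    have h1 : ((x + y, 0) : P m k) = (x, 0) + (y, 0) := by simp
    have h2 : ((I • (x + y), 0) : P m k) = (I • x, 0) + (I • y, 0) := by simp
    refine Prod.ext rfl ?_
    simp only [Prod.snd_add]
    rw [h1, h2]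
    simp only [map_add, map_sub]
    abel
  map_smul' c x := by
    have h1 : ((c • x, 0) : P m k) = c • (x, 0) := by simp
    have h2 : ((I • c • x, 0) : P m k) = c • (I • x, 0) := by
      simp [smul_comm I c x]
    refine Prod.ext rfl ?_
    simp only [Prod.smul_snd, RingHom.id_apply]
    rw [h1, h2]
    simp only [map_smul, map_sub, smul_sub]

/-- `DD_b = alpha (D2 δ) + i beta (D2 δ) (1 - i β0)⁻¹ α0`. -/
noncomputable def DDb (D : P m k →L[ℝ] (Fin k → ℝ)) : (Fin m → ℂ) →L[ℂ] (Fin k → ℂ) :=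
  alpha D + (I • beta D) ∘L (XI D0 ∘L alpha D0)

/-- `DD`. -/
noncomputable def DDD : (Fin m → ℂ) →L[ℝ] ((Fin m → ℂ) →L[ℂ] (Fin k → ℂ)) :=
  LinearMap.toContinuousLinearMap
    { toFun := fun b => DDb D0 (D2 (dl D0 b))
      map_add' := fun x y => by
        simp only [DDb, ← alphaC_apply, ← betaC_apply, map_add, smul_add,
          ContinuousLinearMap.add_comp]
        abel
      map_smul' := fun c x => by
        simp only [DDb, RingHom.id_apply, ← alphaC_apply, ← betaC_apply, map_smul]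
        rw [smul_comm I c, ContinuousLinearMap.smul_comp, smul_add] }

lemma DDD_apply (b : Fin m → ℂ) : DDD D0 D2 b = DDb D0 (D2 (dl D0 b)) := rfl

lemma reV_ofR (x : Fin k → ℝ) : reV (ofR x) = x := by
  funext i; simp
lemma imV_ofR (x : Fin k → ℝ) : imV (ofR x) = 0 := by
  funext i; simp
lemma reV_I_ofR (x : Fin k → ℝ) : reV (I • ofR x) = 0 := by
  funext i; simp
lemma imV_I_ofR (x : Fin k → ℝ) : imV (I • ofR x) = x := by
  funext i; simp

lemma beta_ofR (D : P m k →L[ℝ] (Fin k → ℝ)) (x y : Fin k → ℝ) :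
    beta D (ofR x + I • ofR y) = ofR (D (0, x)) + I • ofR (D (0, y)) := by
  rw [beta_apply, map_add, map_add, reV_ofR, imV_ofR, reV_I_ofR, imV_I_ofR, add_zero, zero_add]

lemma I_I_smul (x : Fin k → ℂ) : I • I • x = -x := by
  rw [smul_smul, Complex.I_mul_I, neg_one_smul]

lemma XD_ofR (D : P m k →L[ℝ] (Fin k → ℝ)) (x y : Fin k → ℝ) :
    XD D (ofR x + I • ofR y) = ofR (x + D (0, y)) + I • ofR (y - D (0, x)) := by
  rw [XD_apply, beta_ofR, smul_add, I_I_smul, map_add, map_sub, smul_sub]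
  abel

variable {D0}

lemma F1 (hD : ‖D0‖ ≤ 1 / 4) (b : Fin m → ℂ) :
    XD D0 (ofR (dl D0 b).2 + I • ofR (D0 (dl D0 b))) = (2 * I) • alpha D0 b := by
  have hspec := GG_spec hD (D0 (I • b, 0) - BB D0 (D0 (b, 0)))
  set u := GG D0 (D0 (I • b, 0) - BB D0 (D0 (b, 0))) with hu
  have hdl : dl D0 b = (b, u) := rfl
  have hsplit : D0 (b, u) = D0 (b, 0) + BB D0 u := by
    rw [BB_apply, ← map_add]; simp
  rw [hdl, XD_ofR]
  simp only
  rw [hsplit, ← BB_apply, ← BB_apply, (BB D0).map_add]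
  have e1 : u + (BB D0 (D0 (b, 0)) + BB D0 (BB D0 u)) = D0 (I • b, 0) := by
    calc u + (BB D0 (D0 (b, 0)) + BB D0 (BB D0 u))
        = (u + BB D0 (BB D0 u)) + BB D0 (D0 (b, 0)) := by abel
      _ = D0 (I • b, 0) := by rw [hspec]; abel
  have e2 : D0 (b, 0) + BB D0 u - BB D0 u = D0 (b, 0) := by abel
  rw [e1, e2, alpha_apply, smul_smul]
  have : (2 * I * (1 / 2) : ℂ) = I := by ring
  rw [this, smul_sub, I_I_smul]
  abel

lemma F2 (hD : ‖D0‖ ≤ 1 / 4) (t Q : Fin k → ℝ) :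
    XD D0 (ofR (GG D0 (t - (1 / 2 : ℝ) • BB D0 Q)) +
      I • ofR (D0 (0, GG D0 (t - (1 / 2 : ℝ) • BB D0 Q)) + (1 / 2 : ℝ) • Q)) =
      ofR t + I • ofR ((1 / 2 : ℝ) • Q) := by
  have hspec := GG_spec hD (t - (1 / 2 : ℝ) • BB D0 Q)
  set u := GG D0 (t - (1 / 2 : ℝ) • BB D0 Q) with hu
  rw [XD_ofR, ← BB_apply, ← BB_apply, (BB D0).map_add, (BB D0).map_smul]
  have e1 : u + (BB D0 (BB D0 u) + (1 / 2 : ℝ) • BB D0 Q) = t := by
    rw [← add_assoc, hspec]; abel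
  have e2 : BB D0 u + (1 / 2 : ℝ) • Q - BB D0 u = (1 / 2 : ℝ) • Q := by abel
  rw [e1, e2]

lemma F3 (hD : ‖D0‖ ≤ 1 / 4) (b : Fin m → ℂ) :
    reV (DDD D0 D2 b b) = (1 / 2 : ℝ) • D2 (dl D0 b) (dl D0 b) := by
  have h1 := F1 hD b
  set D := D2 (dl D0 b) with hDdef
  set w := ofR (dl D0 b).2 + I • ofR (D0 (dl D0 b)) with hw
  have h2 : XI D0 (alpha D0 b) = (2 * I)⁻¹ • w := by
    have h2I : (2 * I : ℂ) ≠ 0 := by simp
    have : alpha D0 b = (2 * I)⁻¹ • XD D0 w := by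
      rw [h1, smul_smul, inv_mul_cancel₀ h2I, one_smul]
    rw [this, map_smul, XI_XD hD]
  have h3 : DDD D0 D2 b b = alpha D b + (1 / 2 : ℂ) • beta D w := by
    rw [DDD_apply]
    simp only [DDb, ContinuousLinearMap.add_apply, ContinuousLinearMap.comp_apply,
      ContinuousLinearMap.smul_apply]
    rw [h2, map_smul, smul_smul]
    congr 2
    field_simp
  rw [h3, hw, beta_ofR, alpha_apply]
  have h4 : D (dl D0 b) = D (b, 0) + D (0, (dl D0 b).2) := by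
    rw [← map_add]
    congr 1
    refine Prod.ext ?_ ?_
    · simp [dl]
    · simp
  rw [h4]
  funext i
  simp
  ring

end base

end Crest.Agent.R264.JL
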