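import Crest.Agent.R264.JLMain
import Crest.Agent.R264.TopDefs

/-!
Row 264, C5 input (helper550): the one-parameter groups of the limit domain.
-/

set_option autoImplicit false

open Topology Filter Set Metric Complex

namespace Crest.Agent.R264.JL

variable {m k : ℕ}

/-- the field `X_b = (b, 2i DD_b ζ)`. -/
noncomputable def XF (DD : (Fin m → ℂ) →L[ℝ] ((Fin m → ℂ) →L[ℂ] (Fin k → ℂ)))
    (b : Fin m → ℂ) (p : E m k) : E m k := (b, (2 * I) • DD b p.1)

/-- the flow of `X_b`. -/
noncomputable def flX (DD : (Fin m → ℂ) →L[ℝ] ((Fin m → ℂ) →L[ℂ] (Fin k → ℂ)))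
    (b : Fin m → ℂ) (s : ℝ) (p : E m k) : E m k :=
  (p.1 + (s : ℂ) • b, p.2 + (2 * I * s) • DD b p.1 + (I * (s : ℂ) ^ 2) • DD b b)

/-- the field `(0,t)`. -/
noncomputable def TF (t : Fin k → ℝ) (_p : E m k) : E m k := (0, ofR t)

/-- the flow of `(0,t)`. -/
noncomputable def flT (t : Fin k → ℝ) (s : ℝ) (p : E m k) : E m k :=
  (p.1, p.2 + (s : ℂ) • ofR t)

lemma flX_eq (DD : (Fin m → ℂ) →L[ℝ] ((Fin m → ℂ) →L[ℂ] (Fin k → ℂ)))
    (b : Fin m → ℂ) (s : ℝ) (p : E m k) :
    flX DD b s p = Lmap DD (-(s • b)) (-(s ^ 2) • imV (DD b b)) p := by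
  refine Prod.ext ?_ ?_
  · simp [flX, Lmap]
  · have h := ofR_re_im (DD b b)
    have hDs : DD (-(s • b)) = -(s • DD b) := by
      rw [(DD).map_neg, (DD).map_smul]
    have hrs : DD b (s • b) = s • DD b b := by
      rw [← Complex.coe_smul s b, (DD b).map_smul, Complex.coe_smul]
    have h1 : DD (-(s • b)) (-(s • b)) = (s ^ 2) • DD b b := by
      rw [hDs]
      simp only [ContinuousLinearMap.neg_apply, ContinuousLinearMap.smul_apply]
      rw [(DD b).map_neg, hrs, smul_neg, neg_neg, smul_smul, sq]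
    have h2 : DD (-(s • b)) (p.1 - -(s • b)) = -(s • DD b p.1) - (s ^ 2) • DD b b := by
      rw [map_sub, h1, map_neg, map_smul]
      simp only [ContinuousLinearMap.neg_apply, ContinuousLinearMap.smul_apply]
    simp only [flX, Lmap, h1, h2]
    rw [(reV).map_smul]
    set q := reV (DD b b) with hq
    set r := imV (DD b b) with hr
    rw [← h]
    funext i
    simp only [map_smul, Pi.add_apply, Pi.sub_apply, Pi.smul_apply, Pi.neg_apply, smul_eq_mul,
      Complex.real_smul, ofR_apply]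
    push_cast
    linear_combination (-(s : ℂ) ^ 2 * (r i : ℂ)) * Complex.I_sq

lemma flT_eq (DD : (Fin m → ℂ) →L[ℝ] ((Fin m → ℂ) →L[ℂ] (Fin k → ℂ)))
    (t : Fin k → ℝ) (s : ℝ) (p : E m k) :
    flT t s p = Lmap DD 0 (-(s • t)) p := by
  refine Prod.ext ?_ ?_
  · simp [flT, Lmap]
  · simp [flT, Lmap]

theorem isFlow_X {DD : (Fin m → ℂ) →L[ℝ] ((Fin m → ℂ) →L[ℂ] (Fin k → ℂ))} {S : Set (E m k)}
    (h : ∀ b t, Lmap DD b t '' S = S) (b : Fin m → ℂ) :
    IsFlow S (XF DD b) (flX DD b) where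
  hol s := by
    apply Differentiable.differentiableOn
    unfold flX
    fun_prop
  maps s := by
    intro x hx
    rw [flX_eq, ← h (-(s • b)) (-(s ^ 2) • imV (DD b b))]
    exact mem_image_of_mem _ hx
  zero x _ := by simp [flX]
  add s t x _ := by
    refine Prod.ext ?_ ?_
    · simp only [flX]
      push_cast
      rw [add_smul]
      abel
    · simp only [flX, map_add, map_smul]
      push_cast
      module
  gen x _ := by
    have h1 : HasDerivAt (fun s : ℝ => (s : ℂ)) 1 0 := by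
      simpa using (hasDerivAt_id (0 : ℝ)).ofReal_comp
    have h2 : HasDerivAt (fun s : ℝ => x.1 + (s : ℂ) • b) ((1 : ℂ) • b) 0 :=
      (h1.smul_const b).const_add _
    have h3 : HasDerivAt (fun s : ℝ => (2 * I * (s : ℂ))) (2 * I * 1) 0 := h1.const_mul _
    have h4 : HasDerivAt (fun s : ℝ => (I * (s : ℂ) ^ 2)) 0 0 := by
      have := (h1.pow 2).const_mul I
      simpa using this
    have h5 : HasDerivAt (fun s : ℝ => x.2 + (2 * I * (s : ℂ)) • DD b x.1
        + (I * (s : ℂ) ^ 2) • DD b b) ((2 * I * 1) • DD b x.1 + (0 : ℂ) • DD b b) 0 :=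
      ((h3.smul_const _).const_add _).add (h4.smul_const _)
    rw [one_smul] at h2
    rw [mul_one, zero_smul, add_zero] at h5
    exact h2.prodMk h5

theorem isFlow_T {DD : (Fin m → ℂ) →L[ℝ] ((Fin m → ℂ) →L[ℂ] (Fin k → ℂ))} {S : Set (E m k)}
    (h : ∀ b t, Lmap DD b t '' S = S) (t : Fin k → ℝ) :
    IsFlow S (TF t) (flT t) where
  hol s := by
    apply Differentiable.differentiableOn
    unfold flT
    fun_prop
  maps s := by
    intro x hx
    rw [flT_eq DD, ← h 0 (-(s • t))]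
    exact mem_image_of_mem _ hx
  zero x _ := by simp [flT]
  add s s' x _ := by
    refine Prod.ext rfl ?_
    simp only [flT]
    push_cast
    rw [add_smul]
    abel
  gen x _ := by
    have h1 : HasDerivAt (fun s : ℝ => (s : ℂ)) 1 0 := by
      simpa using (hasDerivAt_id (0 : ℝ)).ofReal_comp
    have h2 : HasDerivAt (fun s : ℝ => x.2 + (s : ℂ) • ofR t) ((1 : ℂ) • ofR t) 0 :=
      (h1.smul_const _).const_add _
    rw [one_smul] at h2
    exact (hasDerivAt_const (0 : ℝ) x.1).prodMk h2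

/-- SPAN. -/
theorem span_fields (DD : (Fin m → ℂ) →L[ℝ] ((Fin m → ℂ) →L[ℂ] (Fin k → ℂ))) (p : E m k) :
    Submodule.span ℂ (range (fun b => XF DD b p) ∪ range (fun t => TF t p)) = ⊤ := by
  rw [eq_top_iff]
  rintro q -
  have hw : ∀ w : Fin k → ℂ, ((0, w) : E m k) ∈
      Submodule.span ℂ (range (fun b => XF DD b p) ∪ range (fun t => TF t p)) := by
    intro w
    have h1 : ((0, ofR (reV w)) : E m k) ∈
        Submodule.span ℂ (range (fun b => XF DD b p) ∪ range (fun t => TF t p)) :=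
      Submodule.subset_span (Or.inr ⟨reV w, rfl⟩)
    have h2 : ((0, ofR (imV w)) : E m k) ∈
        Submodule.span ℂ (range (fun b => XF DD b p) ∪ range (fun t => TF t p)) :=
      Submodule.subset_span (Or.inr ⟨imV w, rfl⟩)
    have h3 := Submodule.add_mem _ h1 (Submodule.smul_mem _ I h2)
    have h4 : ((0, ofR (reV w)) : E m k) + I • ((0, ofR (imV w)) : E m k) = (0, w) := by
      refine Prod.ext (by simp) ?_
      simp only [Prod.snd_add, Prod.smul_snd]
      exact ofR_re_im w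
    rwa [h4] at h3
  have h1 : XF DD q.1 p ∈
      Submodule.span ℂ (range (fun b => XF DD b p) ∪ range (fun t => TF t p)) :=
    Submodule.subset_span (Or.inl ⟨q.1, rfl⟩)
  have h2 := Submodule.add_mem _ h1 (hw (q.2 - (2 * I) • DD q.1 p.1))
  have h3 : XF DD q.1 p + ((0, q.2 - (2 * I) • DD q.1 p.1) : E m k) = q := by
    refine Prod.ext ?_ ?_
    · simp [XF]
    · simp [XF]
  rwa [h3] at h2

end Crest.Agent.R264.JL
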