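import Crest.Agent.R264.JLExp

set_option autoImplicit false

open Topology Filter Set Metric Complex

namespace Crest.Agent.R264.JL

variable {m k : ℕ}

lemma tendsto_comp {ι U V W : Type*} [NormedAddCommGroup U] [NormedSpace ℂ U]
    [NormedAddCommGroup V] [NormedSpace ℂ V] [NormedAddCommGroup W] [NormedSpace ℂ W]
    {l : Filter ι} {A : ι → V →L[ℂ] W} {B : ι → U →L[ℂ] V} {A0 : V →L[ℂ] W} {B0 : U →L[ℂ] V}
    (hA : Tendsto A l (𝓝 A0)) (hB : Tendsto B l (𝓝 B0)) :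
    Tendsto (fun j => A j ∘L B j) l (𝓝 (A0 ∘L B0)) :=
  ((isBoundedBilinearMap_comp (𝕜 := ℂ) (E := U) (F := V) (G := W)).continuous.tendsto
    (A0, B0)).comp (hA.prodMk_nhds hB)

/-- the path `a(ε) = a0 + ε δ + ε² v`. -/
noncomputable def gam (a0 δ v : P m k) (ε : ℝ) : P m k := a0 + ε • δ + (ε ^ 2) • v

lemma gam_zero (a0 δ v : P m k) : gam a0 δ v 0 = a0 := by simp [gam]

lemma hasDerivAt_gam (a0 δ v : P m k) (ε : ℝ) :
    HasDerivAt (gam a0 δ v) (δ + (2 * ε) • v) ε := by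
  have a2 : HasDerivAt (fun s : ℝ => s • δ) ((1 : ℝ) • δ) ε :=
    (hasDerivAt_id ε).smul_const _
  have a3 : HasDerivAt (fun s : ℝ => (s ^ 2) • v) ((2 * ε) • v) ε := by
    have := (hasDerivAt_pow 2 ε)
    simp only [Nat.cast_ofNat, Nat.add_one_sub_one, pow_one] at this
    exact this.smul_const _
  have := (a2.const_add a0).add a3
  rw [one_smul] at this
  exact this

lemma continuous_gam (a0 δ v : P m k) : Continuous (gam a0 δ v) :=
  continuous_iff_continuousAt.2 fun ε => (hasDerivAt_gam a0 δ v ε).continuousAt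

lemma tendsto_gam (a0 δ v : P m k) : Tendsto (gam a0 δ v) (𝓝[>] 0) (𝓝 a0) := by
  have := (continuous_gam a0 δ v).tendsto 0
  rw [gam_zero] at this
  exact this.mono_left nhdsWithin_le_nhds

section

variable {Ht : P m k → (Fin k → ℝ)} {a0 : P m k}

lemma ht_eventually (hC : ContDiffAt ℝ 2 Ht a0) :
    ∀ᶠ a in 𝓝 a0, HasFDerivAt Ht (fderiv ℝ Ht a) a := by
  have h1 : ∀ᶠ a in 𝓝 a0, ContDiffAt ℝ 2 Ht a := hC.eventually (by simp)
  filter_upwards [h1] with a ha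
  exact (ha.differentiableAt (by norm_num)).hasFDerivAt

lemma ht_fderiv (hC : ContDiffAt ℝ 2 Ht a0) :
    HasFDerivAt (fderiv ℝ Ht) (fderiv ℝ (fderiv ℝ Ht) a0) a0 := by
  have : ContDiffAt ℝ 1 (fderiv ℝ Ht) a0 := hC.fderiv_right (by norm_num)
  exact (this.differentiableAt (by norm_num)).hasFDerivAt

lemma hasDerivAt_fderiv_gam (hC : ContDiffAt ℝ 2 Ht a0) (δ v : P m k) :
    HasDerivAt (fun ε => fderiv ℝ Ht (gam a0 δ v ε)) (fderiv ℝ (fderiv ℝ Ht) a0 δ) 0 := by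
  have h := ht_fderiv hC
  have h2 := hasDerivAt_gam a0 δ v 0
  rw [mul_zero, zero_smul, add_zero] at h2
  rw [← gam_zero a0 δ v] at h
  have := h.comp_hasDerivAt (0 : ℝ) h2
  rw [gam_zero] at this
  exact this

lemma ht_taylor (hC : ContDiffAt ℝ 2 Ht a0) (δ v : P m k) :
    Tendsto (fun ε : ℝ => (ε⁻¹ ^ 2) •
      (Ht (gam a0 δ v ε) - Ht a0 - ε • fderiv ℝ Ht a0 δ)) (𝓝[>] 0)
      (𝓝 (fderiv ℝ Ht a0 v + (1 / 2 : ℝ) • fderiv ℝ (fderiv ℝ Ht) a0 δ δ)) := by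
  have h1 : ∀ᶠ s in 𝓝 (0 : ℝ), HasDerivAt (fun ε => Ht (gam a0 δ v ε))
      ((fun ε => fderiv ℝ Ht (gam a0 δ v ε) (δ + (2 * ε) • v)) s) s := by
    have hc : Tendsto (gam a0 δ v) (𝓝 0) (𝓝 a0) := by
      have := (continuous_gam a0 δ v).tendsto 0
      rwa [gam_zero] at this
    filter_upwards [hc.eventually (ht_eventually hC)] with s hs
    exact hs.comp_hasDerivAt s (hasDerivAt_gam a0 δ v s)
  have h2 : HasDerivAt (fun ε : ℝ => fderiv ℝ Ht (gam a0 δ v ε) (δ + (2 * ε) • v))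
      (fderiv ℝ (fderiv ℝ Ht) a0 δ δ + fderiv ℝ Ht a0 ((2 : ℝ) • v)) 0 := by
    have hv : HasDerivAt (fun ε : ℝ => δ + (2 * ε) • v) ((2 : ℝ) • v) 0 := by
      have h3 : HasDerivAt (fun ε : ℝ => 2 * ε) 2 0 := by
        simpa using (hasDerivAt_id (0 : ℝ)).const_mul 2
      exact (h3.smul_const v).const_add δ
    have := (hasDerivAt_fderiv_gam hC δ v).clm_apply hv
    simpa [gam_zero] using this
  have := taylor2 h1 h2
  simp only [gam_zero, mul_zero, zero_smul, add_zero] at this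
  have e : fderiv ℝ Ht a0 v + (1 / 2 : ℝ) • fderiv ℝ (fderiv ℝ Ht) a0 δ δ =
      (1 / 2 : ℝ) • (fderiv ℝ (fderiv ℝ Ht) a0 δ δ + fderiv ℝ Ht a0 ((2 : ℝ) • v)) := by
    rw [smul_add, map_smul, smul_smul]
    norm_num
    abel
  rw [e]
  exact this

end

theorem trans_tendsto {Ht : P m k → (Fin k → ℝ)} {a0 : P m k} (hC : ContDiffAt ℝ 2 Ht a0)
    (hD : ‖fderiv ℝ Ht a0‖ ≤ 1 / 4) (b : Fin m → ℂ) (t : Fin k → ℝ) :
    ∃ v : P m k, Tendsto (fun ε => trans Ht a0 (gam a0 (dl (fderiv ℝ Ht a0) b) v ε) ε) (𝓝[>] 0)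
      (𝓝 (b, 1, (2 * I) • DDD (fderiv ℝ Ht a0) (fderiv ℝ (fderiv ℝ Ht) a0) b,
        ofR t + I • ofR (reV (DDD (fderiv ℝ Ht a0) (fderiv ℝ (fderiv ℝ Ht) a0) b b)))) := by
  set D0 := fderiv ℝ Ht a0 with hD0
  set D2 := fderiv ℝ (fderiv ℝ Ht) a0 with hD2
  set δ := dl D0 b with hδ
  set Q := D2 δ δ with hQ
  set u2 := GG D0 (t - (1 / 2 : ℝ) • BB D0 Q) with hu2
  set v : P m k := (0, u2) with hv
  refine ⟨v, ?_⟩
  have hpos : ∀ᶠ ε in 𝓝[>] (0 : ℝ), 0 < ε := eventually_mem_nhdsWithin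
  have hγ := tendsto_gam a0 δ v
  -- continuity of the derivative
  have hDγ : Tendsto (fun ε => fderiv ℝ Ht (gam a0 δ v ε)) (𝓝[>] 0) (𝓝 D0) := by
    have : ContinuousAt (fderiv ℝ Ht) a0 := (ht_fderiv hC).continuousAt
    exact this.tendsto.comp hγ
  have hXI : Tendsto (fun ε => XI (fderiv ℝ Ht (gam a0 δ v ε))) (𝓝[>] 0) (𝓝 (XI D0)) :=
    (continuousAt_XI hD).tendsto.comp hDγ
  have hslope : Tendsto (fun ε : ℝ => ε⁻¹ • (fderiv ℝ Ht (gam a0 δ v ε) - D0)) (𝓝[>] 0)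
      (𝓝 (D2 δ)) := by
    have h := (hasDerivAt_iff_tendsto_slope.1 (hasDerivAt_fderiv_gam hC δ v))
    have h2 : Tendsto (slope (fun ε => fderiv ℝ Ht (gam a0 δ v ε)) 0) (𝓝[>] 0) (𝓝 (D2 δ)) :=
      h.mono_left (nhdsWithin_mono _ (fun x hx => ne_of_gt hx))
    refine h2.congr fun ε => ?_
    rw [slope_def_module, gam_zero, sub_zero]
  have hone : XD D0 ∘L XI D0 = (1 : (Fin k → ℂ) →L[ℂ] (Fin k → ℂ)) := by
    ext1 w
    rw [ContinuousLinearMap.comp_apply, XD_XI hD]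
    rfl
  have hQt : Tendsto (fun ε => XD D0 ∘L XI (fderiv ℝ Ht (gam a0 δ v ε))) (𝓝[>] 0)
      (𝓝 (1 : (Fin k → ℂ) →L[ℂ] (Fin k → ℂ))) := by
    rw [← hone]
    exact tendsto_comp (tendsto_const_nhds (x := XD D0)) hXI
  -- the components
  refine Tendsto.prodMk_nhds ?_ (Tendsto.prodMk_nhds hQt (Tendsto.prodMk_nhds ?_ ?_))
  · refine tendsto_const_nhds.congr' ?_
    filter_upwards [hpos] with ε hε
    have : (gam a0 δ v ε).1 - a0.1 = ε • b := by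
      simp [gam, hv, hδ, dl]
    rw [this, smul_smul, inv_mul_cancel₀ hε.ne', one_smul]
  · refine Tendsto.const_smul ?_ _
    have hA : Tendsto (fun ε : ℝ => alphaC (ε⁻¹ • (fderiv ℝ Ht (gam a0 δ v ε) - D0))) (𝓝[>] 0)
        (𝓝 (alphaC (D2 δ))) := (alphaC.continuous.tendsto _).comp hslope
    have hB : Tendsto (fun ε : ℝ => I • betaC (ε⁻¹ • (fderiv ℝ Ht (gam a0 δ v ε) - D0))) (𝓝[>] 0)
        (𝓝 (I • betaC (D2 δ))) := ((betaC.continuous.tendsto _).comp hslope).const_smul I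
    have c1 : Tendsto (fun ε : ℝ => (XD D0 ∘L XI (fderiv ℝ Ht (gam a0 δ v ε))) ∘L
        alphaC (ε⁻¹ • (fderiv ℝ Ht (gam a0 δ v ε) - D0))) (𝓝[>] 0)
        (𝓝 ((1 : (Fin k → ℂ) →L[ℂ] (Fin k → ℂ)) ∘L alphaC (D2 δ))) :=
      tendsto_comp hQt hA
    have c2 : Tendsto (fun ε : ℝ => XI (fderiv ℝ Ht (gam a0 δ v ε)) ∘L alpha D0) (𝓝[>] 0)
        (𝓝 (XI D0 ∘L alpha D0)) :=
      tendsto_comp hXI tendsto_const_nhds
    have c3 : Tendsto (fun ε : ℝ => (I • betaC (ε⁻¹ • (fderiv ℝ Ht (gam a0 δ v ε) - D0))) ∘L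
        (XI (fderiv ℝ Ht (gam a0 δ v ε)) ∘L alpha D0)) (𝓝[>] 0)
        (𝓝 ((I • betaC (D2 δ)) ∘L (XI D0 ∘L alpha D0))) :=
      tendsto_comp hB c2
    have c4 := c1.add c3
    have hlim : (1 : (Fin k → ℂ) →L[ℂ] (Fin k → ℂ)) ∘L alphaC (D2 δ)
        + (I • betaC (D2 δ)) ∘L (XI D0 ∘L alpha D0) = DDD D0 D2 b := by
      rw [DDD_apply, DDb]
      rfl
    rw [hlim] at c4
    refine c4.congr' ?_
    have hsm : ∀ᶠ ε in 𝓝[>] (0 : ℝ), ‖fderiv ℝ Ht (gam a0 δ v ε) - D0‖ < 1 / 4 := by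
      have := hDγ.sub_const D0
      rw [sub_self] at this
      have := this.norm
      rw [norm_zero] at this
      exact this.eventually (gt_mem_nhds (by norm_num))
    have hun : ∀ᶠ ε in 𝓝[>] (0 : ℝ), IsUnit (XD (fderiv ℝ Ht (gam a0 δ v ε))) := by
      have h1 : Tendsto (fun ε => XD (fderiv ℝ Ht (gam a0 δ v ε))) (𝓝[>] 0) (𝓝 (XD D0)) :=
        (continuous_XD.tendsto _).comp hDγ
      exact h1.eventually ((Units.isOpen.mem_nhds (isUnit_XD hD)))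
    filter_upwards [hun] with ε hε
    set D := fderiv ℝ Ht (gam a0 δ v ε) with hDε
    have hXX : ∀ w, XD D (XI D w) = w := fun w => by
      have := Ring.mul_inverse_cancel _ hε
      calc XD D (XI D w) = (XD D * XI D) w := rfl
        _ = w := by rw [XI, this]; rfl
    ext1 ζ
    have e0 : alphaC (ε⁻¹ • (D - D0)) = ε⁻¹ • (alpha D - alpha D0) := by
      rw [map_smul, map_sub]; rfl
    have e1 : betaC (ε⁻¹ • (D - D0)) = ε⁻¹ • (beta D - beta D0) := by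
      rw [map_smul, map_sub]; rfl
    rw [e0, e1]
    simp only [ContinuousLinearMap.add_apply, ContinuousLinearMap.comp_apply,
      ContinuousLinearMap.smul_apply, ContinuousLinearMap.sub_apply]
    -- `X0 w = X w + i (β - β0) w`
    have e2 : ∀ w, XD D0 w = XD D w + I • (beta D w - beta D0 w) := fun w => by
      rw [XD_apply, XD_apply, smul_sub]; abel
    have hrI : ∀ (c : ℝ) (w : Fin k → ℂ), XI D (c • w) = c • XI D w := fun c w => by
      rw [← Complex.coe_smul, map_smul, Complex.coe_smul]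
    have hrX : ∀ (c : ℝ) (w : Fin k → ℂ), XD D0 (c • w) = c • XD D0 w := fun c w => by
      rw [← Complex.coe_smul, map_smul, Complex.coe_smul]
    rw [hrI, hrX, map_sub, map_sub, e2 (XI D (alpha D0 ζ)), hXX]
    module
  · have hT := ht_taylor hC δ v
    have hT2 : Tendsto (fun ε : ℝ => XD D0 (ofR u2 + I • ofR ((ε⁻¹ ^ 2) •
      (Ht (gam a0 δ v ε) - Ht a0 - ε • D0 δ)))) (𝓝[>] 0)
      (𝓝 (XD D0 (ofR u2 + I • ofR (D0 v + (1 / 2 : ℝ) • D2 δ δ)))) := by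
      refine ((XD D0).continuous.tendsto _).comp ?_
      refine tendsto_const_nhds.add ?_
      exact ((ofR.continuous.tendsto _).comp hT).const_smul I
    have hF2 := F2 hD t Q
    rw [hv] at hT2
    rw [hF2] at hT2
    rw [F3 D2 hD b]
    refine hT2.congr' ?_
    filter_upwards [hpos] with ε hε
    have hF1 := F1 hD b
    have g1 : (gam a0 δ (0, u2) ε).1 - a0.1 = ε • b := by
      simp [gam, hδ, dl]
    have g2 : (sig Ht (gam a0 δ (0, u2) ε)).2 - (sig Ht a0).2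
        = ε • (ofR δ.2 + I • ofR (D0 δ)) + (ε ^ 2) • (ofR u2 + I • ofR ((ε⁻¹ ^ 2) •
          (Ht (gam a0 δ (0, u2) ε) - Ht a0 - ε • D0 δ))) := by
      simp only [sig]
      have g3 : (gam a0 δ (0, u2) ε).2 = a0.2 + ε • δ.2 + (ε ^ 2) • u2 := by
        simp [gam]
      rw [g3]
      simp only [map_add, map_smul, map_sub]
      have h4 : ε ^ 2 * ε⁻¹ ^ 2 = 1 := by field_simp
      have h5 : (ε ^ 2) • (I • (ε⁻¹ ^ 2) • (ofR (Ht (gam a0 δ (0, u2) ε)) - ofR (Ht a0)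
          - ε • ofR (D0 δ))) = I • (ofR (Ht (gam a0 δ (0, u2) ε)) - ofR (Ht a0)
          - ε • ofR (D0 δ)) := by
        rw [smul_comm (ε ^ 2) I, smul_smul (ε ^ 2), h4, one_smul]
      rw [smul_add (ε ^ 2), h5]
      module
    have hrX : ∀ (c : ℝ) (w : Fin k → ℂ), XD D0 (c • w) = c • XD D0 w := fun c w => by
      rw [← Complex.coe_smul, map_smul, Complex.coe_smul]
    have hrα : ∀ (c : ℝ) (w : Fin m → ℂ), alpha D0 (c • w) = c • alpha D0 w := fun c w => by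
      rw [← Complex.coe_smul, map_smul, Complex.coe_smul]
    rw [← hδ] at hF1
    rw [g1, g2, ← hD0]
    generalize ofR u2 + I • ofR ((ε⁻¹ ^ 2) •
          (Ht (gam a0 δ (0, u2) ε) - Ht a0 - ε • D0 δ)) = Rr
    rw [map_add, hrX, hrX, hF1, hrα]
    have h4 : ε⁻¹ ^ 2 * ε ^ 2 = 1 := by field_simp
    rw [smul_comm (2 * I) ε, add_sub_cancel_left, smul_smul, h4, one_smul]

end Crest.Agent.R264.JL
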