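import Crest.Agent.R264.JLBaire

set_option autoImplicit false

open Topology Filter Set Metric Complex

namespace Crest.Agent.R264.JL

variable {m k : ℕ}

section

variable {UU : Set (E m k)} {Ht : P m k → (Fin k → ℝ)} {a0 : P m k}

lemma mem_OMs_of_far (hD : ‖fderiv ℝ Ht a0‖ ≤ 1 / 4) {x : E m k} {r : ℝ} (hr : 0 < r)
    (h : ∀ᶠ ε in 𝓝[>] (0 : ℝ), Far UU Ht a0 ε x r) : x ∈ OMs (Amap Ht a0 '' UU) := by
  refine ⟨r, hr, ?_⟩
  filter_upwards [h, self_mem_nhdsWithin] with ε h1 h2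
  exact (far_iff hD UU h2 x r).1 h1

lemma far_of_mem_OMs (hD : ‖fderiv ℝ Ht a0‖ ≤ 1 / 4) {x : E m k}
    (h : x ∈ OMs (Amap Ht a0 '' UU)) :
    ∃ r > 0, ∀ᶠ ε in 𝓝[>] (0 : ℝ), Far UU Ht a0 ε x r := by
  obtain ⟨r, hr, h⟩ := h
  refine ⟨r, hr, ?_⟩
  filter_upwards [h, self_mem_nhdsWithin] with ε h1 h2
  exact (far_iff hD UU h2 x r).2 h1

lemma tendsto_const_prod : Tendsto (fun ε : ℝ => (a0, ε)) (𝓝[>] (0 : ℝ)) (𝓝 a0 ×ˢ 𝓝[>] (0 : ℝ)) :=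
  Tendsto.prodMk tendsto_const_nhds tendsto_id

lemma mem_OMs_of_joint (hD : ‖fderiv ℝ Ht a0‖ ≤ 1 / 4) (hJ : Joint UU Ht a0) {x : E m k} {R : ℝ}
    (hR : 0 < R) (h : ∃ᶠ q in 𝓝 a0 ×ˢ 𝓝[>] (0 : ℝ), Far UU Ht q.1 q.2 x R) :
    x ∈ OMs (Amap Ht a0 '' UU) := by
  obtain ⟨r, hr, h2⟩ := hJ x R hR h
  exact mem_OMs_of_far hD hr (tendsto_const_prod.eventually h2)

/-- the converse kernel property. -/
theorem kernel (hD : ‖fderiv ℝ Ht a0‖ ≤ 1 / 4) (hJ : Joint UU Ht a0) {x : E m k} {r : ℝ}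
    (hr : 0 < r)
    (h : ∃ᶠ ε in 𝓝[>] (0 : ℝ), ball x r ⊆ {y | dil ε y ∈ Amap Ht a0 '' UU}) :
    x ∈ OMs (Amap Ht a0 '' UU) := by
  refine mem_OMs_of_joint hD hJ hr ?_
  have h1 : ∃ᶠ ε in 𝓝[>] (0 : ℝ), Far UU Ht a0 ε x r := by
    refine (h.and_eventually self_mem_nhdsWithin).mono ?_
    intro ε hε
    exact (far_iff hD UU hε.2 x r).2 hε.1
  exact tendsto_const_prod.frequently h1

lemma continuous_Aff (θ : Th m k) : Continuous (Aff θ) := by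
  unfold Aff
  fun_prop

/-- INVARIANCE (one inclusion). -/
theorem Lmap_mem (hC : ContDiffAt ℝ 2 Ht a0) (hsm : ∀ᶠ a in 𝓝 a0, ‖fderiv ℝ Ht a‖ ≤ 1 / 4)
    (hJ : Joint UU Ht a0) (b : Fin m → ℂ) (t : Fin k → ℝ) {x : E m k}
    (hx : x ∈ OMs (Amap Ht a0 '' UU)) :
    Lmap (DDD (fderiv ℝ Ht a0) (fderiv ℝ (fderiv ℝ Ht) a0)) b t x ∈ OMs (Amap Ht a0 '' UU) := by
  have hD : ‖fderiv ℝ Ht a0‖ ≤ 1 / 4 := hsm.self_of_nhds
  obtain ⟨r, hr, hfar⟩ := far_of_mem_OMs hD hx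
  obtain ⟨v, hv⟩ := trans_tendsto hC hD b t
  set D0 := fderiv ℝ Ht a0 with hD0
  set D2 := fderiv ℝ (fderiv ℝ Ht) a0 with hD2
  set γ := gam a0 (dl D0 b) v with hγ
  set θ0 : Th m k := (b, 1, (2 * I) • DDD D0 D2 b, ofR t + I • ofR (reV (DDD D0 D2 b b))) with hθ0
  set y0 := Lmap (DDD D0 D2) b t x with hy0
  have hθy : Aff θ0 y0 = x := by
    refine Prod.ext ?_ ?_
    · simp [Aff, hθ0, hy0, Lmap]
    · simp only [Aff, hθ0, hy0, Lmap, ContinuousLinearMap.smul_apply,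
        ContinuousLinearMap.one_apply]
      abel
  -- a small ball around `y0`
  have hr3 : 0 < r / 3 := by positivity
  have hcont : ContinuousAt (Aff θ0) y0 := (continuous_Aff θ0).continuousAt
  obtain ⟨r1, hr1, hball⟩ := Metric.continuousAt_iff.1 hcont (r / 3) hr3
  set r' := min r1 1 with hr'
  have hr'0 : 0 < r' := lt_min hr1 one_pos
  have hunif := Aff_tendsto hv (‖y0‖ + 1) hr3
  have hγt : Tendsto γ (𝓝[>] 0) (𝓝 a0) := tendsto_gam _ _ _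
  have hmain : ∀ᶠ ε in 𝓝[>] (0 : ℝ), Far UU Ht (γ ε) ε y0 r' := by
    filter_upwards [hfar, hunif, hγt.eventually hsm] with ε h1 h2 h3 p hp
    by_contra hcon
    push Not at hcon
    have h4 : ‖Tmap Ht (γ ε) ε p‖ ≤ ‖y0‖ + 1 := by
      calc ‖Tmap Ht (γ ε) ε p‖ = ‖(Tmap Ht (γ ε) ε p - y0) + y0‖ := by rw [sub_add_cancel]
        _ ≤ ‖Tmap Ht (γ ε) ε p - y0‖ + ‖y0‖ := norm_add_le _ _
        _ ≤ ‖y0‖ + 1 := by
          rw [← dist_eq_norm]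
          have := min_le_right r1 1
          linarith
    have h5 := h2 _ h4
    rw [← Tmap_trans h3] at h5
    have h6 : dist (Aff θ0 (Tmap Ht (γ ε) ε p)) (Aff θ0 y0) < r / 3 :=
      hball (lt_of_lt_of_le hcon (min_le_left _ _))
    rw [hθy] at h6
    have h7 := h1 p hp
    have h8 := dist_triangle (Tmap Ht a0 ε p) (Aff θ0 (Tmap Ht (γ ε) ε p)) x
    linarith
  refine mem_OMs_of_joint hD hJ hr'0 ?_
  have htend : Tendsto (fun ε : ℝ => (γ ε, ε)) (𝓝[>] (0 : ℝ)) (𝓝 a0 ×ˢ 𝓝[>] (0 : ℝ)) :=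
    Tendsto.prodMk hγt tendsto_id
  exact htend.frequently hmain.frequently

end

lemma ofR_re_im (w : Fin k → ℂ) : ofR (reV w) + I • ofR (imV w) = w := by
  funext i
  simp only [Pi.add_apply, Pi.smul_apply, ofR_apply, reV_apply, imV_apply, smul_eq_mul]
  rw [mul_comm]
  exact Complex.re_add_im (w i)

/-- `L_{b,t} ∘ L_{-b,t'} = id`. -/
lemma Lmap_Lmap (DD : (Fin m → ℂ) →L[ℝ] ((Fin m → ℂ) →L[ℂ] (Fin k → ℂ)))
    (b : Fin m → ℂ) (t : Fin k → ℝ) (p : E m k) :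
    Lmap DD b t (Lmap DD (-b) (-t - (2 : ℝ) • imV (DD b b)) p) = p := by
  refine Prod.ext ?_ ?_
  · simp [Lmap]
  · have h := ofR_re_im (DD b b)
    set q := reV (DD b b) with hq
    set s := imV (DD b b) with hs
    have h1 : (DD (-b)) (-b) = DD b b := by simp
    simp only [Lmap, h1]
    rw [← hq]
    have h2 : DD (-b) (p.1 - -b) = - DD b p.1 - DD b b := by
      rw [map_neg]
      simp only [ContinuousLinearMap.neg_apply, sub_neg_eq_add, map_add]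
      abel
    rw [h2, ← h]
    simp only [map_sub, map_neg, map_smul, sub_neg_eq_add, add_sub_cancel_right]
    have hII : ∀ w : Fin k → ℂ, (2 * I) • I • w = -((2 : ℂ) • w) := fun w => by
      rw [smul_smul, mul_assoc, Complex.I_mul_I, mul_neg_one, neg_smul]
    have h2r : (2 : ℝ) • ofR s = (2 : ℂ) • ofR s := by
      funext i; simp
    simp only [smul_sub, smul_add, smul_neg, hII, h2r]
    module

theorem image_Lmap {DD : (Fin m → ℂ) →L[ℝ] ((Fin m → ℂ) →L[ℂ] (Fin k → ℂ))} {S : Set (E m k)}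
    (h : ∀ b t x, x ∈ S → Lmap DD b t x ∈ S) (b : Fin m → ℂ) (t : Fin k → ℝ) :
    Lmap DD b t '' S = S := by
  apply Subset.antisymm
  · rintro _ ⟨x, hx, rfl⟩
    exact h b t x hx
  · intro y hy
    exact ⟨_, h _ _ _ hy, Lmap_Lmap DD b t y⟩

/-- A6 + A7, for every `a0` in a residual set. -/
theorem main_residual {Ht : P m k → (Fin k → ℝ)} {O : Set (P m k)} {UU : Set (E m k)}
    (hO : IsOpen O) (hC : ContDiffOn ℝ 2 Ht O) (hsm : ∀ a ∈ O, ‖fderiv ℝ Ht a‖ ≤ 1 / 4)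
    (hSA : ∀ a ∈ O, ∀ (x : E m k) (r : ℝ), 0 < r →
      (∀ᶠ ε in 𝓝[>] (0 : ℝ), Far UU Ht a ε x r) ∨
      (∀ᶠ ε in 𝓝[>] (0 : ℝ), ¬ Far UU Ht a ε x r)) :
    ∃ R : Set (P m k), Dense R ∧ IsGδ R ∧ ∀ a0 ∈ R, a0 ∈ O →
      (∀ b t, Lmap (DDD (fderiv ℝ Ht a0) (fderiv ℝ (fderiv ℝ Ht) a0)) b t ''
        OMs (Amap Ht a0 '' UU) = OMs (Amap Ht a0 '' UU)) ∧
      (∀ (x : E m k) (r : ℝ), 0 < r →
        (∃ᶠ ε in 𝓝[>] (0 : ℝ), ball x r ⊆ {y | dil ε y ∈ Amap Ht a0 '' UU}) →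
        x ∈ OMs (Amap Ht a0 '' UU)) := by
  obtain ⟨R, hR1, hR2, hR3⟩ := joint_residual hO hC hsm hSA
  refine ⟨R, hR1, hR2, fun a0 ha0 haO => ?_⟩
  have hJ := hR3 a0 ha0 haO
  have hCa : ContDiffAt ℝ 2 Ht a0 := (hC a0 haO).contDiffAt (hO.mem_nhds haO)
  have hsm' : ∀ᶠ a in 𝓝 a0, ‖fderiv ℝ Ht a‖ ≤ 1 / 4 := by
    filter_upwards [hO.mem_nhds haO] with a ha
    exact hsm a ha
  refine ⟨image_Lmap fun b t x hx => Lmap_mem hCa hsm' hJ b t hx, fun x r hr h => ?_⟩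
  exact kernel (hsm a0 haO) hJ hr h

/-- THEOREM A6 + A7. -/
theorem main : Main := by
  intro m k Ht O UU hO hne hC hsm _ hSA
  obtain ⟨R, hR1, _, hR3⟩ := main_residual hO hC hsm hSA
  obtain ⟨a0, haO, haR⟩ := hR1.inter_open_nonempty O hO hne
  exact ⟨a0, haO, _, hR3 a0 haR haO⟩

/-- the limit domain is open. -/
theorem isOpen_OMs (UU' : Set (E m k)) : IsOpen (OMs UU') := by
  rw [Metric.isOpen_iff]
  rintro x ⟨r, hr, h⟩
  refine ⟨r / 2, by positivity, fun y hy => ⟨r / 2, by positivity, ?_⟩⟩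
  filter_upwards [h] with ε hε
  refine (Metric.ball_subset_ball' ?_).trans hε
  have := mem_ball.1 hy
  linarith

end Crest.Agent.R264.JL
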