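import Mathlib

/-! Row 264, part D, node D6 (Lemma K): Piola identity for cofactors of a complex Hessian, in the
algebraic form (commuting derivations of a commutative algebra). -/

set_option autoImplicit false

open Finset Matrix

namespace Crest.Agent.R264.K

section

variable {k S : Type*} [CommRing k] [CommRing S] [Algebra k S]

theorem der_prod {ι : Type*} [DecidableEq ι] (d : Derivation k S S) (s : Finset ι) (f : ι → S) :
    d (∏ i ∈ s, f i) = ∑ j ∈ s, (∏ i ∈ s.erase j, f i) * d (f j) := by
  induction s using Finset.induction_on with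
  | empty => simp
  | insert a s ha ih =>
    rw [prod_insert ha, d.leibniz, ih, sum_insert ha, erase_insert ha, smul_eq_mul, smul_eq_mul,
      mul_sum, add_comm]
    congr 1
    refine sum_congr rfl fun j hj => ?_
    have hne : a ≠ j := fun h => ha (h ▸ hj)
    rw [erase_insert_of_ne hne, prod_insert (by simp [ha]), mul_assoc]

theorem der_det {n : Type*} [Fintype n] [DecidableEq n] (d : Derivation k S S)
    (M : Matrix n n S) :
    d M.det = ∑ r, (M.updateRow r (fun c => d (M r c))).det := by
  have key : ∀ N : Matrix n n S, N.det = ∑ σ : Equiv.Perm n, Equiv.Perm.sign σ • ∏ i, N i (σ i) := by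
    intro N
    rw [← det_transpose, det_apply]
    rfl
  rw [key, map_sum]
  simp_rw [key]
  rw [sum_comm]
  refine sum_congr rfl fun σ _ => ?_
  rw [Units.smul_def, zsmul_eq_mul, ← smul_sum, Units.smul_def, zsmul_eq_mul, d.leibniz]
  have h0 : d ((Equiv.Perm.sign σ : ℤ) : S) = 0 := by
    simp
  rw [h0, smul_zero, add_zero, smul_eq_mul, der_prod]
  congr 1
  refine sum_congr rfl fun j _ => ?_
  rw [← mul_prod_erase univ _ (mem_univ j), updateRow_self, mul_comm]
  congr 1
  refine prod_congr rfl fun i hi => ?_
  rw [updateRow_ne (ne_of_mem_erase hi)]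

/-- the cofactor with position `(i,j)` -/
def cof {n : Type*} [Fintype n] [DecidableEq n] (M : Matrix n n S) (i j : n) : S :=
  (M.updateRow i (Pi.single j 1)).det

theorem cof_eq {n : Type*} [Fintype n] [DecidableEq n] (M : Matrix n n S) (i j : n) :
    cof M i j = M.adjugate j i := by
  rw [cof, adjugate_apply]

theorem cof_transpose {n : Type*} [Fintype n] [DecidableEq n] (M : Matrix n n S) (i j : n) :
    cof Mᵀ i j = cof M j i := by
  rw [cof_eq, cof_eq, ← adjugate_transpose]
  rfl

theorem piola {n : Type*} [Fintype n] [DecidableEq n] (dd : n → Derivation k S S)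
    (M : Matrix n n S) (hM : ∀ i r c, dd i (M r c) = dd r (M i c)) (j : n)
    (h2 : ∀ s : S, s + s = 0 → s = 0) :
    ∑ i, dd i (cof M i j) = 0 := by
  set T : n → n → S := fun i r => if i = r then 0 else
    ((M.updateRow i (Pi.single j 1)).updateRow r (fun c => dd i (M r c))).det with hT
  have h1 : ∀ i, dd i (cof M i j) = ∑ r, T i r := by
    intro i
    rw [cof, der_det]
    refine sum_congr rfl fun r _ => ?_
    simp only [hT]
    split_ifs with h
    · subst h
      rw [updateRow_self]
      apply det_eq_zero_of_row_eq_zero i
      intro c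
      rw [updateRow_self]
      by_cases hc : c = j
      · subst hc; simp
      · simp [Pi.single_eq_of_ne hc]
    · rw [updateRow_ne (Ne.symm h)]
  have hanti : ∀ i r, T i r = - T r i := by
    intro i r
    by_cases h : i = r
    · subst h; simp [hT]
    have h' : r ≠ i := Ne.symm h
    simp only [hT, if_neg h, if_neg h']
    have e1 : ((M.updateRow i (Pi.single j 1)).updateRow r (fun c => dd i (M r c)))
        = ((M.updateRow r (Pi.single j 1)).updateRow i (fun c => dd r (M i c))).submatrix
          (Equiv.swap i r) id := by
      ext a c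
      rw [submatrix_apply, id]
      by_cases ha : a = r
      · subst ha
        rw [updateRow_self, Equiv.swap_apply_right, updateRow_self, hM]
      · rw [updateRow_ne ha]
        by_cases hb : a = i
        · subst hb
          rw [updateRow_self, Equiv.swap_apply_left, updateRow_ne h', updateRow_self]
        · rw [updateRow_ne hb, Equiv.swap_apply_of_ne_of_ne hb ha, updateRow_ne hb,
            updateRow_ne ha]
    rw [e1, det_permute, Equiv.Perm.sign_swap h]
    simp
  simp_rw [h1]
  apply h2
  conv_lhs => rw [add_comm]
  nth_rewrite 2 [sum_comm]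
  rw [← sum_add_distrib]
  refine sum_eq_zero fun i _ => ?_
  rw [← sum_add_distrib]
  refine sum_eq_zero fun r _ => ?_
  rw [hanti i r]
  ring

end

end Crest.Agent.R264.K
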