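import Mathlib
import Crest.Agent.R264.KPiola

/-! Row 264, node D6: Wirtinger calculus on `Fin n → ℂ`. -/

set_option autoImplicit false

open Finset Matrix Complex Filter Topology MeasureTheory
open scoped ContDiff ComplexConjugate

namespace Crest.Agent.R264.K

noncomputable section

variable {n : ℕ}

/-- Wirtinger operator: `s = -I` gives `∂_i`, `s = I` gives `∂bar_i`. -/
def P (s : ℂ) (i : Fin n) (f : (Fin n → ℂ) → ℂ) (x : Fin n → ℂ) : ℂ :=
  (1 / 2) * (fderiv ℝ f x (Pi.single i 1) + s * fderiv ℝ f x (Pi.single i I))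

theorem P_congr {s : ℂ} {i : Fin n} {f g : (Fin n → ℂ) → ℂ} {x : Fin n → ℂ}
    (h : f =ᶠ[𝓝 x] g) : P s i f x = P s i g x := by
  unfold P
  rw [h.fderiv_eq]

theorem P_congr' {s : ℂ} {i : Fin n} {f g : (Fin n → ℂ) → ℂ} {x : Fin n → ℂ}
    (h : f =ᶠ[𝓝 x] g) : P s i f =ᶠ[𝓝 x] P s i g := by
  filter_upwards [h.eventuallyEq_nhds] with y hy using P_congr hy

theorem P_add {s : ℂ} {i : Fin n} {f g : (Fin n → ℂ) → ℂ} {x : Fin n → ℂ}
    (hf : DifferentiableAt ℝ f x) (hg : DifferentiableAt ℝ g x) :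
    P s i (fun y => f y + g y) x = P s i f x + P s i g x := by
  unfold P
  rw [fderiv_fun_add hf hg]
  simp only [_root_.add_apply]
  ring

theorem P_const_mul {s : ℂ} {i : Fin n} {f : (Fin n → ℂ) → ℂ} {x : Fin n → ℂ} (c : ℂ)
    (hf : DifferentiableAt ℝ f x) :
    P s i (fun y => c * f y) x = c * P s i f x := by
  unfold P
  rw [fderiv_const_mul hf c]
  simp only [_root_.smul_apply, smul_eq_mul]
  ring

theorem P_mul {s : ℂ} {i : Fin n} {f g : (Fin n → ℂ) → ℂ} {x : Fin n → ℂ}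
    (hf : DifferentiableAt ℝ f x) (hg : DifferentiableAt ℝ g x) :
    P s i (fun y => f y * g y) x = f x * P s i g x + g x * P s i f x := by
  unfold P
  rw [fderiv_fun_mul hf hg]
  simp only [_root_.add_apply, _root_.smul_apply, smul_eq_mul]
  ring

theorem P_const {s : ℂ} {i : Fin n} {x : Fin n → ℂ} (c : ℂ) :
    P s i (fun _ : Fin n → ℂ => c) x = 0 := by
  unfold P
  simp

theorem P_sum {ι : Type*} {s : ℂ} {i : Fin n} {t : Finset ι} {f : ι → (Fin n → ℂ) → ℂ}
    {x : Fin n → ℂ} (hf : ∀ a ∈ t, DifferentiableAt ℝ (f a) x) :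
    P s i (fun y => ∑ a ∈ t, f a y) x = ∑ a ∈ t, P s i (f a) x := by
  unfold P
  rw [fderiv_fun_sum hf]
  simp only [_root_.sum_apply, mul_sum, sum_add_distrib, mul_add]

theorem contDiffAt_P {s : ℂ} {i : Fin n} {f : (Fin n → ℂ) → ℂ} {x : Fin n → ℂ} {m k : WithTop ℕ∞}
    (hf : ContDiffAt ℝ k f x) (hmk : m + 1 ≤ k) : ContDiffAt ℝ m (P s i f) x := by
  have h := hf.fderiv_right hmk
  unfold P
  exact contDiffAt_const.mul ((h.clm_apply contDiffAt_const).add
    (contDiffAt_const.mul (h.clm_apply contDiffAt_const)))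

theorem contDiff_P {s : ℂ} {i : Fin n} {f : (Fin n → ℂ) → ℂ}
    (hf : ContDiff ℝ ∞ f) : ContDiff ℝ ∞ (P s i f) :=
  contDiff_iff_contDiffAt.2 fun x => contDiffAt_P (hf.contDiffAt) (by simp)

theorem fderiv_dir {f : (Fin n → ℂ) → ℂ} {x : Fin n → ℂ} (hf : ContDiffAt ℝ 2 f x)
    (v w : Fin n → ℂ) :
    fderiv ℝ (fun y => fderiv ℝ f y v) x w = fderiv ℝ (fderiv ℝ f) x w v := by
  have h : DifferentiableAt ℝ (fderiv ℝ f) x :=
    (hf.fderiv_right (m := 1) (by norm_num)).differentiableAt (by norm_num)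
  rw [fderiv_clm_apply h (differentiableAt_const v)]
  simp

theorem fderiv_P {s : ℂ} {i : Fin n} {f : (Fin n → ℂ) → ℂ} {x : Fin n → ℂ}
    (hf : ContDiffAt ℝ 2 f x) (w : Fin n → ℂ) :
    fderiv ℝ (P s i f) x w = (1 / 2) * (fderiv ℝ (fderiv ℝ f) x w (Pi.single i 1)
      + s * fderiv ℝ (fderiv ℝ f) x w (Pi.single i I)) := by
  have h : DifferentiableAt ℝ (fderiv ℝ f) x :=
    (hf.fderiv_right (m := 1) (by norm_num)).differentiableAt (by norm_num)
  have hd : ∀ v, DifferentiableAt ℝ (fun y => fderiv ℝ f y v) x := fun v =>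
    h.clm_apply (differentiableAt_const v)
  have h1 : HasFDerivAt (fun y => (1 / 2 : ℂ) * (fderiv ℝ f y (Pi.single i 1)
      + s * fderiv ℝ f y (Pi.single i I))) _ x :=
    ((hd (Pi.single i 1)).hasFDerivAt.fun_add
      ((hd (Pi.single i I)).hasFDerivAt.const_mul s)).const_mul (1 / 2 : ℂ)
  have h2 : fderiv ℝ (P s i f) x = _ := h1.fderiv
  rw [h2]
  simp only [_root_.smul_apply, _root_.add_apply, smul_eq_mul]
  rw [fderiv_dir hf, fderiv_dir hf]

theorem P_comm {s t : ℂ} {i j : Fin n} {f : (Fin n → ℂ) → ℂ} {x : Fin n → ℂ}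
    (hf : ContDiffAt ℝ 2 f x) :
    P s i (P t j f) x = P t j (P s i f) x := by
  have hs : ∀ v w, fderiv ℝ (fderiv ℝ f) x v w = fderiv ℝ (fderiv ℝ f) x w v := fun v w =>
    (hf.isSymmSndFDerivAt (by simp)) v w
  rw [P, P, fderiv_P hf, fderiv_P hf, fderiv_P hf, fderiv_P hf]
  rw [hs (Pi.single i 1) (Pi.single j 1), hs (Pi.single i 1) (Pi.single j I),
    hs (Pi.single i I) (Pi.single j 1), hs (Pi.single i I) (Pi.single j I)]
  ring

theorem tsupport_P {s : ℂ} {i : Fin n} {f : (Fin n → ℂ) → ℂ} :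
    tsupport (P s i f) ⊆ tsupport f := by
  apply closure_minimal _ (isClosed_tsupport f)
  intro x hx
  by_contra h
  apply hx
  have h0 : f =ᶠ[𝓝 x] fun _ => (0 : ℂ) := notMem_tsupport_iff_eventuallyEq.1 h
  show P s i f x = 0
  rw [P_congr h0, P_const]

theorem P_eq_zero {s : ℂ} {i : Fin n} {f : (Fin n → ℂ) → ℂ} {x : Fin n → ℂ}
    (hx : x ∉ tsupport f) : P s i f x = 0 := by
  have h0 : f =ᶠ[𝓝 x] fun _ => (0 : ℂ) := notMem_tsupport_iff_eventuallyEq.1 hx
  rw [P_congr h0, P_const]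

theorem integral_fderiv_dir {f : (Fin n → ℂ) → ℂ} (hf : ContDiff ℝ 1 f)
    (hc : HasCompactSupport f) (v : Fin n → ℂ) : ∫ x, fderiv ℝ f x v = 0 := by
  have h1 : Integrable (fun x => fderiv ℝ f x v) := by
    apply Continuous.integrable_of_hasCompactSupport
    · exact (hf.continuous_fderiv (by norm_num)).clm_apply continuous_const
    · exact hc.fderiv_apply ℝ v
  have h := integral_smul_fderiv_eq_neg_fderiv_smul_of_integrable (𝕜 := ℝ) (μ := volume)
    (f := fun _ : Fin n → ℂ => (1 : ℝ)) (g := f) (v := v)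
    (by simp) (by simpa using h1) (by simpa using hf.continuous.integrable_of_hasCompactSupport hc)
    (fun x _ => differentiableAt_const _) (fun x _ => hf.differentiable (by norm_num) x)
  simpa using h

theorem integral_P {s : ℂ} {i : Fin n} {f : (Fin n → ℂ) → ℂ} (hf : ContDiff ℝ 1 f)
    (hc : HasCompactSupport f) : ∫ x, P s i f x = 0 := by
  have h1 : ∀ v, Integrable (fun x => fderiv ℝ f x v) := by
    intro v
    apply Continuous.integrable_of_hasCompactSupport
    · exact (hf.continuous_fderiv (by norm_num)).clm_apply continuous_const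
    · exact hc.fderiv_apply ℝ v
  unfold P
  rw [integral_const_mul, integral_add (h1 _) ((h1 _).const_mul s), integral_const_mul,
    integral_fderiv_dir hf hc, integral_fderiv_dir hf hc]
  simp

end

end Crest.Agent.R264.K
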