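import Mathlib
import Crest.Agent.R264.KWirt

/-! Row 264, node D6: the operator `L_w f = tr (adj(∂∂bar w) ∂∂bar f)` and its self-adjointness. -/

set_option autoImplicit false

open Finset Matrix Complex Filter Topology MeasureTheory
open scoped ContDiff ComplexConjugate

namespace Crest.Agent.R264.K

noncomputable section

variable {n : ℕ}

theorem contDiff_of_tsupp {F : Type*} [NormedAddCommGroup F] [NormedSpace ℝ F]
    {f : (Fin n → ℂ) → F} {m : WithTop ℕ∞} (hf : ∀ x ∈ tsupport f, ContDiffAt ℝ m f x) :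
    ContDiff ℝ m f := by
  rw [contDiff_iff_contDiffAt]
  intro x
  by_cases hx : x ∈ tsupport f
  · exact hf x hx
  · exact (contDiffAt_const (c := (0 : F))).congr_of_eventuallyEq
      (notMem_tsupport_iff_eventuallyEq.1 hx)

theorem exists_cutoffK {D K : Set (Fin n → ℂ)} (hD : IsOpen D) (hK : IsCompact K) (hKD : K ⊆ D) :
    ∃ θ : (Fin n → ℂ) → ℝ, ContDiff ℝ ∞ θ ∧ HasCompactSupport θ ∧ tsupport θ ⊆ D ∧
      (∀ x, 0 ≤ θ x ∧ θ x ≤ 1) ∧ ∀ᶠ x in 𝓝ˢ K, θ x = 1 := by
  obtain ⟨L, hL, hKL, hLD⟩ := exists_compact_between hK hD hKD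
  obtain ⟨f, h1, h2, h3⟩ := exists_contMDiffMap_one_nhds_of_subset_interior
    (n := ⊤) (modelWithCornersSelf ℝ (Fin n → ℂ)) hK.isClosed hKL
  have hsupp : tsupport (f : (Fin n → ℂ) → ℝ) ⊆ L := by
    apply closure_minimal _ hL.isClosed
    intro x hx
    by_contra h
    exact hx (h2 x h)
  refine ⟨f, ?_, hL.of_isClosed_subset (isClosed_tsupport _) hsupp, hsupp.trans hLD,
    fun x => ⟨(h3 x).1, (h3 x).2⟩, h1⟩
  have := f.contMDiff
  exact this.contDiff

/-! ### the algebra of smooth functions -/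

/-- smooth complex functions on `ℂ^n` -/
def Sm (n : ℕ) : Subalgebra ℂ ((Fin n → ℂ) → ℂ) where
  carrier := {f | ContDiff ℝ ∞ f}
  mul_mem' {f g} hf hg := by
    rw [Set.mem_ofPred_eq] at *
    exact hf.mul hg
  add_mem' {f g} hf hg := by
    rw [Set.mem_ofPred_eq] at *
    exact hf.add hg
  algebraMap_mem' c := by
    rw [Set.mem_ofPred_eq]
    exact contDiff_const

theorem smS (f : Sm n) : ContDiff ℝ ∞ f.1 := by
  have h : f.1 ∈ {f : (Fin n → ℂ) → ℂ | ContDiff ℝ ∞ f} := f.2
  rwa [Set.mem_ofPred_eq] at h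

theorem smD (f : Sm n) (x : Fin n → ℂ) : DifferentiableAt ℝ f.1 x :=
  (smS f).differentiable (by simp) x

theorem smC (f : Sm n) (m : WithTop ℕ∞) (hm : m ≤ ∞) (x : Fin n → ℂ) : ContDiffAt ℝ m f.1 x :=
  ((smS f).of_le hm).contDiffAt

/-- Wirtinger derivations of `Sm n` -/
def DD (s : ℂ) (i : Fin n) : Derivation ℂ (Sm n) (Sm n) :=
  Derivation.mk' { toFun := fun f => ⟨P s i f.1, by
                    rw [← SetLike.mem_coe]; exact contDiff_P (smS f)⟩
                   map_add' := fun f g => Subtype.ext (funext fun x => by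
                    show P s i (fun y => f.1 y + g.1 y) x = P s i f.1 x + P s i g.1 x
                    exact P_add (smD f x) (smD g x))
                   map_smul' := fun c f => Subtype.ext (funext fun x => by
                    show P s i (fun y => c * f.1 y) x = c * P s i f.1 x
                    exact P_const_mul c (smD f x)) }
    (fun f g => Subtype.ext (funext fun x => by
      show P s i (fun y => f.1 y * g.1 y) x = f.1 x * P s i g.1 x + g.1 x * P s i f.1 x
      exact P_mul (smD f x) (smD g x)))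

theorem DD_apply (s : ℂ) (i : Fin n) (f : Sm n) (x : Fin n → ℂ) :
    (DD s i f).1 x = P s i f.1 x := rfl

theorem DD_val (s : ℂ) (i : Fin n) (f : Sm n) : (DD s i f).1 = P s i f.1 := rfl

theorem DD_comm (s t : ℂ) (i j : Fin n) (f : Sm n) :
    DD s i (DD t j f) = DD t j (DD s i f) :=
  Subtype.ext (funext fun x => by
    rw [DD_val, DD_val, DD_val, DD_val]
    exact P_comm (smC f 2 (by norm_cast) x))

/-- complex Hessian over `Sm n` -/
def hs (w : Sm n) : Matrix (Fin n) (Fin n) (Sm n) := Matrix.of fun i j => DD (-I) i (DD I j w)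

/-- `L_w f` over `Sm n` -/
def LL (w f : Sm n) : Sm n := ∑ i, ∑ j, cof (hs w) i j * DD (-I) i (DD I j f)

theorem two_inj (s : Sm n) (h : s + s = 0) : s = 0 := by
  have h2 : (2 : ℂ) • s = 0 := by rw [two_smul, h]
  have h3 : ((1 / 2 : ℂ)) • ((2 : ℂ) • s) = 0 := by rw [h2, smul_zero]
  rwa [smul_smul, show (1 / 2 : ℂ) * 2 = 1 by norm_num, one_smul] at h3

theorem piola_row (w : Sm n) (j : Fin n) : ∑ i, DD (-I) i (cof (hs w) i j) = 0 := by
  apply piola (DD (-I)) (hs w) _ j two_inj
  intro i r c
  show DD (-I) i (DD (-I) r (DD I c w)) = DD (-I) r (DD (-I) i (DD I c w))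
  rw [DD_comm]

theorem piola_col (w : Sm n) (i : Fin n) : ∑ j, DD I j (cof (hs w) i j) = 0 := by
  have h := piola (DD I) (hs w)ᵀ (n := Fin n) (by
    intro a r c
    show DD I a (DD (-I) c (DD I r w)) = DD I r (DD (-I) c (DD I a w))
    rw [DD_comm I (-I) a c, DD_comm I I a r, DD_comm I (-I) r c]) i two_inj
  simpa [cof_transpose] using h

/-- Green's formula, divergence form. -/
theorem green (w η f : Sm n) :
    η * LL w f - f * LL w η = ∑ i, DD (-I) i (∑ j, η * cof (hs w) i j * DD I j f)
      - ∑ j, DD I j (∑ i, f * cof (hs w) i j * DD (-I) i η) := by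
  have h1 : ∑ i, DD (-I) i (∑ j, η * cof (hs w) i j * DD I j f)
      = η * LL w f + ∑ i, ∑ j, cof (hs w) i j * DD (-I) i η * DD I j f := by
    have e : ∀ i, DD (-I) i (∑ j, η * cof (hs w) i j * DD I j f)
        = ∑ j, (η * (cof (hs w) i j * DD (-I) i (DD I j f))
          + cof (hs w) i j * DD (-I) i η * DD I j f
          + η * (DD (-I) i (cof (hs w) i j) * DD I j f)) := by
      intro i
      rw [map_sum]
      refine sum_congr rfl fun j _ => ?_
      rw [Derivation.leibniz, Derivation.leibniz]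
      simp only [smul_eq_mul]
      ring
    simp_rw [e, sum_add_distrib]
    have e2 : ∑ i, ∑ j, η * (DD (-I) i (cof (hs w) i j) * DD I j f) = 0 := by
      rw [sum_comm]
      refine sum_eq_zero fun j _ => ?_
      rw [← mul_sum, ← sum_mul, piola_row, zero_mul, mul_zero]
    rw [e2, add_zero]
    congr 1
    rw [LL, mul_sum]
    refine sum_congr rfl fun i _ => ?_
    rw [mul_sum]
  have h2 : ∑ j, DD I j (∑ i, f * cof (hs w) i j * DD (-I) i η)
      = f * LL w η + ∑ i, ∑ j, cof (hs w) i j * DD (-I) i η * DD I j f := by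
    have e : ∀ j, DD I j (∑ i, f * cof (hs w) i j * DD (-I) i η)
        = ∑ i, (f * (cof (hs w) i j * DD (-I) i (DD I j η))
          + cof (hs w) i j * DD (-I) i η * DD I j f
          + f * (DD I j (cof (hs w) i j) * DD (-I) i η)) := by
      intro j
      rw [map_sum]
      refine sum_congr rfl fun i _ => ?_
      rw [Derivation.leibniz, Derivation.leibniz, DD_comm (-I) I i j]
      simp only [smul_eq_mul]
      ring
    simp_rw [e, sum_add_distrib]
    have e2 : ∑ j, ∑ i, f * (DD I j (cof (hs w) i j) * DD (-I) i η) = 0 := by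
      rw [sum_comm]
      refine sum_eq_zero fun i _ => ?_
      rw [← mul_sum, ← sum_mul, piola_col, zero_mul, mul_zero]
    rw [e2, add_zero]
    congr 1
    · rw [LL, mul_sum, sum_comm]
      refine sum_congr rfl fun i _ => ?_
      rw [mul_sum]
    · rw [sum_comm]
  rw [h1, h2]
  ring

/-! ### pointwise form -/

/-- complex Hessian -/
def Hm (f : (Fin n → ℂ) → ℂ) (x : Fin n → ℂ) : Matrix (Fin n) (Fin n) ℂ :=
  Matrix.of fun i j => P (-I) i (P I j f) x

/-- the operator `L_w f` -/
def Lop (w f : (Fin n → ℂ) → ℂ) (x : Fin n → ℂ) : ℂ :=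
  ∑ i, ∑ j, cof (Hm w x) i j * Hm f x i j

theorem Lop_eq_trace (w f : (Fin n → ℂ) → ℂ) (x : Fin n → ℂ) :
    Lop w f x = ((Hm w x).adjugate * Hm f x).trace := by
  rw [Matrix.trace_mul_comm, Lop, Matrix.trace]
  refine sum_congr rfl fun i _ => ?_
  rw [Matrix.diag_apply, Matrix.mul_apply]
  refine sum_congr rfl fun j _ => ?_
  rw [cof_eq, mul_comm]

/-- evaluation at a point -/
def ev (x : Fin n → ℂ) : Sm n →+* ℂ :=
  (Pi.evalRingHom (fun _ : Fin n → ℂ => ℂ) x).comp (Sm n).val.toRingHom

theorem ev_apply (x : Fin n → ℂ) (f : Sm n) : ev x f = f.1 x := rfl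

theorem LL_val (w f : Sm n) (x : Fin n → ℂ) : (LL w f).1 x = Lop w.1 f.1 x := by
  rw [← ev_apply, LL, map_sum, Lop]
  refine sum_congr rfl fun i _ => ?_
  rw [map_sum]
  refine sum_congr rfl fun j _ => ?_
  rw [map_mul]
  congr 1
  rw [cof_eq, cof_eq]
  have h := RingHom.map_adjugate (ev x) (hs w)
  have h2 : (ev x).mapMatrix (hs w) = Hm w.1 x := by
    ext a b
    rfl
  rw [h2] at h
  rw [← h]
  rfl

theorem Hm_congr {f g : (Fin n → ℂ) → ℂ} {x : Fin n → ℂ} (h : f =ᶠ[𝓝 x] g) : Hm f x = Hm g x := by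
  ext i j
  exact P_congr (P_congr' h)

theorem Hm_eq_zero {f : (Fin n → ℂ) → ℂ} {x : Fin n → ℂ} (h : x ∉ tsupport f) : Hm f x = 0 := by
  ext i j
  exact P_eq_zero (fun h1 => h (tsupport_P h1))

theorem Lop_eq_zero {w f : (Fin n → ℂ) → ℂ} {x : Fin n → ℂ} (h : x ∉ tsupport f) :
    Lop w f x = 0 := by
  rw [Lop, Hm_eq_zero h]
  simp

theorem hcs_mul_left {f g : (Fin n → ℂ) → ℂ} (h : HasCompactSupport f) :
    HasCompactSupport (fun x => f x * g x) := HasCompactSupport.mul_right h

theorem int_symm_aux (w η f : Sm n) (hc : HasCompactSupport η.1) :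
    ∫ x, η.1 x * Lop w.1 f.1 x = ∫ x, f.1 x * Lop w.1 η.1 x := by
  have hcη : ∀ s i, HasCompactSupport (P s i η.1) := fun s i =>
    hc.of_isClosed_subset (isClosed_tsupport _) tsupport_P
  have g := green w η f
  have hL : HasCompactSupport (LL w η).1 := by
    refine HasCompactSupport.intro hc ?_
    intro x hx
    rw [LL_val, Lop_eq_zero hx]
  have i1 : Integrable (fun x => η.1 x * Lop w.1 f.1 x) := by
    have : Integrable (fun x => (η * LL w f).1 x) := by
      apply Continuous.integrable_of_hasCompactSupport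
      · exact (smS (η * LL w f)).continuous
      · exact HasCompactSupport.mul_right hc
    refine this.congr (Eventually.of_forall fun x => ?_)
    show η.1 x * (LL w f).1 x = _
    rw [LL_val]
  have i2 : Integrable (fun x => f.1 x * Lop w.1 η.1 x) := by
    have : Integrable (fun x => (f * LL w η).1 x) := by
      apply Continuous.integrable_of_hasCompactSupport
      · exact (smS (f * LL w η)).continuous
      · exact HasCompactSupport.mul_left hL
    refine this.congr (Eventually.of_forall fun x => ?_)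
    show f.1 x * (LL w η).1 x = _
    rw [LL_val]
  rw [← sub_eq_zero, ← integral_sub i1 i2]
  have key : ∀ x, η.1 x * Lop w.1 f.1 x - f.1 x * Lop w.1 η.1 x
      = ∑ i, P (-I) i (∑ j, η * cof (hs w) i j * DD I j f : Sm n).1 x
        - ∑ j, P I j (∑ i, f * cof (hs w) i j * DD (-I) i η : Sm n).1 x := by
    intro x
    have h := congrArg (ev x) g
    rw [map_sub, map_sub, map_mul, map_mul, map_sum, map_sum] at h
    simp only [ev_apply, LL_val] at h
    exact h
  simp_rw [key]
  have hA : ∀ i, HasCompactSupport (∑ j, η * cof (hs w) i j * DD I j f : Sm n).1 := by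
    intro i
    refine HasCompactSupport.intro hc ?_
    intro x hx
    rw [← ev_apply, map_sum]
    refine sum_eq_zero fun j _ => ?_
    rw [map_mul, map_mul, ev_apply, image_eq_zero_of_notMem_tsupport hx]
    simp
  have hB : ∀ j, HasCompactSupport (∑ i, f * cof (hs w) i j * DD (-I) i η : Sm n).1 := by
    intro j
    refine HasCompactSupport.intro hc ?_
    intro x hx
    rw [← ev_apply, map_sum]
    refine sum_eq_zero fun i _ => ?_
    rw [map_mul, ev_apply x (DD (-I) i η), DD_val, P_eq_zero hx]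
    simp
  have iA : ∀ s i (h : Sm n), HasCompactSupport h.1 → Integrable (fun x => P s i h.1 x) := by
    intro s i h hh
    apply Continuous.integrable_of_hasCompactSupport
    · exact (contDiff_P (smS h)).continuous
    · exact hh.of_isClosed_subset (isClosed_tsupport _) tsupport_P
  rw [integral_sub, integral_finsetSum, integral_finsetSum]
  · rw [sum_eq_zero, sum_eq_zero, sub_zero]
    · intro j _
      exact integral_P ((smS _).of_le (by norm_cast)) (hB j)
    · intro i _
      exact integral_P ((smS _).of_le (by norm_cast)) (hA i)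
  · exact fun j _ => iA _ _ _ (hB j)
  · exact fun i _ => iA _ _ _ (hA i)
  · exact integrable_finsetSum _ fun i _ => iA _ _ _ (hA i)
  · exact integrable_finsetSum _ fun j _ => iA _ _ _ (hB j)

end

end Crest.Agent.R264.K
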