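import Mathlib
import Crest.Agent.R264.KLop
import Crest.Agent.R266.Osgood

/-! Row 264, node D6: chain rules for the complex Hessian under holomorphic maps; locality;
self-adjointness on `D`. -/

set_option autoImplicit false

open Finset Matrix Complex Filter Topology MeasureTheory
open scoped ContDiff ComplexConjugate

namespace Crest.Agent.R264.K

noncomputable section

variable {n : ℕ}

theorem vec_decomp (ξ : Fin n → ℂ) :
    ξ = ∑ k, ((ξ k).re • (Pi.single k 1 : Fin n → ℂ) + (ξ k).im • (Pi.single k I : Fin n → ℂ)) := by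
  ext j
  rw [Finset.sum_apply, Finset.sum_eq_single j]
  · simp
  · intro b _ hb
    simp [Pi.single_eq_of_ne (Ne.symm hb)]
  · simp

/-- decomposition of a real-linear map into `(1,0)` and `(0,1)` parts -/
theorem lin_decomp (T : (Fin n → ℂ) →L[ℝ] ℂ) (ξ : Fin n → ℂ) :
    T ξ = ∑ k, (ξ k * ((1 / 2) * (T (Pi.single k 1) + -I * T (Pi.single k I)))
      + conj (ξ k) * ((1 / 2) * (T (Pi.single k 1) + I * T (Pi.single k I)))) := by
  conv_lhs => rw [vec_decomp ξ, map_sum]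
  refine sum_congr rfl fun k _ => ?_
  rw [map_add, map_smul, map_smul, real_smul, real_smul]
  have h1 : (ξ k) = ((ξ k).re : ℂ) + ((ξ k).im : ℂ) * I := (re_add_im _).symm
  have h2 : conj (ξ k) = ((ξ k).re : ℂ) - ((ξ k).im : ℂ) * I := by
    apply Complex.ext <;> simp
  rw [h2]
  conv_rhs => rw [h1]
  simp only [add_re, ofReal_re, mul_re, I_re, mul_zero, ofReal_im, I_im, zero_mul, add_im, mul_im,
    mul_one, sub_self, add_zero, zero_add]
  ring_nf
  rw [I_sq]
  ring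

theorem fderiv_decomp (f : (Fin n → ℂ) → ℂ) (x ξ : Fin n → ℂ) :
    fderiv ℝ f x ξ = ∑ k, (ξ k * P (-I) k f x + conj (ξ k) * P I k f x) :=
  lin_decomp (fderiv ℝ f x) ξ

theorem single_I (k : Fin n) : (Pi.single k I : Fin n → ℂ) = I • (Pi.single k 1 : Fin n → ℂ) := by
  ext j
  by_cases h : j = k
  · subst h; simp
  · simp [Pi.single_eq_of_ne h]

/-- Jacobian matrix -/
def Jm (γ : (Fin n → ℂ) → (Fin n → ℂ)) (x : Fin n → ℂ) : Matrix (Fin n) (Fin n) ℂ :=
  Matrix.of fun k i => fderiv ℂ γ x (Pi.single i 1) k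

theorem Jm_det (γ : (Fin n → ℂ) → (Fin n → ℂ)) (x : Fin n → ℂ) :
    (Jm γ x).det = (fderiv ℂ γ x).det := by
  have h : Jm γ x = LinearMap.toMatrix' (fderiv ℂ γ x : (Fin n → ℂ) →ₗ[ℂ] (Fin n → ℂ)) := by
    ext k i
    rw [LinearMap.toMatrix'_apply]
    rfl
  rw [h, LinearMap.det_toMatrix']

theorem fderiv_real_of_complex {γ : (Fin n → ℂ) → (Fin n → ℂ)} {x : Fin n → ℂ}
    (hγ : DifferentiableAt ℂ γ x) : fderiv ℝ γ x = (fderiv ℂ γ x).restrictScalars ℝ :=
  (hγ.hasFDerivAt.restrictScalars ℝ).fderiv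

theorem P_comp_neg {f : (Fin n → ℂ) → ℂ} {γ : (Fin n → ℂ) → (Fin n → ℂ)} {x : Fin n → ℂ}
    (hγ : DifferentiableAt ℂ γ x) (hf : DifferentiableAt ℝ f (γ x)) (i : Fin n) :
    P (-I) i (fun y => f (γ y)) x = ∑ k, P (-I) k f (γ x) * Jm γ x k i := by
  have hc : fderiv ℝ (fun y => f (γ y)) x = (fderiv ℝ f (γ x)).comp (fderiv ℝ γ x) :=
    fderiv_comp x hf (hγ.restrictScalars ℝ)
  rw [P, hc, fderiv_real_of_complex hγ]
  simp only [ContinuousLinearMap.comp_apply, ContinuousLinearMap.coe_restrictScalars']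
  rw [single_I, map_smul, fderiv_decomp, fderiv_decomp, mul_sum, ← sum_add_distrib, mul_sum]
  refine sum_congr rfl fun k _ => ?_
  have e : Jm γ x k i = fderiv ℂ γ x (Pi.single i 1) k := rfl
  rw [e]
  simp only [Pi.smul_apply, smul_eq_mul, map_mul, conj_I]
  ring_nf
  rw [I_sq]
  ring

theorem P_comp_pos {f : (Fin n → ℂ) → ℂ} {γ : (Fin n → ℂ) → (Fin n → ℂ)} {x : Fin n → ℂ}
    (hγ : DifferentiableAt ℂ γ x) (hf : DifferentiableAt ℝ f (γ x)) (i : Fin n) :
    P I i (fun y => f (γ y)) x = ∑ k, P I k f (γ x) * conj (Jm γ x k i) := by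
  have hc : fderiv ℝ (fun y => f (γ y)) x = (fderiv ℝ f (γ x)).comp (fderiv ℝ γ x) :=
    fderiv_comp x hf (hγ.restrictScalars ℝ)
  rw [P, hc, fderiv_real_of_complex hγ]
  simp only [ContinuousLinearMap.comp_apply, ContinuousLinearMap.coe_restrictScalars']
  rw [single_I, map_smul, fderiv_decomp, fderiv_decomp, mul_sum, ← sum_add_distrib, mul_sum]
  refine sum_congr rfl fun k _ => ?_
  have e : Jm γ x k i = fderiv ℂ γ x (Pi.single i 1) k := rfl
  rw [e]
  simp only [Pi.smul_apply, smul_eq_mul, map_mul, conj_I]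
  ring_nf
  rw [I_sq]
  ring

/-- the Jacobian entries are holomorphic -/
theorem Jm_diff {D : Set (Fin n → ℂ)} (hD : IsOpen D) {γ : (Fin n → ℂ) → (Fin n → ℂ)}
    (hγ : DifferentiableOn ℂ γ D) {x : Fin n → ℂ} (hx : x ∈ D) (k i : Fin n) :
    DifferentiableAt ℂ (fun y => Jm γ y k i) x := by
  have h1 : AnalyticOnNhd ℂ γ D := R266.SCV.analyticOnNhd_of_differentiableOn hD hγ
  have h2 : DifferentiableAt ℂ (fderiv ℂ γ) x := (h1.fderiv x hx).differentiableAt
  have h3 : DifferentiableAt ℂ (fun y => fderiv ℂ γ y (Pi.single i 1)) x :=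
    h2.clm_apply (differentiableAt_const _)
  exact (differentiableAt_pi.1 h3) k

theorem P_conj_hol {h : (Fin n → ℂ) → ℂ} {x : Fin n → ℂ} (hh : DifferentiableAt ℂ h x)
    (i : Fin n) : P (-I) i (fun y => conj (h y)) x = 0 := by
  have h1 : HasFDerivAt (fun y => conj (h y))
      ((conjCLE : ℂ →L[ℝ] ℂ).comp ((fderiv ℂ h x).restrictScalars ℝ)) x :=
    (conjCLE : ℂ →L[ℝ] ℂ).hasFDerivAt.comp x (hh.hasFDerivAt.restrictScalars ℝ)
  rw [P, h1.fderiv, single_I]
  simp only [ContinuousLinearMap.comp_apply, ContinuousLinearMap.coe_restrictScalars', map_smul,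
    smul_eq_mul]
  simp only [ContinuousLinearEquiv.coe_coe, conjCLE_apply, map_mul, conj_I]
  ring_nf
  rw [I_sq]
  ring

theorem diffAt_conj_Jm {D : Set (Fin n → ℂ)} (hD : IsOpen D) {γ : (Fin n → ℂ) → (Fin n → ℂ)}
    (hγ : DifferentiableOn ℂ γ D) {x : Fin n → ℂ} (hx : x ∈ D) (k i : Fin n) :
    DifferentiableAt ℝ (fun y => conj (Jm γ y k i)) x :=
  (conjCLE : ℂ →L[ℝ] ℂ).differentiableAt.comp x ((Jm_diff hD hγ hx k i).restrictScalars ℝ)

theorem Hm_comp {D : Set (Fin n → ℂ)} (hD : IsOpen D) {γ : (Fin n → ℂ) → (Fin n → ℂ)}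
    (hγ : DifferentiableOn ℂ γ D) {x : Fin n → ℂ} (hx : x ∈ D) {f : (Fin n → ℂ) → ℂ}
    (hf : ContDiffAt ℝ 2 f (γ x)) :
    Hm (fun y => f (γ y)) x = (Jm γ x)ᵀ * Hm f (γ x) * (Jm γ x).map conj := by
  have hγx : ∀ y ∈ D, DifferentiableAt ℂ γ y := fun y hy => hγ.differentiableAt (hD.mem_nhds hy)
  have hcont : ContinuousAt γ x := (hγx x hx).continuousAt
  have hev : ∀ᶠ y in 𝓝 x, y ∈ D ∧ DifferentiableAt ℝ f (γ y) := by
    have h0 : ∀ᶠ y in 𝓝 x, y ∈ D := hD.mem_nhds hx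
    refine h0.and ?_
    have := hf.eventually (by norm_cast)
    exact (hcont.eventually this).mono fun y hy => hy.differentiableAt (by norm_num)
  ext i j
  have h1 : P I j (fun y => f (γ y)) =ᶠ[𝓝 x]
      fun y => ∑ l, P I l f (γ y) * conj (Jm γ y l j) := by
    filter_upwards [hev] with y hy using P_comp_pos (hγx y hy.1) hy.2 j
  have hdl : ∀ l, DifferentiableAt ℝ (fun y => P I l f (γ y)) x := by
    intro l
    have h2 : DifferentiableAt ℝ (P I l f) (γ x) :=
      (contDiffAt_P (m := 1) hf (by norm_num)).differentiableAt (by norm_num)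
    exact h2.comp x ((hγx x hx).restrictScalars ℝ)
  have h3 : Hm (fun y => f (γ y)) x i j
      = ∑ l, ∑ k, Hm f (γ x) k l * Jm γ x k i * conj (Jm γ x l j) := by
    show P (-I) i (P I j (fun y => f (γ y))) x = _
    rw [P_congr h1, P_sum (fun l _ => (hdl l).fun_mul (diffAt_conj_Jm hD hγ hx l j))]
    refine sum_congr rfl fun l _ => ?_
    rw [P_mul (hdl l) (diffAt_conj_Jm hD hγ hx l j), P_conj_hol (Jm_diff hD hγ hx l j),
      mul_zero, zero_add]
    have h4 : P (-I) i (fun y => P I l f (γ y)) x = ∑ k, P (-I) k (P I l f) (γ x) * Jm γ x k i :=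
      P_comp_neg (hγx x hx)
        ((contDiffAt_P (m := 1) hf (by norm_num)).differentiableAt (by norm_num)) i
    rw [h4, mul_sum]
    refine sum_congr rfl fun k _ => ?_
    show _ = P (-I) k (P I l f) (γ x) * Jm γ x k i * conj (Jm γ x l j)
    ring
  rw [h3, Matrix.mul_apply]
  refine sum_congr rfl fun l _ => ?_
  rw [Matrix.mul_apply, Matrix.map_apply, sum_mul]
  refine sum_congr rfl fun k _ => ?_
  rw [Matrix.transpose_apply]
  ring

/-- invariance of `L` -/
theorem Lop_comp {D : Set (Fin n → ℂ)} (hD : IsOpen D) {γ : (Fin n → ℂ) → (Fin n → ℂ)}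
    (hγ : DifferentiableOn ℂ γ D) {x : Fin n → ℂ} (hx : x ∈ D) {u f : (Fin n → ℂ) → ℂ}
    (hf : ContDiffAt ℝ 2 f (γ x))
    (hu : Hm u x = (Jm γ x)ᵀ * Hm u (γ x) * (Jm γ x).map conj) :
    Lop u (fun y => f (γ y)) x = ((‖(fderiv ℂ γ x).det‖ ^ 2 : ℝ) : ℂ) * Lop u f (γ x) := by
  rw [Lop_eq_trace, Lop_eq_trace, Hm_comp hD hγ hx hf, hu]
  set J := Jm γ x with hJ
  set K := J.map conj with hK
  set G := Hm u (γ x)
  set F := Hm f (γ x)
  have hdetK : K.det = conj J.det := by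
    rw [hK]
    exact (RingHom.map_det (starRingEnd ℂ) J).symm
  have h1 : (Jᵀ * G * K).adjugate = K.adjugate * (G.adjugate * Jᵀ.adjugate) := by
    rw [adjugate_mul_distrib, adjugate_mul_distrib]
  have h2 : K.adjugate * (G.adjugate * Jᵀ.adjugate) * (Jᵀ * F * K)
      = J.det • (K.adjugate * (G.adjugate * F * K)) := by
    have e : Jᵀ.adjugate * Jᵀ = J.det • (1 : Matrix (Fin n) (Fin n) ℂ) := by
      rw [adjugate_mul, det_transpose]
    calc K.adjugate * (G.adjugate * Jᵀ.adjugate) * (Jᵀ * F * K)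
        = K.adjugate * (G.adjugate * (Jᵀ.adjugate * Jᵀ) * F * K) := by
          simp only [Matrix.mul_assoc]
      _ = J.det • (K.adjugate * (G.adjugate * F * K)) := by
          rw [e]
          simp only [Matrix.mul_smul, Matrix.smul_mul, Matrix.mul_one]
  rw [h1, h2, trace_smul, trace_mul_comm, Matrix.mul_assoc, mul_adjugate, Matrix.mul_smul,
    Matrix.mul_one, trace_smul, smul_eq_mul, smul_eq_mul, hdetK, ← mul_assoc, mul_conj, Jm_det]
  congr 1
  rw [normSq_eq_norm_sq]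

theorem Lop_congr {w w' f f' : (Fin n → ℂ) → ℂ} {x : Fin n → ℂ} (h : w =ᶠ[𝓝 x] w')
    (h' : f =ᶠ[𝓝 x] f') : Lop w f x = Lop w' f' x := by
  rw [Lop, Lop, Hm_congr h, Hm_congr h']

/-- self-adjointness of `L_u` on `D` -/
theorem int_symm {D : Set (Fin n → ℂ)} (hD : IsOpen D) {u : (Fin n → ℂ) → ℂ}
    (hu : ContDiffOn ℝ ∞ u D) {h f : (Fin n → ℂ) → ℂ} (hh : ContDiff ℝ ∞ h)
    (hc : HasCompactSupport h) (hs : tsupport h ⊆ D) (hf : ContDiff ℝ ∞ f) :
    ∫ x, h x * Lop u f x = ∫ x, f x * Lop u h x := by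
  obtain ⟨θ, h1, h2, h3, h4, h5⟩ := exists_cutoffK hD hc hs
  have hw : ContDiff ℝ ∞ (fun x => (θ x : ℂ) * u x) := by
    apply contDiff_of_tsupp
    intro x hx
    have hx' : x ∈ tsupport θ := by
      refine closure_mono ?_ hx
      intro y hy
      rw [Function.mem_support] at hy ⊢
      intro h0
      apply hy
      rw [h0]
      simp
    exact (ofRealCLM.contDiff.comp h1).contDiffAt.mul
      (hu.contDiffAt (hD.mem_nhds (h3 hx')))
  have hloc : ∀ x ∈ tsupport h, (fun x => (θ x : ℂ) * u x) =ᶠ[𝓝 x] u := by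
    intro x hx
    have : ∀ᶠ y in 𝓝 x, θ y = 1 := h5.filter_mono (nhds_le_nhdsSet hx)
    filter_upwards [this] with y hy
    rw [hy]
    simp
  have key := int_symm_aux ⟨fun x => (θ x : ℂ) * u x, by
      rw [← SetLike.mem_coe]; exact hw⟩ ⟨h, by rw [← SetLike.mem_coe]; exact hh⟩
      ⟨f, by rw [← SetLike.mem_coe]; exact hf⟩ hc
  have e1 : (fun x => h x * Lop u f x) = fun x => h x * Lop (fun x => (θ x : ℂ) * u x) f x := by
    ext x
    by_cases hx : x ∈ tsupport h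
    · rw [Lop_congr (hloc x hx) (EventuallyEq.refl _ _)]
    · rw [image_eq_zero_of_notMem_tsupport hx, zero_mul, zero_mul]
  have e2 : (fun x => f x * Lop u h x) = fun x => f x * Lop (fun x => (θ x : ℂ) * u x) h x := by
    ext x
    by_cases hx : x ∈ tsupport h
    · rw [Lop_congr (hloc x hx) (EventuallyEq.refl _ _)]
    · rw [Lop_eq_zero hx, Lop_eq_zero hx]
  rw [e1, e2]
  exact key

end

end Crest.Agent.R264.K
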