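import Mathlib
import Crest.Agent.R264.KDefs

/-! Row 264, node D6 (Lemma K): abstract operator interface (helper310).
`OpL D Γ L` : what is used of `L_u`; `VanStmt` = the `Γ`-part (U) (owner helper587). -/

set_option autoImplicit false

open Set Filter Topology MeasureTheory
open scoped ContDiff

namespace Crest.Agent.R264.K

noncomputable section

variable {n : ℕ}

/-- test functions of `D` -/
def Test (D : Set (Fin n → ℂ)) (h : (Fin n → ℂ) → ℝ) : Prop :=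
  ContDiff ℝ ∞ h ∧ HasCompactSupport h ∧ tsupport h ⊆ D

/-- A second order operator without zero order term, self-adjoint for Lebesgue measure and
equivariant under `Γ`. -/
structure OpL (D : Set (Fin n → ℂ)) (Γ : Set ((Fin n → ℂ) → (Fin n → ℂ)))
    (L : ((Fin n → ℂ) → ℝ) → (Fin n → ℂ) → ℝ) : Prop where
  congr : ∀ f g x, f =ᶠ[𝓝 x] g → L f x = L g x
  add : ∀ f g x, x ∈ D → ContDiffAt ℝ ∞ f x → ContDiffAt ℝ ∞ g x →
    L (fun y => f y + g y) x = L f x + L g x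
  smul : ∀ (c : ℝ) f x, x ∈ D → ContDiffAt ℝ ∞ f x → L (fun y => c * f y) x = c * L f x
  const : ∀ (c : ℝ) x, L (fun _ => c) x = 0
  cont : ∀ f, ContDiff ℝ ∞ f → ContinuousOn (L f) D
  symm : ∀ h f, Test D h → ContDiff ℝ ∞ f → ∫ x, h x * L f x = ∫ x, f x * L h x
  inv : ∀ γ ∈ Γ, ∀ f x, x ∈ D → ContDiffAt ℝ ∞ f (γ x) →
    L (fun y => f (γ y)) x = ‖(fderiv ℂ γ x).det‖ ^ 2 * L f (γ x)

/-- (U): the `Γ`-part. -/
def VanStmt (n : ℕ) : Prop :=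
  ∀ (D : Set (Fin n → ℂ)) (Γ : Set ((Fin n → ℂ) → (Fin n → ℂ))), IsOpen D → D.Nonempty →
    Grp D Γ → ∀ L : ((Fin n → ℂ) → ℝ) → (Fin n → ℂ) → ℝ, OpL D Γ L →
    ∀ φ : (Fin n → ℂ) → ℝ, ContinuousOn φ D →
      (∀ f ∈ Γ, ∃ c : ℝ, ∀ x ∈ D, φ (f x) = φ x + c) →
      (∀ h, Test D h → (∀ x, 0 ≤ h x) → 0 ≤ ∫ x, φ x * L h x) →
      ∀ h, Test D h → (∀ x, 0 ≤ h x) → ∫ x, φ x * L h x = 0

end

end Crest.Agent.R264.K
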