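import Mathlib
import Crest.Agent.R264.KChain
import Crest.Agent.R264.KOp

/-! Row 264, node D6: Levi form and complex Hessian; the real operator `Lr`. -/

set_option autoImplicit false

open Finset Matrix Complex Filter Topology MeasureTheory
open scoped ContDiff ComplexConjugate

namespace Crest.Agent.R264.K

open Crest.Agent.R264.Berg (Lev)

noncomputable section

variable {n : ℕ}

theorem Q_expand {f : (Fin n → ℂ) → ℂ} {x : Fin n → ℂ} (hf : ContDiffAt ℝ 2 f x)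
    (ξ : Fin n → ℂ) :
    fderiv ℝ (fderiv ℝ f) x ξ ξ = ∑ k, ∑ l, (ξ k * ξ l * P (-I) l (P (-I) k f) x
      + ξ k * conj (ξ l) * P I l (P (-I) k f) x
      + conj (ξ k) * ξ l * P (-I) l (P I k f) x
      + conj (ξ k) * conj (ξ l) * P I l (P I k f) x) := by
  have hd : ∀ s k, DifferentiableAt ℝ (P s k f) x := fun s k =>
    (contDiffAt_P (m := 1) hf (by norm_num)).differentiableAt (by norm_num)
  have h1 : (fun y => fderiv ℝ f y ξ)
      = fun y => ∑ k, (ξ k * P (-I) k f y + conj (ξ k) * P I k f y) :=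
    funext fun y => fderiv_decomp f y ξ
  rw [← fderiv_dir hf, h1, fderiv_fun_sum (fun k _ =>
    ((hd (-I) k).const_mul _).fun_add ((hd I k).const_mul _)), _root_.sum_apply]
  refine sum_congr rfl fun k _ => ?_
  rw [fderiv_fun_add ((hd (-I) k).const_mul _) ((hd I k).const_mul _), fderiv_const_mul (hd (-I) k),
    fderiv_const_mul (hd I k)]
  simp only [_root_.add_apply, _root_.smul_apply, smul_eq_mul]
  rw [fderiv_decomp, fderiv_decomp, mul_sum, mul_sum, ← sum_add_distrib]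
  refine sum_congr rfl fun l _ => ?_
  ring

theorem Q_lev {f : (Fin n → ℂ) → ℂ} {x : Fin n → ℂ} (hf : ContDiffAt ℝ 2 f x)
    (ξ : Fin n → ℂ) :
    fderiv ℝ (fderiv ℝ f) x ξ ξ + fderiv ℝ (fderiv ℝ f) x (I • ξ) (I • ξ)
      = 4 * ∑ i, ∑ j, Hm f x i j * ξ i * conj (ξ j) := by
  rw [Q_expand hf, Q_expand hf, ← sum_add_distrib]
  simp_rw [← sum_add_distrib]
  have e1 : ∀ k l, (ξ k * ξ l * P (-I) l (P (-I) k f) x
      + ξ k * conj (ξ l) * P I l (P (-I) k f) x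
      + conj (ξ k) * ξ l * P (-I) l (P I k f) x
      + conj (ξ k) * conj (ξ l) * P I l (P I k f) x)
      + ((I • ξ) k * (I • ξ) l * P (-I) l (P (-I) k f) x
      + (I • ξ) k * conj ((I • ξ) l) * P I l (P (-I) k f) x
      + conj ((I • ξ) k) * (I • ξ) l * P (-I) l (P I k f) x
      + conj ((I • ξ) k) * conj ((I • ξ) l) * P I l (P I k f) x)
      = 2 * (Hm f x k l * ξ k * conj (ξ l)) + 2 * (Hm f x l k * ξ l * conj (ξ k)) := by
    intro k l
    have h1 : Hm f x k l = P I l (P (-I) k f) x := P_comm hf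
    have h2 : Hm f x l k = P (-I) l (P I k f) x := rfl
    rw [h1, h2]
    simp only [Pi.smul_apply, smul_eq_mul, map_mul, conj_I]
    ring_nf
    rw [I_sq]
    ring
  simp_rw [e1, sum_add_distrib, ← mul_sum]
  rw [sum_comm (f := fun k l => Hm f x l k * ξ l * conj (ξ k))]
  ring

/-- complexification of a real function -/
def cx (f : (Fin n → ℂ) → ℝ) : (Fin n → ℂ) → ℂ := fun y => (f y : ℂ)

theorem cx_contDiffAt {f : (Fin n → ℂ) → ℝ} {x : Fin n → ℂ} {m : WithTop ℕ∞}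
    (hf : ContDiffAt ℝ m f x) : ContDiffAt ℝ m (cx f) x :=
  ofRealCLM.contDiff.contDiffAt.comp x hf

theorem fderiv_cx {f : (Fin n → ℂ) → ℝ} {x : Fin n → ℂ} (hf : DifferentiableAt ℝ f x)
    (v : Fin n → ℂ) : fderiv ℝ (cx f) x v = ((fderiv ℝ f x v : ℝ) : ℂ) := by
  have h : HasFDerivAt (cx f) (ofRealCLM.comp (fderiv ℝ f x)) x :=
    ofRealCLM.hasFDerivAt.comp x hf.hasFDerivAt
  rw [h.fderiv]
  rfl

theorem fderiv2_cx {f : (Fin n → ℂ) → ℝ} {x : Fin n → ℂ} (hf : ContDiffAt ℝ 2 f x)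
    (v w : Fin n → ℂ) :
    fderiv ℝ (fderiv ℝ (cx f)) x v w = ((fderiv ℝ (fderiv ℝ f) x v w : ℝ) : ℂ) := by
  rw [← fderiv_dir (cx_contDiffAt hf)]
  have h0 : ∀ᶠ y in 𝓝 x, DifferentiableAt ℝ f y :=
    (hf.eventually (by norm_cast)).mono fun y hy => hy.differentiableAt (by norm_num)
  have h1 : (fun y => fderiv ℝ (cx f) y w) =ᶠ[𝓝 x] fun y => ((fderiv ℝ f y w : ℝ) : ℂ) := by
    filter_upwards [h0] with y hy using fderiv_cx hy w
  rw [h1.fderiv_eq]
  have h2 : DifferentiableAt ℝ (fderiv ℝ f) x :=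
    (hf.fderiv_right (m := 1) (by norm_num)).differentiableAt (by norm_num)
  have h3 : HasFDerivAt (fun y => fderiv ℝ f y w) ((fderiv ℝ (fderiv ℝ f) x).flip w) x := by
    have := h2.hasFDerivAt.clm_apply (hasFDerivAt_const w x)
    refine this.congr_fderiv ?_
    ext v
    simp
  have h4 : HasFDerivAt (fun y => ((fderiv ℝ f y w : ℝ) : ℂ))
      (ofRealCLM.comp ((fderiv ℝ (fderiv ℝ f) x).flip w)) x :=
    ofRealCLM.hasFDerivAt.comp x h3
  rw [h4.fderiv]
  rfl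

theorem lev_eq {f : (Fin n → ℂ) → ℝ} {x : Fin n → ℂ} (hf : ContDiffAt ℝ 2 f x)
    (ξ : Fin n → ℂ) :
    ((Lev f x ξ : ℝ) : ℂ) = ∑ i, ∑ j, Hm (cx f) x i j * ξ i * conj (ξ j) := by
  have h := Q_lev (cx_contDiffAt hf) ξ
  rw [fderiv2_cx hf, fderiv2_cx hf] at h
  rw [Lev]
  push_cast
  rw [h]
  ring

theorem conj_P {f : (Fin n → ℂ) → ℂ} {x : Fin n → ℂ} (hf : DifferentiableAt ℝ f x) (s : ℂ)
    (i : Fin n) : conj (P s i f x) = P (conj s) i (fun y => conj (f y)) x := by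
  have h1 : HasFDerivAt (fun y => conj (f y)) ((conjCLE : ℂ →L[ℝ] ℂ).comp (fderiv ℝ f x)) x :=
    (conjCLE : ℂ →L[ℝ] ℂ).hasFDerivAt.comp x hf.hasFDerivAt
  rw [P, P, h1.fderiv, map_mul, map_add, map_mul]
  congr 1
  simp only [map_div₀, map_one, map_ofNat]

theorem Hm_herm {f : (Fin n → ℂ) → ℝ} {x : Fin n → ℂ} (hf : ContDiffAt ℝ 2 f x) :
    (Hm (cx f) x).IsHermitian := by
  ext i j
  rw [conjTranspose_apply]
  show conj (P (-I) j (P I i (cx f)) x) = P (-I) i (P I j (cx f)) x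
  have hc := cx_contDiffAt hf
  have hd : DifferentiableAt ℝ (P I i (cx f)) x :=
    (contDiffAt_P (m := 1) hc (by norm_num)).differentiableAt (by norm_num)
  rw [conj_P hd]
  have h0 : ∀ᶠ y in 𝓝 x, DifferentiableAt ℝ (cx f) y :=
    (hc.eventually (by norm_cast)).mono fun y hy => hy.differentiableAt (by norm_num)
  have h1 : (fun y => conj (P I i (cx f) y)) =ᶠ[𝓝 x] P (-I) i (cx f) := by
    filter_upwards [h0] with y hy
    rw [conj_P hy, conj_I]
    congr 1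
    ext z
    simp [cx]
  rw [P_congr h1, map_neg, conj_I, neg_neg]
  exact P_comm hc

theorem quad_eq (M : Matrix (Fin n) (Fin n) ℂ) (ξ : Fin n → ℂ) :
    ∑ i, ∑ j, M i j * ξ i * conj (ξ j) = ξ ⬝ᵥ (M *ᵥ star ξ) := by
  rw [dotProduct]
  refine sum_congr rfl fun i _ => ?_
  rw [mulVec, dotProduct, mul_sum]
  refine sum_congr rfl fun j _ => ?_
  rw [Pi.star_apply]
  show _ = ξ i * (M i j * conj (ξ j))
  ring

theorem fderiv_eq_mulVec (γ : (Fin n → ℂ) → (Fin n → ℂ)) (x ξ : Fin n → ℂ) :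
    fderiv ℂ γ x ξ = Jm γ x *ᵥ ξ := by
  have h : Jm γ x = LinearMap.toMatrix' (fderiv ℂ γ x : (Fin n → ℂ) →ₗ[ℂ] (Fin n → ℂ)) := by
    ext k i
    rw [LinearMap.toMatrix'_apply]
    rfl
  rw [h, LinearMap.toMatrix'_mulVec]
  rfl

/-- polarization -/
theorem mat_zero {M : Matrix (Fin n) (Fin n) ℂ}
    (h : ∀ ξ : Fin n → ℂ, ∑ i, ∑ j, M i j * ξ i * conj (ξ j) = 0) : M = 0 := by
  have h' : ∀ ξ : Fin n → ℂ, ξ ⬝ᵥ (M *ᵥ star ξ) = 0 := by
    intro ξ
    rw [← h ξ, quad_eq]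
  have hB : ∀ a b : Fin n → ℂ, a ⬝ᵥ (M *ᵥ star b) + b ⬝ᵥ (M *ᵥ star a) = 0 := by
    intro a b
    have h1 := h' (a + b)
    rw [star_add, mulVec_add, dotProduct_add, add_dotProduct, add_dotProduct, h' a, h' b] at h1
    rw [← h1]
    ring
  ext i j
  have h1 := hB (Pi.single i 1) (Pi.single j 1)
  have h2 := hB (Pi.single i 1) (I • Pi.single j 1)
  rw [star_smul, mulVec_smul, dotProduct_smul, smul_dotProduct] at h2
  have e : ∀ a b : Fin n, (Pi.single a 1 : Fin n → ℂ) ⬝ᵥ (M *ᵥ star (Pi.single b 1 : Fin n → ℂ))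
      = M a b := by
    intro a b
    have : star (Pi.single b 1 : Fin n → ℂ) = Pi.single b 1 := by
      ext k
      by_cases hk : k = b
      · subst hk; simp
      · simp [Pi.single_eq_of_ne hk]
    rw [this, single_dotProduct, one_mul, mulVec_single_one]
    rfl
  rw [e, e] at h1
  rw [e, e, smul_eq_mul, smul_eq_mul] at h2
  have h3 : star I = -I := conj_I
  rw [h3] at h2
  have h4 : M i j - M j i = 0 := by
    have : -I * (M i j - M j i) = 0 := by rw [← h2]; ring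
    rcases mul_eq_zero.1 this with h5 | h5
    · simp at h5
    · exact h5
  rw [Matrix.zero_apply]
  have : 2 * M i j = 0 := by linear_combination h1 + h4
  simpa using this

/-- from the invariance of the Levi form to the invariance of the complex Hessian -/
theorem Hm_inv {D : Set (Fin n → ℂ)} (hD : IsOpen D) {γ : (Fin n → ℂ) → (Fin n → ℂ)}
    {x : Fin n → ℂ} {u : (Fin n → ℂ) → ℝ}
    (hu : ContDiffOn ℝ ∞ u D) (hx : x ∈ D) (hγx : γ x ∈ D)
    (hinv : ∀ ξ, Lev u (γ x) (fderiv ℂ γ x ξ) = Lev u x ξ) :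
    Hm (cx u) x = (Jm γ x)ᵀ * Hm (cx u) (γ x) * (Jm γ x).map conj := by
  have h2 : ∀ y ∈ D, ContDiffAt ℝ 2 u y := fun y hy =>
    (hu.contDiffAt (hD.mem_nhds hy)).of_le (by norm_cast)
  rw [← sub_eq_zero]
  apply mat_zero
  intro ξ
  have h3 := lev_eq (h2 x hx) ξ
  have h4 := lev_eq (h2 _ hγx) (fderiv ℂ γ x ξ)
  rw [hinv ξ, h3, quad_eq, quad_eq, fderiv_eq_mulVec] at h4
  rw [quad_eq, sub_mulVec, dotProduct_sub, h4, sub_eq_zero, ← mulVec_mulVec, ← mulVec_mulVec,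
    dotProduct_mulVec ξ (Jm γ x)ᵀ, vecMul_transpose]
  congr 2
  ext k
  rw [Pi.star_apply, mulVec, mulVec, dotProduct, dotProduct, star_sum]
  refine sum_congr rfl fun i _ => ?_
  rw [star_mul', Pi.star_apply, map_apply]
  rfl

end

end Crest.Agent.R264.K
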