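import Mathlib

/-! Row 264, node D6: a matrix inequality. -/

set_option autoImplicit false

open Finset Matrix Complex
open scoped ComplexConjugate ComplexOrder

namespace Crest.Agent.R264.K

variable {n : ℕ}

open scoped MatrixOrder in
theorem psd_factor {M : Matrix (Fin n) (Fin n) ℂ} (h : M.PosSemidef) :
    ∃ B : Matrix (Fin n) (Fin n) ℂ, M = Bᴴ * B := by
  obtain ⟨B, hB⟩ := CStarAlgebra.nonneg_iff_eq_star_mul_self.mp h.nonneg
  exact ⟨B, by rw [hB, star_eq_conjTranspose]⟩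

theorem star_dot (w : Fin n → ℂ) : star w ⬝ᵥ w = ((∑ i, ‖w i‖ ^ 2 : ℝ) : ℂ) := by
  rw [dotProduct, ofReal_sum]
  refine sum_congr rfl fun i _ => ?_
  rw [Pi.star_apply]
  show conj (w i) * w i = _
  rw [conj_mul']
  norm_cast

theorem star_dot_gram (B : Matrix (Fin n) (Fin n) ℂ) (v : Fin n → ℂ) :
    star v ⬝ᵥ ((Bᴴ * B) *ᵥ v) = ((∑ i, ‖(B *ᵥ v) i‖ ^ 2 : ℝ) : ℂ) := by
  rw [← mulVec_mulVec, dotProduct_mulVec, vecMul_conjTranspose, star_star, star_dot]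

theorem trace_gram (W : Matrix (Fin n) (Fin n) ℂ) :
    (Wᴴ * W).trace = ((∑ i, ∑ j, ‖W j i‖ ^ 2 : ℝ) : ℂ) := by
  rw [trace, ofReal_sum]
  refine sum_congr rfl fun i _ => ?_
  rw [diag_apply, mul_apply, ofReal_sum]
  refine sum_congr rfl fun j _ => ?_
  rw [conjTranspose_apply]
  show conj (W j i) * W j i = _
  rw [conj_mul']
  norm_cast

theorem mulVec_sq_le (W : Matrix (Fin n) (Fin n) ℂ) (y : Fin n → ℂ) :
    ∑ i, ‖(W *ᵥ y) i‖ ^ 2 ≤ (∑ i, ∑ j, ‖W j i‖ ^ 2) * ∑ j, ‖y j‖ ^ 2 := by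
  rw [sum_comm, sum_mul]
  refine sum_le_sum fun i _ => ?_
  have h1 : ‖(W *ᵥ y) i‖ ≤ ∑ j, ‖W i j‖ * ‖y j‖ := by
    rw [mulVec, dotProduct]
    refine (norm_sum_le _ _).trans (sum_le_sum fun j _ => ?_)
    rw [norm_mul]
  calc ‖(W *ᵥ y) i‖ ^ 2 ≤ (∑ j, ‖W i j‖ * ‖y j‖) ^ 2 := by gcongr
    _ ≤ (∑ j, ‖W i j‖ ^ 2) * ∑ j, ‖y j‖ ^ 2 := sum_mul_sq_le_sq_mul_sq _ _ _

theorem adj_trace {G F : Matrix (Fin n) (Fin n) ℂ} (hG : G.PosDef) (hF : F.PosSemidef) :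
    0 < G.det.re ∧ 0 ≤ (G.adjugate * F).trace.re ∧
      ∀ v, G.det.re * (star v ⬝ᵥ (F *ᵥ v)).re
        ≤ (star v ⬝ᵥ (G *ᵥ v)).re * (G.adjugate * F).trace.re := by
  obtain ⟨C, hC⟩ := psd_factor hG.posSemidef
  obtain ⟨B, hB⟩ := psd_factor hF
  have hGdet : G.det ≠ 0 := by
    have := hG.isUnit
    rw [isUnit_iff_isUnit_det] at this
    exact this.ne_zero
  have hdG : G.det = ((‖C.det‖ ^ 2 : ℝ) : ℂ) := by
    rw [hC, det_mul, det_conjTranspose]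
    show conj C.det * C.det = _
    rw [conj_mul']
    norm_cast
  have hCdet : C.det ≠ 0 := by
    intro h
    rw [hdG, h] at hGdet
    simp at hGdet
  have hCu : IsUnit C.det := isUnit_iff_ne_zero.2 hCdet
  obtain ⟨W, hBW⟩ : ∃ W, B = W * C :=
    ⟨B * C⁻¹, by rw [Matrix.mul_assoc, nonsing_inv_mul C hCu, Matrix.mul_one]⟩
  have ht : (G.adjugate * F).trace = ((‖C.det‖ ^ 2 * ∑ i, ∑ j, ‖W j i‖ ^ 2 : ℝ) : ℂ) := by
    have e1 : G.adjugate * F = G.det • (C⁻¹ * (Wᴴ * W) * C) := by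
      have e0 : G.adjugate = G.det • G⁻¹ := by
        rw [Matrix.inv_def, Ring.inverse_eq_inv', smul_smul, mul_inv_cancel₀ hGdet, one_smul]
      have e2 : G⁻¹ = C⁻¹ * (Cᴴ)⁻¹ := by rw [hC, Matrix.mul_inv_rev]
      have e3 : (Cᴴ)⁻¹ * Cᴴ = 1 := by
        apply nonsing_inv_mul
        rw [det_conjTranspose]
        exact hCu.star
      rw [e0, smul_mul, e2, hB, hBW, conjTranspose_mul]
      congr 1
      calc C⁻¹ * Cᴴ⁻¹ * (Cᴴ * Wᴴ * (W * C)) = C⁻¹ * ((Cᴴ⁻¹ * Cᴴ) * (Wᴴ * W)) * C := by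
            simp only [Matrix.mul_assoc]
        _ = C⁻¹ * (Wᴴ * W) * C := by rw [e3, Matrix.one_mul]
    rw [e1, trace_smul, trace_mul_comm, ← Matrix.mul_assoc, mul_nonsing_inv C hCu, Matrix.one_mul,
      trace_gram, hdG, smul_eq_mul]
    push_cast
    ring
  have hd : 0 < G.det.re := by
    rw [hdG, ofReal_re]
    have : 0 < ‖C.det‖ := norm_pos_iff.2 hCdet
    positivity
  refine ⟨hd, ?_, ?_⟩
  · rw [ht, ofReal_re]
    positivity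
  · intro v
    rw [ht, ofReal_re, hdG, ofReal_re, hB, star_dot_gram, ofReal_re, hC, star_dot_gram, ofReal_re]
    have h1 : B *ᵥ v = W *ᵥ (C *ᵥ v) := by
      rw [hBW, mulVec_mulVec]
    rw [h1]
    have h2 := mulVec_sq_le W (C *ᵥ v)
    have h3 : 0 ≤ ‖C.det‖ ^ 2 := by positivity
    nlinarith [mul_le_mul_of_nonneg_left h2 h3]

end Crest.Agent.R264.K
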