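import Mathlib
import Crest.Agent.R264.KLev
import Crest.Agent.R264.KMat

/-! Row 264, node D6: the real operator `Lr u f = re L_u f`: it satisfies `OpL`, positivity. -/

set_option autoImplicit false

open Finset Matrix Complex Filter Topology MeasureTheory
open scoped ContDiff ComplexConjugate ComplexOrder

namespace Crest.Agent.R264.K

open Crest.Agent.R264.Berg (Lev)

noncomputable section

variable {n : ℕ}

/-- the real operator -/
def Lr (u f : (Fin n → ℂ) → ℝ) (x : Fin n → ℂ) : ℝ := (Lop (cx u) (cx f) x).re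

theorem Lr_congr {u f g : (Fin n → ℂ) → ℝ} {x : Fin n → ℂ} (h : f =ᶠ[𝓝 x] g) :
    Lr u f x = Lr u g x := by
  have h' : cx f =ᶠ[𝓝 x] cx g := by
    filter_upwards [h] with y hy
    simp [cx, hy]
  rw [Lr, Lr, Lop_congr (EventuallyEq.refl _ _) h']

theorem Hm_add {f g : (Fin n → ℂ) → ℂ} {x : Fin n → ℂ} (hf : ContDiffAt ℝ 2 f x)
    (hg : ContDiffAt ℝ 2 g x) : Hm (fun y => f y + g y) x = Hm f x + Hm g x := by
  ext i j
  show P (-I) i (P I j (fun y => f y + g y)) x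
    = P (-I) i (P I j f) x + P (-I) i (P I j g) x
  have h0 : ∀ᶠ y in 𝓝 x, DifferentiableAt ℝ f y ∧ DifferentiableAt ℝ g y :=
    ((hf.eventually (by norm_cast)).and (hg.eventually (by norm_cast))).mono fun y hy =>
      ⟨hy.1.differentiableAt (by norm_num), hy.2.differentiableAt (by norm_num)⟩
  have h1 : P I j (fun y => f y + g y) =ᶠ[𝓝 x] fun y => P I j f y + P I j g y := by
    filter_upwards [h0] with y hy using P_add hy.1 hy.2
  rw [P_congr h1, P_add]
  · exact (contDiffAt_P (m := 1) hf (by norm_num)).differentiableAt (by norm_num)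
  · exact (contDiffAt_P (m := 1) hg (by norm_num)).differentiableAt (by norm_num)

theorem Hm_smul {f : (Fin n → ℂ) → ℂ} {x : Fin n → ℂ} (c : ℂ) (hf : ContDiffAt ℝ 2 f x) :
    Hm (fun y => c * f y) x = c • Hm f x := by
  ext i j
  show P (-I) i (P I j (fun y => c * f y)) x = c * P (-I) i (P I j f) x
  have h0 : ∀ᶠ y in 𝓝 x, DifferentiableAt ℝ f y :=
    (hf.eventually (by norm_cast)).mono fun y hy => hy.differentiableAt (by norm_num)
  have h1 : P I j (fun y => c * f y) =ᶠ[𝓝 x] fun y => c * P I j f y := by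
    filter_upwards [h0] with y hy using P_const_mul c hy
  rw [P_congr h1, P_const_mul]
  exact (contDiffAt_P (m := 1) hf (by norm_num)).differentiableAt (by norm_num)

theorem Lop_add {w f g : (Fin n → ℂ) → ℂ} {x : Fin n → ℂ} (hf : ContDiffAt ℝ 2 f x)
    (hg : ContDiffAt ℝ 2 g x) : Lop w (fun y => f y + g y) x = Lop w f x + Lop w g x := by
  rw [Lop, Hm_add hf hg]
  simp only [Matrix.add_apply, mul_add, sum_add_distrib]
  rfl

theorem Lop_smul {w f : (Fin n → ℂ) → ℂ} {x : Fin n → ℂ} (c : ℂ) (hf : ContDiffAt ℝ 2 f x) :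
    Lop w (fun y => c * f y) x = c * Lop w f x := by
  rw [Lop, Hm_smul c hf, Lop, mul_sum]
  refine sum_congr rfl fun i _ => ?_
  rw [mul_sum]
  refine sum_congr rfl fun j _ => ?_
  rw [Matrix.smul_apply, smul_eq_mul]
  ring

theorem le2 {f : (Fin n → ℂ) → ℝ} {x : Fin n → ℂ} (hf : ContDiffAt ℝ ∞ f x) :
    ContDiffAt ℝ 2 (cx f) x := (cx_contDiffAt hf).of_le (by norm_cast)

theorem cx_contDiff {f : (Fin n → ℂ) → ℝ} (hf : ContDiff ℝ ∞ f) : ContDiff ℝ ∞ (cx f) :=
  ofRealCLM.contDiff.comp hf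

theorem cx_tsupport {f : (Fin n → ℂ) → ℝ} : tsupport (cx f) = tsupport f := by
  have : Function.support (cx f) = Function.support f := by
    ext y
    simp [cx]
  rw [tsupport, tsupport, this]

theorem cx_hcs {f : (Fin n → ℂ) → ℝ} (hf : HasCompactSupport f) : HasCompactSupport (cx f) := by
  rw [HasCompactSupport, cx_tsupport]
  exact hf

/-- near a point of `D` the function `L_u f` is smooth -/
theorem Lop_smooth {D : Set (Fin n → ℂ)} (hD : IsOpen D) {u : (Fin n → ℂ) → ℂ}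
    (hu : ContDiffOn ℝ ∞ u D) {f : (Fin n → ℂ) → ℂ} (hf : ContDiffOn ℝ ∞ f D)
    {x : Fin n → ℂ} (hx : x ∈ D) : ContDiffAt ℝ ∞ (Lop u f) x := by
  obtain ⟨θ, h1, h2, h3, h4, h5⟩ := exists_cutoffK hD (isCompact_singleton (x := x))
    (by simpa using hx)
  have hx1 : ∀ᶠ y in 𝓝 x, θ y = 1 := by simpa [nhdsSet_singleton] using h5
  have hw : ∀ g : (Fin n → ℂ) → ℂ, ContDiffOn ℝ ∞ g D →
      ContDiff ℝ ∞ (fun x => (θ x : ℂ) * g x) := by
    intro g hg
    apply contDiff_of_tsupp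
    intro y hy
    have hy' : y ∈ tsupport θ := by
      refine closure_mono ?_ hy
      intro z hz
      rw [Function.mem_support] at hz ⊢
      intro h0
      apply hz
      rw [h0]
      simp
    exact (ofRealCLM.contDiff.comp h1).contDiffAt.mul
      (hg.contDiffAt (hD.mem_nhds (h3 hy')))
  have hev : ∀ g : (Fin n → ℂ) → ℂ, (fun x => (θ x : ℂ) * g x) =ᶠ[𝓝 x] g := by
    intro g
    filter_upwards [hx1] with y hy
    rw [hy]
    simp
  have key := smS (LL ⟨fun x => (θ x : ℂ) * u x, by rw [← SetLike.mem_coe]; exact hw u hu⟩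
    ⟨fun x => (θ x : ℂ) * f x, by rw [← SetLike.mem_coe]; exact hw f hf⟩)
  refine key.contDiffAt.congr_of_eventuallyEq ?_
  filter_upwards [(hev u).eventuallyEq_nhds, (hev f).eventuallyEq_nhds] with y hy1 hy2
  rw [LL_val]
  exact Lop_congr hy1.symm hy2.symm

theorem Lr_cont {D : Set (Fin n → ℂ)} (hD : IsOpen D) {u : (Fin n → ℂ) → ℝ}
    (hu : ContDiffOn ℝ ∞ u D) {f : (Fin n → ℂ) → ℝ} (hf : ContDiffOn ℝ ∞ f D) :
    ContinuousOn (Lr u f) D := by
  intro x hx
  have h1 : ContinuousAt (Lop (cx u) (cx f)) x :=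
    (Lop_smooth hD (ofRealCLM.contDiff.comp_contDiffOn hu)
      (ofRealCLM.contDiff.comp_contDiffOn hf) hx).continuousAt
  exact (continuous_re.continuousAt.comp h1).continuousWithinAt

theorem Lop_cont_at {D : Set (Fin n → ℂ)} (hD : IsOpen D) {u : (Fin n → ℂ) → ℝ}
    (hu : ContDiffOn ℝ ∞ u D) {f : (Fin n → ℂ) → ℝ} (hf : ContDiffOn ℝ ∞ f D)
    {x : Fin n → ℂ} (hx : x ∈ D) : ContinuousAt (Lop (cx u) (cx f)) x :=
  (Lop_smooth hD (ofRealCLM.contDiff.comp_contDiffOn hu)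
      (ofRealCLM.contDiff.comp_contDiffOn hf) hx).continuousAt

theorem Lr_symm {D : Set (Fin n → ℂ)} (hD : IsOpen D) {u : (Fin n → ℂ) → ℝ}
    (hu : ContDiffOn ℝ ∞ u D) {h f : (Fin n → ℂ) → ℝ} (hh : Test D h) (hf : ContDiff ℝ ∞ f) :
    ∫ x, h x * Lr u f x = ∫ x, f x * Lr u h x := by
  obtain ⟨h1, h2, h3⟩ := hh
  have hcu : ContDiffOn ℝ ∞ (cx u) D := ofRealCLM.contDiff.comp_contDiffOn hu
  have key := int_symm hD hcu (cx_contDiff h1) (cx_hcs h2) (by rw [cx_tsupport]; exact h3)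
    (cx_contDiff hf)
  have c1 : Continuous (fun x => cx h x * Lop (cx u) (cx f) x) := by
    rw [continuous_iff_continuousAt]
    intro x
    by_cases hx : x ∈ tsupport h
    · exact (cx_contDiff h1).continuous.continuousAt.mul
        (Lop_cont_at hD hu hf.contDiffOn (h3 hx))
    · refine (continuousAt_const (y := (0 : ℂ))).congr ?_
      filter_upwards [notMem_tsupport_iff_eventuallyEq.1 hx] with y hy
      rw [cx, hy]
      simp
  have c2 : Continuous (fun x => cx f x * Lop (cx u) (cx h) x) := by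
    rw [continuous_iff_continuousAt]
    intro x
    by_cases hx : x ∈ tsupport h
    · exact (cx_contDiff hf).continuous.continuousAt.mul
        (Lop_cont_at hD hu h1.contDiffOn (h3 hx))
    · refine (continuousAt_const (y := (0 : ℂ))).congr ?_
      have : ∀ᶠ y in 𝓝 x, y ∉ tsupport h := (isClosed_tsupport h).isOpen_compl.mem_nhds hx
      filter_upwards [this] with y hy
      rw [Lop_eq_zero (by rw [cx_tsupport]; exact hy), mul_zero]
  have i1 : Integrable (fun x => cx h x * Lop (cx u) (cx f) x) :=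
    c1.integrable_of_hasCompactSupport (hcs_mul_left (cx_hcs h2))
  have i2 : Integrable (fun x => cx f x * Lop (cx u) (cx h) x) := by
    refine c2.integrable_of_hasCompactSupport (HasCompactSupport.intro h2 ?_)
    intro x hx
    rw [Lop_eq_zero (by rw [cx_tsupport]; exact hx), mul_zero]
  have e1 : ∀ x, h x * Lr u f x = (cx h x * Lop (cx u) (cx f) x).re := fun x => by
    rw [cx, re_ofReal_mul]; rfl
  have e2 : ∀ x, f x * Lr u h x = (cx f x * Lop (cx u) (cx h) x).re := fun x => by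
    rw [cx, re_ofReal_mul]; rfl
  simp_rw [e1, e2]
  have r1 := integral_re (𝕜 := ℂ) i1
  have r2 := integral_re (𝕜 := ℂ) i2
  simp only [RCLike.re_eq_complex_re] at r1 r2
  rw [r1, r2, key]

theorem opL {D : Set (Fin n → ℂ)} {Γ : Set ((Fin n → ℂ) → (Fin n → ℂ))} (hD : IsOpen D)
    (hΓ : Grp D Γ) {u : (Fin n → ℂ) → ℝ} (hu : ContDiffOn ℝ ∞ u D)
    (hinv : ∀ f ∈ Γ, ∀ x ∈ D, ∀ ξ, Lev u (f x) (fderiv ℂ f x ξ) = Lev u x ξ) :
    OpL D Γ (Lr u) where
  congr f g x h := Lr_congr h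
  add f g x hx hf hg := by
    have h1 : cx (fun y => f y + g y) = fun y => cx f y + cx g y := by
      ext y; simp [cx]
    rw [Lr, h1, Lop_add (le2 hf) (le2 hg), add_re]
    rfl
  smul c f x hx hf := by
    have h1 : cx (fun y => c * f y) = fun y => (c : ℂ) * cx f y := by
      ext y; simp [cx]
    rw [Lr, h1, Lop_smul _ (le2 hf), re_ofReal_mul]
    rfl
  const c x := by
    have h1 : Hm (cx (fun _ : Fin n → ℂ => c)) x = 0 := by
      ext i j
      show P (-I) i (P I j (fun _ : Fin n → ℂ => (c : ℂ))) x = 0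
      have : P I j (fun _ : Fin n → ℂ => (c : ℂ)) = fun _ => 0 := funext fun y => P_const _
      rw [this, P_const]
    rw [Lr, Lop, h1]
    simp
  cont f hf := Lr_cont hD hu hf.contDiffOn
  symm h f hh hf := Lr_symm hD hu hh hf
  inv γ hγ f x hx hf := by
    obtain ⟨δ, -, hp⟩ := hΓ.inv γ hγ
    have h1 : cx (fun y => f (γ y)) = fun y => cx f (γ y) := rfl
    rw [Lr, h1, Lop_comp hD hp.hF hx (le2 hf)
      (Hm_inv hD hu hx (hp.mapsF hx) (hinv γ hγ x hx)), re_ofReal_mul]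
    rfl

/-! ### positivity -/

theorem lev_star {f : (Fin n → ℂ) → ℝ} {x : Fin n → ℂ} (hf : ContDiffAt ℝ 2 f x)
    (v : Fin n → ℂ) : star v ⬝ᵥ (Hm (cx f) x *ᵥ v) = ((Lev f x (star v) : ℝ) : ℂ) := by
  rw [lev_eq hf, quad_eq, star_star]

theorem Hm_psd {f : (Fin n → ℂ) → ℝ} {x : Fin n → ℂ} (hf : ContDiffAt ℝ 2 f x)
    (h : ∀ ξ, 0 ≤ Lev f x ξ) : (Hm (cx f) x).PosSemidef := by
  refine .of_dotProduct_mulVec_nonneg (Hm_herm hf) fun v => ?_
  rw [lev_star hf]
  exact_mod_cast h _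

theorem Hm_pd {f : (Fin n → ℂ) → ℝ} {x : Fin n → ℂ} (hf : ContDiffAt ℝ 2 f x)
    (h : ∀ ξ, ξ ≠ 0 → 0 < Lev f x ξ) : (Hm (cx f) x).PosDef := by
  refine .of_dotProduct_mulVec_pos (Hm_herm hf) fun v hv => ?_
  rw [lev_star hf]
  have := h (star v) (by simpa using hv)
  exact_mod_cast this

/-- determinant of the complex Hessian of `u` -/
def dt (u : (Fin n → ℂ) → ℝ) (x : Fin n → ℂ) : ℝ := (Hm (cx u) x).det.re

theorem Lr_pos {u F : (Fin n → ℂ) → ℝ} {x : Fin n → ℂ} (hu : ContDiffAt ℝ 2 u x)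
    (hF : ContDiffAt ℝ 2 F x) (hup : ∀ ξ, ξ ≠ 0 → 0 < Lev u x ξ) (hFp : ∀ ξ, 0 ≤ Lev F x ξ) :
    0 < dt u x ∧ 0 ≤ Lr u F x ∧ ∀ ξ, dt u x * Lev F x ξ ≤ Lev u x ξ * Lr u F x := by
  obtain ⟨h1, h2, h3⟩ := adj_trace (Hm_pd hu hup) (Hm_psd hF hFp)
  have e : Lr u F x = ((Hm (cx u) x).adjugate * Hm (cx F) x).trace.re := by
    rw [Lr, Lop_eq_trace]
  refine ⟨h1, by rw [e]; exact h2, fun ξ => ?_⟩
  have h4 := h3 (star ξ)
  rw [lev_star hu, lev_star hF, ofReal_re, ofReal_re, star_star] at h4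
  rw [e]
  exact h4

end

end Crest.Agent.R264.K
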