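import Mathlib
import Crest.Agent.R264.KLr

/-! Row 264, node D6: assembly of Lemma K from the mollification statements and (U). -/

set_option autoImplicit false

open Finset Matrix Complex Filter Topology MeasureTheory
open scoped ContDiff ComplexConjugate

namespace Crest.Agent.R264.K

open Crest.Agent.R264.Berg (Lev)

noncomputable section

variable {n : ℕ}

/-- (M1) -/
def MollStmt (n : ℕ) : Prop :=
  ∀ (D : Set (Fin n → ℂ)) (φ : (Fin n → ℂ) → ℝ), IsOpen D → ContinuousOn φ D → Psh D φ →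
    ∀ K ⊆ D, IsCompact K → ∃ F : ℕ → (Fin n → ℂ) → ℝ, (∀ k, ContDiff ℝ ∞ (F k)) ∧
      (∀ k, ∀ x ∈ K, ∀ ξ, 0 ≤ Lev (F k) x ξ) ∧ TendstoUniformlyOn F φ atTop K

/-- (M2) -/
def CircStmt (n : ℕ) : Prop :=
  ∀ (D : Set (Fin n → ℂ)) (φ : (Fin n → ℂ) → ℝ), IsOpen D → ContinuousOn φ D →
    (∀ η : (Fin n → ℂ) → ℝ, ContDiff ℝ ∞ η → HasCompactSupport η → tsupport η ⊆ D →
      (∀ x, 0 ≤ η x) → ∀ ξ, ∫ x, φ x * Lev η x ξ = 0) → Plh D φ

theorem fderiv2_dir {F : (Fin n → ℂ) → ℝ} (hF : ContDiff ℝ ∞ F) (v x : Fin n → ℂ) :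
    fderiv ℝ (fun y => fderiv ℝ F y v) x v = fderiv ℝ (fderiv ℝ F) x v v := by
  have h : DifferentiableAt ℝ (fderiv ℝ F) x :=
    ((hF.fderiv_right (m := ∞) (by simp)).differentiable (by simp)) x
  rw [fderiv_clm_apply h (differentiableAt_const v)]
  simp

theorem int_dir2 {η F : (Fin n → ℂ) → ℝ} (hη : ContDiff ℝ ∞ η) (hc : HasCompactSupport η)
    (hF : ContDiff ℝ ∞ F) (v : Fin n → ℂ) :
    ∫ x, η x * fderiv ℝ (fderiv ℝ F) x v v = ∫ x, F x * fderiv ℝ (fderiv ℝ η) x v v := by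
  have hA : ∀ G : (Fin n → ℂ) → ℝ, ContDiff ℝ ∞ G → ContDiff ℝ ∞ (fun y => fderiv ℝ G y v) :=
    fun G hG => (hG.fderiv_right (m := ∞) (by simp)).clm_apply contDiff_const
  have hdi : ∀ G : (Fin n → ℂ) → ℝ, ContDiff ℝ ∞ G → ∀ x, DifferentiableAt ℝ G x := fun G hG x =>
    hG.differentiable (by simp) x
  have hcB : HasCompactSupport (fun y => fderiv ℝ η y v) := hc.fderiv_apply ℝ v
  have hcB' : HasCompactSupport (fun y => fderiv ℝ (fun z => fderiv ℝ η z v) y v) :=
    hcB.fderiv_apply ℝ v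
  simp_rw [← fderiv2_dir hF v, ← fderiv2_dir hη v]
  have e1 := integral_mul_fderiv_eq_neg_fderiv_mul_of_integrable (μ := (volume : Measure (Fin n → ℂ)))
    (f := η) (g := fun y => fderiv ℝ F y v) (v := v)
    (((hA η hη).continuous.mul (hA F hF).continuous).integrable_of_hasCompactSupport
      (HasCompactSupport.mul_right hcB))
    ((hη.continuous.mul (hA _ (hA F hF)).continuous).integrable_of_hasCompactSupport
      (HasCompactSupport.mul_right hc))
    ((hη.continuous.mul (hA F hF).continuous).integrable_of_hasCompactSupport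
      (HasCompactSupport.mul_right hc))
    (fun x _ => hdi _ hη x) (fun x _ => hdi _ (hA F hF) x)
  have e2 := integral_mul_fderiv_eq_neg_fderiv_mul_of_integrable (μ := (volume : Measure (Fin n → ℂ)))
    (f := F) (g := fun y => fderiv ℝ η y v) (v := v)
    (((hA F hF).continuous.mul (hA η hη).continuous).integrable_of_hasCompactSupport
      (HasCompactSupport.mul_left hcB))
    ((hF.continuous.mul (hA _ (hA η hη)).continuous).integrable_of_hasCompactSupport
      (HasCompactSupport.mul_left hcB'))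
    ((hF.continuous.mul (hA η hη).continuous).integrable_of_hasCompactSupport
      (HasCompactSupport.mul_left hcB))
    (fun x _ => hdi _ hF x) (fun x _ => hdi _ (hA η hη) x)
  rw [e1, e2]
  congr 1
  refine integral_congr_ae (Eventually.of_forall fun x => ?_)
  simp only
  ring

theorem int_lev {η F : (Fin n → ℂ) → ℝ} (hη : ContDiff ℝ ∞ η) (hc : HasCompactSupport η)
    (hF : ContDiff ℝ ∞ F) (ξ : Fin n → ℂ) :
    ∫ x, η x * Lev F x ξ = ∫ x, F x * Lev η x ξ := by
  have hA2 : ∀ G : (Fin n → ℂ) → ℝ, ContDiff ℝ ∞ G → ∀ v : Fin n → ℂ,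
      Continuous (fun y => fderiv ℝ (fderiv ℝ G) y v v) := fun G hG v =>
    (((hG.fderiv_right (m := ∞) (by simp)).fderiv_right (m := ∞) (by simp)).continuous.clm_apply
      continuous_const).clm_apply continuous_const
  have hcB : ∀ v : Fin n → ℂ, HasCompactSupport (fun y => fderiv ℝ (fderiv ℝ η) y v v) := by
    intro v
    have h1 : HasCompactSupport (fderiv ℝ (fderiv ℝ η)) := (hc.fderiv ℝ).fderiv ℝ
    refine HasCompactSupport.intro h1 ?_
    intro x hx
    rw [image_eq_zero_of_notMem_tsupport hx]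
    simp
  have i1 : ∀ v : Fin n → ℂ, Integrable (fun x => η x * fderiv ℝ (fderiv ℝ F) x v v) := fun v =>
    (hη.continuous.mul (hA2 F hF v)).integrable_of_hasCompactSupport (HasCompactSupport.mul_right hc)
  have i2 : ∀ v : Fin n → ℂ, Integrable (fun x => F x * fderiv ℝ (fderiv ℝ η) x v v) := fun v =>
    (hF.continuous.mul (hA2 η hη v)).integrable_of_hasCompactSupport
      (HasCompactSupport.mul_left (hcB v))
  have e : ∀ G H : (Fin n → ℂ) → ℝ, ∀ x, G x * Lev H x ξ
      = (1 / 4) * (G x * fderiv ℝ (fderiv ℝ H) x ξ ξ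
        + G x * fderiv ℝ (fderiv ℝ H) x (I • ξ) (I • ξ)) := by
    intro G H x
    rw [Lev]
    ring
  simp_rw [e]
  rw [integral_const_mul, integral_const_mul, integral_add (i1 _) (i1 _),
    integral_add (i2 _) (i2 _), int_dir2 hη hc hF, int_dir2 hη hc hF]

theorem lev_contDiffOn {D : Set (Fin n → ℂ)} (hD : IsOpen D) {u : (Fin n → ℂ) → ℝ}
    (hu : ContDiffOn ℝ ∞ u D) (ξ : Fin n → ℂ) : ContDiffOn ℝ ∞ (fun x => Lev u x ξ) D := by
  intro x hx
  have h0 : ContDiffAt ℝ ∞ u x := hu.contDiffAt (hD.mem_nhds hx)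
  have h1 : ContDiffAt ℝ ∞ (fderiv ℝ u) x := h0.fderiv_right (by simp)
  have h2 : ContDiffAt ℝ ∞ (fderiv ℝ (fderiv ℝ u)) x := h1.fderiv_right (by simp)
  have h3 : ∀ v : Fin n → ℂ, ContDiffAt ℝ ∞ (fun y => fderiv ℝ (fderiv ℝ u) y v v) x := fun v =>
    (h2.clm_apply contDiffAt_const).clm_apply contDiffAt_const
  exact (contDiffAt_const.mul ((h3 ξ).add (h3 _))).contDiffWithinAt

theorem dt_cont {D : Set (Fin n → ℂ)} (hD : IsOpen D) {u : (Fin n → ℂ) → ℝ}
    (hu : ContDiffOn ℝ ∞ u D) : ContinuousOn (dt u) D := by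
  intro x hx
  have h0 : ContDiffAt ℝ ∞ (cx u) x := cx_contDiffAt (hu.contDiffAt (hD.mem_nhds hx))
  have h1 : ContinuousAt (fun y => Hm (cx u) y) x := by
    refine continuousAt_pi.2 fun i => continuousAt_pi.2 fun j => ?_
    have h2 : ContDiffAt ℝ ∞ (P I j (cx u)) x := contDiffAt_P h0 (by simp)
    have h3 : ContDiffAt ℝ ∞ (P (-I) i (P I j (cx u))) x := contDiffAt_P h2 (by simp)
    exact h3.continuousAt
  have h4 : ContinuousAt (fun y => (Hm (cx u) y).det) x :=
    (continuous_id.matrix_det).continuousAt.comp h1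
  exact (continuous_re.continuousAt.comp h4).continuousWithinAt

/-- limit of integrals -/
theorem tendsto_int {D : Set (Fin n → ℂ)} (hD : IsOpen D) {φ g : (Fin n → ℂ) → ℝ} {K : Set (Fin n → ℂ)}
    (hK : IsCompact K) (hKD : K ⊆ D) (hφ : ContinuousOn φ D) (hg : ContinuousOn g D)
    (hg0 : ∀ x ∉ K, g x = 0) {F : ℕ → (Fin n → ℂ) → ℝ} (hF : ∀ k, ContDiff ℝ ∞ (F k))
    (hlim : TendstoUniformlyOn F φ atTop K) :
    Tendsto (fun k => ∫ x, F k x * g x) atTop (𝓝 (∫ x, φ x * g x)) := by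
  have hind : ∀ f : (Fin n → ℂ) → ℝ, ∫ x, f x * g x = ∫ x in K, f x * g x := by
    intro f
    rw [← integral_indicator hK.measurableSet]
    refine integral_congr_ae (Eventually.of_forall fun x => ?_)
    by_cases hx : x ∈ K
    · rw [Set.indicator_of_mem hx]
    · simp [Set.indicator_of_notMem hx, hg0 x hx]
  simp_rw [hind]
  have hgK : ContinuousOn g K := hg.mono hKD
  have hφK : ContinuousOn φ K := hφ.mono hKD
  have hgi : IntegrableOn g K := hgK.integrableOn_compact hK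
  have hbd : IntegrableOn (fun x => ‖g x‖) K := hgi.norm
  have hi : IntegrableOn (fun x => φ x * g x) K := (hφK.mul hgK).integrableOn_compact hK
  have hik : ∀ k, IntegrableOn (fun x => F k x * g x) K := fun k =>
    (((hF k).continuous.continuousOn).mul hgK).integrableOn_compact hK
  rw [Metric.tendsto_atTop]
  intro ε hε
  set M := ∫ x in K, ‖g x‖ with hM
  have hM0 : 0 ≤ M := integral_nonneg fun x => norm_nonneg _
  have hδ : 0 < ε / (M + 1) := by positivity
  have h1 := (Metric.tendstoUniformlyOn_iff.1 hlim) _ hδ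
  obtain ⟨N, hN⟩ := eventually_atTop.1 h1
  refine ⟨N, fun k hk => ?_⟩
  rw [Real.dist_eq, ← integral_sub (hik k) hi]
  calc |∫ x in K, (F k x * g x - φ x * g x)| ≤ ∫ x in K, ε / (M + 1) * ‖g x‖ := by
        rw [← Real.norm_eq_abs]
        refine norm_integral_le_of_norm_le (hbd.const_mul _) ?_
        filter_upwards [ae_restrict_mem hK.measurableSet] with x hx
        have h2 := (hN k hk x hx).le
        rw [← sub_mul, norm_mul]
        rw [dist_comm, dist_eq_norm] at h2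
        exact mul_le_mul_of_nonneg_right h2 (norm_nonneg _)
    _ = ε / (M + 1) * M := by rw [integral_const_mul]
    _ < ε := by
        rw [div_mul_eq_mul_div, div_lt_iff₀ (by positivity)]
        nlinarith

theorem lemmaK_of (hM : MollStmt n) (hC : CircStmt n) (hV : VanStmt n) : LemmaK n := by
  intro D Γ hD hne hΓ u hu hup hinv φ hφ hpsh hχ
  have hL := opL hD hΓ hu hinv
  have hu2 : ∀ x ∈ D, ContDiffAt ℝ 2 u x := fun x hx =>
    (hu.contDiffAt (hD.mem_nhds hx)).of_le (by norm_cast)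
  have hF2 : ∀ {F : (Fin n → ℂ) → ℝ}, ContDiff ℝ ∞ F → ∀ x, ContDiffAt ℝ 2 F x := fun hF x =>
    hF.contDiffAt.of_le (by norm_cast)
  -- supports
  have hLs : ∀ h : (Fin n → ℂ) → ℝ, ∀ x ∉ tsupport h, Lr u h x = 0 := by
    intro h x hx
    rw [hL.congr h (fun _ => 0) x (notMem_tsupport_iff_eventuallyEq.1 hx), hL.const]
  have hint : ∀ h, Test D h → (∀ x, 0 ≤ h x) → ∀ F : ℕ → (Fin n → ℂ) → ℝ,
      (∀ k, ContDiff ℝ ∞ (F k)) → (TendstoUniformlyOn F φ atTop (tsupport h)) →
      Tendsto (fun k => ∫ x, h x * Lr u (F k) x) atTop (𝓝 (∫ x, φ x * Lr u h x)) := by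
    intro h hh h0 F hF hlim
    have e : ∀ k, ∫ x, h x * Lr u (F k) x = ∫ x, F k x * Lr u h x := fun k =>
      hL.symm h (F k) hh (hF k)
    simp_rw [e]
    exact tendsto_int hD hh.2.1 hh.2.2 hφ (hL.cont h hh.1) (hLs h) hF hlim
  have hpos : ∀ h, Test D h → (∀ x, 0 ≤ h x) → 0 ≤ ∫ x, φ x * Lr u h x := by
    intro h hh h0
    obtain ⟨F, hF1, hF2', hF3⟩ := hM D φ hD hφ hpsh (tsupport h) hh.2.2 hh.2.1
    refine ge_of_tendsto' (hint h hh h0 F hF1 hF3) fun k => ?_
    refine integral_nonneg fun x => ?_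
    by_cases hx : x ∈ tsupport h
    · exact mul_nonneg (h0 x) (Lr_pos (hu2 x (hh.2.2 hx)) (hF2 (hF1 k) x) (hup x (hh.2.2 hx))
        (hF2' k x hx)).2.1
    · simp [image_eq_zero_of_notMem_tsupport hx]
  have hvan := hV D Γ hD hne hΓ (Lr u) hL φ hφ hχ hpos
  refine hC D φ hD hφ fun η hη hηc hηD hη0 ξ => ?_
  -- the test function η * Lev u ξ
  set h : (Fin n → ℂ) → ℝ := fun x => η x * Lev u x ξ with hh
  have hts : tsupport h ⊆ tsupport η := by
    refine closure_mono ?_
    intro y hy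
    rw [Function.mem_support] at hy ⊢
    intro h0
    exact hy (by rw [hh]; simp [h0])
  have hT : Test D h := by
    refine ⟨?_, hηc.of_isClosed_subset (isClosed_tsupport _) hts, hts.trans hηD⟩
    apply contDiff_of_tsupp
    intro x hx
    exact hη.contDiffAt.mul ((lev_contDiffOn hD hu ξ).contDiffAt (hD.mem_nhds (hηD (hts hx))))
  have hlev0 : ∀ x ∈ D, 0 ≤ Lev u x ξ := by
    intro x hx
    by_cases h0 : ξ = 0
    · subst h0; simp [Lev]
    · exact (hup x hx ξ h0).le
  have hh0 : ∀ x, 0 ≤ h x := by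
    intro x
    by_cases hx : x ∈ tsupport η
    · exact mul_nonneg (hη0 x) (hlev0 x (hηD hx))
    · simp [hh, image_eq_zero_of_notMem_tsupport hx]
  obtain ⟨F, hF1, hF2', hF3⟩ := hM D φ hD hφ hpsh (tsupport η) hηD hηc
  have l1 := hint h hT hh0 F hF1 (hF3.mono hts)
  rw [hvan h hT hh0] at l1
  -- lower bound of dt
  obtain ⟨c, hc0, hc⟩ : ∃ c : ℝ, 0 < c ∧ ∀ x ∈ tsupport η, c ≤ dt u x := by
    by_cases he : (tsupport η).Nonempty
    · obtain ⟨x0, hx0, hmin⟩ := hηc.isCompact.exists_isMinOn he ((dt_cont hD hu).mono hηD)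
      refine ⟨dt u x0, ?_, fun x hx => hmin hx⟩
      exact (Lr_pos (hu2 x0 (hηD hx0)) (hF2 (hF1 0) x0) (hup x0 (hηD hx0)) (hF2' 0 x0 hx0)).1
    · exact ⟨1, one_pos, fun x hx => (he ⟨x, hx⟩).elim⟩
  -- ∫ η Lev F_k ξ → ∫ φ Lev η ξ
  have hlevs : ∀ x ∉ tsupport η, Lev η x ξ = 0 := by
    intro x hx
    have h1 : η =ᶠ[𝓝 x] fun _ => (0 : ℝ) := notMem_tsupport_iff_eventuallyEq.1 hx
    have h2 : fderiv ℝ η =ᶠ[𝓝 x] fderiv ℝ (fun _ => (0 : ℝ)) := h1.fderiv
    have h3 : fderiv ℝ (fderiv ℝ η) x = 0 := by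
      rw [h2.fderiv_eq]
      simp
    simp [Lev, h3]
  have l2 : Tendsto (fun k => ∫ x, η x * Lev (F k) x ξ) atTop (𝓝 (∫ x, φ x * Lev η x ξ)) := by
    have e : ∀ k, ∫ x, η x * Lev (F k) x ξ = ∫ x, F k x * Lev η x ξ := fun k =>
      int_lev hη hηc (hF1 k) ξ
    simp_rw [e]
    exact tendsto_int hD hηc hηD hφ ((lev_contDiffOn hD hη.contDiffOn ξ).continuousOn) hlevs hF1 hF3
  have l3 : ∀ k, 0 ≤ ∫ x, η x * Lev (F k) x ξ := fun k => by
    refine integral_nonneg fun x => ?_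
    by_cases hx : x ∈ tsupport η
    · exact mul_nonneg (hη0 x) (hF2' k x hx ξ)
    · simp [image_eq_zero_of_notMem_tsupport hx]
  have hcont : ∀ g : (Fin n → ℂ) → ℝ, ContinuousOn g D → Integrable (fun x => η x * g x) := by
    intro g hg
    refine Continuous.integrable_of_hasCompactSupport ?_ (HasCompactSupport.mul_right hηc)
    rw [continuous_iff_continuousAt]
    intro x
    by_cases hx : x ∈ tsupport η
    · exact hη.continuous.continuousAt.mul (hg.continuousAt (hD.mem_nhds (hηD hx)))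
    · refine (continuousAt_const (y := (0 : ℝ))).congr ?_
      filter_upwards [notMem_tsupport_iff_eventuallyEq.1 hx] with y hy
      rw [hy]
      simp
  have l4 : ∀ k, c * ∫ x, η x * Lev (F k) x ξ ≤ ∫ x, h x * Lr u (F k) x := fun k => by
    rw [← integral_const_mul]
    have hLc : ContinuousOn (Lr u (F k)) D := hL.cont _ (hF1 k)
    have hLe : ContinuousOn (fun x => Lev (F k) x ξ) D :=
      (lev_contDiffOn hD (hF1 k).contDiffOn ξ).continuousOn
    have hLu : ContinuousOn (fun x => Lev u x ξ) D := (lev_contDiffOn hD hu ξ).continuousOn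
    refine integral_mono ((hcont _ hLe).const_mul c) ?_ fun x => ?_
    · have := hcont _ (hLu.mul hLc)
      refine this.congr (Eventually.of_forall fun x => ?_)
      simp only [hh, Pi.mul_apply]
      ring
    · by_cases hx : x ∈ tsupport η
      · have h5 := Lr_pos (hu2 x (hηD hx)) (hF2 (hF1 k) x) (hup x (hηD hx)) (hF2' k x hx)
        have h6 := h5.2.2 ξ
        have h7 : c * Lev (F k) x ξ ≤ dt u x * Lev (F k) x ξ :=
          mul_le_mul_of_nonneg_right (hc x hx) (hF2' k x hx ξ)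
        have h8 := mul_le_mul_of_nonneg_left (h7.trans h6) (hη0 x)
        simp only [hh]
        nlinarith [h8]
      · simp [hh, image_eq_zero_of_notMem_tsupport hx]
  have l5 : Tendsto (fun k => c * ∫ x, η x * Lev (F k) x ξ) atTop (𝓝 0) :=
    squeeze_zero (fun k => mul_nonneg hc0.le (l3 k)) l4 l1
  have l6 := tendsto_nhds_unique l5 (l2.const_mul c)
  have : c * ∫ x, φ x * Lev η x ξ = 0 := l6.symm
  rcases mul_eq_zero.1 this with h9 | h9
  · exact absurd h9 hc0.ne'
  · exact h9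

end

end Crest.Agent.R264.K
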