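import Mathlib
import Crest.Agent.R264.KDefs

/-!
# Row 264, D6 (Lemma K), mollification module, part A (helper375)
Levi form and circle means for smooth functions.
-/

set_option autoImplicit false

open Set Function Filter Topology Metric Complex MeasureTheory
open scoped Real ContDiff

namespace Crest.Agent.R264.KM

open Crest.Agent.R264.K

open Crest.Agent.R264.Berg (Lev)

noncomputable section

variable {n : ℕ}

variable {f : (Fin n → ℂ) → ℝ}

theorem two_le_infty : (2 : WithTop ℕ∞) ≤ ∞ := WithTop.coe_le_coe.2 le_top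

/-- uniform second order Taylor estimate. -/
theorem taylor2 (hf : ContDiff ℝ ∞ f) (x : Fin n → ℂ) {ε : ℝ} (hε : 0 < ε) :
    ∃ δ > 0, ∀ v : Fin n → ℂ, ‖v‖ < δ →
      |f (x + v) - f x - fderiv ℝ f x v - fderiv ℝ (fderiv ℝ f) x v v / 2| ≤ ε * ‖v‖ ^ 2 := by
  have hf' : ContDiff ℝ ∞ (fderiv ℝ f) := hf.fderiv_right (m := ∞) (by simp)
  have hd' : HasFDerivAt (fderiv ℝ f) (fderiv ℝ (fderiv ℝ f) x) x :=
    (hf'.differentiable (by simp) x).hasFDerivAt
  have hsym : ∀ v w, fderiv ℝ (fderiv ℝ f) x v w = fderiv ℝ (fderiv ℝ f) x w v := by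
    intro v w
    have := (hf.contDiffAt (x := x)).isSymmSndFDerivAt (n := ∞) (by
      rw [minSmoothness_of_isRCLikeNormedField]; exact two_le_infty)
    exact this v w
  have h1 := hd'.isLittleO.def hε
  have h2 : ∀ᶠ y in 𝓝 x, ‖fderiv ℝ f y - fderiv ℝ f x - fderiv ℝ (fderiv ℝ f) x (y - x)‖
      ≤ ε * ‖y - x‖ := h1
  obtain ⟨δ, hδ, hb⟩ := Metric.eventually_nhds_iff_ball.1 h2
  refine ⟨δ, hδ, fun v hv => ?_⟩
  set g : (Fin n → ℂ) → ℝ := fun w => f (x + w) - f x - fderiv ℝ f x w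
    - fderiv ℝ (fderiv ℝ f) x w w / 2 with hg
  have hgd : ∀ w : Fin n → ℂ, HasFDerivAt g
      (fderiv ℝ f (x + w) - fderiv ℝ f x - fderiv ℝ (fderiv ℝ f) x w) w := by
    intro w
    have e1 : HasFDerivAt (fun w => f (x + w)) (fderiv ℝ f (x + w)) w := by
      have := (hf.differentiable (by simp) (x + w)).hasFDerivAt
      have h3 : HasFDerivAt (fun w => x + w) (ContinuousLinearMap.id ℝ (Fin n → ℂ)) w :=
        (hasFDerivAt_id w).const_add x
      have h4 := this.comp w h3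
      rw [ContinuousLinearMap.comp_id] at h4
      exact h4
    have e2 : HasFDerivAt (fun w => fderiv ℝ f x w) (fderiv ℝ f x) w :=
      (fderiv ℝ f x).hasFDerivAt
    have e3 : HasFDerivAt (fun w => fderiv ℝ (fderiv ℝ f) x w w)
        ((fderiv ℝ (fderiv ℝ f) x w) + (fderiv ℝ (fderiv ℝ f) x).flip w) w := by
      have a1 : HasFDerivAt (fun w => fderiv ℝ (fderiv ℝ f) x w) (fderiv ℝ (fderiv ℝ f) x) w :=
        (fderiv ℝ (fderiv ℝ f) x).hasFDerivAt
      have a2 := a1.clm_apply (hasFDerivAt_id w)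
      simpa using a2
    have e4 := ((e1.sub_const (f x)).sub e2).sub (e3.mul_const (1 / 2 : ℝ))
    have h5 : (1 / 2 : ℝ) • ((fderiv ℝ (fderiv ℝ f) x w) + (fderiv ℝ (fderiv ℝ f) x).flip w)
        = fderiv ℝ (fderiv ℝ f) x w := by
      ext u
      simp only [smul_apply, add_apply,
        ContinuousLinearMap.flip_apply, smul_eq_mul]
      rw [hsym u w]; ring
    rw [h5] at e4
    refine e4.congr_of_eventuallyEq (Eventually.of_forall fun w => ?_)
    simp only [hg, Pi.sub_apply]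
    ring
  have hmv := (convex_ball (0 : Fin n → ℂ) δ |>.inter
    (convex_closedBall (0 : Fin n → ℂ) ‖v‖)).norm_image_sub_le_of_norm_hasFDerivWithin_le
      (f := g) (f' := fun w => fderiv ℝ f (x + w) - fderiv ℝ f x - fderiv ℝ (fderiv ℝ f) x w)
      (C := ε * ‖v‖) (x := 0) (y := v)
      (fun w _ => (hgd w).hasFDerivWithinAt) (fun w hw => by
        have hw1 : ‖w‖ < δ := by simpa using hw.1
        have hw2 : ‖w‖ ≤ ‖v‖ := by simpa using hw.2
        have := hb (x + w) (by simpa [mem_ball, dist_eq_norm] using hw1)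
        simp only [add_sub_cancel_left] at this
        exact this.trans (mul_le_mul_of_nonneg_left hw2 hε.le))
      ⟨by simpa using hδ, by simp⟩ ⟨by simpa using hv, by simp⟩
  have hg0 : g 0 = 0 := by simp [hg]
  rw [hg0, sub_zero, sub_zero, Real.norm_eq_abs] at hmv
  calc |f (x + v) - f x - fderiv ℝ f x v - fderiv ℝ (fderiv ℝ f) x v v / 2| = |g v| := rfl
    _ ≤ ε * ‖v‖ * ‖v‖ := hmv
    _ = ε * ‖v‖ ^ 2 := by ring

/-- sums over the four rotations. -/
theorem four_sum (B : (Fin n → ℂ) →L[ℝ] (Fin n → ℂ) →L[ℝ] ℝ) (ξ : Fin n → ℂ) (ζ : ℂ) :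
    B (ζ • ξ) (ζ • ξ) + B (I • ζ • ξ) (I • ζ • ξ) = ‖ζ‖ ^ 2 * (B ξ ξ + B (I • ξ) (I • ξ)) := by
  have h1 : ζ • ξ = (ζ.re : ℝ) • ξ + (ζ.im : ℝ) • (I • ξ) := by
    ext i
    simp only [Pi.smul_apply, Pi.add_apply, smul_eq_mul, real_smul]
    conv_lhs => rw [← re_add_im ζ]
    ring
  have h2 : I • ζ • ξ = (-ζ.im : ℝ) • ξ + (ζ.re : ℝ) • (I • ξ) := by
    ext i
    simp only [Pi.smul_apply, Pi.add_apply, smul_eq_mul, real_smul]
    conv_lhs => rw [← re_add_im ζ]
    push_cast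
    linear_combination (ζ.im : ℂ) * ξ i * I_mul_I
  have h3 : ‖ζ‖ ^ 2 = ζ.re ^ 2 + ζ.im ^ 2 := by
    rw [← normSq_eq_norm_sq, normSq_apply]; ring
  rw [h2, h1, h3]
  simp only [map_add, map_smul, add_apply, smul_apply, smul_eq_mul]
  ring

/-- the Levi form of a smooth function with the sub-mean value property is nonnegative. -/
theorem lev_nonneg (hf : ContDiff ℝ ∞ f) (x ξ : Fin n → ℂ)
    (h : ∀ᶠ v in 𝓝 (0 : Fin n → ℂ),
      f x ≤ Real.circleAverage (fun ζ : ℂ => f (x + ζ • v)) 0 1) :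
    0 ≤ Lev f x ξ := by
  -- it is enough to bound from below by `-ε‖ξ‖²`
  have key : ∀ ε > 0, -(ε * ‖ξ‖ ^ 2) ≤ Lev f x ξ := by
    intro ε hε
    obtain ⟨δ, hδ, hT⟩ := taylor2 hf x hε
    obtain ⟨δ', hδ', hS⟩ := Metric.eventually_nhds_iff_ball.1 h
    -- choose the radius
    obtain ⟨r, hr0, hr1, hr2⟩ : ∃ r > 0, r * ‖ξ‖ < δ ∧ r * ‖ξ‖ < δ' := by
      refine ⟨min δ δ' / (‖ξ‖ + 1), by positivity, ?_, ?_⟩
      · rw [div_mul_eq_mul_div, div_lt_iff₀ (by positivity)]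
        nlinarith [min_le_left δ δ', lt_min hδ hδ', norm_nonneg ξ]
      · rw [div_mul_eq_mul_div, div_lt_iff₀ (by positivity)]
        nlinarith [min_le_right δ δ', lt_min hδ hδ', norm_nonneg ξ]
    set v : Fin n → ℂ := (r : ℂ) • ξ with hv
    have hvn : ‖v‖ = r * ‖ξ‖ := by
      rw [hv, norm_smul, norm_real, Real.norm_eq_abs, abs_of_pos hr0]
    have hcont : ∀ w : Fin n → ℂ, Continuous fun ζ : ℂ => f (x + ζ • w) := fun w =>
      hf.continuous.comp (by fun_prop)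
    have hint : ∀ w : Fin n → ℂ, CircleIntegrable (fun ζ : ℂ => f (x + ζ • w)) 0 1 := fun w =>
      (hcont w).continuousOn.circleIntegrable'
    have hs : ∀ w : Fin n → ℂ, ‖w‖ = ‖v‖ →
        f x ≤ Real.circleAverage (fun ζ : ℂ => f (x + ζ • w)) 0 1 := fun w hw =>
      hS w (by rw [mem_ball_zero_iff, hw, hvn]; exact hr2)
    have h1 := hs v rfl
    have h2 := hs (I • v) (by rw [norm_smul, norm_I, one_mul])
    have h3 := hs (-v) (by rw [norm_neg])
    have h4 := hs (-(I • v)) (by rw [norm_neg, norm_smul, norm_I, one_mul])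
    have hsum : 4 * f x ≤ Real.circleAverage (fun ζ : ℂ => (f (x + ζ • v) + f (x + ζ • (I • v)))
        + (f (x + ζ • (-v)) + f (x + ζ • (-(I • v))))) 0 1 := by
      have e1 := Real.circleAverage_fun_add (hint v) (hint (I • v))
      have e2 := Real.circleAverage_fun_add (hint (-v)) (hint (-(I • v)))
      have e3 := Real.circleAverage_fun_add (c := 0) (R := 1) (f₁ := fun ζ : ℂ => f (x + ζ • v) + f (x + ζ • (I • v)))
        (f₂ := fun ζ : ℂ => f (x + ζ • (-v)) + f (x + ζ • (-(I • v))))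
        (((hcont _).add (hcont _)).continuousOn.circleIntegrable')
        (((hcont _).add (hcont _)).continuousOn.circleIntegrable')
      rw [e3, e1, e2]
      linarith
    have hB := four_sum (fderiv ℝ (fderiv ℝ f) x) v
    have hbd : Real.circleAverage (fun ζ : ℂ => (f (x + ζ • v) + f (x + ζ • (I • v)))
        + (f (x + ζ • (-v)) + f (x + ζ • (-(I • v))))) 0 1 ≤
        4 * f x + r ^ 2 * (4 * Lev f x ξ) + 4 * (ε * (r * ‖ξ‖) ^ 2) := by
      refine Real.circleAverage_mono_on_of_le_circle (by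
        refine Continuous.continuousOn ?_ |>.circleIntegrable'
        exact ((hcont _).add (hcont _)).add ((hcont _).add (hcont _))) ?_
      intro ζ hζ
      have hζ1 : ‖ζ‖ = 1 := by simpa using hζ
      have hn : ∀ w : Fin n → ℂ, ‖w‖ = ‖v‖ → ‖ζ • w‖ < δ := fun w hw => by
        rw [norm_smul, hζ1, one_mul, hw, hvn]; exact hr1
      have t1 := (abs_le.1 (hT (ζ • v) (hn v rfl))).2
      have t2 := (abs_le.1 (hT (ζ • (I • v)) (hn _ (by rw [norm_smul, norm_I, one_mul])))).2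
      have t3 := (abs_le.1 (hT (ζ • (-v)) (hn _ (by rw [norm_neg])))).2
      have t4 := (abs_le.1 (hT (ζ • (-(I • v))) (hn _ (by
        rw [norm_neg, norm_smul, norm_I, one_mul])))).2
      have n1 : ‖ζ • v‖ = r * ‖ξ‖ := by rw [norm_smul, hζ1, one_mul, hvn]
      have n2 : ‖ζ • (I • v)‖ = r * ‖ξ‖ := by
        rw [norm_smul, hζ1, one_mul, norm_smul, norm_I, one_mul, hvn]
      simp only [smul_neg, norm_neg, map_neg, neg_apply, neg_neg, n1, n2] at t1 t2 t3 t4
      have hc : I • ζ • v = ζ • (I • v) := smul_comm _ _ _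
      have hB' := hB ζ
      rw [hζ1, hc] at hB'
      have hB2 := four_sum (fderiv ℝ (fderiv ℝ f) x) ξ (r : ℂ)
      rw [← hv, norm_real, Real.norm_eq_abs, abs_of_pos hr0] at hB2
      have hl : 4 * Lev f x ξ = fderiv ℝ (fderiv ℝ f) x ξ ξ
          + fderiv ℝ (fderiv ℝ f) x (I • ξ) (I • ξ) := by
        rw [Lev]; ring
      rw [hl]
      simp only [smul_neg]
      linarith
    have h5 := hsum.trans hbd
    have h6 : 0 ≤ r ^ 2 * (4 * (Lev f x ξ + ε * ‖ξ‖ ^ 2)) := by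
      have : r ^ 2 * (4 * (Lev f x ξ + ε * ‖ξ‖ ^ 2))
        = r ^ 2 * (4 * Lev f x ξ) + 4 * (ε * (r * ‖ξ‖) ^ 2) := by ring
      rw [this]; linarith
    have h7 : 0 ≤ 4 * (Lev f x ξ + ε * ‖ξ‖ ^ 2) := by
      by_contra hneg
      have := mul_neg_of_pos_of_neg (pow_pos hr0 2) (not_le.1 hneg)
      linarith
    linarith
  by_contra hneg
  push Not at hneg
  have := key (-Lev f x ξ / (2 * (‖ξ‖ ^ 2 + 1))) (div_pos (by linarith) (by positivity))
  have h8 : -Lev f x ξ / (2 * (‖ξ‖ ^ 2 + 1)) * ‖ξ‖ ^ 2 ≤ -Lev f x ξ / 2 := by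
    rw [div_mul_eq_mul_div, div_le_div_iff₀ (by positivity) (by norm_num)]
    nlinarith [sq_nonneg ‖ξ‖]
  linarith

/-- mean value equality for smooth functions with vanishing Levi form on a closed disc. -/
theorem mean_eq (hf : ContDiff ℝ ∞ f) {W : Set (Fin n → ℂ)} (hW : IsOpen W)
    (hl : ∀ x ∈ W, ∀ ξ, Lev f x ξ = 0) (x ξ : Fin n → ℂ)
    (hx : ∀ ζ : ℂ, ‖ζ‖ ≤ 1 → x + ζ • ξ ∈ W) :
    Real.circleAverage (fun ζ : ℂ => f (x + ζ • ξ)) 0 1 = f x := by
  set g : ℂ → ℝ := fun ζ => f (x + ζ • ξ) with hg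
  have hgs : ContDiff ℝ ∞ g := hf.comp (by fun_prop)
  set A : ℂ →L[ℝ] (Fin n → ℂ) :=
    ((ContinuousLinearMap.id ℂ ℂ).smulRight ξ).restrictScalars ℝ with hA
  have hA1 : ∀ ζ : ℂ, A ζ = ζ • ξ := fun ζ => by simp [hA]
  have hAd : ∀ ζ : ℂ, HasFDerivAt (fun ζ : ℂ => x + ζ • ξ) A ζ := by
    intro ζ
    have := A.hasFDerivAt (x := ζ) |>.const_add x
    exact this
  have hg1 : ∀ ζ, fderiv ℝ g ζ = (fderiv ℝ f (x + ζ • ξ)).comp A := by
    intro ζ
    exact ((hf.differentiable (by simp) _).hasFDerivAt.comp ζ (hAd ζ)).fderiv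
  have hf' : ContDiff ℝ ∞ (fderiv ℝ f) := hf.fderiv_right (m := ∞) (by simp)
  have hg2 : ∀ ζ a b, fderiv ℝ (fderiv ℝ g) ζ a b
      = fderiv ℝ (fderiv ℝ f) (x + ζ • ξ) (a • ξ) (b • ξ) := by
    intro ζ a b
    have e1 : HasFDerivAt (fun ζ : ℂ => fderiv ℝ f (x + ζ • ξ))
        ((fderiv ℝ (fderiv ℝ f) (x + ζ • ξ)).comp A) ζ :=
      (hf'.differentiable (by simp) _).hasFDerivAt.comp ζ (hAd ζ)
    have e2 : HasFDerivAt (fderiv ℝ g)
        (((ContinuousLinearMap.compL ℝ ℂ (Fin n → ℂ) ℝ).flip A).comp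
          ((fderiv ℝ (fderiv ℝ f) (x + ζ • ξ)).comp A)) ζ := by
      have e3 := ((ContinuousLinearMap.compL ℝ ℂ (Fin n → ℂ) ℝ).flip A).hasFDerivAt.comp ζ e1
      refine e3.congr_of_eventuallyEq (Eventually.of_forall fun z => ?_)
      rw [hg1]; rfl
    rw [e2.fderiv]
    simp [hA1]
  have hH : InnerProductSpace.HarmonicOnNhd g (closedBall (0 : ℂ) |1|) := by
    intro z hz
    refine ⟨(hgs.of_le two_le_infty).contDiffAt, ?_⟩
    have hz1 : x + z • ξ ∈ W := hx z (by simpa using hz)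
    have hev : ∀ᶠ w in 𝓝 z, x + w • ξ ∈ W := by
      have : Continuous fun w : ℂ => x + w • ξ := by fun_prop
      exact this.continuousAt.preimage_mem_nhds (hW.mem_nhds hz1)
    filter_upwards [hev] with w hw
    rw [InnerProductSpace.laplacian_eq_iteratedFDeriv_complexPlane]
    simp only [iteratedFDeriv_two_apply, Matrix.cons_val_zero, Matrix.cons_val_one, hg2, one_smul,
      Pi.zero_apply]
    have := hl _ hw ξ
    rw [Lev] at this
    linarith
  have := hH.circleAverage_eq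
  rw [this, hg]
  simp

end

end Crest.Agent.R264.KM
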