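import Mathlib
import Crest.Agent.R264.KMollA

/-!
# Row 264, D6 (Lemma K), mollification module, part B (helper375)
-/

set_option autoImplicit false

open Set Function Filter Topology Metric Complex MeasureTheory
open scoped Real ContDiff Convolution

namespace Crest.Agent.R264.KM

open Crest.Agent.R264.K

open Crest.Agent.R264.Berg (Lev)

noncomputable section

variable {n : ℕ}

/-- a continuous compactly supported function equal to `φ` on a given compact set. -/
theorem exists_cutoff {D : Set (Fin n → ℂ)} (hD : IsOpen D) {φ : (Fin n → ℂ) → ℝ}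
    (hφ : ContinuousOn φ D) {K : Set (Fin n → ℂ)} (hK : IsCompact K) (hKD : K ⊆ D) :
    ∃ g : (Fin n → ℂ) → ℝ, Continuous g ∧ HasCompactSupport g ∧ ∀ x ∈ K, g x = φ x := by
  obtain ⟨f, hf1, hfc, hfD, -⟩ := exists_continuousMap_one_of_isCompact_subset_isOpen hK hD hKD
  refine ⟨fun x => f x * φ x, ?_, ?_, fun x hx => by simp [hf1 hx]⟩
  · rw [continuous_iff_continuousAt]
    intro x
    by_cases hx : x ∈ D
    · exact f.continuous.continuousAt.mul (hφ.continuousAt (hD.mem_nhds hx))
    · have : x ∉ tsupport f := fun h => hx (hfD h)
      have h2 : (fun x => f x * φ x) =ᶠ[𝓝 x] fun _ => 0 := by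
        filter_upwards [notMem_tsupport_iff_eventuallyEq.1 this] with y hy
        simp [hy]
      exact continuousAt_const.congr h2.symm
  · exact HasCompactSupport.mul_right (f := f) hfc

/-- the mollification of `g` by the bump function `b`. -/
def moll (b : ContDiffBump (0 : Fin n → ℂ)) (g : (Fin n → ℂ) → ℝ) (x : Fin n → ℂ) : ℝ :=
  ∫ t, b.normed volume t * g (x - t)

theorem moll_eq (b : ContDiffBump (0 : Fin n → ℂ)) (g : (Fin n → ℂ) → ℝ) :
    moll b g = ((b.normed volume) ⋆[ContinuousLinearMap.lsmul ℝ ℝ, volume] g) := by
  ext x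
  simp [moll, convolution_def]

theorem contDiff_moll (b : ContDiffBump (0 : Fin n → ℂ)) {g : (Fin n → ℂ) → ℝ}
    (hg : Continuous g) : ContDiff ℝ ∞ (moll b g) := by
  rw [moll_eq]
  exact b.hasCompactSupport_normed.contDiff_convolution_left _ b.contDiff_normed
    hg.locallyIntegrable

theorem abs_moll_sub_le (b : ContDiffBump (0 : Fin n → ℂ)) {g : (Fin n → ℂ) → ℝ}
    (hg : Continuous g) {x : Fin n → ℂ} {ε : ℝ} (h : ∀ y ∈ ball x b.rOut, |g y - g x| ≤ ε) :
    |moll b g x - g x| ≤ ε := by
  have := b.dist_normed_convolution_le (μ := volume) (g := g) (x₀ := x) (ε := ε)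
    hg.aestronglyMeasurable (by simpa [Real.dist_eq] using h)
  rw [← moll_eq, Real.dist_eq] at this
  exact this

/-- sub-mean value inequality for the mollification. -/
theorem moll_submean (b : ContDiffBump (0 : Fin n → ℂ)) {g : (Fin n → ℂ) → ℝ}
    (hg : Continuous g) (hgc : HasCompactSupport g) (x v : Fin n → ℂ)
    (h : ∀ t ∈ ball (0 : Fin n → ℂ) b.rOut,
      g (x - t) ≤ Real.circleAverage (fun ζ : ℂ => g (x - t + ζ • v)) 0 1) :
    moll b g x ≤ Real.circleAverage (fun ζ : ℂ => moll b g (x + ζ • v)) 0 1 := by
  obtain ⟨C, hC⟩ := hgc.exists_bound_of_continuous hg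
  have hρc : Continuous (b.normed volume) := b.continuous_normed
  have hρi : Integrable (b.normed volume) :=
    hρc.integrable_of_hasCompactSupport b.hasCompactSupport_normed
  have hswap : Real.circleAverage (fun ζ : ℂ => moll b g (x + ζ • v)) 0 1
      = ∫ t, b.normed volume t * Real.circleAverage (fun ζ : ℂ => g (x - t + ζ • v)) 0 1 := by
    simp only [Real.circleAverage, moll]
    rw [intervalIntegral_integral_swap]
    · rw [← integral_smul]
      refine integral_congr_ae (Eventually.of_forall fun t => ?_)
      simp only [smul_eq_mul]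
      rw [intervalIntegral.integral_const_mul]
      have : ∀ θ : ℝ, x + circleMap 0 1 θ • v - t = x - t + circleMap 0 1 θ • v := fun θ => by
        abel
      simp only [this]
      ring
    · have : IsFiniteMeasure ((volume : Measure ℝ).restrict (Set.uIoc 0 (2 * π))) := by
        rw [uIoc_of_le (by positivity)]; infer_instance
      refine Integrable.mono' ((hρi.const_mul C).comp_snd (volume.restrict (Set.uIoc 0 (2 * π))))
        ?_ (Eventually.of_forall fun p => ?_)
      · refine Continuous.aestronglyMeasurable ?_
        have : Continuous fun p : ℝ × (Fin n → ℂ) => circleMap 0 1 p.1 :=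
          (continuous_circleMap 0 1).comp continuous_fst
        simp only [Function.uncurry_def]
        exact (hρc.comp continuous_snd).mul (hg.comp (by fun_prop))
      · simp only [Function.uncurry_def, norm_mul, Real.norm_eq_abs]
        rw [abs_of_nonneg (b.nonneg_normed _), mul_comm]
        exact mul_le_mul_of_nonneg_right (hC _) (b.nonneg_normed _)
  rw [hswap, moll]
  have hb : ∀ t, |Real.circleAverage (fun ζ : ℂ => g (x - t + ζ • v)) 0 1| ≤ C := by
    intro t
    refine (Real.abs_circleAverage_le_circleAverage_abs).trans ?_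
    refine Real.circleAverage_mono_on_of_le_circle ?_ fun ζ _ => hC _
    refine (Continuous.continuousOn ?_).circleIntegrable'
    exact (hg.comp (by fun_prop)).abs
  refine integral_mono_ae ?_ ?_ (Eventually.of_forall fun t => ?_)
  · refine Continuous.integrable_of_hasCompactSupport (hρc.mul (hg.comp (by fun_prop))) ?_
    exact b.hasCompactSupport_normed.mul_right
  · refine Integrable.mono' (hρi.const_mul C) ?_ (Eventually.of_forall fun t => ?_)
    · refine hρc.aestronglyMeasurable.mul ?_
      refine Continuous.aestronglyMeasurable ?_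
      simp only [Real.circleAverage, smul_eq_mul]
      refine continuous_const.mul ?_
      refine intervalIntegral.continuous_parametric_intervalIntegral_of_continuous' ?_ _ _
      have : Continuous fun p : (Fin n → ℂ) × ℝ => circleMap 0 1 p.2 :=
        (continuous_circleMap 0 1).comp continuous_snd
      simp only [Function.uncurry_def]
      exact hg.comp (by fun_prop)
    · rw [norm_mul, Real.norm_eq_abs, Real.norm_eq_abs, abs_of_nonneg (b.nonneg_normed _),
        mul_comm]
      exact mul_le_mul_of_nonneg_right (hb t) (b.nonneg_normed _)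
  · by_cases ht : t ∈ ball (0 : Fin n → ℂ) b.rOut
    · exact mul_le_mul_of_nonneg_left (h t ht) (b.nonneg_normed _)
    · have : b.normed volume t = 0 := by
        rw [← notMem_support, b.support_normed_eq]; exact ht
      simp [this]

end

end Crest.Agent.R264.KM
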