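import Mathlib
import Crest.Agent.R264.KMollB

/-!
# Row 264, D6 (Lemma K), mollification module (helper375): main statements
-/

set_option autoImplicit false

open Set Function Filter Topology Metric Complex MeasureTheory
open scoped Real ContDiff Convolution

namespace Crest.Agent.R264.KM

open Crest.Agent.R264.K

open Crest.Agent.R264.Berg (Lev)

noncomputable section

variable {n : ℕ}

/-- directional derivative of a convolution. -/
theorem fderiv_conv {ρ g : (Fin n → ℂ) → ℝ} (hρ : ContDiff ℝ ∞ ρ) (hρc : HasCompactSupport ρ)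
    (hg : Continuous g) (x ξ : Fin n → ℂ) :
    fderiv ℝ (fun x => ∫ t, ρ t * g (x - t)) x ξ = ∫ t, fderiv ℝ ρ t ξ * g (x - t) := by
  have h1 : (fun x => ∫ t, ρ t * g (x - t))
      = (ρ ⋆[ContinuousLinearMap.lsmul ℝ ℝ, volume] g) := by
    ext x; simp [convolution_def]
  have hρ1 : ContDiff ℝ 1 ρ := hρ.of_le (by exact WithTop.coe_le_coe.2 le_top)
  rw [h1, (hρc.hasFDerivAt_convolution_left (ContinuousLinearMap.lsmul ℝ ℝ) hρ1
    hg.locallyIntegrable x).fderiv, convolution_def, ContinuousLinearMap.integral_apply]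
  · refine integral_congr_ae (Eventually.of_forall fun t => ?_)
    simp
  · have := (hρc.fderiv (𝕜 := ℝ)).convolutionExists_left
      ((ContinuousLinearMap.lsmul ℝ ℝ : ℝ →L[ℝ] ℝ →L[ℝ] ℝ).precompL (Fin n → ℂ))
      (μ := (volume : Measure (Fin n → ℂ))) (hρ1.continuous_fderiv (by simp))
      hg.locallyIntegrable x
    exact this

/-- Levi form of a convolution. -/
theorem Lev_conv {ρ g : (Fin n → ℂ) → ℝ} (hρ : ContDiff ℝ ∞ ρ) (hρc : HasCompactSupport ρ)
    (hg : Continuous g) (x ξ : Fin n → ℂ) :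
    Lev (fun x => ∫ t, ρ t * g (x - t)) x ξ = ∫ t, Lev ρ t ξ * g (x - t) := by
  set F : (Fin n → ℂ) → ℝ := fun x => ∫ t, ρ t * g (x - t) with hF
  have hFs : ContDiff ℝ ∞ F := by
    have h1 : F = (ρ ⋆[ContinuousLinearMap.lsmul ℝ ℝ, volume] g) := by
      ext x; simp [hF, convolution_def]
    rw [h1]
    exact hρc.contDiff_convolution_left _ hρ hg.locallyIntegrable
  have hF' : ContDiff ℝ ∞ (fderiv ℝ F) := hFs.fderiv_right (m := ∞) (by simp)
  have hρ' : ContDiff ℝ ∞ (fderiv ℝ ρ) := hρ.fderiv_right (m := ∞) (by simp)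
  have h2 : ∀ v, fderiv ℝ (fderiv ℝ F) x v v = ∫ t, fderiv ℝ (fderiv ℝ ρ) t v v * g (x - t) := by
    intro v
    have e1 : ∀ (G : (Fin n → ℂ) → ℝ), ContDiff ℝ ∞ (fderiv ℝ G) → ∀ y,
        fderiv ℝ (fderiv ℝ G) y v v = fderiv ℝ (fun y => fderiv ℝ G y v) y v := by
      intro G hG y
      rw [fderiv_clm_apply (hG.differentiable (by simp) y) (differentiableAt_const v)]
      simp
    rw [e1 F hF']
    have e2 : (fun y => fderiv ℝ F y v) = fun y => ∫ t, fderiv ℝ ρ t v * g (y - t) := by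
      ext y; exact fderiv_conv hρ hρc hg y v
    rw [e2, fderiv_conv (ρ := fun t => fderiv ℝ ρ t v) (hρ'.clm_apply contDiff_const)
      (hρc.fderiv_apply (𝕜 := ℝ) v) hg x v]
    refine integral_congr_ae (Eventually.of_forall fun t => ?_)
    simp only
    rw [e1 ρ hρ']
  have hint : ∀ v, Integrable fun t => fderiv ℝ (fderiv ℝ ρ) t v v * g (x - t) := by
    intro v
    have hc : Continuous fun t => fderiv ℝ (fderiv ℝ ρ) t v v := by
      have h3 : Continuous (fderiv ℝ (fderiv ℝ ρ)) :=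
        (hρ'.fderiv_right (m := ∞) (by simp)).continuous
      exact (h3.clm_apply continuous_const).clm_apply continuous_const
    refine Continuous.integrable_of_hasCompactSupport (hc.mul (hg.comp (by fun_prop))) ?_
    refine HasCompactSupport.mul_right ?_
    have := (hρc.fderiv (𝕜 := ℝ)).fderiv_apply (𝕜 := ℝ) v
    exact this.comp_left (g := fun A : (Fin n → ℂ) →L[ℝ] ℝ => A v) (by simp)
  rw [Lev, h2, h2, ← integral_add (hint _) (hint _), ← integral_const_mul]
  refine integral_congr_ae (Eventually.of_forall fun t => ?_)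
  simp only [Lev]
  ring

theorem Lev_moll (b : ContDiffBump (0 : Fin n → ℂ)) {g : (Fin n → ℂ) → ℝ}
    (hg : Continuous g) (x ξ : Fin n → ℂ) :
    Lev (moll b g) x ξ = ∫ t, Lev (b.normed volume) t ξ * g (x - t) :=
  Lev_conv b.contDiff_normed b.hasCompactSupport_normed hg x ξ

theorem hasFDerivAt_reflect {F : Type*} [NormedAddCommGroup F] [NormedSpace ℝ F]
    {G : (Fin n → ℂ) → F} (hG : Differentiable ℝ G) (x s : Fin n → ℂ) :
    HasFDerivAt (fun s => G (x - s)) (-fderiv ℝ G (x - s)) s := by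
  have h1 : HasFDerivAt (fun s : Fin n → ℂ => x - s) (-ContinuousLinearMap.id ℝ (Fin n → ℂ)) s :=
    (hasFDerivAt_id s).const_sub x
  have h2 := (hG (x - s)).hasFDerivAt.comp s h1
  rw [ContinuousLinearMap.comp_neg, ContinuousLinearMap.comp_id] at h2
  exact h2

/-- Levi form of `ρ(x - ·)`. -/
theorem Lev_reflect {ρ : (Fin n → ℂ) → ℝ} (hρ : ContDiff ℝ ∞ ρ) (x s ξ : Fin n → ℂ) :
    Lev (fun s => ρ (x - s)) s ξ = Lev ρ (x - s) ξ := by
  have hρ' : ContDiff ℝ ∞ (fderiv ℝ ρ) := hρ.fderiv_right (m := ∞) (by simp)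
  have h1 : fderiv ℝ (fun s => ρ (x - s)) = fun s => -fderiv ℝ ρ (x - s) := by
    ext1 s
    exact (hasFDerivAt_reflect (hρ.differentiable (by simp)) x s).fderiv
  have h2 : fderiv ℝ (fderiv ℝ (fun s => ρ (x - s))) s = fderiv ℝ (fderiv ℝ ρ) (x - s) := by
    rw [h1]
    have := (hasFDerivAt_reflect (hρ'.differentiable (by simp)) x s).neg
    rw [neg_neg] at this
    exact this.fderiv
  rw [Lev, Lev, h2]

/-- the Levi form vanishes off the support. -/
theorem Lev_eq_zero {η : (Fin n → ℂ) → ℝ} {x : Fin n → ℂ} (hx : x ∉ tsupport η)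
    (ξ : Fin n → ℂ) : Lev η x ξ = 0 := by
  have h0 : η =ᶠ[𝓝 x] fun _ => 0 := notMem_tsupport_iff_eventuallyEq.1 hx
  have h1 : fderiv ℝ η =ᶠ[𝓝 x] 0 := by
    have := h0.fderiv (𝕜 := ℝ)
    simpa using this
  rw [Lev, h1.fderiv_eq]
  simp

/-- **(M2)** Weyl's lemma for the Levi form. -/
theorem circle_eq_of_test {D : Set (Fin n → ℂ)} (hD : IsOpen D) {φ : (Fin n → ℂ) → ℝ}
    (hφ : ContinuousOn φ D)
    (h : ∀ η : (Fin n → ℂ) → ℝ, ContDiff ℝ ∞ η → HasCompactSupport η → tsupport η ⊆ D →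
      (∀ x, 0 ≤ η x) → ∀ ξ, ∫ x, φ x * Lev η x ξ = 0) :
    Plh D φ := by
  intro x ξ hx
  set Q : Set (Fin n → ℂ) := (fun ζ : ℂ => x + ζ • ξ) '' closedBall 0 1 with hQ
  have hQc : IsCompact Q := (isCompact_closedBall 0 1).image (by fun_prop)
  have hQD : Q ⊆ D := by
    rintro _ ⟨ζ, hζ, rfl⟩
    exact hx ζ (by simpa using hζ)
  obtain ⟨δ, hδ, hδD⟩ := hQc.exists_cthickening_subset_open hD hQD
  have hK1 : IsCompact (cthickening δ Q) := hQc.cthickening
  obtain ⟨g, hg, hgc, hgφ⟩ := exists_cutoff hD hφ hK1 hδD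
  have hQK : Q ⊆ cthickening δ Q := self_subset_cthickening Q
  have hgu : UniformContinuous g := hgc.uniformContinuous_of_continuous hg
  -- the mollified functions have vanishing Levi form near the disc
  have hlev : ∀ b : ContDiffBump (0 : Fin n → ℂ), b.rOut ≤ δ / 2 →
      ∀ y ∈ thickening (δ / 2) Q, ∀ ξ, Lev (moll b g) y ξ = 0 := by
    intro b hb y hy ξ
    rw [Lev_moll b hg]
    have hρ : ContDiff ℝ ∞ (b.normed volume : (Fin n → ℂ) → ℝ) := b.contDiff_normed
    set η : (Fin n → ℂ) → ℝ := fun s => b.normed volume (y - s) with hη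
    have hηs : tsupport η ⊆ closedBall y (δ / 2) := by
      refine closure_minimal (fun s hs => ?_) isClosed_closedBall
      have : y - s ∈ support (b.normed volume) := hs
      rw [b.support_normed_eq, mem_ball_zero_iff] at this
      rw [mem_closedBall, dist_comm, dist_eq_norm]
      exact (this.le.trans hb)
    have hηK : tsupport η ⊆ cthickening δ Q := by
      intro s hs
      obtain ⟨q, hq, hqy⟩ := mem_thickening_iff.1 hy
      have h1 := mem_closedBall.1 (hηs hs)
      refine mem_cthickening_of_dist_le s q δ Q hq ?_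
      have := dist_triangle s y q
      linarith
    have h2 := h η (hρ.comp (contDiff_const.sub contDiff_id))
      ((isCompact_closedBall y (δ / 2)).of_isClosed_subset (isClosed_tsupport _) hηs)
      (hηK.trans hδD) (fun s => b.nonneg_normed _) ξ
    rw [← integral_sub_left_eq_self _ volume y, ← h2]
    refine integral_congr_ae (Eventually.of_forall fun s => ?_)
    simp only [sub_sub_cancel]
    rw [hη, Lev_reflect hρ]
    by_cases hs : s ∈ tsupport η
    · rw [hgφ s (hηK hs), mul_comm]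
    · have := Lev_eq_zero hs ξ
      rw [hη, Lev_reflect hρ] at this
      rw [this]; simp
  have hmean : ∀ b : ContDiffBump (0 : Fin n → ℂ), b.rOut ≤ δ / 2 →
      Real.circleAverage (fun ζ : ℂ => moll b g (x + ζ • ξ)) 0 1 = moll b g x := by
    intro b hb
    refine mean_eq (contDiff_moll b hg) isOpen_thickening (hlev b hb) x ξ ?_
    intro ζ hζ
    exact self_subset_thickening (by positivity) Q ⟨ζ, by simpa using hζ, rfl⟩
  have hgint : ∀ f : (Fin n → ℂ) → ℝ, Continuous f →
      CircleIntegrable (fun ζ : ℂ => f (x + ζ • ξ)) 0 1 := fun f hf =>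
    (hf.comp (by fun_prop)).continuousOn.circleIntegrable'
  have hfin : Real.circleAverage (fun ζ : ℂ => g (x + ζ • ξ)) 0 1 = g x := by
    by_contra hne
    set e : ℝ := |Real.circleAverage (fun ζ : ℂ => g (x + ζ • ξ)) 0 1 - g x| with he
    have hepos : 0 < e := abs_pos.2 (sub_ne_zero.2 hne)
    obtain ⟨d, hd, hgd⟩ := Metric.uniformContinuous_iff.1 hgu (e / 4) (by positivity)
    set r : ℝ := min (δ / 2) d with hr
    have hrpos : 0 < r := lt_min (by positivity) hd
    set b : ContDiffBump (0 : Fin n → ℂ) := ⟨r / 2, r, by positivity, by linarith⟩ with hbdef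
    have hbr : b.rOut = r := rfl
    have hb1 : b.rOut ≤ δ / 2 := by rw [hbr]; exact min_le_left _ _
    have happ : ∀ y, |moll b g y - g y| ≤ e / 4 := by
      intro y
      refine abs_moll_sub_le b hg fun z hz => ?_
      have := hgd (a := z) (b := y) (lt_of_lt_of_le (mem_ball.1 hz) (by
        rw [hbr]; exact min_le_right _ _))
      rw [Real.dist_eq] at this
      exact this.le
    have h1 : |Real.circleAverage (fun ζ : ℂ => g (x + ζ • ξ)) 0 1
        - Real.circleAverage (fun ζ : ℂ => moll b g (x + ζ • ξ)) 0 1| ≤ e / 4 := by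
      rw [← Real.circleAverage_fun_sub (hgint g hg)
        (hgint _ (contDiff_moll b hg).continuous)]
      refine Real.abs_circleAverage_le_circleAverage_abs.trans ?_
      refine Real.circleAverage_mono_on_of_le_circle ?_ fun ζ _ => ?_
      · exact (Continuous.continuousOn (by
          have c1 : Continuous fun ζ : ℂ => g (x + ζ • ξ) := hg.comp (by fun_prop)
          have c2 : Continuous fun ζ : ℂ => moll b g (x + ζ • ξ) :=
            (contDiff_moll b hg).continuous.comp (by fun_prop)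
          exact (c1.sub c2).abs)).circleIntegrable'
      · show |g (x + ζ • ξ) - moll b g (x + ζ • ξ)| ≤ e / 4
        rw [abs_sub_comm]
        exact happ _
    rw [hmean b hb1] at h1
    have h2 := happ x
    have h3 : e ≤ e / 4 + e / 4 := by
      calc e = |(Real.circleAverage (fun ζ : ℂ => g (x + ζ • ξ)) 0 1 - moll b g x)
            + (moll b g x - g x)| := by rw [he]; congr 1; ring
        _ ≤ _ := (abs_add_le _ _).trans (add_le_add h1 h2)
    linarith
  have hx0 : x ∈ Q := ⟨0, by simp, by simp⟩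
  rw [← hgφ x (hQK hx0), ← hfin]
  refine Real.circleAverage_congr_sphere fun ζ hζ => ?_
  have : x + ζ • ξ ∈ Q := ⟨ζ, by
    have : ‖ζ‖ = 1 := by simpa using hζ
    simp [this], rfl⟩
  exact hgφ _ (hQK this)

/-- **(M1)** smooth psh approximation. -/
theorem exists_moll {D : Set (Fin n → ℂ)} (hD : IsOpen D) {φ : (Fin n → ℂ) → ℝ}
    (hφ : ContinuousOn φ D) (hpsh : Psh D φ) {K : Set (Fin n → ℂ)} (hK : IsCompact K)
    (hKD : K ⊆ D) :
    ∃ F : ℕ → (Fin n → ℂ) → ℝ, (∀ k, ContDiff ℝ ∞ (F k)) ∧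
      (∀ k, ∀ x ∈ K, ∀ ξ, 0 ≤ Lev (F k) x ξ) ∧ TendstoUniformlyOn F φ atTop K := by
  obtain ⟨δ, hδ, hδD⟩ := hK.exists_cthickening_subset_open hD hKD
  have hK1 : IsCompact (cthickening δ K) := hK.cthickening
  obtain ⟨g, hg, hgc, hgφ⟩ := exists_cutoff hD hφ hK1 hδD
  have hKK : K ⊆ cthickening δ K := self_subset_cthickening K
  have hgu : UniformContinuous g := hgc.uniformContinuous_of_continuous hg
  set r : ℕ → ℝ := fun k => δ / (k + 2) with hr
  have hrpos : ∀ k, 0 < r k := fun k => by positivity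
  have hrle : ∀ k, r k ≤ δ / 2 := fun k => by
    rw [hr]
    exact div_le_div_of_nonneg_left hδ.le (by norm_num) (by linarith [Nat.cast_nonneg (α := ℝ) k])
  have hrlim : Tendsto r atTop (𝓝 0) := by
    have : Tendsto (fun k : ℕ => (k : ℝ) + 2) atTop atTop :=
      tendsto_atTop_add_const_right _ _ tendsto_natCast_atTop_atTop
    exact tendsto_const_nhds.div_atTop this
  set b : ℕ → ContDiffBump (0 : Fin n → ℂ) := fun k =>
    ⟨r k / 2, r k, half_pos (hrpos k), half_lt_self (hrpos k)⟩ with hb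
  refine ⟨fun k => moll (b k) g, fun k => contDiff_moll _ hg, fun k x hx ξ => ?_, ?_⟩
  · refine lev_nonneg (contDiff_moll _ hg) x ξ ?_
    filter_upwards [ball_mem_nhds (0 : Fin n → ℂ) (half_pos hδ)] with v hv
    rw [mem_ball_zero_iff] at hv
    refine moll_submean (b k) hg hgc x v fun t ht => ?_
    rw [mem_ball_zero_iff] at ht
    have ht' : ‖t‖ < δ / 2 := lt_of_lt_of_le ht (hrle k)
    have hmem : ∀ ζ : ℂ, ‖ζ‖ ≤ 1 → x - t + ζ • v ∈ cthickening δ K := by
      intro ζ hζ
      refine mem_cthickening_of_dist_le _ x δ K hx ?_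
      rw [dist_eq_norm]
      have h1 : x - t + ζ • v - x = ζ • v - t := by abel
      rw [h1]
      have h2 : ‖ζ • v‖ ≤ δ / 2 := by
        rw [norm_smul]
        exact (mul_le_of_le_one_left (norm_nonneg _) hζ).trans hv.le
      have := norm_sub_le (ζ • v) t
      linarith
    have h3 := hpsh (x - t) v fun ζ hζ => hδD (hmem ζ hζ)
    have h4 : x - t ∈ cthickening δ K := by simpa using hmem 0 (by simp)
    rw [hgφ _ h4]
    refine h3.trans (le_of_eq ?_)
    refine Real.circleAverage_congr_sphere fun ζ hζ => ?_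
    have : ‖ζ‖ = 1 := by simpa using hζ
    exact (hgφ _ (hmem ζ this.le)).symm
  · rw [Metric.tendstoUniformlyOn_iff]
    intro ε hε
    obtain ⟨d, hd, hgd⟩ := Metric.uniformContinuous_iff.1 hgu (ε / 2) (by positivity)
    filter_upwards [hrlim.eventually (gt_mem_nhds hd)] with k hk x hx
    rw [← hgφ x (hKK hx), dist_comm, Real.dist_eq]
    have : |moll (b k) g x - g x| ≤ ε / 2 := by
      refine abs_moll_sub_le (b k) hg fun z hz => ?_
      have h5 : dist z x < d := lt_trans (mem_ball.1 hz) hk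
      have := hgd (a := z) (b := x) h5
      rw [Real.dist_eq] at this
      exact this.le
    linarith

end

end Crest.Agent.R264.KM

namespace Crest.Agent.R264.K

open Crest.Agent.R264.Berg (Lev)

variable {n : ℕ}

/-- **(M1)** -/
theorem exists_moll {D : Set (Fin n → ℂ)} (hD : IsOpen D) {φ : (Fin n → ℂ) → ℝ}
    (hφ : ContinuousOn φ D) (hpsh : Psh D φ) {K : Set (Fin n → ℂ)} (hK : IsCompact K)
    (hKD : K ⊆ D) :
    ∃ F : ℕ → (Fin n → ℂ) → ℝ, (∀ k, ContDiff ℝ ∞ (F k)) ∧
      (∀ k, ∀ x ∈ K, ∀ ξ, 0 ≤ Lev (F k) x ξ) ∧ TendstoUniformlyOn F φ atTop K :=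
  KM.exists_moll hD hφ hpsh hK hKD

/-- **(M2)** -/
theorem circle_eq_of_test {D : Set (Fin n → ℂ)} (hD : IsOpen D) {φ : (Fin n → ℂ) → ℝ}
    (hφ : ContinuousOn φ D)
    (h : ∀ η : (Fin n → ℂ) → ℝ, ContDiff ℝ ∞ η → HasCompactSupport η → tsupport η ⊆ D →
      (∀ x, 0 ≤ η x) → ∀ ξ, ∫ x, φ x * Lev η x ξ = 0) :
    Plh D φ :=
  KM.circle_eq_of_test hD hφ h

end Crest.Agent.R264.K
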