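import Mathlib
import Crest.Agent.R264.KMoll
import Crest.Agent.R264.KAsm

/-! Row 264, node D6: the mollification statements in the shape of `KAsm` (helper375). -/

set_option autoImplicit false

open Set Filter Topology MeasureTheory
open scoped ContDiff

namespace Crest.Agent.R264.K

theorem mollStmt (n : ℕ) : MollStmt n := fun _ _ hD hφ hp _ hKD hK =>
  KM.exists_moll hD hφ hp hK hKD

theorem circStmt (n : ℕ) : CircStmt n := fun _ _ hD hφ h => KM.circle_eq_of_test hD hφ h

theorem lemmaK_of_van' {n : ℕ} (hV : VanStmt n) : LemmaK n :=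
  lemmaK_of (mollStmt n) (circStmt n) hV

end Crest.Agent.R264.K
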