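import Crest.Agent.R264.KOp
import Crest.Agent.R264.BergCov
import Crest.Agent.R266.Osgood

/-! Row 264, node D6 (Lemma K), part (U): the `Γ`-part (helper587). -/

set_option autoImplicit false

open Set Filter Topology MeasureTheory
open scoped ContDiff

namespace Crest.Agent.R264.K

noncomputable section

variable {n : ℕ}

/-- pull back of a function by an automorphism of `D`, extended by zero -/
def pull (D : Set (Fin n → ℂ)) (f : (Fin n → ℂ) → (Fin n → ℂ)) (h : (Fin n → ℂ) → ℝ) :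
    (Fin n → ℂ) → ℝ :=
  D.indicator (fun x => h (f x))

lemma pull_mem {D : Set (Fin n → ℂ)} {f : (Fin n → ℂ) → (Fin n → ℂ)} {h : (Fin n → ℂ) → ℝ}
    {x : Fin n → ℂ} (hx : x ∈ D) : pull D f h x = h (f x) := indicator_of_mem hx _

lemma pull_not_mem {D : Set (Fin n → ℂ)} {f : (Fin n → ℂ) → (Fin n → ℂ)} {h : (Fin n → ℂ) → ℝ}
    {x : Fin n → ℂ} (hx : x ∉ D) : pull D f h x = 0 := indicator_of_notMem hx _

lemma contDiffAt_of_hol {D : Set (Fin n → ℂ)} (hD : IsOpen D)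
    {f : (Fin n → ℂ) → (Fin n → ℂ)} (hf : DifferentiableOn ℂ f D) {x : Fin n → ℂ} (hx : x ∈ D) :
    ContDiffAt ℝ ∞ f x :=
  (((R266.SCV.contDiffOn_omega_of_differentiableOn hD hf).of_le
    (by simp)).restrict_scalars ℝ).contDiffAt (hD.mem_nhds hx)

lemma Test.eq_zero {D : Set (Fin n → ℂ)} {h : (Fin n → ℂ) → ℝ} (hh : Test D h)
    {x : Fin n → ℂ} (hx : x ∉ D) : h x = 0 :=
  image_eq_zero_of_notMem_tsupport (fun h1 => hx (hh.2.2 h1))

/-- pull backs of test functions are test functions -/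
theorem Test.pull {D : Set (Fin n → ℂ)} (hD : IsOpen D) {f g : (Fin n → ℂ) → (Fin n → ℂ)}
    (H : AutPair D f g) {h : (Fin n → ℂ) → ℝ} (hh : Test D h) : Test D (pull D f h) := by
  have hKc : IsCompact (g '' tsupport h) :=
    (hh.2.1 : IsCompact (tsupport h)).image_of_continuousOn (H.hG.continuousOn.mono hh.2.2)
  have hKD : g '' tsupport h ⊆ D := by
    rintro _ ⟨x, hx, rfl⟩
    exact H.mapsG (hh.2.2 hx)
  have hsub : Function.support (K.pull D f h) ⊆ g '' tsupport h := by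
    intro x hx
    have hxD : x ∈ D := by
      by_contra h1
      exact hx (pull_not_mem h1)
    rw [Function.mem_support, pull_mem hxD] at hx
    exact ⟨f x, subset_tsupport _ hx, H.left x hxD⟩
  have hts : tsupport (K.pull D f h) ⊆ g '' tsupport h :=
    closure_minimal hsub hKc.isClosed
  refine ⟨?_, hKc.of_isClosed_subset (isClosed_tsupport _) hts, hts.trans hKD⟩
  rw [contDiff_iff_contDiffAt]
  intro x
  by_cases hx : x ∈ D
  · have h1 : ContDiffAt ℝ ∞ (fun y => h (f y)) x :=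
      hh.1.contDiffAt.comp x (contDiffAt_of_hol hD H.hF hx)
    refine h1.congr_of_eventuallyEq ?_
    filter_upwards [hD.mem_nhds hx] with y hy
    exact pull_mem hy
  · have h1 : K.pull D f h =ᶠ[𝓝 x] fun _ => (0 : ℝ) := by
      have h2 : x ∉ tsupport (K.pull D f h) := fun h3 => hx (hKD (hts h3))
      exact notMem_tsupport_iff_eventuallyEq.1 h2
    exact contDiffAt_const.congr_of_eventuallyEq h1

/-- change of variables by an automorphism -/
theorem integral_aut {D : Set (Fin n → ℂ)} (hD : IsOpen D) {f g : (Fin n → ℂ) → (Fin n → ℂ)}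
    (H : AutPair D f g) (F : (Fin n → ℂ) → ℝ) :
    ∫ x in D, ‖(fderiv ℂ f x).det‖ ^ 2 * F (f x) = ∫ x in D, F x := by
  have himg : f '' D = D := by
    apply Subset.antisymm
    · rintro _ ⟨x, hx, rfl⟩
      exact H.mapsF hx
    · intro x hx
      exact ⟨g x, H.mapsG hx, H.right x hx⟩
  have hinj : InjOn f D := by
    intro x hx y hy hxy
    rw [← H.left x hx, ← H.left y hy, hxy]
  have hder : ∀ x ∈ D, HasFDerivWithinAt f ((fderiv ℂ f x).restrictScalars ℝ) D x := by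
    intro x hx
    exact ((H.hF.differentiableAt (hD.mem_nhds hx)).hasFDerivAt.restrictScalars
      ℝ).hasFDerivWithinAt
  have h1 := integral_image_eq_integral_abs_det_fderiv_smul volume hD.measurableSet hder hinj F
  rw [himg] at h1
  rw [h1]
  refine setIntegral_congr_fun hD.measurableSet (fun x _ => ?_)
  simp only [BergTrans.det_restrictScalars_clm, smul_eq_mul]
  rw [abs_of_nonneg (by positivity)]

/-- the integral of a function vanishing off `D` -/
lemma integral_eq_on {D : Set (Fin n → ℂ)} (F : (Fin n → ℂ) → ℝ)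
    (hF : ∀ x, x ∉ D → F x = 0) : ∫ x, F x = ∫ x in D, F x :=
  (setIntegral_eq_integral_of_forall_compl_eq_zero hF).symm

section OpL

variable {D : Set (Fin n → ℂ)} {Γ : Set ((Fin n → ℂ) → (Fin n → ℂ))}
  {L : ((Fin n → ℂ) → ℝ) → (Fin n → ℂ) → ℝ}

lemma OpL.zero_off (hL : OpL D Γ L) {h : (Fin n → ℂ) → ℝ} {x : Fin n → ℂ}
    (hx : x ∉ tsupport h) : L h x = 0 := by
  rw [hL.congr h (fun _ => 0) x (notMem_tsupport_iff_eventuallyEq.1 hx), hL.const]

lemma OpL.zero_off' (hL : OpL D Γ L) {h : (Fin n → ℂ) → ℝ} (hh : Test D h) {x : Fin n → ℂ}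
    (hx : x ∉ D) : L h x = 0 := hL.zero_off (fun h1 => hx (hh.2.2 h1))

/-- integrability of `F * L h` -/
lemma OpL.integrable (hL : OpL D Γ L) (hD : IsOpen D) {h : (Fin n → ℂ) → ℝ} (hh : Test D h)
    {F : (Fin n → ℂ) → ℝ} (hF : ContinuousOn F D) : Integrable (fun x => F x * L h x) := by
  have h1 : ContinuousOn (fun x => F x * L h x) D := hF.mul (hL.cont h hh.1)
  have h2 : ∀ x, x ∉ tsupport h → F x * L h x = 0 := by
    intro x hx
    rw [hL.zero_off hx, mul_zero]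
  have h3 : Continuous (fun x => F x * L h x) := by
    rw [continuous_iff_continuousAt]
    intro x
    by_cases hx : x ∈ D
    · exact h1.continuousAt (hD.mem_nhds hx)
    · have h4 : x ∈ (tsupport h)ᶜ := fun h5 => hx (hh.2.2 h5)
      have h5 : (fun x => F x * L h x) =ᶠ[𝓝 x] fun _ => (0 : ℝ) := by
        filter_upwards [(isClosed_tsupport h).isOpen_compl.mem_nhds h4] with y hy
        exact h2 y hy
      exact (continuousAt_const).congr_of_eventuallyEq h5
  exact h3.integrable_of_hasCompactSupport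
    (HasCompactSupport.intro hh.2.1 h2)

/-- `∫ L h = 0` -/
lemma OpL.integral_L (hL : OpL D Γ L) {h : (Fin n → ℂ) → ℝ} (hh : Test D h) :
    ∫ x, L h x = 0 := by
  have h1 := hL.symm h (fun _ => 1) hh contDiff_const
  simp only [hL.const, mul_zero, one_mul] at h1
  rw [← h1]
  simp

/-- the operator on a pull back -/
lemma OpL.pull_eq (hL : OpL D Γ L) (hD : IsOpen D) {f : (Fin n → ℂ) → (Fin n → ℂ)}
    (hf : f ∈ Γ) {h : (Fin n → ℂ) → ℝ} (hh : ContDiff ℝ ∞ h) {x : Fin n → ℂ} (hx : x ∈ D) :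
    L (pull D f h) x = ‖(fderiv ℂ f x).det‖ ^ 2 * L h (f x) := by
  rw [← hL.inv f hf h x hx hh.contDiffAt]
  refine hL.congr _ _ x ?_
  filter_upwards [hD.mem_nhds hx] with y hy
  exact pull_mem hy

/-- basic change of variables -/
lemma OpL.cov (hL : OpL D Γ L) (hD : IsOpen D) {f g : (Fin n → ℂ) → (Fin n → ℂ)}
    (hf : f ∈ Γ) (H : AutPair D f g) {h : (Fin n → ℂ) → ℝ} (hh : Test D h)
    (F : (Fin n → ℂ) → ℝ) :
    ∫ x, F (f x) * L (pull D f h) x = ∫ x, F x * L h x := by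
  rw [integral_eq_on (D := D) (fun x => F x * L h x)
      (fun x hx => by rw [hL.zero_off' hh hx, mul_zero]),
    integral_eq_on (D := D) (fun x => F (f x) * L (pull D f h) x)
      (fun x hx => by rw [hL.zero_off' (hh.pull hD H) hx, mul_zero]),
    ← integral_aut hD H (fun x => F x * L h x)]
  refine setIntegral_congr_fun hD.measurableSet (fun x hx => ?_)
  rw [hL.pull_eq hD hf hh.1 hx]
  ring

/-- (2): invariance of `Λ` -/
lemma OpL.lam_pull (hL : OpL D Γ L) (hD : IsOpen D) {f g : (Fin n → ℂ) → (Fin n → ℂ)}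
    (hf : f ∈ Γ) (H : AutPair D f g) {h : (Fin n → ℂ) → ℝ} (hh : Test D h)
    {φ : (Fin n → ℂ) → ℝ} (hφ : ContinuousOn φ D) {c : ℝ} (hc : ∀ x ∈ D, φ (f x) = φ x + c) :
    ∫ x, φ x * L (pull D f h) x = ∫ x, φ x * L h x := by
  have h1 := hL.cov hD hf H hh (fun x => φ x - c)
  have h2 : ∀ x, (φ (f x) - c) * L (pull D f h) x = φ x * L (pull D f h) x := by
    intro x
    by_cases hx : x ∈ D
    · rw [hc x hx]; ring
    · rw [hL.zero_off' (hh.pull hD H) hx]; ring
  simp only [h2] at h1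
  rw [h1]
  have h3 : ∀ x, (φ x - c) * L h x = φ x * L h x - c * L h x := fun x => by ring
  simp only [h3]
  rw [integral_sub (hL.integrable hD hh hφ) (hL.integrable hD hh continuousOn_const),
    integral_const_mul, hL.integral_L hh, mul_zero, sub_zero]

/-- (3): `b(f) = b(f⁻¹)` -/
lemma OpL.b_symm (hL : OpL D Γ L) (hD : IsOpen D) {f g : (Fin n → ℂ) → (Fin n → ℂ)}
    (hg : g ∈ Γ) (H : AutPair D f g) {ψ : (Fin n → ℂ) → ℝ} (hψ : Test D ψ) :
    ∫ x, ψ x * L (pull D f ψ) x = ∫ x, ψ x * L (pull D g ψ) x := by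
  have H' : AutPair D g f := ⟨H.hG, H.hF, H.mapsG, H.mapsF, H.right, H.left⟩
  rw [hL.symm ψ (pull D f ψ) hψ (hψ.pull hD H).1]
  rw [← hL.cov hD hg H' hψ (pull D f ψ)]
  refine integral_congr_ae (Eventually.of_forall (fun x => ?_))
  simp only
  by_cases hx : x ∈ D
  · rw [pull_mem (H'.mapsF hx), H'.left x hx]
  · rw [hL.zero_off' (hψ.pull hD H') hx, mul_zero, mul_zero]

/-- additivity of `L` along finite sums of test functions -/
lemma OpL.sum (hL : OpL D Γ L) {ι : Type*} (s : Finset ι) (h : ι → (Fin n → ℂ) → ℝ)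
    (hh : ∀ i ∈ s, ContDiff ℝ ∞ (h i)) {x : Fin n → ℂ} (hx : x ∈ D) :
    L (fun y => ∑ i ∈ s, h i y) x = ∑ i ∈ s, L (h i) x := by
  classical
  induction s using Finset.induction_on with
  | empty => simp [hL.const]
  | insert a s ha ih =>
    simp only [Finset.sum_insert ha]
    rw [hL.add (h a) (fun y => ∑ i ∈ s, h i y) x hx
      (hh a (Finset.mem_insert_self _ _)).contDiffAt
      (ContDiff.sum (fun i hi => hh i (Finset.mem_insert_of_mem hi))).contDiffAt,
      ih (fun i hi => hh i (Finset.mem_insert_of_mem hi))]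

end OpL

/-! ### Test functions -/

lemma Test.add {D : Set (Fin n → ℂ)} {h k : (Fin n → ℂ) → ℝ} (hh : Test D h) (hk : Test D k) :
    Test D (fun x => h x + k x) := by
  refine ⟨hh.1.add hk.1, hh.2.1.add hk.2.1, ?_⟩
  exact (tsupport_add h k).trans (union_subset hh.2.2 hk.2.2)

lemma Test.const_mul {D : Set (Fin n → ℂ)} {h : (Fin n → ℂ) → ℝ} (hh : Test D h) (c : ℝ) :
    Test D (fun x => c * h x) := by
  refine ⟨contDiff_const.mul hh.1, hh.2.1.mul_left, ?_⟩
  exact (tsupport_mul_subset_right (f := fun _ => c) (g := h)).trans hh.2.2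

lemma Test.zero {D : Set (Fin n → ℂ)} : Test D (fun _ => 0) := by
  refine ⟨contDiff_const, ?_, ?_⟩
  · exact HasCompactSupport.zero
  · have : tsupport (fun _ : Fin n → ℂ => (0 : ℝ)) = ∅ := by
      rw [tsupport_eq_empty_iff]; rfl
    rw [this]; exact empty_subset _

lemma Test.sum {D : Set (Fin n → ℂ)} {ι : Type*} (s : Finset ι) (h : ι → (Fin n → ℂ) → ℝ)
    (hh : ∀ i ∈ s, Test D (h i)) : Test D (fun x => ∑ i ∈ s, h i x) := by
  classical
  induction s using Finset.induction_on with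
  | empty => simpa using Test.zero
  | insert a s ha ih =>
    simp only [Finset.sum_insert ha]
    exact (hh a (Finset.mem_insert_self _ _)).add
      (ih (fun i hi => hh i (Finset.mem_insert_of_mem hi)))

/-- nonnegative test function positive on a compact set -/
lemma exists_test_pos {D : Set (Fin n → ℂ)} (hD : IsOpen D) {K : Set (Fin n → ℂ)}
    (hK : IsCompact K) (hKD : K ⊆ D) :
    ∃ ψ, Test D ψ ∧ (∀ x, 0 ≤ ψ x) ∧ ∀ x ∈ K, 0 < ψ x := by
  classical
  have h1 : ∀ x ∈ K, ∃ f : (Fin n → ℂ) → ℝ, Test D f ∧ (∀ y, 0 ≤ f y) ∧ 0 < f x := by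
    intro x hx
    obtain ⟨f, h1, h2, h3, h4, h5⟩ := exists_contDiff_tsupport_subset (n := ⊤)
      (hD.mem_nhds (hKD hx))
    exact ⟨f, ⟨h3, h2, h1⟩, fun y => (h4 (mem_range_self y)).1, by rw [h5]; norm_num⟩
  choose! f hf1 hf2 hf3 using h1
  obtain ⟨t, ht, htK⟩ := hK.elim_nhds_subcover (fun x => {y | 0 < f x y}) (fun x hx =>
    (isOpen_lt continuous_const (hf1 x hx).1.continuous).mem_nhds (hf3 x hx))
  refine ⟨fun y => ∑ x ∈ t, f x y, Test.sum t f (fun x hx => hf1 x (ht x hx)),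
    fun y => Finset.sum_nonneg (fun x hx => hf2 x (ht x hx) y), fun y hy => ?_⟩
  obtain ⟨x, hx, hxy⟩ := mem_iUnion₂.1 (htK hy)
  exact Finset.sum_pos' (fun x hx => hf2 x (ht x hx) y) ⟨x, hx, hxy⟩

/-! ### Sums over the group -/

/-- the sum over the group -/
def tot (Γ : Set ((Fin n → ℂ) → (Fin n → ℂ))) (h : (Fin n → ℂ) → ℝ) (x : Fin n → ℂ) : ℝ :=
  ∑ᶠ f ∈ Γ, h (f x)

section Grp

variable {D : Set (Fin n → ℂ)} {Γ : Set ((Fin n → ℂ) → (Fin n → ℂ))}

lemma tot_eq' {h : (Fin n → ℂ) → ℝ} {x : Fin n → ℂ} (F : Finset ((Fin n → ℂ) → (Fin n → ℂ)))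
    (hF : ∀ f ∈ F, f ∈ Γ) (hF' : ∀ f ∈ Γ, h (f x) ≠ 0 → f ∈ F) :
    tot Γ h x = ∑ f ∈ F, h (f x) := by
  refine finsum_mem_eq_sum_of_inter_support_eq _ ?_
  ext f
  simp only [mem_inter_iff, Function.mem_support, Finset.mem_coe]
  exact ⟨fun h1 => ⟨hF' f h1.1 h1.2, h1.2⟩, fun h1 => ⟨hF f h1.1, h1.2⟩⟩

lemma tot_eq (G : Grp D Γ) {h : (Fin n → ℂ) → ℝ} (hh : Test D h) {K : Set (Fin n → ℂ)}
    (hK : IsCompact K) (hKD : K ⊆ D) :
    ∃ F : Finset ((Fin n → ℂ) → (Fin n → ℂ)),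
      (∀ f, f ∈ F ↔ f ∈ Γ ∧ ∃ x ∈ K, f x ∈ tsupport h) ∧
      ∀ x ∈ K, tot Γ h x = ∑ f ∈ F, h (f x) := by
  refine ⟨(G.pd K hKD _ hh.2.2 hK hh.2.1).toFinset, fun f => by simp, fun x hx => ?_⟩
  refine tot_eq' _ (fun f hf => ?_) (fun f hf h1 => ?_)
  · simp only [Finite.mem_toFinset, mem_ofPred_eq] at hf
    exact hf.1
  · simp only [Finite.mem_toFinset, mem_ofPred_eq]
    exact ⟨hf, x, hx, subset_tsupport _ h1⟩

/-- invariance of the total sum -/
lemma tot_inv (G : Grp D Γ) (h : (Fin n → ℂ) → ℝ) {g : (Fin n → ℂ) → (Fin n → ℂ)} (hg : g ∈ Γ)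
    {x : Fin n → ℂ} (hx : x ∈ D) : tot Γ h (g x) = tot Γ h x := by
  obtain ⟨gi, hgi, H⟩ := G.inv g hg
  have h1 : ∀ f : (Fin n → ℂ) → (Fin n → ℂ), ∃ k : (Fin n → ℂ) → (Fin n → ℂ),
      f ∈ Γ → k ∈ Γ ∧ ∀ x ∈ D, k x = f (g x) := by
    intro f
    by_cases hf : f ∈ Γ
    · obtain ⟨k, hk, hk'⟩ := G.mul f hf g hg
      exact ⟨k, fun _ => ⟨hk, hk'⟩⟩
    · exact ⟨f, fun h => absurd h hf⟩
  choose e he using h1
  refine finsum_mem_eq_of_bijOn e ⟨fun f hf => (he f hf).1, ?_, ?_⟩ (fun f hf => ?_)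
  · intro f1 hf1 f2 hf2 h12
    refine G.ext f1 hf1 f2 hf2 (fun y hy => ?_)
    rw [← H.right y hy, ← (he f1 hf1).2 _ (H.mapsG hy), h12, (he f2 hf2).2 _ (H.mapsG hy)]
  · intro k hk
    obtain ⟨f, hf, hf'⟩ := G.mul k hk gi hgi
    refine ⟨f, hf, G.ext _ (he f hf).1 _ hk (fun y hy => ?_)⟩
    rw [(he f hf).2 y hy, hf' _ (H.mapsF hy), H.left y hy]
  · rw [(he f hf).2 x hx]

/-- smooth partition of unity for `Γ` -/
theorem exists_part (hD : IsOpen D) (G : Grp D Γ) :
    ∃ ψ, Test D ψ ∧ (∀ x, 0 ≤ ψ x) ∧ ∀ x ∈ D, tot Γ ψ x = 1 := by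
  obtain ⟨K0, hK0D, hK0, hcov⟩ := G.cocpt
  obtain ⟨ψ0, hT, h0, hp⟩ := exists_test_pos hD hK0 hK0D
  have hfin : ∀ x ∈ D, ∃ F : Finset ((Fin n → ℂ) → (Fin n → ℂ)),
      (∀ f ∈ F, f ∈ Γ) ∧ (∀ f ∈ Γ, ψ0 (f x) ≠ 0 → f ∈ F) := by
    intro x hx
    obtain ⟨F, hF, -⟩ := tot_eq G hT (K := {x}) isCompact_singleton (singleton_subset_iff.2 hx)
    exact ⟨F, fun f hf => ((hF f).1 hf).1, fun f hf h1 => (hF f).2
      ⟨hf, x, rfl, subset_tsupport _ h1⟩⟩
  -- positivity of the total sum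
  have hSpos : ∀ x ∈ D, 0 < tot Γ ψ0 x := by
    intro x hx
    obtain ⟨F, hF, hF'⟩ := hfin x hx
    rw [tot_eq' F hF hF']
    obtain ⟨f, hf, y, hy, rfl⟩ := hcov x hx
    obtain ⟨g, hg, H⟩ := G.inv f hf
    have h1 : 0 < ψ0 (g (f y)) := by
      rw [H.left y (hK0D hy)]; exact hp y hy
    exact Finset.sum_pos' (fun k _ => h0 _) ⟨g, hF' g hg h1.ne', h1⟩
  -- smoothness of the total sum
  have hSsm : ∀ x ∈ D, ContDiffAt ℝ ∞ (tot Γ ψ0) x := by
    intro x hx
    obtain ⟨r, hr, hsub⟩ := Metric.nhds_basis_closedBall.mem_iff.1 (hD.mem_nhds hx)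
    obtain ⟨F, hF, hFs⟩ := tot_eq G hT (isCompact_closedBall x r) hsub
    have h1 : ContDiffAt ℝ ∞ (fun y => ∑ f ∈ F, ψ0 (f y)) x := by
      refine ContDiffAt.sum (fun f hf => ?_)
      obtain ⟨g, hg, H⟩ := G.inv f ((hF f).1 hf).1
      exact hT.1.contDiffAt.comp x (contDiffAt_of_hol hD H.hF hx)
    refine h1.congr_of_eventuallyEq ?_
    filter_upwards [Metric.closedBall_mem_nhds x hr] with y hy
    exact hFs y hy
  refine ⟨fun x => ψ0 x / tot Γ ψ0 x, ?_, fun x => ?_, fun x hx => ?_⟩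
  · have hsub : tsupport (fun x => ψ0 x / tot Γ ψ0 x) ⊆ tsupport ψ0 := by
      refine closure_mono (fun x hx => ?_)
      rw [Function.mem_support] at hx ⊢
      intro h1
      exact hx (by simp [h1])
    refine ⟨?_, (hT.2.1 : IsCompact (tsupport ψ0)).of_isClosed_subset (isClosed_tsupport _) hsub,
      hsub.trans hT.2.2⟩
    rw [contDiff_iff_contDiffAt]
    intro x
    by_cases hx : x ∈ D
    · exact hT.1.contDiffAt.div (hSsm x hx) (hSpos x hx).ne'
    · have h2 : x ∉ tsupport (fun x => ψ0 x / tot Γ ψ0 x) := fun h3 => hx (hT.2.2 (hsub h3))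
      exact contDiffAt_const.congr_of_eventuallyEq (notMem_tsupport_iff_eventuallyEq.1 h2)
  · by_cases hx : x ∈ D
    · exact div_nonneg (h0 x) (hSpos x hx).le
    · simp only [hT.eq_zero hx, zero_div, le_refl]
  · obtain ⟨F, hF, hF'⟩ := hfin x hx
    rw [tot_eq' F hF (fun f hf h1 => hF' f hf (fun h2 => h1 (by simp [h2])))]
    have h1 : ∀ f ∈ F, ψ0 (f x) / tot Γ ψ0 (f x) = ψ0 (f x) / tot Γ ψ0 x := by
      intro f hf
      rw [tot_inv G ψ0 (hF f hf) hx]
    rw [Finset.sum_congr rfl h1, ← Finset.sum_div, ← tot_eq' F hF hF']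
    exact div_self (hSpos x hx).ne'

end Grp

/-- (U): the `Γ`-part. -/
theorem vanStmt (n : ℕ) : VanStmt n := by
  classical
  intro D Γ hD hne G L hL φ hφ hcex hpos h hh hh0
  obtain ⟨ψ, hψ, hψ0, hψ1⟩ := exists_part hD G
  have hinv : ∀ f : (Fin n → ℂ) → (Fin n → ℂ), ∃ g : (Fin n → ℂ) → (Fin n → ℂ),
      f ∈ Γ → g ∈ Γ ∧ AutPair D f g := by
    intro f
    by_cases hf : f ∈ Γ
    · obtain ⟨g, hg, H⟩ := G.inv f hf
      exact ⟨g, fun _ => ⟨hg, H⟩⟩
    · exact ⟨f, fun h => absurd h hf⟩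
  choose iv hiv using hinv
  have hcex' : ∀ f : (Fin n → ℂ) → (Fin n → ℂ), ∃ c : ℝ, f ∈ Γ → ∀ x ∈ D, φ (f x) = φ x + c := by
    intro f
    by_cases hf : f ∈ Γ
    · obtain ⟨c, hc⟩ := hcex f hf
      exact ⟨c, fun _ => hc⟩
    · exact ⟨0, fun h => absurd h hf⟩
  choose c hc using hcex'
  have hiviv : ∀ f ∈ Γ, iv (iv f) = f := by
    intro f hf
    have h1 := hiv f hf
    have h2 := hiv (iv f) h1.1
    refine G.ext _ h2.1 _ hf (fun x hx => ?_)
    have h3 := h2.2.left (f x) (h1.2.mapsF hx)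
    rw [h1.2.left x hx] at h3
    exact h3
  have hciv : ∀ f ∈ Γ, c (iv f) = - c f := by
    intro f hf
    obtain ⟨x, hx⟩ := hne
    have h1 := hc f hf x hx
    have h2 := hc (iv f) (hiv f hf).1 (f x) ((hiv f hf).2.mapsF hx)
    rw [(hiv f hf).2.left x hx] at h2
    linarith
  obtain ⟨F, hF, hFs⟩ := tot_eq G hψ (K := tsupport ψ) hψ.2.1 hψ.2.2
  have hFΓ : ∀ f ∈ F, f ∈ Γ := fun f hf => ((hF f).1 hf).1
  have hivF : ∀ f ∈ F, iv f ∈ F := by
    intro f hf
    obtain ⟨h1, x, hx, hfx⟩ := (hF f).1 hf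
    exact (hF _).2 ⟨(hiv f h1).1, f x, hfx, by rwa [(hiv f h1).2.left x (hψ.2.2 hx)]⟩
  have key : ∫ x, φ x * L ψ x = 0 := by
    -- step a
    have ha : ∫ x, φ x * L ψ x = ∑ f ∈ F, ∫ x, (pull D f ψ x * φ x) * L ψ x := by
      rw [← integral_finsetSum]
      · refine integral_congr_ae (Eventually.of_forall (fun x => ?_))
        simp only
        by_cases hx : x ∈ tsupport ψ
        · have h1 : ∑ f ∈ F, ψ (f x) = 1 := by
            rw [← hFs x hx]; exact hψ1 x (hψ.2.2 hx)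
          have h2 : ∀ f ∈ F, pull D f ψ x * φ x * L ψ x = ψ (f x) * (φ x * L ψ x) := by
            intro f _
            rw [pull_mem (hψ.2.2 hx)]; ring
          rw [Finset.sum_congr rfl h2, ← Finset.sum_mul, h1, one_mul]
        · rw [hL.zero_off hx]; simp
      · intro f hf
        exact hL.integrable hD hψ
          ((hψ.pull hD (hiv f (hFΓ f hf)).2).1.continuous.continuousOn.mul hφ)
    -- step b
    have hb : ∀ f ∈ F, ∫ x, (pull D f ψ x * φ x) * L ψ x =
        (∫ x, (ψ x * φ x) * L (pull D (iv f) ψ) x) +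
          c (iv f) * ∫ x, ψ x * L (pull D (iv f) ψ) x := by
      intro f hf
      obtain ⟨hg, H⟩ := hiv f (hFΓ f hf)
      have H' : AutPair D (iv f) f := ⟨H.hG, H.hF, H.mapsG, H.mapsF, H.right, H.left⟩
      have hT := hψ.pull hD H'
      have hi1 : Integrable (fun x => (ψ x * φ x) * L (pull D (iv f) ψ) x) :=
        hL.integrable hD hT (hψ.1.continuous.continuousOn.mul hφ)
      have hi2 : Integrable (fun x => c (iv f) * (ψ x * L (pull D (iv f) ψ) x)) :=
        (hL.integrable hD hT hψ.1.continuous.continuousOn).const_mul _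
      rw [← hL.cov hD hg H' hψ (fun x => pull D f ψ x * φ x), ← integral_const_mul,
        ← integral_add hi1 hi2]
      refine integral_congr_ae (Eventually.of_forall (fun x => ?_))
      simp only
      by_cases hx : x ∈ D
      · rw [pull_mem (H'.mapsF hx), H'.left x hx, hc _ hg x hx]
        ring
      · rw [hL.zero_off' hT hx]; ring
    rw [ha, Finset.sum_congr rfl hb]
    have hre : ∀ T : ((Fin n → ℂ) → (Fin n → ℂ)) → ℝ, ∑ f ∈ F, T (iv f) = ∑ f ∈ F, T f := by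
      intro T
      refine Finset.sum_nbij' iv iv hivF hivF (fun f hf => hiviv f (hFΓ f hf))
        (fun f hf => hiviv f (hFΓ f hf)) (fun f _ => rfl)
    rw [hre (fun g => (∫ x, (ψ x * φ x) * L (pull D g ψ) x) +
        c g * ∫ x, ψ x * L (pull D g ψ) x),
      Finset.sum_add_distrib]
    -- step d
    have hd : ∑ g ∈ F, ∫ x, (ψ x * φ x) * L (pull D g ψ) x = 0 := by
      rw [← integral_finsetSum]
      · have h1 : ∀ x, ∑ g ∈ F, (ψ x * φ x) * L (pull D g ψ) x = 0 := by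
          intro x
          by_cases hx : ψ x = 0
          · simp [hx]
          · have hxt : x ∈ tsupport ψ := subset_tsupport _ hx
            have h2 : L (fun y => ∑ g ∈ F, pull D g ψ y) x = 0 := by
              rw [hL.congr _ (fun _ => 1) x, hL.const]
              filter_upwards [(isOpen_ne_fun hψ.1.continuous continuous_const).mem_nhds hx]
                with y hy
              have hyt : y ∈ tsupport ψ := subset_tsupport _ hy
              have h3 : ∀ g ∈ F, pull D g ψ y = ψ (g y) := fun g _ => pull_mem (hψ.2.2 hyt)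
              rw [Finset.sum_congr rfl h3, ← hFs y hyt]
              exact hψ1 y (hψ.2.2 hyt)
            rw [hL.sum F (fun g => pull D g ψ)
              (fun g hg => (hψ.pull hD (hiv g (hFΓ g hg)).2).1) (hψ.2.2 hxt)] at h2
            rw [← Finset.mul_sum, h2, mul_zero]
        simp only [h1, integral_zero]
      · intro g hg
        exact hL.integrable hD (hψ.pull hD (hiv g (hFΓ g hg)).2)
          (hψ.1.continuous.continuousOn.mul hφ)
    -- step e
    have he : ∑ g ∈ F, c g * ∫ x, ψ x * L (pull D g ψ) x = 0 := by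
      have h1 := hre (fun g => c g * ∫ x, ψ x * L (pull D g ψ) x)
      have h2 : ∀ g ∈ F, c (iv g) * ∫ x, ψ x * L (pull D (iv g) ψ) x =
          - (c g * ∫ x, ψ x * L (pull D g ψ) x) := by
        intro g hg
        rw [hciv g (hFΓ g hg), hL.b_symm hD (hiv g (hFΓ g hg)).1 (hiv g (hFΓ g hg)).2 hψ]
        ring
      rw [Finset.sum_congr rfl h2, Finset.sum_neg_distrib] at h1
      linarith
    rw [hd, he, add_zero]
  -- step 5
  obtain ⟨C, hC⟩ := hh.1.continuous.bounded_above_of_compact_support hh.2.1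
  have hC0 : 0 ≤ C := (norm_nonneg _).trans (hC 0)
  obtain ⟨F2, hF2, hF2s⟩ := tot_eq G hψ (K := tsupport h) hh.2.1 hh.2.2
  have hF2Γ : ∀ f ∈ F2, f ∈ Γ := fun f hf => ((hF2 f).1 hf).1
  have hpT : ∀ f ∈ F2, Test D (pull D f ψ) := fun f hf => hψ.pull hD (hiv f (hF2Γ f hf)).2
  have hST : Test D (fun x => ∑ f ∈ F2, pull D f ψ x) := Test.sum F2 _ hpT
  have hkT : Test D (fun x => C * (∑ f ∈ F2, pull D f ψ x) + (-1) * h x) :=
    (hST.const_mul C).add (hh.const_mul (-1))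
  have hpull0 : ∀ f x, 0 ≤ pull D f ψ x := fun f x => indicator_nonneg (fun y _ => hψ0 _) x
  have hk0 : ∀ x, 0 ≤ C * (∑ f ∈ F2, pull D f ψ x) + (-1) * h x := by
    intro x
    by_cases hx : x ∈ tsupport h
    · have h1 : ∑ f ∈ F2, pull D f ψ x = 1 := by
        have h3 : ∀ g ∈ F2, pull D g ψ x = ψ (g x) := fun g _ => pull_mem (hh.2.2 hx)
        rw [Finset.sum_congr rfl h3, ← hF2s x hx]
        exact hψ1 x (hh.2.2 hx)
      rw [h1]
      have h2 := (le_abs_self (h x)).trans (hC x)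
      linarith
    · rw [image_eq_zero_of_notMem_tsupport hx]
      have := mul_nonneg hC0 (Finset.sum_nonneg (fun f (_ : f ∈ F2) => hpull0 f x))
      linarith
  have h5 := hpos _ hkT hk0
  have h6 : ∀ x, φ x * L (fun x => C * (∑ f ∈ F2, pull D f ψ x) + (-1) * h x) x =
      C * (∑ f ∈ F2, φ x * L (pull D f ψ) x) - φ x * L h x := by
    intro x
    by_cases hx : x ∈ D
    · rw [hL.add _ _ x hx (hST.const_mul C).1.contDiffAt (hh.const_mul (-1)).1.contDiffAt,
        hL.smul C _ x hx hST.1.contDiffAt, hL.smul (-1) _ x hx hh.1.contDiffAt,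
        hL.sum F2 (fun g => pull D g ψ) (fun g hg => (hpT g hg).1) hx, ← Finset.mul_sum]
      ring
    · rw [hL.zero_off' hkT hx, hL.zero_off' hh hx,
        Finset.sum_eq_zero (fun f hf => by rw [hL.zero_off' (hpT f hf) hx, mul_zero])]
      ring
  simp only [h6] at h5
  rw [integral_sub, integral_const_mul, integral_finsetSum] at h5
  · have h7 : ∀ f ∈ F2, ∫ x, φ x * L (pull D f ψ) x = 0 := by
      intro f hf
      rw [hL.lam_pull hD (hF2Γ f hf) (hiv f (hF2Γ f hf)).2 hψ hφ (hc f (hF2Γ f hf)), key]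
    rw [Finset.sum_eq_zero h7] at h5
    have h8 := hpos h hh hh0
    linarith
  · exact fun f hf => hL.integrable hD (hpT f hf) hφ
  · exact (integrable_finsetSum _ (fun f hf => hL.integrable hD (hpT f hf) hφ)).const_mul C
  · exact hL.integrable hD hh hφ

end

end Crest.Agent.R264.K
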