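import Crest.Agent.R264.KAsm
import Crest.Agent.R264.KMollGlue
import Crest.Agent.R264.KVan

/-! Row 264, node D6: Lemma K. -/

set_option autoImplicit false

namespace Crest.Agent.R264.K

/-- **Lemma K** (node D6). -/
theorem lemmaK (n : ℕ) : LemmaK n := lemmaK_of (mollStmt n) (circStmt n) (vanStmt n)

end Crest.Agent.R264.K
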