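import Crest.Agent.R266.SCV

/-!
Row 264, part D, node D4 (LEMMA I), helper420.
Gamma-semi-invariant holomorphic sections of `T^{⊗ j}` (unimodular multipliers) vanish.
-/

set_option autoImplicit false

open Set Filter Topology Metric Complex

noncomputable section

namespace Crest.Agent.R264.LemI

open Crest.Agent.R266.SCV

section Gen

variable {E : Type*} [NormedAddCommGroup E] [NormedSpace ℂ E] [FiniteDimensional ℂ E]
variable {G : Type*} [NormedAddCommGroup G] [NormedSpace ℂ G] [CompleteSpace G]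

/-- Montel's theorem for maps from `D` to `G`, as a proposition. -/
def MontelOn (D : Set E) (G : Type*) [NormedAddCommGroup G] [NormedSpace ℂ G] : Prop :=
  ∀ (f : ℕ → E → G) (M : ℝ), (∀ k, DifferentiableOn ℂ (f k) D) →
    (∀ k, ∀ z ∈ D, ‖f k z‖ ≤ M) → ∃ g : E → G, DifferentiableOn ℂ g D ∧
      ∃ ph : ℕ → ℕ, StrictMono ph ∧ TendstoLocallyUniformlyOn (fun k => f (ph k)) g atTop D

/-- derivatives converge at converging points -/
theorem tendsto_fderiv {D : Set E} (hD : IsOpen D) {F : ℕ → E → G} {f : E → G}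
    (hF : ∀ k, DifferentiableOn ℂ (F k) D) (hlim : TendstoLocallyUniformlyOn F f atTop D)
    {x : E} (hx : x ∈ D) {u : ℕ → E} (hu : Tendsto u atTop (𝓝 x)) :
    Tendsto (fun k => fderiv ℂ (F k) (u k)) atTop (𝓝 (fderiv ℂ f x)) := by
  have : ProperSpace E := FiniteDimensional.proper ℂ E
  have hfa : AnalyticOnNhd ℂ f D :=
    analyticOnNhd_of_tendstoLocallyUniformlyOn hD hlim (Eventually.of_forall hF)
  have hc : ContinuousAt (fderiv ℂ f) x := (hfa x hx).fderiv.continuousAt
  obtain ⟨R, hR, hRD⟩ := Metric.isOpen_iff.1 hD x hx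
  have hR2 : 0 < R / 2 := by positivity
  have hcb : closedBall x (R / 2) ⊆ D := (closedBall_subset_ball (by linarith)).trans hRD
  have hunif := (tendstoLocallyUniformlyOn_iff_forall_isCompact hD).1 hlim _ hcb
    (isCompact_closedBall x (R / 2))
  have h1 : Tendsto (fun k => fderiv ℂ (F k) (u k) - fderiv ℂ f (u k)) atTop (𝓝 0) := by
    rw [Metric.tendsto_nhds]
    intro ε hε
    have hε' : 0 < ε / 2 * (R / 4) := by positivity
    filter_upwards [Metric.tendstoUniformlyOn_iff.1 hunif _ hε',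
      hu.eventually (ball_mem_nhds x (show 0 < R / 4 by positivity))] with k hk hk2
    have hsub : ball (u k) (R / 4) ⊆ closedBall x (R / 2) := by
      intro y hy
      have hy' : dist y (u k) < R / 4 := hy
      have hk2' : dist (u k) x < R / 4 := hk2
      have h3 : dist y x ≤ dist y (u k) + dist (u k) x := dist_triangle _ _ _
      have h4 : dist y x ≤ R / 2 := by linarith
      exact h4
    have hukD : u k ∈ D := hcb (hsub (mem_ball_self (by positivity)))
    have hdk : DifferentiableAt ℂ (F k) (u k) := (hF k).differentiableAt (hD.mem_nhds hukD)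
    have hdf : DifferentiableAt ℂ f (u k) := (hfa _ hukD).differentiableAt
    have hest : ‖fderiv ℂ (fun y => F k y - f y) (u k)‖ ≤ (ε / 2 * (R / 4)) / (R / 4) := by
      refine norm_fderiv_le_of_ball (by positivity) ?_ ?_
      · exact ((hF k).mono (hsub.trans hcb)).sub
          (hfa.differentiableOn.mono (hsub.trans hcb))
      · intro y hy
        have := hk y (hsub hy)
        rw [dist_comm, dist_eq_norm] at this
        exact this.le
    have heq : fderiv ℂ (fun y => F k y - f y) (u k) = fderiv ℂ (F k) (u k) - fderiv ℂ f (u k) :=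
      fderiv_fun_sub hdk hdf
    rw [heq] at hest
    rw [dist_zero_right]
    have : (ε / 2 * (R / 4)) / (R / 4) = ε / 2 := by field_simp
    rw [this] at hest
    linarith
  have h2 : Tendsto (fun k => fderiv ℂ f (u k)) atTop (𝓝 (fderiv ℂ f x)) := hc.tendsto.comp hu
  simpa using h1.add h2

/-- values converge at converging points -/
theorem tendsto_val {D : Set E} (hD : IsOpen D) {F : ℕ → E → G} {f : E → G}
    (hF : ∀ k, DifferentiableOn ℂ (F k) D) (hlim : TendstoLocallyUniformlyOn F f atTop D)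
    {x : E} (hx : x ∈ D) {u : ℕ → E} (hu : Tendsto u atTop (𝓝 x)) :
    Tendsto (fun k => F k (u k)) atTop (𝓝 (f x)) := by
  have hfa : AnalyticOnNhd ℂ f D :=
    analyticOnNhd_of_tendstoLocallyUniformlyOn hD hlim (Eventually.of_forall hF)
  have hc : ContinuousAt f x := (hfa x hx).continuousAt
  have h2 : Tendsto (fun k => f (u k)) atTop (𝓝 (f x)) := hc.tendsto.comp hu
  have h1 : Tendsto (fun k => F k (u k) - f (u k)) atTop (𝓝 0) := by
    rw [Metric.tendsto_nhds]
    intro ε hε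
    obtain ⟨t, ht, hev⟩ := Metric.tendstoLocallyUniformlyOn_iff.1 hlim ε hε x hx
    rw [nhdsWithin_eq_nhds.2 (hD.mem_nhds hx)] at ht
    filter_upwards [hev, hu.eventually ht] with k hk hk2
    have := hk _ hk2
    rwa [dist_comm, dist_eq_norm, ← dist_zero_right] at this
  simpa using h1.add h2

end Gen

section Tensor

variable {E : Type*} [NormedAddCommGroup E] [NormedSpace ℂ E] [FiniteDimensional ℂ E]
variable {j : ℕ}

omit [FiniteDimensional ℂ E] in
lemma expand {ι : Type*} [Fintype ι] (b : Module.Basis ι ℂ (E →L[ℂ] ℂ))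
    (s : MultilinearMap ℂ (fun _ : Fin j => E →L[ℂ] ℂ) ℂ) (ξ : Fin j → (E →L[ℂ] ℂ)) :
    s ξ = ∑ r : Fin j → ι, (∏ l, b.repr (ξ l) (r l)) * s (fun l => b (r l)) := by
  classical
  have h : ξ = fun l => ∑ i, b.repr (ξ l) i • b i := by
    funext l
    exact (b.sum_repr (ξ l)).symm
  conv_lhs => rw [h]
  rw [s.map_sum]
  refine Finset.sum_congr rfl (fun r _ => ?_)
  rw [s.map_smul_univ (fun l => b.repr (ξ l) (r l)) (fun l => b (r l)), smul_eq_mul]

/-- coordinate functional as a continuous linear map -/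
lemma continuous_repr {ι : Type*} [Fintype ι] (b : Module.Basis ι ℂ (E →L[ℂ] ℂ)) (i : ι) :
    Continuous (fun ξ : E →L[ℂ] ℂ => b.repr ξ i) := by
  have h : Continuous (b.coord i) := LinearMap.continuous_of_finiteDimensional (b.coord i)
  exact h

lemma tendsto_tensor {D : Set E} {s : E → MultilinearMap ℂ (fun _ : Fin j => E →L[ℂ] ℂ) ℂ}
    (hDo : IsOpen D) (hs : ∀ ξ, ContinuousOn (fun x => s x ξ) D) {x : E} (hx : x ∈ D)
    {u : ℕ → E} (hu : Tendsto u atTop (𝓝 x)) {ξ : ℕ → Fin j → (E →L[ℂ] ℂ)}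
    {η : Fin j → (E →L[ℂ] ℂ)} (hξ : ∀ l, Tendsto (fun k => ξ k l) atTop (𝓝 (η l))) :
    Tendsto (fun k => s (u k) (ξ k)) atTop (𝓝 (s x η)) := by
  classical
  let b := Module.finBasis ℂ (E →L[ℂ] ℂ)
  rw [expand b (s x) η]
  have hfun : (fun k => s (u k) (ξ k)) = fun k => ∑ r : Fin j → _,
      (∏ l, b.repr (ξ k l) (r l)) * s (u k) (fun l => b (r l)) :=
    funext fun k => expand b (s (u k)) (ξ k)
  rw [hfun]
  refine tendsto_finsetSum _ (fun r _ => Tendsto.mul ?_ ?_)
  · refine tendsto_finsetProd _ (fun l _ => ?_)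
    exact ((continuous_repr b (r l)).tendsto (η l)).comp (hξ l)
  · exact (((hs _).continuousAt (hDo.mem_nhds hx)).tendsto).comp hu

omit [FiniteDimensional ℂ E] in
lemma differentiableOn_prod {ι : Type*} {D : Set E} (u : Finset ι) (f : ι → E → ℂ)
    (h : ∀ i ∈ u, DifferentiableOn ℂ (f i) D) : DifferentiableOn ℂ (fun x => ∏ i ∈ u, f i x) D := by
  classical
  induction u using Finset.induction_on with
  | empty => simp
  | insert a v ha ih =>
    simp only [Finset.prod_insert ha]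
    exact (h a (Finset.mem_insert_self a v)).mul
      (ih (fun i hi => h i (Finset.mem_insert_of_mem hi)))

/-- pairing of the tensor with the derivatives of the components of `F` -/
def pair (s : E → MultilinearMap ℂ (fun _ : Fin j => E →L[ℂ] ℂ) ℂ) (F : E → (Fin j → ℂ)) (x : E) :
    ℂ := s x (fun l => fderiv ℂ (fun y => F y l) x)

lemma differentiableOn_pair {D : Set E} (hDo : IsOpen D)
    {s : E → MultilinearMap ℂ (fun _ : Fin j => E →L[ℂ] ℂ) ℂ}
    (hs : ∀ ξ, DifferentiableOn ℂ (fun x => s x ξ) D) {F : E → (Fin j → ℂ)}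
    (hF : DifferentiableOn ℂ F D) : DifferentiableOn ℂ (pair s F) D := by
  classical
  let b := Module.finBasis ℂ (E →L[ℂ] ℂ)
  have h : pair s F = fun x => ∑ r : Fin j → _,
      (∏ l, (b.coord (r l)).toContinuousLinearMap (fderiv ℂ (fun y => F y l) x)) *
        s x (fun l => b (r l)) := by
    funext x
    exact expand b (s x) _
  rw [h]
  have hd : ∀ l, DifferentiableOn ℂ (fun x => fderiv ℂ (fun y => F y l) x) D := by
    intro l
    have hFl : DifferentiableOn ℂ (fun y => F y l) D := differentiableOn_pi.1 hF l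
    exact (analyticOnNhd_of_differentiableOn hDo hFl).fderiv.differentiableOn
  refine DifferentiableOn.fun_sum (fun r _ => DifferentiableOn.mul ?_ (hs _))
  have hl : ∀ l, DifferentiableOn ℂ
      (fun x => (b.coord (r l)).toContinuousLinearMap (fderiv ℂ (fun y => F y l) x)) D := fun l =>
    (b.coord (r l)).toContinuousLinearMap.differentiable.comp_differentiableOn (hd l)
  exact differentiableOn_prod _ _ (fun l _ => hl l)

/-- **LEMMA I** (with Montel's theorem as a hypothesis). -/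
theorem lemI_of_montel (hj : 0 < j) {D : Set E} (hDo : IsOpen D) (hDc : IsPreconnected D)
    (hDb : Bornology.IsBounded D) {K0 : Set E} (hK : IsCompact K0) (hKD : K0 ⊆ D)
    (Γ : Set (E → E)) (hΓ : ∀ γ ∈ Γ, DifferentiableOn ℂ γ D ∧ MapsTo γ D D)
    (hcov : ∀ x ∈ D, ∃ γ ∈ Γ, ∃ κ ∈ K0, γ κ = x) (hM : MontelOn D (Fin j → ℂ))
    (s : E → MultilinearMap ℂ (fun _ : Fin j => E →L[ℂ] ℂ) ℂ)
    (hs : ∀ ξ, DifferentiableOn ℂ (fun x => s x ξ) D)
    (hinv : ∀ γ ∈ Γ, ∃ c : ℂ, ‖c‖ = 1 ∧ ∀ x ∈ D, ∀ ξ,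
      s (γ x) ξ = c * s x (fun i => (ξ i).comp (fderiv ℂ γ x))) :
    ∀ x ∈ D, s x = 0 := by
  classical
  -- admissible maps
  let Adm : Set (E → (Fin j → ℂ)) := {F | DifferentiableOn ℂ F D ∧ ∀ x ∈ D, ‖F x‖ ≤ 1}
  have hcomp : ∀ γ ∈ Γ, ∀ F ∈ Adm, F ∘ γ ∈ Adm := fun γ hγ F hF =>
    ⟨hF.1.comp (hΓ γ hγ).1 (hΓ γ hγ).2, fun x hx => hF.2 _ ((hΓ γ hγ).2 hx)⟩
  -- invariance of the norm of the pairing
  have hpinv : ∀ γ ∈ Γ, ∀ F ∈ Adm, ∀ x ∈ D, ‖pair s F (γ x)‖ = ‖pair s (F ∘ γ) x‖ := by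
    intro γ hγ F hF x hx
    obtain ⟨c, hc, h⟩ := hinv γ hγ
    unfold pair
    rw [h x hx, norm_mul, hc, one_mul]
    congr 2
    funext l
    have hγx : DifferentiableAt ℂ γ x := (hΓ γ hγ).1.differentiableAt (hDo.mem_nhds hx)
    have hFx : DifferentiableAt ℂ (fun y => F y l) (γ x) :=
      (differentiableOn_pi.1 hF.1 l).differentiableAt (hDo.mem_nhds ((hΓ γ hγ).2 hx))
    have := fderiv_comp x hFx hγx
    rw [← this]
    rfl
  -- limits of pairings
  have hlimp : ∀ (F : ℕ → E → (Fin j → ℂ)) (f : E → (Fin j → ℂ)) (u : ℕ → E) (x : E),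
      (∀ k, F k ∈ Adm) → TendstoLocallyUniformlyOn F f atTop D → x ∈ D →
      Tendsto u atTop (𝓝 x) → Tendsto (fun k => pair s (F k) (u k)) atTop (𝓝 (pair s f x)) := by
    intro F f u x hF hlim hx hu
    refine tendsto_tensor hDo (fun ξ => (hs ξ).continuousOn) hx hu (fun l => ?_)
    refine tendsto_fderiv (G := ℂ) hDo (F := fun k y => F k y l)
      (fun k => differentiableOn_pi.1 (hF k).1 l) ?_ hx hu
    have hcl : UniformContinuous (fun v : Fin j → ℂ => v l) :=
      Pi.uniformContinuous_proj (fun _ : Fin j => ℂ) l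
    exact hcl.comp_tendstoLocallyUniformlyOn hlim
  -- limits of admissible maps are admissible
  have hlimA : ∀ (F : ℕ → E → (Fin j → ℂ)) (f : E → (Fin j → ℂ)), (∀ k, F k ∈ Adm) →
      TendstoLocallyUniformlyOn F f atTop D → f ∈ Adm := by
    intro F f hF hlim
    refine ⟨(analyticOnNhd_of_tendstoLocallyUniformlyOn hDo hlim
      (Eventually.of_forall fun k => (hF k).1)).differentiableOn, fun x hx => ?_⟩
    have h := tendsto_val hDo (fun k => (hF k).1) hlim hx (tendsto_const_nhds (x := x))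
    exact le_of_tendsto h.norm (Eventually.of_forall fun k => (hF k).2 x hx)
  -- extraction
  have hext : ∀ (F : ℕ → E → (Fin j → ℂ)) (u : ℕ → E), (∀ k, F k ∈ Adm) → (∀ k, u k ∈ K0) →
      ∃ f ∈ Adm, ∃ x ∈ K0, ∃ ph : ℕ → ℕ, StrictMono ph ∧
        TendstoLocallyUniformlyOn (fun k => F (ph k)) f atTop D ∧
        Tendsto (fun k => u (ph k)) atTop (𝓝 x) := by
    intro F u hF hu
    obtain ⟨x, hx, p1, hp1, hx1⟩ := hK.tendsto_subseq hu
    obtain ⟨g, hg, p2, hp2, hlim⟩ := hM (fun k => F (p1 k)) 1 (fun k => (hF _).1)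
      (fun k => (hF _).2)
    refine ⟨g, hlimA _ _ (fun k => hF _) hlim, x, hx, p1 ∘ p2, hp1.comp hp2, hlim, ?_⟩
    exact hx1.comp hp2.tendsto_atTop
  by_contra hne
  push Not at hne
  obtain ⟨x1, hx1, hsx1⟩ := hne
  -- value set
  let S : Set ℝ := {a | ∃ F ∈ Adm, ∃ κ ∈ K0, a = ‖pair s F κ‖}
  -- S is bounded above
  have hbdd : BddAbove S := by
    by_contra hb
    rw [not_bddAbove_iff] at hb
    choose a ha hak using fun k : ℕ => hb (k : ℝ)
    choose F hF κ hκ haF using ha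
    obtain ⟨f, hf, x, hx, ph, hph, hl, hlx⟩ := hext F κ hF hκ
    have h := (hlimp _ f _ x (fun k => hF _) hl (hKD hx) hlx).norm
    have h2 : Tendsto (fun k => ‖pair s (F (ph k)) (κ (ph k))‖) atTop atTop := by
      refine tendsto_atTop_mono (fun k => ?_) tendsto_natCast_atTop_atTop
      rw [← haF]
      exact ((Nat.cast_le.2 (hph.id_le k)).trans (hak (ph k)).le)
    exact not_tendsto_atTop_of_tendsto_nhds h h2
  -- a nonzero value
  have hpos : ∃ a ∈ S, 0 < a := by
    obtain ⟨γ, hγ, κ, hκ, hκx⟩ := hcov x1 hx1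
    have hξ : ∃ ξ, s x1 ξ ≠ 0 := by
      by_contra h
      push Not at h
      exact hsx1 (MultilinearMap.ext h)
    obtain ⟨ξ, hξ⟩ := hξ
    obtain ⟨M, hM0⟩ := hDb.exists_norm_le
    have hM1 : ∀ x ∈ D, ‖x‖ ≤ |M| := fun x hx => (hM0 x hx).trans (le_abs_self M)
    obtain ⟨c, hc0, hc⟩ : ∃ c : ℝ, 0 < c ∧ ∀ l, c * (‖ξ l‖ * |M|) ≤ 1 := by
      refine ⟨1 / (1 + ∑ l, ‖ξ l‖ * |M|), by positivity, fun l => ?_⟩
      have h1 : ‖ξ l‖ * |M| ≤ ∑ l, ‖ξ l‖ * |M| :=
        Finset.single_le_sum (f := fun l => ‖ξ l‖ * |M|) (fun i _ => by positivity)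
          (Finset.mem_univ l)
      have h2 : 0 ≤ ∑ l, ‖ξ l‖ * |M| := Finset.sum_nonneg (fun i _ => by positivity)
      rw [one_div, inv_mul_le_iff₀ (by positivity)]
      linarith
    let F : E → (Fin j → ℂ) := fun y l => (c : ℂ) * ξ l y
    have hFA : F ∈ Adm := by
      refine ⟨?_, fun x hx => ?_⟩
      · refine differentiableOn_pi.2 (fun l => ?_)
        exact ((ξ l).differentiable.const_mul (c : ℂ)).differentiableOn
      · rw [pi_norm_le_iff_of_nonneg zero_le_one]
        intro l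
        show ‖(c : ℂ) * ξ l x‖ ≤ 1
        rw [norm_mul, Complex.norm_real, Real.norm_of_nonneg hc0.le]
        refine le_trans ?_ (hc l)
        gcongr
        exact ((ξ l).le_opNorm x).trans (by gcongr; exact hM1 x hx)
    refine ⟨‖pair s (F ∘ γ) κ‖, ⟨F ∘ γ, hcomp γ hγ F hFA, κ, hκ, rfl⟩, ?_⟩
    rw [← hpinv γ hγ F hFA κ (hKD hκ), hκx]
    rw [norm_pos_iff]
    unfold pair
    have : (fun l => fderiv ℂ (fun y => F y l) x1) = fun l => (fun _ => (c : ℂ)) l • ξ l := by
      funext l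
      show fderiv ℂ (fun y => (c : ℂ) * ξ l y) x1 = (c : ℂ) • ξ l
      rw [fderiv_const_mul (ξ l).differentiableAt, ContinuousLinearMap.fderiv]
    rw [this, (s x1).map_smul_univ]
    simp only [Finset.prod_const, smul_eq_mul]
    have hc' : (c : ℂ) ≠ 0 := by exact_mod_cast hc0.ne'
    exact mul_ne_zero (pow_ne_zero _ hc') hξ
  obtain ⟨a0, ha0S, ha0⟩ := hpos
  set A : ℝ := sSup S with hA
  have hApos : 0 < A := lt_of_lt_of_le ha0 (le_csSup hbdd ha0S)
  -- upper bound on all of D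
  have hub : ∀ F ∈ Adm, ∀ x ∈ D, ‖pair s F x‖ ≤ A := by
    intro F hF x hx
    obtain ⟨γ, hγ, κ, hκ, rfl⟩ := hcov x hx
    rw [hpinv γ hγ F hF κ (hKD hκ)]
    exact le_csSup hbdd ⟨F ∘ γ, hcomp γ hγ F hF, κ, hκ, rfl⟩
  -- attained
  obtain ⟨F, hF, κs, hκs, hFA⟩ : ∃ F ∈ Adm, ∃ κ ∈ K0, ‖pair s F κ‖ = A := by
    obtain ⟨v, -, hv, hvS⟩ := exists_seq_tendsto_sSup ⟨a0, ha0S⟩ hbdd
    choose F hF κ hκ hvF using hvS
    obtain ⟨f, hf, x, hx, ph, hph, hl, hlx⟩ := hext F κ hF hκ
    refine ⟨f, hf, x, hx, ?_⟩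
    have h := (hlimp _ f _ x (fun k => hF _) hl (hKD hx) hlx).norm
    have h2 : Tendsto (fun k => ‖pair s (F (ph k)) (κ (ph k))‖) atTop (𝓝 A) := by
      have := hv.comp hph.tendsto_atTop
      refine this.congr (fun k => ?_)
      simp [hvF]
    exact tendsto_nhds_unique h h2
  have hconst : ∀ x ∈ D, ‖pair s F x‖ = A := by
    have hmax : IsMaxOn (norm ∘ pair s F) D κs := by
      intro x hx
      show ‖pair s F x‖ ≤ ‖pair s F κs‖
      rw [hFA]
      exact hub F hF x hx
    have h := Complex.norm_eqOn_of_isPreconnected_of_isMaxOn hDc hDo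
      (differentiableOn_pair hDo hs hF.1) (hKD hκs) hmax
    intro x hx
    have := h hx
    simpa [hFA] using this
  -- the component `0`
  let l0 : Fin j := ⟨0, hj⟩
  let S1 : Set ℝ := (fun x => ‖F x l0‖) '' D
  have hS1b : BddAbove S1 := by
    refine ⟨1, ?_⟩
    rintro _ ⟨x, hx, rfl⟩
    exact (norm_le_pi_norm (F x) l0).trans (hF.2 x hx)
  obtain ⟨w, -, hw, hwS⟩ := exists_seq_tendsto_sSup (S := S1) ⟨_, κs, hKD hκs, rfl⟩ hS1b
  choose xk hxk hwk using hwS
  choose γ hγ κ hκ hγκ using fun k => hcov (xk k) (hxk k)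
  obtain ⟨f, hf, x, hx, ph, hph, hl, hlx⟩ :=
    hext (fun k => F ∘ γ k) κ (fun k => hcomp _ (hγ k) F hF) hκ
  -- pairing of the limit is nonzero
  have hfx : ‖pair s f x‖ = A := by
    have h := (hlimp _ f _ x (fun k => hcomp _ (hγ _) F hF) hl (hKD hx) hlx).norm
    refine tendsto_nhds_unique h ?_
    refine tendsto_const_nhds.congr (fun k => ?_)
    rw [← hpinv _ (hγ _) F hF _ (hKD (hκ _))]
    exact (hconst _ ((hΓ _ (hγ _)).2 (hKD (hκ _)))).symm
  -- the component `0` of the limit has its maximum at `x`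
  have hfmax : IsMaxOn (norm ∘ fun y => f y l0) D x := by
    have hval : ‖f x l0‖ = sSup S1 := by
      have h := tendsto_val hDo (fun k => (hcomp _ (hγ (ph k)) F hF).1) hl (hKD hx) hlx
      have h' := ((continuous_apply l0).tendsto _).comp h
      have h'' := h'.norm
      refine tendsto_nhds_unique h'' ?_
      have := hw.comp hph.tendsto_atTop
      refine this.congr (fun k => ?_)
      simp only [Function.comp_apply]
      rw [hγκ, ← hwk]
    intro y hy
    show ‖f y l0‖ ≤ ‖f x l0‖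
    rw [hval]
    have h := tendsto_val hDo (fun k => (hcomp _ (hγ (ph k)) F hF).1) hl hy
      (tendsto_const_nhds (x := y))
    have h' := ((continuous_apply l0).tendsto _).comp h
    refine le_of_tendsto h'.norm (Eventually.of_forall fun k => ?_)
    exact le_csSup hS1b ⟨γ (ph k) y, (hΓ _ (hγ _)).2 hy, rfl⟩
  have hfl : DifferentiableOn ℂ (fun y => f y l0) D := differentiableOn_pi.1 hf.1 l0
  have hcst := Complex.eqOn_of_isPreconnected_of_isMaxOn_norm hDc hDo hfl (hKD hx) hfmax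
  have hder : fderiv ℂ (fun y => f y l0) x = 0 := by
    have heq : (fun y => f y l0) =ᶠ[𝓝 x] fun _ => f x l0 := by
      filter_upwards [hDo.mem_nhds (hKD hx)] with y hy using hcst hy
    rw [heq.fderiv_eq]
    simp
  have hz : pair s f x = 0 := by
    unfold pair
    exact (s x).map_coord_zero l0 hder
  rw [hz, norm_zero] at hfx
  exact hApos.ne hfx

end Tensor

end Crest.Agent.R264.LemI
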