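import Crest.Agent.R264.LemI

/-!
Row 264, part D, node D4 (LEMMA I), corollaries for sums of decomposable tensors (helper420).
-/

set_option autoImplicit false

open Set Filter Topology Metric Complex

noncomputable section

namespace Crest.Agent.R264.LemI

variable {E : Type*} [NormedAddCommGroup E] [NormedSpace ℂ E] [FiniteDimensional ℂ E]

/-- evaluation at a vector -/
def evl (v : E) : (E →L[ℂ] ℂ) →ₗ[ℂ] ℂ where
  toFun ξ := ξ v
  map_add' _ _ := rfl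
  map_smul' _ _ := rfl

/-- the decomposable tensor `v 0 ⊗ ... ⊗ v (j-1)` -/
def dec {j : ℕ} (v : Fin j → E) : MultilinearMap ℂ (fun _ : Fin j => E →L[ℂ] ℂ) ℂ :=
  (MultilinearMap.mkPiAlgebra ℂ (Fin j) ℂ).compLinearMap (fun i => evl (v i))

omit [FiniteDimensional ℂ E] in
lemma dec_apply {j : ℕ} (v : Fin j → E) (ξ : Fin j → (E →L[ℂ] ℂ)) :
    dec v ξ = ∏ i, ξ i (v i) := by
  simp [dec, evl]

/-- Lemma I for finite sums of decomposable tensor fields. -/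
theorem lemI_sum_of_montel {j : ℕ} (hj : 0 < j) {D : Set E} (hDo : IsOpen D)
    (hDc : IsPreconnected D)
    (hDb : Bornology.IsBounded D) {K0 : Set E} (hK : IsCompact K0) (hKD : K0 ⊆ D)
    (Γ : Set (E → E)) (hΓ : ∀ γ ∈ Γ, DifferentiableOn ℂ γ D ∧ MapsTo γ D D)
    (hcov : ∀ x ∈ D, ∃ γ ∈ Γ, ∃ κ ∈ K0, γ κ = x) (hM : MontelOn D (Fin j → ℂ))
    {ι : Type*} [Fintype ι] (X : ι → Fin j → E → E) (hX : ∀ a i, DifferentiableOn ℂ (X a i) D)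
    (hinv : ∀ γ ∈ Γ, ∃ c : ℂ, ‖c‖ = 1 ∧ ∀ x ∈ D, ∀ ξ : Fin j → (E →L[ℂ] ℂ),
      ∑ a, ∏ i, ξ i (X a i (γ x)) = c * ∑ a, ∏ i, ξ i (fderiv ℂ γ x (X a i x))) :
    ∀ x ∈ D, ∀ ξ : Fin j → (E →L[ℂ] ℂ), ∑ a, ∏ i, ξ i (X a i x) = 0 := by
  classical
  let s : E → MultilinearMap ℂ (fun _ : Fin j => E →L[ℂ] ℂ) ℂ :=
    fun x => ∑ a, dec (fun i => X a i x)
  have hsa : ∀ x ξ, s x ξ = ∑ a, ∏ i, ξ i (X a i x) := by
    intro x ξ
    show (∑ a, dec (fun i => X a i x)) ξ = _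
    rw [sum_apply]
    exact Finset.sum_congr rfl (fun a _ => dec_apply _ _)
  have h := lemI_of_montel hj hDo hDc hDb hK hKD Γ hΓ hcov hM s ?_ ?_
  · intro x hx ξ
    rw [← hsa, h x hx]
    rfl
  · intro ξ
    simp only [hsa]
    refine DifferentiableOn.fun_sum (fun a _ => differentiableOn_prod _ _ (fun i _ => ?_))
    exact (ξ i).differentiable.comp_differentiableOn (hX a i)
  · intro γ hγ
    obtain ⟨c, hc, h⟩ := hinv γ hγ
    refine ⟨c, hc, fun x hx ξ => ?_⟩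
    rw [hsa, hsa, h x hx ξ]
    rfl

/-- Lemma I for vector fields. -/
theorem lemI_vec_of_montel {D : Set E} (hDo : IsOpen D) (hDc : IsPreconnected D)
    (hDb : Bornology.IsBounded D) {K0 : Set E} (hK : IsCompact K0) (hKD : K0 ⊆ D)
    (Γ : Set (E → E)) (hΓ : ∀ γ ∈ Γ, DifferentiableOn ℂ γ D ∧ MapsTo γ D D)
    (hcov : ∀ x ∈ D, ∃ γ ∈ Γ, ∃ κ ∈ K0, γ κ = x) (hM : MontelOn D (Fin 1 → ℂ))
    (X : E → E) (hX : DifferentiableOn ℂ X D)
    (hinv : ∀ γ ∈ Γ, ∃ c : ℂ, ‖c‖ = 1 ∧ ∀ x ∈ D, X (γ x) = c • fderiv ℂ γ x (X x)) :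
    ∀ x ∈ D, X x = 0 := by
  intro x hx
  have h := lemI_sum_of_montel (ι := Unit) zero_lt_one hDo hDc hDb hK hKD Γ hΓ hcov hM
    (fun _ _ => X) (fun _ _ => hX) (fun γ hγ => by
      obtain ⟨c, hc, h⟩ := hinv γ hγ
      refine ⟨c, hc, fun y hy ξ => ?_⟩
      simp [h y hy]) x hx
  by_contra hne
  obtain ⟨g, -, hg⟩ := exists_dual_vector'' ℂ (X x)
  have h2 := h (fun _ => g)
  simp only [Finset.univ_unique, Finset.prod_singleton, Finset.sum_const, Finset.card_singleton,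
    one_smul] at h2
  rw [hg] at h2
  exact hne (by simpa using h2)

/-- Lemma I for finite sums of products of two vector fields (no symmetry needed). -/
theorem lemI_two_of_montel {D : Set E} (hDo : IsOpen D) (hDc : IsPreconnected D)
    (hDb : Bornology.IsBounded D) {K0 : Set E} (hK : IsCompact K0) (hKD : K0 ⊆ D)
    (Γ : Set (E → E)) (hΓ : ∀ γ ∈ Γ, DifferentiableOn ℂ γ D ∧ MapsTo γ D D)
    (hcov : ∀ x ∈ D, ∃ γ ∈ Γ, ∃ κ ∈ K0, γ κ = x) (hM : MontelOn D (Fin 2 → ℂ))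
    {ι : Type*} [Fintype ι] (X Y : ι → E → E) (hX : ∀ a, DifferentiableOn ℂ (X a) D)
    (hY : ∀ a, DifferentiableOn ℂ (Y a) D)
    (hinv : ∀ γ ∈ Γ, ∃ c : ℂ, ‖c‖ = 1 ∧ ∀ x ∈ D, ∀ ξ η : E →L[ℂ] ℂ,
      ∑ a, ξ (X a (γ x)) * η (Y a (γ x)) =
        c * ∑ a, ξ (fderiv ℂ γ x (X a x)) * η (fderiv ℂ γ x (Y a x))) :
    ∀ x ∈ D, ∀ ξ η : E →L[ℂ] ℂ, ∑ a, ξ (X a x) * η (Y a x) = 0 := by
  intro x hx ξ η
  have h := lemI_sum_of_montel (j := 2) two_pos hDo hDc hDb hK hKD Γ hΓ hcov hM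
    (fun a i => if i = 0 then X a else Y a)
    (fun a i => by by_cases hi : i = 0 <;> simp [hi, hX a, hY a]) (fun γ hγ => by
      obtain ⟨c, hc, h⟩ := hinv γ hγ
      refine ⟨c, hc, fun y hy ξ => ?_⟩
      have := h y hy (ξ 0) (ξ 1)
      simpa [Fin.prod_univ_two] using this) x hx ![ξ, η]
  simpa [Fin.prod_univ_two] using h

end Crest.Agent.R264.LemI
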