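import Mathlib

/-!
Row 264, Part A, Lemma J (generic CR rank), algebraic part (helper599).
-/

set_option autoImplicit false

open Set Function Algebra

namespace Crest.Agent.R264.LJ

variable {K A : Type*} [Field K] [CharZero K] [CommRing A] [IsDomain A] [Algebra K A]

omit [CharZero K] [IsDomain A] in
lemma der_adjoin {S : Set A} (D : Derivation K A A) (hS : ∀ s ∈ S, D s = 0) {a : A}
    (ha : a ∈ Algebra.adjoin K S) : D a = 0 := by
  have h := Derivation.eqOn_adjoin (D1 := D) (D2 := 0) (s := S) (fun s hs => by
    rw [hS s hs]; rfl) ha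
  rw [h]; rfl

/-- a derivation which kills `S` kills every element algebraic over `K[S]`. -/
lemma der_algebraic {S : Set A} (D : Derivation K A A) (hS : ∀ s ∈ S, D s = 0) {a : A}
    (ha : IsAlgebraic (Algebra.adjoin K S) a) : D a = 0 := by
  classical
  let D' : Derivation (Algebra.adjoin K S) A A :=
    { toFun := D
      map_add' := fun x y => map_add D x y
      map_smul' := fun c x => by
        simp only [RingHom.id_apply]
        rw [Algebra.smul_def, Derivation.leibniz]
        have : D (algebraMap (Algebra.adjoin K S) A c) = 0 := der_adjoin D hS c.2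
        rw [this, smul_zero, add_zero]
        rfl
      map_one_eq_zero' := D.map_one_eq_zero
      leibniz' := fun x y => D.leibniz x y }
  have hD' : ∀ x, D' x = D x := fun _ => rfl
  have hex : ∃ k : ℕ, ∃ q : Polynomial (Algebra.adjoin K S), q ≠ 0 ∧ Polynomial.aeval a q = 0 ∧
      q.natDegree = k := by
    obtain ⟨q, hq, hqa⟩ := ha
    exact ⟨_, q, hq, hqa, rfl⟩
  obtain ⟨q, hq, hqa, hqk⟩ := Nat.find_spec hex
  have hmin : ∀ p : Polynomial (Algebra.adjoin K S), p.natDegree < q.natDegree →
      Polynomial.aeval a p = 0 → p = 0 := by
    intro p hp hpa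
    by_contra hne
    exact Nat.find_min hex (hqk ▸ hp) ⟨p, hne, hpa, rfl⟩
  have hpos : 0 < q.natDegree := by
    rcases Nat.eq_zero_or_pos q.natDegree with h | h
    · exfalso
      rw [Polynomial.natDegree_eq_zero] at h
      obtain ⟨c, rfl⟩ := h
      rw [Polynomial.aeval_C] at hqa
      apply hq
      have : c = 0 := by
        apply Subtype.ext
        exact hqa
      rw [this, Polynomial.C_0]
    · exact h
  have hder : Polynomial.derivative q ≠ 0 := by
    intro h
    have : CharZero (Algebra.adjoin K S) := charZero_of_injective_algebraMap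
      (algebraMap K (Algebra.adjoin K S)).injective
    have := Polynomial.derivative_eq_zero.1 h
    omega
  have hda : Polynomial.aeval a (Polynomial.derivative q) ≠ 0 := by
    intro h
    exact hder (hmin _ (Polynomial.natDegree_derivative_lt hpos.ne') h)
  have h := D'.map_aeval q a
  rw [hqa, map_zero, smul_eq_mul] at h
  rcases mul_eq_zero.1 h.symm with h | h
  · exact absurd h hda
  · exact h

/-- **algebraic core of Lemma J.** -/
theorem exists_det {r n : ℕ} (τ : Fin r → A) (D : Fin r → Derivation K A A)
    (hD : ∀ j k, D j (τ k) = if j = k then 1 else 0) (hτ : AlgebraicIndependent K τ)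
    (f : Fin n → A) (hf : AlgebraicIndependent K f)
    (halg : ∀ i, IsAlgebraic (Algebra.adjoin K (range τ)) (f i)) :
    ∃ (g : Fin r → A) (σ : Fin n → Fin r), Injective σ ∧ (∀ i, g (σ i) = f i) ∧
      (Matrix.of fun i j => D j (g i)).det ≠ 0 := by
  classical
  set M := AlgebraicIndependent.matroid K A with hM
  have hI : M.Indep (range τ) := hτ.to_subtype_range
  have hJ : M.Indep (range f) := hf.to_subtype_range
  have hcl : range f ⊆ M.closure (range τ) := by
    rintro _ ⟨i, rfl⟩
    rw [hM, AlgebraicIndependent.matroid_closure_eq]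
    exact halg i
  have hIb : M.IsBasis (range τ) (range f ∪ range τ) :=
    hI.isBasis_of_subset_of_subset_closure subset_union_right
      (union_subset hcl (M.subset_closure (range τ)))
  obtain ⟨B, hB, hfB⟩ := hJ.subset_isBasis_of_subset (X := range f ∪ range τ) subset_union_left
  have hcard : B.encard = r := by
    rw [hB.encard_eq_encard hIb, ← image_univ, hτ.injective.encard_image, encard_univ]
    simp
  have hBfin : B.Finite := finite_of_encard_eq_coe hcard
  have hnc : Nat.card B = r := by
    have h1 : (B.ncard : ℕ∞) = r := by rw [hBfin.cast_ncard_eq, hcard]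
    exact_mod_cast h1
  have : Finite B := hBfin
  let e : B ≃ Fin r := Finite.equivFinOfCardEq hnc
  refine ⟨fun i => (e.symm i : A), fun i => e ⟨f i, hfB (mem_range_self i)⟩, ?_, ?_, ?_⟩
  · intro i j hij
    have h1 := e.injective hij
    exact hf.injective (Subtype.ext_iff.1 h1)
  · intro i
    simp
  · intro hdet
    obtain ⟨v, hv, hv0⟩ := Matrix.exists_mulVec_eq_zero_iff.2 hdet
    apply hv
    set E : Derivation K A A := ∑ j, v j • D j with hE
    have hEa : ∀ a, E a = ∑ j, v j * D j a := by
      intro a
      have h1 : ∀ s : Finset (Fin r), (∑ j ∈ s, v j • D j) a = ∑ j ∈ s, v j * D j a := by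
        intro s
        induction s using Finset.induction_on with
        | empty => simp
        | insert j s hj ih =>
          rw [Finset.sum_insert hj, Finset.sum_insert hj, Derivation.add_apply, ih,
            Derivation.smul_apply, smul_eq_mul]
      rw [hE, h1]
    have hEB : ∀ b ∈ B, E b = 0 := by
      intro b hb
      have h1 := congrFun hv0 (e ⟨b, hb⟩)
      simp only [Matrix.mulVec, dotProduct, Matrix.of_apply, Equiv.symm_apply_apply,
        Pi.zero_apply] at h1
      rw [hEa, ← h1]
      exact Finset.sum_congr rfl fun j _ => mul_comm _ _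
    funext k
    have hk : IsAlgebraic (Algebra.adjoin K B) (τ k) := by
      have h1 : τ k ∈ M.closure B := by
        rw [hB.closure_eq_closure]
        exact M.mem_closure_of_mem (Or.inr (mem_range_self k)) (subset_univ _)
      rw [hM, AlgebraicIndependent.matroid_closure_eq] at h1
      exact h1
    have h2 := der_algebraic E hEB hk
    rw [hEa] at h2
    simp only [hD, mul_ite, mul_one, mul_zero, Finset.sum_ite_eq', Finset.mem_univ, if_true] at h2
    exact h2

end Crest.Agent.R264.LJ
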