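import Mathlib
import Crest.Agent.R264.LemJ1

/-!
Row 264, Part A, Lemma J (generic CR rank), the algebra of real analytic functions (helper599).
-/

set_option autoImplicit false
set_option linter.unusedSectionVars false

open Set Function Filter Topology

namespace Crest.Agent.R264.LJ

noncomputable section

variable {V : Type*} [NormedAddCommGroup V] [NormedSpace ℝ V] {U : Set V}

open Classical in
/-- extension by zero. -/
def ext (U : Set V) (g : U → ℂ) (x : V) : ℂ := if h : x ∈ U then g ⟨x, h⟩ else 0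

lemma ext_of_mem (g : U → ℂ) {x : V} (h : x ∈ U) : ext U g x = g ⟨x, h⟩ := dif_pos h

/-- the algebra of real analytic functions on an open set. -/
def An (hU : IsOpen U) : Subalgebra ℂ (U → ℂ) where
  carrier := {g | AnalyticOnNhd ℝ (ext U g) U}
  mul_mem' := by
    intro a b ha hb
    refine (AnalyticOnNhd.mul ha hb).congr hU fun x hx => ?_
    simp only [Pi.mul_apply, ext_of_mem _ hx]
  add_mem' := by
    intro a b ha hb
    refine (AnalyticOnNhd.add ha hb).congr hU fun x hx => ?_
    simp only [Pi.add_apply, ext_of_mem _ hx]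
  algebraMap_mem' := by
    intro c
    refine (analyticOnNhd_const (v := c)).congr hU fun x hx => ?_
    simp only [ext_of_mem _ hx]
    rfl

variable {hU : IsOpen U}

/-- a function analytic on `U` as an element of the algebra. -/
def mk (hU : IsOpen U) (f : V → ℂ) (hf : AnalyticOnNhd ℝ f U) : An hU :=
  ⟨fun x => f x, hf.congr hU fun x hx => by rw [ext_of_mem _ hx]⟩

@[simp] lemma mk_apply (f : V → ℂ) (hf : AnalyticOnNhd ℝ f U) (x : U) :
    (mk hU f hf : U → ℂ) x = f x := rfl

lemma gan (g : An hU) : AnalyticOnNhd ℝ (ext U (g : U → ℂ)) U := g.2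

lemma gdiff (g : An hU) {x : V} (hx : x ∈ U) : DifferentiableAt ℝ (ext U (g : U → ℂ)) x :=
  ((gan g) x hx).differentiableAt

lemma ext_mk_eventuallyEq (f : V → ℂ) (hf : AnalyticOnNhd ℝ f U) {x : V} (hx : x ∈ U) :
    ext U (mk hU f hf : U → ℂ) =ᶠ[𝓝 x] f := by
  filter_upwards [hU.mem_nhds hx] with y hy
  rw [ext_of_mem _ hy]; rfl

/-- the directional derivative. -/
def dir (v : V) : Derivation ℂ (An hU) (An hU) where
  toFun g := mk hU (fun x => fderiv ℝ (ext U (g : U → ℂ)) x v) 
    ((ContinuousLinearMap.apply ℝ ℂ v).comp_analyticOnNhd ((gan g).fderiv_of_isOpen hU))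
  map_add' g h := by
    apply Subtype.ext
    funext x
    have h1 : ext U ((g + h : An hU) : U → ℂ) = ext U (g : U → ℂ) + ext U (h : U → ℂ) := by
      funext y
      by_cases hy : y ∈ U
      · simp [ext_of_mem _ hy]
      · simp [ext, hy]
    change fderiv ℝ (ext U ((g + h : An hU) : U → ℂ)) x v = _
    rw [h1, fderiv_add (gdiff g x.2) (gdiff h x.2)]
    rfl
  map_smul' c g := by
    apply Subtype.ext
    funext x
    have h1 : ext U ((c • g : An hU) : U → ℂ) = c • ext U (g : U → ℂ) := by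
      funext y
      by_cases hy : y ∈ U
      · simp [ext_of_mem _ hy]
      · simp [ext, hy]
    change fderiv ℝ (ext U ((c • g : An hU) : U → ℂ)) x v = _
    rw [h1, fderiv_const_smul (gdiff g x.2)]
    rfl
  map_one_eq_zero' := by
    apply Subtype.ext
    funext x
    change fderiv ℝ (ext U ((1 : An hU) : U → ℂ)) x v = 0
    have h1 : ext U ((1 : An hU) : U → ℂ) =ᶠ[𝓝 (x : V)] fun _ => (1 : ℂ) := by
      filter_upwards [hU.mem_nhds x.2] with y hy
      rw [ext_of_mem _ hy]; rfl
    rw [h1.fderiv_eq]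
    simp
  leibniz' g h := by
    apply Subtype.ext
    funext x
    have h1 : ext U ((g * h : An hU) : U → ℂ) = ext U (g : U → ℂ) * ext U (h : U → ℂ) := by
      funext y
      by_cases hy : y ∈ U
      · simp [ext_of_mem _ hy]
      · simp [ext, hy]
    change fderiv ℝ (ext U ((g * h : An hU) : U → ℂ)) x v = _
    rw [h1, fderiv_mul (gdiff g x.2) (gdiff h x.2)]
    change (ext U (g : U → ℂ) x • fderiv ℝ (ext U (h : U → ℂ)) x +
      ext U (h : U → ℂ) x • fderiv ℝ (ext U (g : U → ℂ)) x) v = _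
    rw [ext_of_mem _ x.2, ext_of_mem _ x.2]
    rfl

lemma dir_apply (v : V) (g : An hU) (x : U) :
    (dir v g : U → ℂ) x = fderiv ℝ (ext U (g : U → ℂ)) x v := rfl

lemma dir_mk (v : V) (f : V → ℂ) (hf : AnalyticOnNhd ℝ f U) (x : U) :
    (dir v (mk hU f hf) : U → ℂ) x = fderiv ℝ f x v := by
  rw [dir_apply, (ext_mk_eventuallyEq f hf x.2).fderiv_eq]

/-- evaluation at a point -/
def ev (x : U) : An hU →ₐ[ℂ] ℂ := (Pi.evalAlgHom ℂ (fun _ : U => ℂ) x).comp (An hU).val

lemma ev_apply (x : U) (g : An hU) : ev x g = (g : U → ℂ) x := rfl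

lemma an_ext_iff {g h : An hU} : g = h ↔ ∀ x, ev x g = ev x h :=
  ⟨fun e x => by rw [e], fun e => Subtype.ext (funext e)⟩

theorem isDomain_An (hc : IsPreconnected U) (hne : U.Nonempty) : IsDomain (An hU) := by
  have hnt : Nontrivial (An hU) := by
    obtain ⟨x, hx⟩ := hne
    refine ⟨0, 1, fun h => ?_⟩
    have := congrArg (ev (⟨x, hx⟩ : U)) h
    rw [map_zero, map_one] at this
    exact zero_ne_one this
  have hnz : NoZeroDivisors (An hU) := by
    refine ⟨fun {g h} hgh => ?_⟩
    by_contra hcon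
    push Not at hcon
    obtain ⟨hg, hh⟩ := hcon
    obtain ⟨x0, hx0⟩ : ∃ x : U, (g : U → ℂ) x ≠ 0 := by
      by_contra hall
      push Not at hall
      exact hg (Subtype.ext (funext hall))
    apply hh
    have h1 : ∀ᶠ y in 𝓝 (x0 : V), ext U (g : U → ℂ) y ≠ 0 := by
      refine (gdiff g x0.2).continuousAt.eventually_ne ?_
      rwa [ext_of_mem _ x0.2]
    have h2 : ext U (h : U → ℂ) =ᶠ[𝓝 (x0 : V)] 0 := by
      filter_upwards [h1, hU.mem_nhds x0.2] with y hy hyU
      rw [ext_of_mem _ hyU] at hy ⊢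
      have h3 := congrArg (ev (⟨y, hyU⟩ : U)) hgh
      rw [map_mul, map_zero] at h3
      rcases mul_eq_zero.1 h3 with h3 | h3
      · exact absurd h3 hy
      · exact h3
    have h4 := (gan h).eqOn_zero_of_preconnected_of_eventuallyEq_zero hc x0.2 h2
    apply Subtype.ext
    funext x
    have h5 := h4 x.2
    rw [ext_of_mem _ x.2] at h5
    exact h5
  exact NoZeroDivisors.to_isDomain _

/-! ### coordinates -/

section Coord

variable {r : ℕ} {U : Set (Fin r → ℝ)} {hU : IsOpen U}

lemma coord_an (j : Fin r) : AnalyticOnNhd ℝ (fun x : Fin r → ℝ => ((x j : ℝ) : ℂ)) U := by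
  intro x _
  exact (Complex.ofRealCLM.comp (ContinuousLinearMap.proj (R := ℝ) (φ := fun _ : Fin r => ℝ)
    j)).analyticAt x

/-- the coordinate functions -/
def co (hU : IsOpen U) (j : Fin r) : An hU := mk hU _ (coord_an j)

/-- the coordinate derivations -/
def dj (hU : IsOpen U) (j : Fin r) : Derivation ℂ (An hU) (An hU) := dir (Pi.single j 1)

lemma dj_co (j k : Fin r) : dj hU j (co hU k) = if j = k then 1 else 0 := by
  apply Subtype.ext
  funext x
  rw [dj, co, dir_mk]
  have h : HasFDerivAt (fun x : Fin r → ℝ => ((x k : ℝ) : ℂ))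
      (Complex.ofRealCLM.comp (ContinuousLinearMap.proj (R := ℝ) (φ := fun _ : Fin r => ℝ) k))
      (x : Fin r → ℝ) :=
    (Complex.ofRealCLM.comp (ContinuousLinearMap.proj (R := ℝ) (φ := fun _ : Fin r => ℝ)
      k)).hasFDerivAt
  rw [h.fderiv]
  simp only [ContinuousLinearMap.comp_apply, ContinuousLinearMap.proj_apply,
    Complex.ofRealCLM_apply]
  by_cases hjk : j = k
  · subst hjk
    simp
  · rw [Pi.single_eq_of_ne (Ne.symm hjk), if_neg hjk]
    simp

lemma ev_aeval {σ : Type*} (g : σ → An hU) (p : MvPolynomial σ ℂ) (x : U) :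
    ev x (MvPolynomial.aeval g p) = MvPolynomial.eval (fun s => ev x (g s)) p := by
  rw [← MvPolynomial.coe_aeval_eq_eval]
  change ((ev x).comp (MvPolynomial.aeval g)) p = _
  rw [MvPolynomial.comp_aeval]
  rfl

/-- a complex polynomial vanishing on a nonempty real open set is zero. -/
lemma poly_zero {U : Set (Fin r → ℝ)} (hU : IsOpen U) (hne : U.Nonempty) {p : MvPolynomial (Fin r) ℂ}
    (hp : ∀ x ∈ U, MvPolynomial.eval (fun j => ((x j : ℝ) : ℂ)) p = 0) : p = 0 := by
  obtain ⟨x0, hx0⟩ := hne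
  obtain ⟨ε, hε, hball⟩ := Metric.isOpen_iff.1 hU x0 hx0
  refine MvPolynomial.funext_set (fun j => Complex.ofReal '' Ioo (x0 j - ε) (x0 j + ε))
    (fun j => ?_) fun y hy => ?_
  · refine Infinite.image Complex.ofReal_injective.injOn ?_
    exact Ioo_infinite (by linarith)
  · have h1 : ∀ j, ∃ t : ℝ, t ∈ Ioo (x0 j - ε) (x0 j + ε) ∧ (t : ℂ) = y j := fun j =>
      hy j (mem_univ j)
    choose t ht hty using h1
    have h2 : t ∈ Metric.ball x0 ε := by
      rw [Metric.mem_ball, dist_pi_lt_iff hε]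
      intro j
      rw [Real.dist_eq, abs_lt]
      exact ⟨by linarith [(ht j).1], by linarith [(ht j).2]⟩
    have h3 := hp t (hball h2)
    rw [map_zero]
    convert h3 using 2
    congr 1
    funext j
    exact (hty j).symm

lemma co_indep (hne : U.Nonempty) : AlgebraicIndependent ℂ (co hU) := by
  rw [algebraicIndependent_iff]
  intro p hp
  refine poly_zero hU hne fun x hx => ?_
  have h := congrArg (ev (⟨x, hx⟩ : U)) hp
  rw [ev_aeval, map_zero] at h
  exact h

end Coord

end

end Crest.Agent.R264.LJ
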