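import Mathlib
import Crest.Agent.R264.LemJ2
import Crest.Agent.R264.AIface

/-!
Row 264, Part A, **Lemma J** (generic CR rank) (helper599): `theorem lemJ : AI.LemJ`.
-/

set_option autoImplicit false

open Set Function Filter Topology

namespace Crest.Agent.R264.LJ

noncomputable section

/-- columns span if the rows are independent. -/
lemma span_cols {n r : ℕ} (M : Matrix (Fin n) (Fin r) ℂ) (h : LinearIndependent ℂ M.row) :
    Submodule.span ℂ (range M.col) = ⊤ := by
  rw [← Matrix.range_mulVecLin]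
  apply Submodule.eq_top_of_finrank_eq
  have h1 : M.rank = n := by simpa using h.rank_matrix
  rw [Module.finrank_fintype_fun_eq_card, Fintype.card_fin]
  exact h1

theorem core {r n : ℕ} {T : Set (Fin r → ℝ)} {f : (Fin r → ℝ) → (Fin n → ℂ)} (hT : IsOpen T)
    (hne : T.Nonempty) (hc : IsPreconnected T) (hf : AnalyticOnNhd ℝ f T)
    (hind : ∀ R : MvPolynomial (Fin n) ℂ, (∀ τ ∈ T, MvPolynomial.eval (f τ) R = 0) → R = 0)
    (halg : ∀ i, ∃ q : Polynomial (MvPolynomial (Fin r) ℂ), q.Monic ∧
      ∀ τ ∈ T, q.eval₂ (MvPolynomial.eval fun i => (τ i : ℂ)) (f τ i) = 0) :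
    ∃ τ ∈ T, Submodule.span ℂ (range (fderiv ℝ f τ)) = ⊤ := by
  have hdom : IsDomain (An hT) := isDomain_An hc hne
  have hfi : ∀ i, AnalyticOnNhd ℝ (fun τ => f τ i) T := fun i =>
    (ContinuousLinearMap.proj (R := ℝ) (φ := fun _ : Fin n => ℂ) i).comp_analyticOnNhd hf
  set F : Fin n → An hT := fun i => mk hT (fun τ => f τ i) (hfi i) with hF
  have hFi : AlgebraicIndependent ℂ F := by
    rw [algebraicIndependent_iff]
    intro p hp
    refine hind p fun τ hτ => ?_
    have h := congrArg (ev (⟨τ, hτ⟩ : T)) hp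
    rw [ev_aeval, map_zero] at h
    exact h
  have hFa : ∀ i, IsAlgebraic (Algebra.adjoin ℂ (range (co hT))) (F i) := by
    intro i
    obtain ⟨q, hq, hq0⟩ := halg i
    let φ : MvPolynomial (Fin r) ℂ →ₐ[ℂ] Algebra.adjoin ℂ (range (co hT)) :=
      (MvPolynomial.aeval (co hT)).codRestrict _ (fun p => by
        have := (MvPolynomial.aeval (co hT) : MvPolynomial (Fin r) ℂ →ₐ[ℂ] An hT).mem_range_self p
        rw [← Algebra.adjoin_range_eq_range_aeval] at this
        exact this)
    refine ⟨q.map φ.toRingHom, (hq.map φ.toRingHom).ne_zero, ?_⟩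
    rw [an_ext_iff]
    intro x
    rw [Polynomial.aeval_def, Polynomial.eval₂_map, map_zero]
    have h1 : ev x (Polynomial.eval₂ ((algebraMap (Algebra.adjoin ℂ (range (co hT)))
        (An hT)).comp φ.toRingHom) (F i) q) =
        q.eval₂ (MvPolynomial.eval fun i => (((x : Fin r → ℝ) i : ℝ) : ℂ))
          (f (x : Fin r → ℝ) i) := by
      change (ev x).toRingHom _ = _
      rw [Polynomial.hom_eval₂]
      congr 1
      apply RingHom.ext
      intro p
      exact ev_aeval (co hT) p x
    rw [h1]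
    exact hq0 _ x.2
  obtain ⟨g, σ, hσ, hgσ, hdet⟩ := exists_det (co hT) (dj hT) dj_co (co_indep hne) F hFi hFa
  obtain ⟨x, hx⟩ : ∃ x : T, ev x (Matrix.of fun i j => dj hT j (g i)).det ≠ 0 := by
    by_contra hall
    push Not at hall
    apply hdet
    rw [an_ext_iff]
    intro x
    rw [hall x, map_zero]
  refine ⟨x, x.2, ?_⟩
  rw [AlgHom.map_det] at hx
  have hli : LinearIndependent ℂ (Matrix.of fun (i j : Fin r) => ev x (dj hT j (g i))).row := by
    have h2 := Matrix.linearIndependent_rows_of_det_ne_zero (A := (ev x).mapMatrix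
      (Matrix.of fun i j => dj hT j (g i))) hx
    exact h2
  have hli2 := hli.comp σ hσ
  have hfd : DifferentiableAt ℝ f (x : Fin r → ℝ) := (hf x x.2).differentiableAt
  set N : Matrix (Fin n) (Fin r) ℂ := Matrix.of fun i j => fderiv ℝ f x (Pi.single j 1) i with hN
  have hrow : LinearIndependent ℂ N.row := by
    convert hli2 using 1
    funext i j
    change fderiv ℝ f x (Pi.single j 1) i = ev x (dj hT j (g (σ i)))
    rw [hgσ, ev_apply, hF, dj, dir_mk]
    have h3 : HasFDerivAt (fun τ => f τ i) ((ContinuousLinearMap.proj (R := ℝ)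
        (φ := fun _ : Fin n => ℂ) i).comp (fderiv ℝ f x)) (x : Fin r → ℝ) :=
      (ContinuousLinearMap.proj (R := ℝ) (φ := fun _ : Fin n => ℂ) i).hasFDerivAt.comp _
        hfd.hasFDerivAt
    rw [h3.fderiv]
    rfl
  rw [eq_top_iff, ← span_cols N hrow]
  apply Submodule.span_mono
  rintro _ ⟨j, rfl⟩
  exact ⟨Pi.single j 1, rfl⟩

/-- **LEMMA J.** -/
theorem lemJ : AI.LemJ := fun _ _ _ _ hT hne hc hf hind halg =>
  core hT hne hc.isPreconnected hf hind halg

end

end Crest.Agent.R264.LJ
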