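import Mathlib

/-!
# Row 264, part D: Levi form, definitions (helper375)

Complex derivatives of functions on `Fin n → ℂ`.
-/

set_option autoImplicit false

open Set Function Filter Topology Metric Complex MeasureTheory
open scoped Real ContDiff

namespace Crest.Agent.R264

noncomputable section

variable {n : ℕ}

/-- the `(1,0)`-derivative. -/
def d10 (f : (Fin n → ℂ) → ℂ) (x ξ : Fin n → ℂ) : ℂ :=
  (fderiv ℝ f x ξ - I * fderiv ℝ f x (I • ξ)) / 2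

/-- the `(0,1)`-derivative. -/
def d01 (f : (Fin n → ℂ) → ℂ) (x ξ : Fin n → ℂ) : ℂ :=
  (fderiv ℝ f x ξ + I * fderiv ℝ f x (I • ξ)) / 2

/-- the Levi form (`∑ u_{i j̄} ξ_i \bar ξ_j`). -/
def lev (u : (Fin n → ℂ) → ℝ) (x ξ : Fin n → ℂ) : ℝ :=
  (fderiv ℝ (fderiv ℝ u) x ξ ξ + fderiv ℝ (fderiv ℝ u) x (I • ξ) (I • ξ)) / 4

/-- plurisubharmonic (sub-mean value inequality on closed discs). -/
def PSH (D : Set (Fin n → ℂ)) (φ : (Fin n → ℂ) → ℝ) : Prop :=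
  ∀ x ∈ D, ∀ ξ : Fin n → ℂ, (∀ ζ : ℂ, ‖ζ‖ ≤ 1 → x + ζ • ξ ∈ D) →
    φ x ≤ (2 * π)⁻¹ * ∫ θ in (0 : ℝ)..(2 * π), φ (x + exp (θ * I) • ξ)

/-- pluriharmonic (mean value equality on small discs). -/
def PLH (D : Set (Fin n → ℂ)) (φ : (Fin n → ℂ) → ℝ) : Prop :=
  ∀ x ∈ D, ∃ r > 0, ball x (2 * r) ⊆ D ∧ ∀ y ∈ ball x r, ∀ ξ ∈ ball (0 : Fin n → ℂ) r,
    φ y = (2 * π)⁻¹ * ∫ θ in (0 : ℝ)..(2 * π), φ (y + exp (θ * I) • ξ)

/-- D5: the Bergman potential. -/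
def D5Stmt : Prop :=
  ∀ (n : ℕ) (D : Set (Fin n → ℂ)), IsOpen D → Bornology.IsBounded D →
    ∃ v : (Fin n → ℂ) → ℝ, ContDiffOn ℝ ∞ v D ∧
      (∀ f f' : (Fin n → ℂ) → (Fin n → ℂ), DifferentiableOn ℂ f D → MapsTo f D D →
        DifferentiableOn ℂ f' D → MapsTo f' D D → (∀ x ∈ D, f' (f x) = x) →
        (∀ x ∈ D, f (f' x) = x) →
        ∀ x ∈ D, v (f x) = v x - Real.log ‖(fderiv ℂ f x).det‖) ∧
      ∀ x ∈ D, ∀ ξ, ξ ≠ 0 → 0 < lev v x ξ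

/-- a group acting by holomorphic maps on `D`, properly discontinuously and cocompactly. -/
structure Act (Γ : Type*) [Group Γ] (D K0 : Set (Fin n → ℂ))
    (a : Γ → (Fin n → ℂ) → (Fin n → ℂ)) : Prop where
  hol : ∀ g, DifferentiableOn ℂ (a g) D
  maps : ∀ g, MapsTo (a g) D D
  one : ∀ x ∈ D, a 1 x = x
  mul : ∀ g h, ∀ x ∈ D, a (g * h) x = a g (a h x)
  pd : ∀ K ⊆ D, IsCompact K → {g | (a g '' K ∩ K).Nonempty}.Finite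
  cpt : IsCompact K0
  sub : K0 ⊆ D
  cov : ∀ x ∈ D, ∃ g, a g x ∈ K0

/-- D6: Lemma K. -/
def D6Stmt : Prop :=
  ∀ (n : ℕ) (D K0 : Set (Fin n → ℂ)) (Γ : Type) [Group Γ] (a : Γ → (Fin n → ℂ) → (Fin n → ℂ)),
    IsOpen D → Bornology.IsBounded D → Act Γ D K0 a →
    ∀ (φ : (Fin n → ℂ) → ℝ) (χ : Γ → ℝ), ContinuousOn φ D → PSH D φ →
      (∀ g, ∀ x ∈ D, φ (a g x) = φ x + χ g) → PLH D φ

end

end Crest.Agent.R264
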