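import Crest.Agent.R264.TSChoice

/-!
Row 264, module TS: semialgebraic choice (S7), several coordinates.
-/

set_option autoImplicit false

open Set

namespace Crest.Agent.R264.TS

universe u v

/-- **choice** (S7): for an SA predicate `P (x, y)`, `y : κ → ℝ`, there is an SA function `c` with
`P (x, c x)` whenever `∃ y, P (x, y)`; its graph is SA. -/
theorem SA.exists_choice {ι : Type v} {κ : Type u} [Finite κ] {P : (ι → ℝ) → (κ → ℝ) → Prop}
    (h : SA {z : ι ⊕ κ → ℝ | P (fun i => z (.inl i)) (fun k => z (.inr k))}) :
    ∃ c : (ι → ℝ) → (κ → ℝ), (∀ x, (∃ y, P x y) → P x (c x)) ∧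
      ∀ k, SA {z : Option ι → ℝ | z none = c (fun i => z (some i)) k} := by
  suffices H : ∀ P : (ι → ℝ) → (κ → ℝ) → Prop,
      SA {z : ι ⊕ κ → ℝ | P (fun i => z (.inl i)) (fun k => z (.inr k))} →
      ∃ c : (ι → ℝ) → (κ → ℝ), (∀ x, (∃ y, P x y) → P x (c x)) ∧
      ∀ k, SA {z : Option ι → ℝ | z none = c (fun i => z (some i)) k} from H P h
  clear h P
  refine Finite.induction_empty_option (P := fun κ : Type u => ∀ P : (ι → ℝ) → (κ → ℝ) → Prop,
      SA {z : ι ⊕ κ → ℝ | P (fun i => z (.inl i)) (fun k => z (.inr k))} →
      ∃ c : (ι → ℝ) → (κ → ℝ), (∀ x, (∃ y, P x y) → P x (c x)) ∧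
      ∀ k, SA {z : Option ι → ℝ | z none = c (fun i => z (some i)) k}) ?_ ?_ ?_ κ
  · intro α β e ih P h
    obtain ⟨c, hc1, hc2⟩ := ih (fun x y => P x (y ∘ e.symm))
      (h.reindex (ι := ι ⊕ α) (Sum.map id e.symm))
    refine ⟨fun x => c x ∘ e.symm, fun x hx => ?_, fun k => hc2 (e.symm k)⟩
    obtain ⟨y, hy⟩ := hx
    refine hc1 x ⟨y ∘ e, ?_⟩
    convert hy using 1
    ext k; simp
  · intro P h
    refine ⟨fun x k => k.elim, fun x hx => ?_, fun k => k.elim⟩
    obtain ⟨y, hy⟩ := hx
    convert hy using 1
    ext k; exact k.elim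
  · intro α _ ih P h
    -- the last coordinate
    have h1 : SA {z : Option (ι ⊕ α) → ℝ | P (fun i => z (some (.inl i)))
        (fun o => o.elim (z none) fun a => z (some (.inr a)))} := by
      have := h.reindex (ι := Option (ι ⊕ α)) (Sum.elim (fun i => some (.inl i))
        (fun o : Option α => o.elim none fun a => some (.inr a)))
      convert this using 1
      ext z
      change P _ _ ↔ P _ _
      apply iff_of_eq
      congr 1
      ext o
      cases o <;> rfl
    obtain ⟨c2, hc21, hc22⟩ := SA.exists_choice1 (P := fun (w : ι ⊕ α → ℝ) t =>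
      P (fun i => w (.inl i)) (fun o => o.elim t fun a => w (.inr a))) h1
    have h2 := SA.exists_real (P := fun (w : ι ⊕ α → ℝ) t =>
      P (fun i => w (.inl i)) (fun o => o.elim t fun a => w (.inr a))) h1
    obtain ⟨c1, hc11, hc12⟩ := ih (fun x y => ∃ t, P x (fun o => o.elim t fun a => y a)) h2
    have hc12' : ∀ a, SA {z : Option ι → ℝ | z none = c1 (fun i => z (some i)) a} := hc12
    refine ⟨fun x o => o.elim (c2 (Sum.elim x (c1 x))) (c1 x), fun x hx => ?_, fun k => ?_⟩
    · obtain ⟨y, hy⟩ := hx
      have h3 := hc11 x ⟨fun a => y (some a), y none, by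
        convert hy using 1
        ext o; cases o <;> rfl⟩
      have h4 := hc21 (Sum.elim x (c1 x)) h3
      exact h4
    · cases k with
      | some a => exact hc12' a
      | none =>
        -- `z none = c2 (x, c1 x)`  iff  `∃ y, y = c1 x ∧ z none = c2 (x, y)`
        have e : {z : Option ι → ℝ | z none = (none : Option α).elim
            (c2 (Sum.elim (fun i => z (some i)) (c1 fun i => z (some i))))
            (c1 fun i => z (some i))} =
            {z | ∃ y : α → ℝ, (∀ a, y a = c1 (fun i => z (some i)) a) ∧
              z none = c2 (Sum.elim (fun i => z (some i)) y)} := by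
          ext z
          constructor
          · intro hz
            exact ⟨c1 fun i => z (some i), fun a => rfl, hz⟩
          · rintro ⟨y, hy, hz⟩
            have : y = c1 fun i => z (some i) := funext hy
            rw [this] at hz
            exact hz
        rw [e]
        apply SA.exists_fun (P := fun (z : Option ι → ℝ) (y : α → ℝ) =>
          (∀ a, y a = c1 (fun i => z (some i)) a) ∧
              z none = c2 (Sum.elim (fun i => z (some i)) y))
        refine SA.and (SA.forall_finite fun a => ?_) ?_
        · exact (hc12' a).reindex (ι := Option ι ⊕ α)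
            (fun o => o.elim (.inr a) fun i => .inl (some i))
        · have := hc22.reindex (ι := Option ι ⊕ α)
            (fun o => o.elim (.inl none) (Sum.elim (fun i => .inl (some i)) fun a => .inr a))
          convert this using 1
          ext z
          change z _ = c2 _ ↔ z _ = c2 _
          have e2 : (Sum.elim (fun i => z (.inl (some i))) fun k => z (.inr k)) =
            (fun i : ι ⊕ α => z ((some i).elim (.inl none)
              (Sum.elim (fun i => .inl (some i)) fun a => .inr a))) := by
            ext i; cases i <;> rfl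
          rw [e2]
          rfl

end Crest.Agent.R264.TS
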