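import Crest.Agent.R264.TSSmooth
import Crest.Agent.R264.TSChoice2

/-!
Row 264, module TS: S3, S4, S7 in the forms asked for by helper264.
-/

set_option autoImplicit false
set_option linter.unusedSectionVars false

open Set Filter Topology
open scoped ContDiff

namespace Crest.Agent.R264.TS

universe u v

section

variable {ι : Type v} [Fintype ι]

/-- a nonzero polynomial does not vanish identically on a nonempty open set -/
theorem exists_eval_ne_zero_of_isOpen {p : MvPolynomial ι ℝ} (hp : p ≠ 0) {O : Set (ι → ℝ)}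
    (hO : IsOpen O) (hne : O.Nonempty) : ∃ a ∈ O, MvPolynomial.eval a p ≠ 0 := by
  classical
  by_contra hcon
  push Not at hcon
  obtain ⟨a, ha⟩ := hne
  obtain ⟨r, hr, hball⟩ := Metric.isOpen_iff.1 hO a ha
  apply hp
  apply MvPolynomial.funext_set (fun i => Ioo (a i - r) (a i + r))
    (fun i => Set.Ioo_infinite (by linarith))
  intro x hx
  rw [map_zero]
  apply hcon
  apply hball
  rw [Metric.mem_ball, dist_pi_lt_iff hr]
  intro i
  have := hx i (mem_univ i)
  rw [Real.dist_eq, abs_lt]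
  constructor <;> linarith [this.1, this.2]

/-- the complement of the zero set of a nonzero polynomial is open and dense -/
theorem isOpen_ne_zero (p : MvPolynomial ι ℝ) : IsOpen {x : ι → ℝ | MvPolynomial.eval x p ≠ 0} :=
  isOpen_ne_fun (continuous_eval p) continuous_const

theorem dense_ne_zero {p : MvPolynomial ι ℝ} (hp : p ≠ 0) :
    Dense {x : ι → ℝ | MvPolynomial.eval x p ≠ 0} := by
  rw [dense_iff_inter_open]
  intro U hU hne
  obtain ⟨a, ha, ha'⟩ := exists_eval_ne_zero_of_isOpen hp hU hne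
  exact ⟨a, ha, ha'⟩

/-- S3 (b) -/
theorem SA.subset_zero {s : Set (ι → ℝ)} (hs : SA s) (hi : interior s = ∅) :
    ∃ Δ : MvPolynomial ι ℝ, Δ ≠ 0 ∧ s ⊆ {x | MvPolynomial.eval x Δ = 0} := by
  obtain ⟨Δ, h0, h1⟩ := hs.exists_discr
  refine ⟨Δ, h0, fun x hx => ?_⟩
  by_contra hcon
  have h2 : s ∈ 𝓝 x := by
    filter_upwards [h1 x hcon] with y hy
    exact hy.2 hx
  have h3 : x ∈ interior s := mem_interior_iff_mem_nhds.2 h2
  rw [hi] at h3
  exact h3

/-- S3 (a) -/
theorem SA.frontier_subset_zero {s : Set (ι → ℝ)} (hs : SA s) :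
    ∃ Δ : MvPolynomial ι ℝ, Δ ≠ 0 ∧ frontier s ⊆ {x | MvPolynomial.eval x Δ = 0} := by
  obtain ⟨Δ, h0, h1⟩ := hs.exists_discr
  refine ⟨Δ, h0, fun x hx => ?_⟩
  by_contra hcon
  by_cases hxs : x ∈ s
  · have h2 : s ∈ 𝓝 x := by
      filter_upwards [h1 x hcon] with y hy
      exact hy.2 hxs
    exact hx.2 (mem_interior_iff_mem_nhds.2 h2)
  · have h2 : sᶜ ∈ 𝓝 x := by
      filter_upwards [h1 x hcon] with y hy
      exact fun hys => hxs (hy.1 hys)
    have h3 := mem_closure_iff_nhds.1 hx.1 _ h2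
    obtain ⟨y, hy1, hy2⟩ := h3
    exact hy1 hy2

/-- S3 (c): in a finite cover of a nonempty open set by SA sets some member has nonempty
interior inside the open set -/
theorem SA.exists_interior_of_cover {α : Type*} [Finite α] {f : α → Set (ι → ℝ)}
    (hf : ∀ a, SA (f a)) {O : Set (ι → ℝ)} (hO : IsOpen O) (hne : O.Nonempty)
    (hcov : O ⊆ ⋃ a, f a) : ∃ a, (O ∩ interior (f a)).Nonempty := by
  classical
  have := Fintype.ofFinite α
  choose Δ h0 h1 using fun a => (hf a).exists_discr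
  have hprod : ∏ a, Δ a ≠ 0 := Finset.prod_ne_zero_iff.2 fun a _ => h0 a
  obtain ⟨x, hxO, hx⟩ := exists_eval_ne_zero_of_isOpen hprod hO hne
  obtain ⟨a, ha⟩ := mem_iUnion.1 (hcov hxO)
  refine ⟨a, x, hxO, mem_interior_iff_mem_nhds.2 ?_⟩
  have hxa : MvPolynomial.eval x (Δ a) ≠ 0 := by
    rw [map_prod] at hx
    exact Finset.prod_ne_zero_iff.1 hx a (Finset.mem_univ a)
  filter_upwards [h1 a x hxa] with y hy
  exact hy.2 ha

/-- S4, helper264's form -/
theorem gs {f : (ι → ℝ) → ℝ} {W : Set (ι → ℝ)} (hW : IsOpen W)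
    (hf : SA {p : ι ⊕ Unit → ℝ | (fun i => p (.inl i)) ∈ W ∧
      f (fun i => p (.inl i)) = p (.inr ())}) :
    ∃ Δ : MvPolynomial ι ℝ, Δ ≠ 0 ∧ ContDiffOn ℝ ∞ f (W \ {x | MvPolynomial.eval x Δ = 0}) := by
  have h1 : SAFunOn f W := by
    have := hf.reindex (ι := Option ι) (Sum.elim some fun _ => none)
    unfold SAFunOn
    convert this using 1
    ext z
    change (_ ∧ _) ↔ (_ ∧ _)
    exact and_congr Iff.rfl eq_comm
  obtain ⟨Δ, h2, h3⟩ := h1.exists_contDiffOn hW
  exact ⟨Δ, h2, (h3.mono fun x hx => ⟨hx.1, hx.2⟩).of_le le_top⟩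

/-- S4 for finitely many functions, local form: on every nonempty open subset of `W` there is a
nonempty open set on which all `f k` are smooth. -/
theorem gs_finite {κ : Type*} [Finite κ] {f : κ → (ι → ℝ) → ℝ} {W O : Set (ι → ℝ)}
    (hf : ∀ k, SAFunOn (f k) W) (hO : IsOpen O) (hne : O.Nonempty) (hOW : O ⊆ W) :
    ∃ O' ⊆ O, IsOpen O' ∧ O'.Nonempty ∧ ∀ k, ContDiffOn ℝ ω (f k) O' := by
  classical
  have := Fintype.ofFinite κ
  choose Δ h0 h1 using fun k => (hf k).exists_contDiffAt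
  have hprod : ∏ k, Δ k ≠ 0 := Finset.prod_ne_zero_iff.2 fun k _ => h0 k
  obtain ⟨a, haO, ha⟩ := exists_eval_ne_zero_of_isOpen hprod hO hne
  refine ⟨O ∩ {x | MvPolynomial.eval x (∏ k, Δ k) ≠ 0}, inter_subset_left,
    hO.inter (isOpen_ne_zero _), ⟨a, haO, ha⟩, fun k x hx => ?_⟩
  refine (h1 k x (hOW hx.1) (Filter.mem_of_superset (hO.mem_nhds hx.1) hOW) ?_).contDiffWithinAt
  have h2 := hx.2
  change MvPolynomial.eval x (∏ k, Δ k) ≠ 0 at h2
  rw [map_prod] at h2
  exact Finset.prod_ne_zero_iff.1 h2 k (Finset.mem_univ k)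

end

/-- S7, helper264's form -/
theorem choice {ι : Type v} {κ : Type u} [Finite κ] {A : Set (ι ⊕ κ → ℝ)} (hA : SA A) :
    ∃ c : (ι → ℝ) → (κ → ℝ), (∀ x, (∃ y, Sum.elim x y ∈ A) → Sum.elim x (c x) ∈ A) ∧
      ∀ k, SAFun (fun x => c x k) := by
  have hA' : SA {z : ι ⊕ κ → ℝ | Sum.elim (fun i => z (.inl i)) (fun k => z (.inr k)) ∈ A} := by
    convert hA using 1
    ext z
    have : (Sum.elim (fun i => z (.inl i)) (fun k => z (.inr k)) : ι ⊕ κ → ℝ) = z := by
      ext k; cases k <;> rfl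
    rw [mem_ofPred_eq, this]
  obtain ⟨c, h1, h2⟩ := SA.exists_choice (P := fun x y => Sum.elim x y ∈ A) hA'
  refine ⟨c, h1, fun k => ?_⟩
  unfold SAFun SAFunOn
  convert h2 k using 1
  ext z
  simp

end Crest.Agent.R264.TS
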