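import Crest.Agent.R264.SAV
import Crest.Agent.R264.TSFrozen

/-!
Row 264: generic smoothness (S4), choice (S7) and S3 in arbitrary finite-dimensional real vector
spaces (helper219), on top of helper369's `SAV`.
-/

set_option autoImplicit false
set_option linter.unusedSectionVars false

open Set Filter Topology
open scoped ContDiff

namespace Crest.Agent.R264

universe u v

theorem Pol.linEquiv {V W : Type*} [AddCommGroup V] [Module ℝ V] [AddCommGroup W] [Module ℝ W]
    (e : V ≃ₗ[ℝ] W) : Pol (fun v => e v) := Pol.lin e.toLinearMap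

section

variable {V Z : Type*} [NormedAddCommGroup V] [NormedSpace ℝ V] [FiniteDimensional ℝ V]
  [NormedAddCommGroup Z] [NormedSpace ℝ Z] [FiniteDimensional ℝ Z]

/-- transport of a real valued function to coordinates -/
theorem SAV.safunOn {f : V → ℝ} {W : Set V} (hf : SAV {p : V × ℝ | p.1 ∈ W ∧ p.2 = f p.1})
    {n : ℕ} (e : V ≃ₗ[ℝ] (Fin n → ℝ)) :
    TS.SAFunOn (fun x => f (e.symm x)) (e.symm ⁻¹' W) := by
  unfold TS.SAFunOn
  rw [← sav_iff_sa]
  have hg : Pol (fun z : Option (Fin n) → ℝ =>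
      ((e.symm (fun i => z (some i)), z none) : V × ℝ)) := by
    refine Pol.prodMk ?_ (by fun_prop)
    have h1 : Pol (fun z : Option (Fin n) → ℝ => fun i => z (some i)) := by fun_prop
    exact (Pol.linEquiv e.symm).comp h1
  exact hf.preimage hg

/-- **S4** for finitely many real valued SA functions -/
theorem SAV.gs_finite {κ : Type*} [Finite κ] {f : κ → V → ℝ} {W O : Set V}
    (hf : ∀ k, SAV {p : V × ℝ | p.1 ∈ W ∧ p.2 = f k p.1}) (hO : IsOpen O) (hne : O.Nonempty)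
    (hOW : O ⊆ W) : ∃ O' ⊆ O, IsOpen O' ∧ O'.Nonempty ∧ ∀ k, ContDiffOn ℝ ω (f k) O' := by
  let e : V ≃ₗ[ℝ] (Fin (Module.finrank ℝ V) → ℝ) := coordE V
  let e' : V ≃L[ℝ] (Fin (Module.finrank ℝ V) → ℝ) := e.toContinuousLinearEquiv
  obtain ⟨O', h1, h2, h3, h4⟩ := TS.gs_finite (fun k => (hf k).safunOn e)
    (O := e'.symm ⁻¹' O) (hO.preimage e'.symm.continuous)
    (by obtain ⟨x, hx⟩ := hne; exact ⟨e' x, by simpa using hx⟩)
    (fun x hx => hOW hx)
  refine ⟨e' ⁻¹' O', ?_, h2.preimage e'.continuous, ?_, fun k => ?_⟩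
  · intro x hx
    have := h1 hx
    simpa using this
  · obtain ⟨y, hy⟩ := h3
    exact ⟨e'.symm y, by simpa using hy⟩
  · have h5 := (h4 k).comp (t := O') (s := e' ⁻¹' O') e'.contDiff.contDiffOn (fun x hx => hx)
    refine h5.congr fun x hx => ?_
    change f k x = f k (e.symm (e x))
    rw [LinearEquiv.symm_apply_apply]

/-- composition of an SA map with a linear functional -/
theorem SAV.graph_lin {F : V → Z} {W : Set V} (hF : SAV {p : V × Z | p.1 ∈ W ∧ p.2 = F p.1})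
    (l : Z →ₗ[ℝ] ℝ) : SAV {p : V × ℝ | p.1 ∈ W ∧ p.2 = l (F p.1)} := by
  have h1 : SAV {q : (V × ℝ) × Z | (q.1.1 ∈ W ∧ q.2 = F q.1.1) ∧ q.1.2 = l q.2} := by
    refine SAV.and ?_ ?_
    · exact hF.preimage (g := fun q : (V × ℝ) × Z => ((q.1.1, q.2) : V × Z)) (by fun_prop)
    · exact SAV.eq (by fun_prop) ((Pol.lin l).comp Pol.snd')
  have h2 := SAV.ex (P := fun (p : V × ℝ) (z : Z) => (p.1 ∈ W ∧ z = F p.1) ∧ p.2 = l z) h1
  convert h2 using 1
  ext p
  constructor
  · rintro ⟨h3, h4⟩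
    exact ⟨F p.1, ⟨h3, rfl⟩, h4⟩
  · rintro ⟨z, ⟨h3, rfl⟩, h4⟩
    exact ⟨h3, h4⟩

/-- **S4** (generic smoothness): an SA map `F` on `W` is smooth (analytic) on some nonempty open
subset of every nonempty open subset of `W`. -/
theorem SAV.gs {F : V → Z} {W O : Set V} (hF : SAV {p : V × Z | p.1 ∈ W ∧ p.2 = F p.1})
    (hO : IsOpen O) (hne : O.Nonempty) (hOW : O ⊆ W) :
    ∃ O' ⊆ O, IsOpen O' ∧ O'.Nonempty ∧ ContDiffOn ℝ ω F O' := by
  let e : Z ≃ₗ[ℝ] (Fin (Module.finrank ℝ Z) → ℝ) := coordE Z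
  let e' : Z ≃L[ℝ] (Fin (Module.finrank ℝ Z) → ℝ) := e.toContinuousLinearEquiv
  obtain ⟨O', h1, h2, h3, h4⟩ := SAV.gs_finite
    (f := fun (k : Fin (Module.finrank ℝ Z)) v => e (F v) k)
    (fun k => hF.graph_lin ((LinearMap.proj k : (Fin (Module.finrank ℝ Z) → ℝ) →ₗ[ℝ] ℝ) ∘ₗ
      e.toLinearMap)) hO hne hOW
  refine ⟨O', h1, h2, h3, ?_⟩
  have h5 : ContDiffOn ℝ ω (fun v => e (F v)) O' := contDiffOn_pi.2 h4
  have h6 := e'.symm.contDiff.comp_contDiffOn h5
  refine h6.congr fun x hx => ?_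
  change F x = e.symm (e (F x))
  rw [LinearEquiv.symm_apply_apply]

/-- density form: an open dense set on which `F` is smooth (inside the open set `W`) -/
theorem SAV.gs_dense {F : V → Z} {W : Set V} (hF : SAV {p : V × Z | p.1 ∈ W ∧ p.2 = F p.1})
    (hW : IsOpen W) : ∃ O' ⊆ W, IsOpen O' ∧ W ⊆ _root_.closure O' ∧ ContDiffOn ℝ ω F O' := by
  refine ⟨⋃₀ {O | O ⊆ W ∧ IsOpen O ∧ ContDiffOn ℝ ω F O}, ?_, ?_, ?_, ?_⟩
  · rintro x ⟨O, hO, hx⟩
    exact hO.1 hx
  · exact isOpen_sUnion fun O hO => hO.2.1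
  · intro x hx
    rw [mem_closure_iff]
    intro U hU hxU
    obtain ⟨O', h1, h2, ⟨y, hy⟩, h4⟩ := hF.gs (O := U ∩ W) (hU.inter hW) ⟨x, hxU, hx⟩
      inter_subset_right
    exact ⟨y, (h1 hy).1, O', ⟨fun z hz => (h1 hz).2, h2, h4⟩, hy⟩
  · rintro x ⟨O, hO, hx⟩
    exact ((hO.2.2 x hx).contDiffAt (hO.2.1.mem_nhds hx)).contDiffWithinAt

/-- **S3**: an SA set with empty interior is nowhere dense: its complement contains an open dense
set. -/
theorem SAV.exists_open_dense {s : Set V} (hs : SAV s) :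
    ∃ D : Set V, IsOpen D ∧ Dense D ∧ SAV D ∧ ∀ x ∈ D, ∀ᶠ y in 𝓝 x, (y ∈ s ↔ x ∈ s) := by
  let e : V ≃ₗ[ℝ] (Fin (Module.finrank ℝ V) → ℝ) := coordE V
  let e' : V ≃L[ℝ] (Fin (Module.finrank ℝ V) → ℝ) := e.toContinuousLinearEquiv
  obtain ⟨Δ, h0, h1⟩ := (hs.coord e).exists_discr
  refine ⟨e' ⁻¹' {x | MvPolynomial.eval x Δ ≠ 0}, (TS.isOpen_ne_zero Δ).preimage e'.continuous,
    ?_, ?_, ?_⟩
  · exact (TS.dense_ne_zero h0).preimage e'.toHomeomorph.isOpenMap
  · have h2 : SAV {v : V | MvPolynomial.eval (e v) Δ ≠ (0 : ℝ)} := by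
      have h3 : Pol (fun v : V => e v) := Pol.linEquiv e
      exact SAV.ne (Pol.reval Δ h3) (Pol.const 0)
    exact h2
  · intro x hx
    have h2 := h1 (e' x) hx
    have h3 := e'.continuous.continuousAt.eventually h2
    filter_upwards [h3] with y hy
    change e.symm (e y) ∈ s ↔ e.symm (e x) ∈ s at hy
    rwa [LinearEquiv.symm_apply_apply, LinearEquiv.symm_apply_apply] at hy

/-- in a finite SA cover of a nonempty open set some member has interior meeting it -/
theorem SAV.exists_interior_of_cover {α : Type*} [Finite α] {f : α → Set V}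
    (hf : ∀ a, SAV (f a)) {O : Set V} (hO : IsOpen O) (hne : O.Nonempty)
    (hcov : O ⊆ ⋃ a, f a) : ∃ a, (O ∩ _root_.interior (f a)).Nonempty := by
  classical
  choose D h1 h2 h3 h4 using fun a => (hf a).exists_open_dense
  have hd : Dense (⋂ a, D a) := dense_iInter_of_isOpen h1 h2
  obtain ⟨x, hxO, hxD⟩ := hd.inter_open_nonempty O hO hne
  obtain ⟨a, ha⟩ := mem_iUnion.1 (hcov hxO)
  refine ⟨a, x, hxO, mem_interior_iff_mem_nhds.2 ?_⟩
  filter_upwards [h4 a x (mem_iInter.1 hxD a)] with y hy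
  exact hy.2 ha

end

section choice

variable {V Z : Type*} [AddCommGroup V] [Module ℝ V] [FiniteDimensional ℝ V]
  [AddCommGroup Z] [Module ℝ Z] [FiniteDimensional ℝ Z]

/-- **S7** (choice) in vector spaces: total SA map `c` with `P v (c v)` whenever `∃ z, P v z` -/
theorem SAV.choice {P : V → Z → Prop} (h : SAV {p : V × Z | P p.1 p.2}) :
    ∃ c : V → Z, (∀ v, (∃ z, P v z) → P v (c v)) ∧ SAV {p : V × Z | p.2 = c p.1} := by
  let eV : V ≃ₗ[ℝ] (Fin (Module.finrank ℝ V) → ℝ) := coordE V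
  let eZ : Z ≃ₗ[ℝ] (Fin (Module.finrank ℝ Z) → ℝ) := coordE Z
  have h1 : TS.SA {z : Fin (Module.finrank ℝ V) ⊕ Fin (Module.finrank ℝ Z) → ℝ |
      P (eV.symm fun i => z (.inl i)) (eZ.symm fun k => z (.inr k))} := by
    rw [← sav_iff_sa]
    have h2 : Pol (fun z : Fin (Module.finrank ℝ V) ⊕ Fin (Module.finrank ℝ Z) → ℝ =>
        ((eV.symm fun i => z (.inl i), eZ.symm fun k => z (.inr k)) : V × Z)) := by
      refine Pol.prodMk ?_ ?_
      · have h3 : Pol (fun z : Fin (Module.finrank ℝ V) ⊕ Fin (Module.finrank ℝ Z) → ℝ =>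
            fun i : Fin (Module.finrank ℝ V) => z (.inl i)) := by fun_prop
        exact (Pol.linEquiv eV.symm).comp h3
      · have h3 : Pol (fun z : Fin (Module.finrank ℝ V) ⊕ Fin (Module.finrank ℝ Z) → ℝ =>
            fun i : Fin (Module.finrank ℝ Z) => z (.inr i)) := by fun_prop
        exact (Pol.linEquiv eZ.symm).comp h3
    exact h.preimage h2
  obtain ⟨c, hc1, hc2⟩ := TS.SA.exists_choice
    (P := fun x y => P (eV.symm x) (eZ.symm y)) h1
  refine ⟨fun v => eZ.symm (c (eV v)), fun v hv => ?_, ?_⟩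
  · obtain ⟨z, hz⟩ := hv
    have := hc1 (eV v) ⟨eZ z, by simpa using hz⟩
    simpa using this
  · have h3 : ∀ k, SAV {p : V × Z | eZ p.2 k = c (eV p.1) k} := by
      intro k
      have h4 := (sav_iff_sa.2 (hc2 k))
      have h5 : Pol (fun p : V × Z => fun o : Option (Fin (Module.finrank ℝ V)) =>
          o.elim (eZ p.2 k) (fun i => eV p.1 i)) := by
        refine Pol.pi fun o => ?_
        cases o with
        | none =>
          have h6 : Pol (fun p : V × Z => eZ p.2) :=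
            (Pol.linEquiv eZ).comp Pol.snd'
          exact h6.apply k
        | some i =>
          have h6 : Pol (fun p : V × Z => eV p.1) :=
            (Pol.linEquiv eV).comp Pol.fst'
          exact h6.apply i
      exact h4.preimage h5
    have h4 := SAV.forall_finite h3
    convert h4 using 1
    ext p
    change p.2 = eZ.symm (c (eV p.1)) ↔ ∀ k, eZ p.2 k = c (eV p.1) k
    constructor
    · intro h k
      rw [h]
      simp
    · intro h
      apply eZ.injective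
      ext k
      rw [h k]
      simp

end choice

end Crest.Agent.R264
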