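import Crest.Agent.R264.AIface
import Crest.Agent.R264.SAVSmooth

/-!
Row 264, node `AI.MSmooth` (helper219): the support function `M(c) = max_K Re (g q_c)` of a compact
semialgebraic set is semialgebraic, hence smooth on a nonempty open subset of `{M > 0}`.
-/

set_option autoImplicit false
set_option linter.unusedSectionVars false

open Set Filter Topology
open scoped ContDiff

namespace Crest.Agent.R264.AI

/-- `(c, x) ↦ Re (g q_c)(x)` is a polynomial function -/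
theorem pol_gq {N : ℕ} (g : MvPolynomial (Fin N) ℂ) :
    Pol (fun p : QV N × (Fin N → ℂ) => (gq g p.1 p.2).re) := by
  have h1 : Pol (fun p : QV N × (Fin N → ℂ) => MvPolynomial.eval p.2 g) :=
    Pol.ceval g Pol.snd'
  have h2 : Pol (fun p : QV N × (Fin N → ℂ) => Pk.qev p.1 p.2) := by
    unfold Pk.qev
    fun_prop
  unfold gq
  exact (h1.cmul h2).re

theorem Mfun_eq_Mg {N : ℕ} (K : Set (Fin N → ℂ)) (g : MvPolynomial (Fin N) ℂ) :
    Mfun K g = Pk.Mg (fun x => MvPolynomial.eval x g) K := rfl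

theorem continuous_cev {N : ℕ} (g : MvPolynomial (Fin N) ℂ) :
    Continuous fun x : Fin N → ℂ => MvPolynomial.eval x g := MvPolynomial.continuous_eval g

/-- the graph of `M` is semialgebraic -/
theorem Mfun_sav {N : ℕ} {K : Set (Fin N → ℂ)} (g : MvPolynomial (Fin N) ℂ) (hK : IsCompact K)
    (hne : K.Nonempty) (hsa : SAV K) :
    SAV {p : QV N × ℝ | p.1 ∈ (univ : Set (QV N)) ∧ p.2 = Mfun K g p.1} := by
  have hp := pol_gq g
  have h1 : SAV {p : QV N × ℝ | ∃ x : Fin N → ℂ, x ∈ K ∧ p.2 = (gq g p.1 x).re} := by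
    apply SAV.bex (Q := fun (_ : QV N × ℝ) (x : Fin N → ℂ) => x ∈ K)
      (P := fun (p : QV N × ℝ) (x : Fin N → ℂ) => p.2 = (gq g p.1 x).re)
    · exact hsa.preimage Pol.snd'
    · refine SAV.eq (by fun_prop) ?_
      exact hp.comp (g := fun q : (QV N × ℝ) × (Fin N → ℂ) => ((q.1.1, q.2) : QV N × (Fin N → ℂ)))
        (by fun_prop)
  have h2 : SAV {p : QV N × ℝ | ∀ x : Fin N → ℂ, x ∈ K → (gq g p.1 x).re ≤ p.2} := by
    apply SAV.ball (Q := fun (_ : QV N × ℝ) (x : Fin N → ℂ) => x ∈ K)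
      (P := fun (p : QV N × ℝ) (x : Fin N → ℂ) => (gq g p.1 x).re ≤ p.2)
    · exact hsa.preimage Pol.snd'
    · refine SAV.le ?_ (by fun_prop)
      exact hp.comp (g := fun q : (QV N × ℝ) × (Fin N → ℂ) => ((q.1.1, q.2) : QV N × (Fin N → ℂ)))
        (by fun_prop)
  have h3 := h1.and h2
  convert h3 using 1
  ext p
  have hle : ∀ x ∈ K, (gq g p.1 x).re ≤ Mfun K g p.1 := fun x hx =>
    Pk.Fg_le_Mg (continuous_cev g) hK p.1 hx
  obtain ⟨x0, hx0, hx0'⟩ := Pk.exists_Mg (continuous_cev g) hK hne p.1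
  have hx0'' : (gq g p.1 x0).re = Mfun K g p.1 := hx0'
  constructor
  · rintro ⟨-, h⟩
    refine ⟨⟨x0, hx0, ?_⟩, fun x hx => ?_⟩
    · rw [h, hx0'']
    · rw [h]; exact hle x hx
  · rintro ⟨⟨x, hx, h⟩, h'⟩
    refine ⟨mem_univ _, le_antisymm ?_ ?_⟩
    · rw [h]; exact hle x hx
    · rw [← hx0'']; exact h' x0 hx0

/-- **Node MSmooth** -/
theorem mSmooth : MSmooth := by
  intro N K g hK hne hsa hpos
  have hc : Continuous (Mfun K g) := Pk.continuous_Mg (continuous_cev g) hK hne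
  obtain ⟨c0, hc0⟩ := hpos
  obtain ⟨O', h1, h2, h3, h4⟩ := (Mfun_sav g hK hne hsa).gs
    (O := {c | 0 < Mfun K g c}) (isOpen_lt continuous_const hc) ⟨c0, hc0⟩ (subset_univ _)
  exact ⟨O', h2, h3, fun c hc => h1 hc, h4.of_le le_top⟩

end Crest.Agent.R264.AI
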