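import Crest.Agent.R264.LemICor

/-!
Row 264: Montel's theorem on an open subset of a finite dimensional complex space (helper420).
-/

set_option autoImplicit false

open Set Filter Topology Metric Complex

noncomputable section

namespace Crest.Agent.R264

open Crest.Agent.R266.SCV

variable {E : Type*} [NormedAddCommGroup E] [NormedSpace ℂ E] [FiniteDimensional ℂ E]
variable {G : Type*} [NormedAddCommGroup G] [NormedSpace ℂ G] [FiniteDimensional ℂ G]

omit [FiniteDimensional ℂ E] [FiniteDimensional ℂ G] in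
/-- uniform local Lipschitz estimate -/
lemma lip_of_bounded {D : Set E} {f : E → G} {M : ℝ}
    (hf : DifferentiableOn ℂ f D) (hD : IsOpen D) (hM : ∀ z ∈ D, ‖f z‖ ≤ M) {x : E} {r : ℝ}
    (hr : 0 < r) (hx : ball x (2 * r) ⊆ D) {y z : E} (hy : y ∈ ball x r) (hz : z ∈ ball x r) :
    ‖f y - f z‖ ≤ M / r * ‖y - z‖ := by
  have hsub : ∀ w ∈ ball x r, ball w r ⊆ D := by
    intro w hw v hv
    refine hx ?_
    have h1 : dist w x < r := hw
    have h2 : dist v w < r := hv
    have h3 : dist v x ≤ dist v w + dist w x := dist_triangle _ _ _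
    show dist v x < 2 * r
    linarith
  refine (convex_ball x r).norm_image_sub_le_of_norm_fderiv_le (𝕜 := ℂ) (fun w hw => ?_)
    (fun w hw => ?_) hz hy
  · exact hf.differentiableAt (hD.mem_nhds (hsub w hw (mem_ball_self hr)))
  · exact norm_fderiv_le_of_ball hr (hf.mono (hsub w hw)) (fun v hv => hM v (hsub w hw hv))

/-- **Montel's theorem.** -/
theorem montel {D : Set E} (hD : IsOpen D) {f : ℕ → E → G}
    (hf : ∀ k, DifferentiableOn ℂ (f k) D) {M : ℝ} (hM : ∀ k, ∀ z ∈ D, ‖f k z‖ ≤ M) :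
    ∃ g : E → G, DifferentiableOn ℂ g D ∧
      ∃ ph : ℕ → ℕ, StrictMono ph ∧ TendstoLocallyUniformlyOn (fun k => f (ph k)) g atTop D := by
  classical
  have : ProperSpace E := FiniteDimensional.proper ℂ E
  have : ProperSpace G := FiniteDimensional.proper ℂ G
  obtain ⟨S, hSD, hSc, hSd⟩ :=
    (TopologicalSpace.IsSeparable.of_separableSpace D).exists_countable_dense_subset
  have : Countable S := hSc.to_subtype
  have hM' : ∀ k, ∀ z ∈ D, ‖f k z‖ ≤ |M| := fun k z hz => (hM k z hz).trans (le_abs_self M)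
  -- extraction of a subsequence converging on `S`
  let v : ℕ → (S → G) := fun k s => f k s
  have hv : ∀ k, v k ∈ Set.univ.pi (fun _ : S => closedBall (0 : G) |M|) := by
    intro k s _
    exact mem_closedBall_zero_iff.2 (hM' k s (hSD s.2))
  have hcomp : IsCompact (Set.univ.pi (fun _ : S => closedBall (0 : G) |M|)) :=
    isCompact_univ_pi (fun _ => isCompact_closedBall _ _)
  obtain ⟨w, -, ph, hph, hlim⟩ := hcomp.tendsto_subseq hv
  have hlimS : ∀ s (hs : s ∈ S), Tendsto (fun k => f (ph k) s) atTop (𝓝 (w ⟨s, hs⟩)) :=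
    fun s hs => tendsto_pi_nhds.1 hlim ⟨s, hs⟩
  -- local radius and Lipschitz constant
  have hloc : ∀ x ∈ D, ∀ ε > 0, ∃ δ > 0, ball x δ ⊆ D ∧ ∀ k, ∀ y ∈ ball x δ, ∀ z ∈ ball x δ,
      ‖f k y - f k z‖ ≤ ε := by
    intro x hx ε hε
    obtain ⟨R, hR, hRD⟩ := Metric.isOpen_iff.1 hD x hx
    have hr : 0 < R / 2 := by positivity
    have hL : 0 < |M| / (R / 2) + 1 := by positivity
    refine ⟨min (R / 2) (ε / (2 * (|M| / (R / 2) + 1))), lt_min hr (by positivity), ?_, ?_⟩
    · exact (ball_subset_ball ((min_le_left _ _).trans (by linarith))).trans hRD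
    · intro k y hy z hz
      have hy1 : y ∈ ball x (R / 2) := ball_subset_ball (min_le_left _ _) hy
      have hz1 : z ∈ ball x (R / 2) := ball_subset_ball (min_le_left _ _) hz
      have h1 := lip_of_bounded (hf k) hD (hM' k) hr
        (by rw [mul_div_cancel₀ R two_ne_zero]; exact hRD) hy1 hz1
      have hy2 : dist y x < ε / (2 * (|M| / (R / 2) + 1)) := lt_of_lt_of_le hy (min_le_right _ _)
      have hz2 : dist z x < ε / (2 * (|M| / (R / 2) + 1)) := lt_of_lt_of_le hz (min_le_right _ _)
      have h3 : ‖y - z‖ ≤ 2 * (ε / (2 * (|M| / (R / 2) + 1))) := by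
        rw [← dist_eq_norm]
        have := dist_triangle_right y z x
        linarith
      calc ‖f k y - f k z‖ ≤ |M| / (R / 2) * ‖y - z‖ := h1
        _ ≤ (|M| / (R / 2) + 1) * (2 * (ε / (2 * (|M| / (R / 2) + 1)))) := by
            gcongr
            linarith
        _ = ε := by field_simp
  have hpt : ∀ x ∈ D, ∃ a, Tendsto (fun k => f (ph k) x) atTop (𝓝 a) := by
    intro x hx
    refine cauchySeq_tendsto_of_complete ?_
    rw [Metric.cauchySeq_iff]
    intro ε hε
    obtain ⟨δ, hδ, -, hδf⟩ := hloc x hx (ε / 4) (by positivity)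
    obtain ⟨s, hs, hsx⟩ := Metric.mem_closure_iff.1 (hSd hx) δ hδ
    have hsb : s ∈ ball x δ := by rw [mem_ball, dist_comm]; exact hsx
    obtain ⟨N, hN⟩ := Metric.cauchySeq_iff.1 (hlimS s hs).cauchySeq (ε / 4) (by positivity)
    refine ⟨N, fun m hm n hn => ?_⟩
    have h1 := hδf (ph m) x (mem_ball_self hδ) s hsb
    have h2 := hδf (ph n) s hsb x (mem_ball_self hδ)
    have h3 := hN m hm n hn
    rw [dist_eq_norm] at h3 ⊢
    have h4 : f (ph m) x - f (ph n) x = (f (ph m) x - f (ph m) s) + (f (ph m) s - f (ph n) s) +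
        (f (ph n) s - f (ph n) x) := by abel
    rw [h4]
    refine lt_of_le_of_lt (norm_add₃_le) ?_
    linarith
  choose! g hg using hpt
  have hlu : TendstoLocallyUniformlyOn (fun k => f (ph k)) g atTop D := by
    rw [Metric.tendstoLocallyUniformlyOn_iff]
    intro ε hε x hx
    obtain ⟨δ, hδ, hδD, hδf⟩ := hloc x hx (ε / 4) (by positivity)
    refine ⟨ball x δ, mem_nhdsWithin_of_mem_nhds (ball_mem_nhds x hδ), ?_⟩
    have hgx : ∀ y ∈ ball x δ, ‖g x - g y‖ ≤ ε / 4 := fun y hy =>
      le_of_tendsto ((hg x hx).sub (hg y (hδD hy))).norm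
        (Eventually.of_forall fun k => hδf (ph k) x (mem_ball_self hδ) y hy)
    filter_upwards [(Metric.tendsto_nhds.1 (hg x hx)) (ε / 4) (by positivity)] with k hk y hy
    have h1 := hδf (ph k) x (mem_ball_self hδ) y hy
    have h2 := hgx y hy
    rw [dist_eq_norm] at hk ⊢
    have h4 : g y - f (ph k) y = -(g x - g y) + -(f (ph k) x - g x) +
        (f (ph k) x - f (ph k) y) := by abel
    rw [h4]
    refine lt_of_le_of_lt (norm_add₃_le) ?_
    rw [norm_neg, norm_neg]
    linarith
  exact ⟨g, (analyticOnNhd_of_tendstoLocallyUniformlyOn hD hlu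
    (Eventually.of_forall fun k => hf _)).differentiableOn, ph, hph, hlu⟩

/-- vector valued Montel in the form used for Lemma I -/
theorem montelOn {D : Set E} (hD : IsOpen D) : LemI.MontelOn D G :=
  fun _ _ hf hM => montel hD hf hM

end Crest.Agent.R264
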