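import Crest.Agent.R264.BshMain
import Crest.Agent.R264.BisT
import Crest.Agent.R264.BisE
import Crest.Agent.R264.BisP
import Crest.Agent.R264.BisN
import Crest.Agent.R264.BisS2

/-! Row 264: PART B closed, Theorem B without hypotheses. -/

set_option autoImplicit false

namespace Crest.Agent.R264.PartB

open Crest.Agent.R264.Bsh

theorem thmB_final : Crest.Agent.R264.Bsh.ThmB :=
  Crest.Agent.R264.BshM.thmB Crest.Agent.R264.Bsh.bisT
    (Crest.Agent.R264.Bsh.bisE Crest.Agent.R264.Bsh.bisT)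
    Crest.Agent.R264.BisPf.bisP Crest.Agent.R264.BisNf.bisN
    (Crest.Agent.R264.BisS.bisS Crest.Agent.R264.Bsh.bisT
      (Crest.Agent.R264.Bsh.bisE Crest.Agent.R264.Bsh.bisT) Crest.Agent.R264.BisPf.bisP)

end Crest.Agent.R264.PartB
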