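import Mathlib
import Crest.Agent.R264.Pk1

/-!
# Row 264, module PK (helper318), part 2: peaks along a real stratum

`S ⊆ ℂ^N` is near `x1 = peak q1` a real submanifold (chart `c : RChart r S x1`), `K ∩ S` is
relatively open in `S` near `x1`, `peak q ∈ S` for `q` near `q1` and `M` is `C^2` near `q1`.  Then

* `peak_open` : `peak` is open near `q1` as a map into `S`;
* `peak_crit` : if `q` is near `q1`, `σ ∈ S` near `x1` and `d (Re (g q))|_S (σ) = 0`, then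
  `σ = peak q` (so `σ` is the strict maximum point of `Re (g q)` over `K`).
-/

set_option autoImplicit false

open Set Filter Topology ContDiff

noncomputable section

namespace Crest.Agent.R264

/-- A real `C^∞` local parametrisation of `S ⊆ ℂ^N` near `x`. -/
structure RChart {N : ℕ} (r : ℕ) (S : Set (Fin N → ℂ)) (x : Fin N → ℂ) where
  /-- ambient neighbourhood -/
  O : Set (Fin N → ℂ)
  /-- parameter domain -/
  W : Set (Fin r → ℝ)
  /-- parametrisation -/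
  ι : (Fin r → ℝ) → (Fin N → ℂ)
  /-- coordinates (smooth in the ambient space) -/
  t : (Fin N → ℂ) → (Fin r → ℝ)
  hO : IsOpen O
  hW : IsOpen W
  mem : x ∈ O
  hι : ContDiffOn ℝ ∞ ι W
  ht : ContDiffOn ℝ ∞ t O
  ι_mem : ∀ w ∈ W, ι w ∈ S ∧ ι w ∈ O
  t_ι : ∀ w ∈ W, t (ι w) = w
  t_mem : ∀ y ∈ S, y ∈ O → t y ∈ W
  ι_t : ∀ y ∈ S, y ∈ O → ι (t y) = y

namespace Pk

variable {N r : ℕ}

/-- `Fg` in the chart -/
def Ft (g : (Fin N → ℂ) → ℂ) (ι : (Fin r → ℝ) → (Fin N → ℂ)) (p : QP N × (Fin r → ℝ)) : ℝ :=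
  Fg g p.1 (ι p.2)

lemma contDiff_qev : ContDiff ℝ ∞ (fun p : QP N × (Fin N → ℂ) => qev p.1 p.2) := by
  unfold qev
  fun_prop

lemma contDiffOn_Ft {g : (Fin N → ℂ) → ℂ} (hg : ContDiff ℝ ∞ g) {ι : (Fin r → ℝ) → (Fin N → ℂ)}
    {W : Set (Fin r → ℝ)} (hι : ContDiffOn ℝ ∞ ι W) :
    ContDiffOn ℝ ∞ (Ft g ι) (univ ×ˢ W) := by
  unfold Ft Fg
  have h1 : ContDiffOn ℝ ∞ (fun p : QP N × (Fin r → ℝ) => ι p.2) (univ ×ˢ W) :=
    hι.comp contDiff_snd.contDiffOn fun p hp => hp.2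
  have h2 : ContDiffOn ℝ ∞ (fun p : QP N × (Fin r → ℝ) => qev p.1 (ι p.2)) (univ ×ˢ W) :=
    contDiff_qev.comp_contDiffOn (contDiff_fst.contDiffOn.prodMk h1)
  exact Complex.reCLM.contDiff.comp_contDiffOn ((hg.comp_contDiffOn h1).mul h2)

/-- the `τ`-derivative of `Ft` -/
def Dt (g : (Fin N → ℂ) → ℂ) (ι : (Fin r → ℝ) → (Fin N → ℂ)) (p : QP N × (Fin r → ℝ)) :
    (Fin r → ℝ) →L[ℝ] ℝ := fderiv ℝ (fun τ => Fg g p.1 (ι τ)) p.2

section

variable {g : (Fin N → ℂ) → ℂ} (hg : ContDiff ℝ ∞ g) {ι : (Fin r → ℝ) → (Fin N → ℂ)}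
  {W : Set (Fin r → ℝ)} (hW : IsOpen W) (hι : ContDiffOn ℝ ∞ ι W)

include hg hW hι

lemma Dt_eq {p : QP N × (Fin r → ℝ)} (hp : p.2 ∈ W) :
    Dt g ι p = (fderiv ℝ (Ft g ι) p).comp (ContinuousLinearMap.inr ℝ (QP N) (Fin r → ℝ)) := by
  have h1 : DifferentiableAt ℝ (Ft g ι) p :=
    ((contDiffOn_Ft hg hι).contDiffAt ((isOpen_univ.prod hW).mem_nhds
      ⟨mem_univ _, hp⟩)).differentiableAt (by simp)
  have h2 : HasFDerivAt (fun τ : Fin r → ℝ => (p.1, τ)) (ContinuousLinearMap.inr ℝ (QP N) (Fin r → ℝ))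
      p.2 := hasFDerivAt_prodMk_right p.1 p.2
  have h3 : HasFDerivAt (Ft g ι) (fderiv ℝ (Ft g ι) p) (p.1, p.2) := h1.hasFDerivAt
  exact (h3.comp p.2 h2).fderiv

lemma contDiffOn_Dt : ContDiffOn ℝ ∞ (Dt g ι) (univ ×ˢ W) := by
  have h1 : ContDiffOn ℝ ∞ (fderiv ℝ (Ft g ι)) (univ ×ˢ W) :=
    (contDiffOn_Ft hg hι).fderiv_of_isOpen (isOpen_univ.prod hW) (by simp)
  have h2 : ContDiffOn ℝ ∞ (fun p => (fderiv ℝ (Ft g ι) p).comp
      (ContinuousLinearMap.inr ℝ (QP N) (Fin r → ℝ))) (univ ×ˢ W) :=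
    h1.clm_comp contDiffOn_const
  exact h2.congr fun p hp => Dt_eq hg hW hι hp.2

lemma Dt_add {τ : Fin r → ℝ} (hτ : τ ∈ W) (q q' : QP N) :
    Dt g ι (q + q', τ) = Dt g ι (q, τ) + Dt g ι (q', τ) := by
  have hd : ∀ q : QP N, DifferentiableAt ℝ (fun τ => Fg g q (ι τ)) τ := fun q => by
    have h1 : DifferentiableAt ℝ (Ft g ι) (q, τ) :=
      ((contDiffOn_Ft hg hι).contDiffAt ((isOpen_univ.prod hW).mem_nhds
        ⟨mem_univ _, hτ⟩)).differentiableAt (by simp)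
    exact h1.comp τ (hasFDerivAt_prodMk_right q τ).differentiableAt
  unfold Dt
  simp only
  rw [← fderiv_add (hd q) (hd q')]
  congr 1
  funext τ
  simp [Fg_add]

lemma Dt_smul {τ : Fin r → ℝ} (hτ : τ ∈ W) (c : ℝ) (q : QP N) :
    Dt g ι (c • q, τ) = c • Dt g ι (q, τ) := by
  have hd : DifferentiableAt ℝ (fun τ => Fg g q (ι τ)) τ := by
    have h1 : DifferentiableAt ℝ (Ft g ι) (q, τ) :=
      ((contDiffOn_Ft hg hι).contDiffAt ((isOpen_univ.prod hW).mem_nhds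
        ⟨mem_univ _, hτ⟩)).differentiableAt (by simp)
    exact h1.comp τ (hasFDerivAt_prodMk_right q τ).differentiableAt
  unfold Dt
  simp only
  rw [← fderiv_const_smul hd]
  congr 1
  funext τ
  simp [Fg_rsmul]

/-- derivative of `Dt` in the `q` direction -/
lemma fderiv_Dt_inl {p : QP N × (Fin r → ℝ)} (hp : p.2 ∈ W) (q' : QP N) :
    fderiv ℝ (Dt g ι) p (q', 0) = Dt g ι (q', p.2) := by
  have h1 : DifferentiableAt ℝ (Dt g ι) p :=
    ((contDiffOn_Dt hg hW hι).contDiffAt ((isOpen_univ.prod hW).mem_nhds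
      ⟨mem_univ _, hp⟩)).differentiableAt (by simp)
  have h2 : HasDerivAt (fun s : ℝ => (p.1 + s • q', p.2)) (q', (0 : Fin r → ℝ)) 0 := by
    have h3 : HasDerivAt (fun s : ℝ => p.1 + s • q') q' 0 := by
      simpa using ((hasDerivAt_id (0 : ℝ)).smul_const q').const_add p.1
    exact h3.prodMk (hasDerivAt_const _ _)
  have h4 : HasFDerivAt (Dt g ι) (fderiv ℝ (Dt g ι) p) (p.1 + (0 : ℝ) • q', p.2) := by
    rw [zero_smul, add_zero]; exact h1.hasFDerivAt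
  have h5 := h4.comp_hasDerivAt (0 : ℝ) h2
  have h6 : HasDerivAt (fun s : ℝ => Dt g ι (p.1, p.2) + s • Dt g ι (q', p.2)) (Dt g ι (q', p.2)) 0 := by
    simpa using ((hasDerivAt_id (0 : ℝ)).smul_const (Dt g ι (q', p.2))).const_add (Dt g ι (p.1, p.2))
  refine h5.unique (h6.congr_of_eventuallyEq (Eventually.of_forall fun s => ?_))
  show Dt g ι (p.1 + s • q', p.2) = _
  rw [Dt_add hg hW hι hp, Dt_smul hg hW hι hp]

end

/-- every real functional on `ℂ^N` is the real part of a complex linear one -/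
lemma exists_re_eq (l : (Fin N → ℂ) →L[ℝ] ℝ) :
    ∃ c : Fin N → ℂ, ∀ z, l z = (∑ i, c i * z i).re := by
  refine ⟨fun i => (l (Pi.single i 1) : ℂ) - Complex.I * (l (Pi.single i Complex.I) : ℂ), fun z => ?_⟩
  have hz : z = ∑ i, ((z i).re • (Pi.single i (1 : ℂ) : Fin N → ℂ) +
      (z i).im • (Pi.single i Complex.I : Fin N → ℂ)) := by
    funext j
    rw [Finset.sum_apply]
    simp only [Pi.add_apply, Pi.smul_apply, Pi.single_apply, Complex.real_smul]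
    rw [Finset.sum_eq_single j]
    · simp [Complex.re_add_im]
    · intro b _ hb
      simp [Ne.symm hb]
    · simp
  conv_lhs => rw [hz]
  rw [map_sum, Complex.re_sum]
  refine Finset.sum_congr rfl fun i _ => ?_
  rw [map_add, map_smul, map_smul]
  simp
  ring

/-- the linear polynomial `Σ c_i (z_i - x_i)` -/
def ql (c x : Fin N → ℂ) : QP N := (-∑ i, c i * x i, c, 0)

lemma qev_ql (c x z : Fin N → ℂ) : qev (ql c x) z = ∑ i, c i * (z i - x i) := by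
  simp only [qev, ql, Pi.zero_apply, zero_mul, Finset.sum_const_zero, add_zero, mul_sub,
    Finset.sum_sub_distrib]
  ring

/-- left inverse of the derivative of a chart -/
lemma RChart.left_inv {S : Set (Fin N → ℂ)} {x : Fin N → ℂ} (c : RChart r S x) {τ : Fin r → ℝ}
    (hτ : τ ∈ c.W) (v : Fin r → ℝ) :
    fderiv ℝ c.t (c.ι τ) (fderiv ℝ c.ι τ v) = v := by
  have h1 : HasFDerivAt c.ι (fderiv ℝ c.ι τ) τ :=
    ((c.hι.contDiffAt (c.hW.mem_nhds hτ)).differentiableAt (by simp)).hasFDerivAt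
  have h2 : HasFDerivAt c.t (fderiv ℝ c.t (c.ι τ)) (c.ι τ) :=
    ((c.ht.contDiffAt (c.hO.mem_nhds (c.ι_mem τ hτ).2)).differentiableAt (by simp)).hasFDerivAt
  have h3 := h2.comp τ h1
  have h4 : HasFDerivAt (fun τ => τ : (Fin r → ℝ) → (Fin r → ℝ))
      (ContinuousLinearMap.id ℝ (Fin r → ℝ)) τ := hasFDerivAt_id τ
  have h5 : (c.t ∘ c.ι) =ᶠ[𝓝 τ] fun τ => τ := by
    filter_upwards [c.hW.mem_nhds hτ] with s hs
    exact c.t_ι s hs
  have h6 := (h3.congr_of_eventuallyEq h5.symm).unique h4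
  exact DFunLike.congr_fun h6 v

/-- every covector of `S` at `ι τ` is the differential of some `Re (g q')` with `q'` linear,
vanishing at `ι τ` -/
lemma surj_Dt {g : (Fin N → ℂ) → ℂ} (hg : ContDiff ℝ ∞ g) {S : Set (Fin N → ℂ)} {x : Fin N → ℂ}
    (c : RChart r S x) {τ : Fin r → ℝ} (hτ : τ ∈ c.W) (hne : g (c.ι τ) ≠ 0)
    (l : (Fin r → ℝ) →L[ℝ] ℝ) : ∃ q' : QP N, Dt g c.ι (q', τ) = l := by
  obtain ⟨a, ha⟩ := exists_re_eq (l.comp (fderiv ℝ c.t (c.ι τ)))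
  refine ⟨ql (fun i => a i / g (c.ι τ)) (c.ι τ), ?_⟩
  have h1 : HasFDerivAt c.ι (fderiv ℝ c.ι τ) τ :=
    ((c.hι.contDiffAt (c.hW.mem_nhds hτ)).differentiableAt (by simp)).hasFDerivAt
  have hgd : HasFDerivAt (fun τ => g (c.ι τ)) ((fderiv ℝ g (c.ι τ)).comp (fderiv ℝ c.ι τ)) τ :=
    ((hg.differentiable (by simp)) (c.ι τ)).hasFDerivAt.comp τ h1
  have h2 : ∀ i, HasFDerivAt (fun τ' : Fin r → ℝ => c.ι τ' i - c.ι τ i)
      ((ContinuousLinearMap.proj (R := ℝ) (φ := fun _ : Fin N => ℂ) i).comp (fderiv ℝ c.ι τ)) τ :=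
    fun i => ((hasFDerivAt_pi'.1 h1) i).sub_const _
  have h3 : HasFDerivAt (fun τ' : Fin r → ℝ => ∑ i, (a i / g (c.ι τ)) * (c.ι τ' i - c.ι τ i))
      (∑ i, (a i / g (c.ι τ)) • ((ContinuousLinearMap.proj (R := ℝ) (φ := fun _ : Fin N => ℂ) i).comp
        (fderiv ℝ c.ι τ))) τ :=
    HasFDerivAt.fun_sum fun i _ => (h2 i).const_mul _
  have h4 := hgd.mul h3
  have h5 := Complex.reCLM.hasFDerivAt.comp τ h4
  unfold Dt
  have h6 : (fun τ' => Fg g (ql (fun i => a i / g (c.ι τ)) (c.ι τ)) (c.ι τ')) =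
      (Complex.reCLM ∘ ((fun τ => g (c.ι τ)) *
        fun τ' => ∑ i, (a i / g (c.ι τ)) * (c.ι τ' i - c.ι τ i))) := by
    funext τ'
    simp only [Fg, qev_ql, Function.comp_apply, Complex.reCLM_apply, Pi.mul_apply]
  simp only
  rw [h6, h5.fderiv]
  ext1 v
  have h7 := ha (fderiv ℝ c.ι τ v)
  rw [ContinuousLinearMap.comp_apply, RChart.left_inv c hτ] at h7
  rw [h7]
  have h8 : (∑ i, a i / g (c.ι τ) * (c.ι τ i - c.ι τ i)) = 0 := by simp
  rw [h8, ContinuousLinearMap.comp_apply, add_apply, smul_apply, smul_apply, sum_apply]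
  simp only [smul_apply, ContinuousLinearMap.comp_apply, ContinuousLinearMap.proj_apply,
    smul_eq_mul, zero_mul, add_zero, Finset.mul_sum, Complex.reCLM_apply]
  refine congrArg Complex.re (Finset.sum_congr rfl fun i _ => ?_)
  rw [← mul_assoc, mul_div_cancel₀ _ hne]

end Pk

end Crest.Agent.R264
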