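import Mathlib
import Crest.Agent.R264.Pk2

/-!
# Row 264, module PK (helper318), part 3: openness of the peak map and the peak criterion (A3)
-/

set_option autoImplicit false

open Set Filter Topology ContDiff

noncomputable section

namespace Crest.Agent.R264.Pk

variable {N r : ℕ}

/-- hypotheses of A3: near `q1` the maximum is `C^2`, positive, the peaks lie in `S`, `S` is a
real submanifold near `x1 = peak q1` and `K ∩ S` is relatively open in `S` near `x1` -/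
structure PkHyp (g : (Fin N → ℂ) → ℂ) (K S : Set (Fin N → ℂ)) (W2 : Set (QP N)) : Prop where
  hg : ContDiff ℝ ∞ g
  hK : IsCompact K
  hne : K.Nonempty
  hW2 : IsOpen W2
  hM : ContDiffOn ℝ 2 (Mg g K) W2
  hpos : ∀ q ∈ W2, 0 < Mg g K q
  hS : ∀ q ∈ W2, peak g K q ∈ S
  hKS : ∀ q ∈ W2, ∀ᶠ y in 𝓝[S] (peak g K q), y ∈ K

section

variable {g : (Fin N → ℂ) → ℂ} {K S : Set (Fin N → ℂ)} {W2 : Set (QP N)} (H : PkHyp g K S W2)

include H

lemma PkHyp.hgc : Continuous g := H.hg.continuous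

lemma PkHyp.diff {q : QP N} (hq : q ∈ W2) : DifferentiableAt ℝ (Mg g K) q :=
  (H.hM.differentiableOn (by simp)).differentiableAt (H.hW2.mem_nhds hq)

lemma PkHyp.contDiffOn : ContDiffOn ℝ 1 (peak g K) W2 :=
  contDiffOn_peak H.hgc H.hK H.hne H.hW2 (n := 1)
    (by have h := H.hM; rw [← one_add_one_eq_two] at h; exact h) H.hpos

lemma PkHyp.contAt {q : QP N} (hq : q ∈ W2) : ContinuousAt (peak g K) q :=
  (H.contDiffOn.continuousOn).continuousAt (H.hW2.mem_nhds hq)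

lemma PkHyp.spec {q : QP N} (hq : q ∈ W2) :
    peak g K q ∈ K ∧ Fg g q (peak g K q) = Mg g K q :=
  peak_spec H.hgc H.hK H.hne (H.diff hq) (H.hpos q hq)

lemma PkHyp.lt {q : QP N} (hq : q ∈ W2) {x : Fin N → ℂ} (hx : x ∈ K) (hxp : x ≠ peak g K q) :
    Fg g q x < Fg g q (peak g K q) := by
  rw [(H.spec hq).2]
  exact lt_peak H.hgc H.hK (H.diff hq) (H.hpos q hq) hx hxp

lemma PkHyp.g_ne {q : QP N} (hq : q ∈ W2) : g (peak g K q) ≠ 0 :=
  g_peak_ne_zero H.hgc H.hK H.hne (H.diff hq) (H.hpos q hq)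

variable {q1 : QP N} (hq1 : q1 ∈ W2) (c : RChart r S (peak g K q1))

include hq1

/-- first order condition at the peaks -/
lemma PkHyp.crit0 : ∀ᶠ q in 𝓝 q1, q ∈ W2 ∧ peak g K q ∈ c.O ∧ c.t (peak g K q) ∈ c.W ∧
    c.ι (c.t (peak g K q)) = peak g K q ∧ Dt g c.ι (q, c.t (peak g K q)) = 0 := by
  have h1 : ∀ᶠ q in 𝓝 q1, q ∈ W2 := H.hW2.mem_nhds hq1
  have h2 : ∀ᶠ q in 𝓝 q1, peak g K q ∈ c.O := (H.contAt hq1) (c.hO.mem_nhds c.mem)
  filter_upwards [h1, h2] with q hq hqO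
  have hqS := H.hS q hq
  have hτ := c.t_mem _ hqS hqO
  have hι := c.ι_t _ hqS hqO
  refine ⟨hq, hqO, hτ, hι, ?_⟩
  -- local maximum in the chart
  have hcont : ContinuousAt c.ι (c.t (peak g K q)) :=
    (c.hι.continuousOn).continuousAt (c.hW.mem_nhds hτ)
  have h3 : ∀ᶠ τ in 𝓝 (c.t (peak g K q)), c.ι τ ∈ K := by
    have h4 := eventually_nhdsWithin_iff.1 (H.hKS q hq)
    rw [← hι] at h4
    filter_upwards [hcont.eventually h4, c.hW.mem_nhds hτ] with τ hτ1 hτ2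
    exact hτ1 (c.ι_mem τ hτ2).1
  have h5 : IsLocalMax (fun τ => Fg g q (c.ι τ)) (c.t (peak g K q)) := by
    filter_upwards [h3] with τ hτ3
    rw [hι, (H.spec hq).2]
    exact Fg_le_Mg H.hgc H.hK q hτ3
  exact h5.fderiv_eq_zero

/-- the structure of the derivatives at `(q1, τ1)` -/
lemma PkHyp.key : Function.Bijective (fun v : Fin r → ℝ =>
      fderiv ℝ (Dt g c.ι) (q1, c.t (peak g K q1)) (0, v)) ∧
    (∀ v : Fin r → ℝ, ∃ q' : QP N, fderiv ℝ (fun q => c.t (peak g K q)) q1 q' = v) ∧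
    HasStrictFDerivAt (fun q => c.t (peak g K q)) (fderiv ℝ (fun q => c.t (peak g K q)) q1) q1 ∧
    HasStrictFDerivAt (Dt g c.ι) (fderiv ℝ (Dt g c.ι) (q1, c.t (peak g K q1)))
      (q1, c.t (peak g K q1)) := by
  set τ1 := c.t (peak g K q1) with hτ1
  have h0 := (H.crit0 hq1 c).self_of_nhds
  obtain ⟨-, -, hW1, hι1, -⟩ := h0
  -- smoothness
  have hτc : ContDiffAt ℝ 1 (fun q => c.t (peak g K q)) q1 := by
    have h1 : ContDiffAt ℝ 1 (peak g K) q1 := H.contDiffOn.contDiffAt (H.hW2.mem_nhds hq1)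
    have h2 : ContDiffAt ℝ 1 c.t (peak g K q1) :=
      (c.ht.contDiffAt (c.hO.mem_nhds c.mem)).of_le (by norm_cast)
    exact h2.comp q1 h1
  have hDc : ContDiffAt ℝ 1 (Dt g c.ι) (q1, τ1) :=
    ((contDiffOn_Dt H.hg c.hW c.hι).contDiffAt ((isOpen_univ.prod c.hW).mem_nhds
      ⟨mem_univ _, hW1⟩)).of_le (by norm_cast)
  have hs1 := hτc.hasStrictFDerivAt (by simp)
  have hs2 := hDc.hasStrictFDerivAt (by simp)
  -- chain rule
  have hchain : ∀ q' : QP N, fderiv ℝ (Dt g c.ι) (q1, τ1)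
      (0, fderiv ℝ (fun q => c.t (peak g K q)) q1 q') = - Dt g c.ι (q', τ1) := by
    intro q'
    have h1 : HasFDerivAt (fun q => (q, c.t (peak g K q)))
        ((ContinuousLinearMap.id ℝ (QP N)).prod (fderiv ℝ (fun q => c.t (peak g K q)) q1)) q1 :=
      (hasFDerivAt_id q1).prodMk hs1.hasFDerivAt
    have h2 := hs2.hasFDerivAt.comp q1 h1
    have h3 : (Dt g c.ι ∘ fun q => (q, c.t (peak g K q))) =ᶠ[𝓝 q1] fun _ => 0 := by
      filter_upwards [H.crit0 hq1 c] with q hq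
      exact hq.2.2.2.2
    have h4 := (h2.congr_of_eventuallyEq h3.symm).unique (hasFDerivAt_const _ _)
    have h5 := DFunLike.congr_fun h4 q'
    rw [ContinuousLinearMap.comp_apply, ContinuousLinearMap.prod_apply] at h5
    have h6 : ((ContinuousLinearMap.id ℝ (QP N)) q',
        (fderiv ℝ (fun q => c.t (peak g K q)) q1) q') =
        (q', (0 : Fin r → ℝ)) + ((0 : QP N), (fderiv ℝ (fun q => c.t (peak g K q)) q1) q') := by
      simp
    rw [h6, map_add, fderiv_Dt_inl H.hg c.hW c.hι hW1] at h5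
    exact eq_neg_of_add_eq_zero_right (by simpa using h5)
  -- A as a linear map
  let A : (Fin r → ℝ) →ₗ[ℝ] ((Fin r → ℝ) →L[ℝ] ℝ) :=
    ((fderiv ℝ (Dt g c.ι) (q1, τ1)).comp
      (ContinuousLinearMap.inr ℝ (QP N) (Fin r → ℝ))).toLinearMap
  have hA : ∀ v, A v = fderiv ℝ (Dt g c.ι) (q1, τ1) (0, v) := fun v => rfl
  have hgne : g (c.ι τ1) ≠ 0 := by rw [hι1]; exact H.g_ne hq1
  have hsurj' : ∀ l, ∃ q' : QP N, A (fderiv ℝ (fun q => c.t (peak g K q)) q1 q') = l := by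
    intro l
    obtain ⟨q', hq'⟩ := surj_Dt H.hg c hW1 hgne (-l)
    exact ⟨q', by rw [hA, hchain, hq', neg_neg]⟩
  have hsurj : Function.Surjective A := fun l => by
    obtain ⟨q', hq'⟩ := hsurj' l
    exact ⟨_, hq'⟩
  have hfr : Module.finrank ℝ (Fin r → ℝ) = Module.finrank ℝ ((Fin r → ℝ) →L[ℝ] ℝ) := by
    rw [← (LinearMap.toContinuousLinearMap (𝕜 := ℝ) (E := Fin r → ℝ) (F' := ℝ)).finrank_eq]
    exact (Subspace.dual_finrank_eq (K := ℝ) (V := Fin r → ℝ)).symm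
  have hinj : Function.Injective A :=
    (LinearMap.injective_iff_surjective_of_finrank_eq_finrank hfr).2 hsurj
  refine ⟨⟨hinj, hsurj⟩, fun v => ?_, hs1, hs2⟩
  obtain ⟨q', hq'⟩ := hsurj' (A v)
  exact ⟨q', hinj hq'⟩

include c in
/-- **A3**: the peak map is open near `q1` (as a map into `S`). -/
theorem PkHyp.peak_open {NN : Set (QP N)} (hNN : NN ∈ 𝓝 q1) :
    ∀ᶠ σ in 𝓝[S] (peak g K q1), ∃ q ∈ NN, q ∈ W2 ∧ peak g K q = σ := by
  obtain ⟨-, h2, h3, -⟩ := H.key hq1 c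
  have h4 : map (fun q => c.t (peak g K q)) (𝓝 q1) = 𝓝 (c.t (peak g K q1)) :=
    h3.map_nhds_eq_of_surj (LinearMap.range_eq_top.2 h2)
  have h5 : (fun q => c.t (peak g K q)) '' (NN ∩ {q | q ∈ W2 ∧ peak g K q ∈ c.O ∧
      c.t (peak g K q) ∈ c.W ∧ c.ι (c.t (peak g K q)) = peak g K q ∧
      Dt g c.ι (q, c.t (peak g K q)) = 0}) ∈ 𝓝 (c.t (peak g K q1)) := by
    rw [← h4]
    exact image_mem_map (inter_mem hNN (H.crit0 hq1 c))
  have h6 : ContinuousAt c.t (peak g K q1) :=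
    (c.ht.continuousOn).continuousAt (c.hO.mem_nhds c.mem)
  rw [eventually_nhdsWithin_iff]
  filter_upwards [h6 h5, c.hO.mem_nhds c.mem] with σ hσ hσO hσS
  obtain ⟨q, ⟨hqN, hq⟩, hqσ⟩ := hσ
  refine ⟨q, hqN, hq.1, ?_⟩
  rw [← hq.2.2.2.1, ← c.ι_t σ hσS hσO]
  exact congrArg c.ι hqσ

/-- **A3 (PK)**: critical points of `Re (g q)` on `S` near `x1` are peaks. -/
theorem PkHyp.peak_crit : ∃ NN ∈ 𝓝 q1, NN ⊆ W2 ∧ ∃ B ∈ 𝓝 (peak g K q1), ∀ q ∈ NN, ∀ σ ∈ S, σ ∈ B →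
    fderiv ℝ (fun τ => Fg g q (c.ι τ)) (c.t σ) = 0 → σ = peak g K q := by
  obtain ⟨h1, -, h3, h4⟩ := H.key hq1 c
  set τ1 := c.t (peak g K q1) with hτ1
  let A : (Fin r → ℝ) →L[ℝ] ((Fin r → ℝ) →L[ℝ] ℝ) :=
    (fderiv ℝ (Dt g c.ι) (q1, τ1)).comp (ContinuousLinearMap.inr ℝ (QP N) (Fin r → ℝ))
  have hA : ∀ v, A v = fderiv ℝ (Dt g c.ι) (q1, τ1) (0, v) := fun v => rfl
  have hinj : LinearMap.ker (A : (Fin r → ℝ) →ₗ[ℝ] ((Fin r → ℝ) →L[ℝ] ℝ)) = ⊥ :=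
    LinearMap.ker_eq_bot.2 h1.1
  obtain ⟨κ, hκ0, hκ⟩ := (A : (Fin r → ℝ) →ₗ[ℝ] ((Fin r → ℝ) →L[ℝ] ℝ)).exists_antilipschitzWith hinj
  have hκ' : ∀ v, ‖v‖ ≤ κ * ‖A v‖ := fun v => by
    simpa using hκ.le_mul_dist v 0
  -- strict differentiability
  have hlo := h4.isLittleO
  have hε : (0 : ℝ) < 1 / (2 * κ) := by positivity
  have h5 := hlo.def hε
  -- pull back to pairs
  have hcont : Tendsto (fun p : QP N × (Fin N → ℂ) =>
      (((p.1, c.t p.2), (p.1, c.t (peak g K p.1))) :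
        (QP N × (Fin r → ℝ)) × (QP N × (Fin r → ℝ)))) (𝓝 (q1, peak g K q1))
      (𝓝 ((q1, τ1), (q1, τ1))) := by
    have ht : ContinuousAt c.t (peak g K q1) :=
      (c.ht.continuousOn).continuousAt (c.hO.mem_nhds c.mem)
    have hp : ContinuousAt (fun q => c.t (peak g K q)) q1 := h3.continuousAt
    refine Tendsto.prodMk_nhds (Tendsto.prodMk_nhds ?_ ?_) (Tendsto.prodMk_nhds ?_ ?_)
    · exact continuous_fst.tendsto (q1, peak g K q1)
    · exact ContinuousAt.comp (f := fun p : QP N × (Fin N → ℂ) => p.2)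
        (x := (q1, peak g K q1)) ht continuousAt_snd
    · exact continuous_fst.tendsto (q1, peak g K q1)
    · exact ContinuousAt.comp (f := fun p : QP N × (Fin N → ℂ) => p.1)
        (x := (q1, peak g K q1)) hp continuousAt_fst
  have h6 := hcont.eventually h5
  rw [nhds_prod_eq] at h6
  obtain ⟨P, hP, Q, hQ, hPQ⟩ := eventually_prod_iff.1 h6
  refine ⟨{q | P q} ∩ {q | q ∈ W2 ∧ peak g K q ∈ c.O ∧ c.t (peak g K q) ∈ c.W ∧
      c.ι (c.t (peak g K q)) = peak g K q ∧ Dt g c.ι (q, c.t (peak g K q)) = 0},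
    inter_mem hP (H.crit0 hq1 c), fun q hq => hq.2.1, {σ | Q σ} ∩ c.O,
    inter_mem hQ (c.hO.mem_nhds c.mem), ?_⟩
  rintro q ⟨hqP, hq⟩ σ hσS ⟨hσQ, hσO⟩ hcrit
  have h7 := hPQ hqP hσQ
  simp only at h7
  have h8 : Dt g c.ι (q, c.t σ) = 0 := hcrit
  rw [h8, hq.2.2.2.2] at h7
  have h9 : ((q, c.t σ) - (q, c.t (peak g K q)) : QP N × (Fin r → ℝ)) =
      (0, c.t σ - c.t (peak g K q)) := by simp
  rw [h9, sub_zero, zero_sub, norm_neg, ← hA] at h7
  have h10 : ‖((0 : QP N), c.t σ - c.t (peak g K q))‖ = ‖c.t σ - c.t (peak g K q)‖ := by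
    rw [Prod.norm_def]; simp
  rw [h10] at h7
  have h11 := hκ' (c.t σ - c.t (peak g K q))
  have hκ1 : (0 : ℝ) < κ := by exact_mod_cast hκ0
  have h12 : ‖c.t σ - c.t (peak g K q)‖ = 0 := by
    have h13 : (κ : ℝ) * ‖A (c.t σ - c.t (peak g K q))‖ ≤ ‖c.t σ - c.t (peak g K q)‖ / 2 := by
      calc (κ : ℝ) * ‖A (c.t σ - c.t (peak g K q))‖
          ≤ κ * (1 / (2 * κ) * ‖c.t σ - c.t (peak g K q)‖) :=
            mul_le_mul_of_nonneg_left h7 hκ1.le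
        _ = ‖c.t σ - c.t (peak g K q)‖ / 2 := by field_simp
    have h14 := norm_nonneg (c.t σ - c.t (peak g K q))
    linarith
  have h15 : c.t σ = c.t (peak g K q) := by
    rw [norm_eq_zero] at h12; exact sub_eq_zero.1 h12
  rw [← hq.2.2.2.1, ← c.ι_t σ hσS hσO, h15]

end

end Crest.Agent.R264.Pk
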