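import Mathlib
import Crest.Agent.R264.Pk3
import Crest.Agent.R264.CPDefs
import Crest.Agent.R266.SCV

/-!
# Row 264, module PK (helper318), part 4

* `select` : a continuous map into a finite union of locally closed sets maps some open set into
  one of them;
* `PkHyp.not_interior` : the peak is not an interior point of `K` in a complex submanifold of
  positive dimension (this gives `r < 2n`);
* `taylor_EE` : anisotropic second order Taylor expansion on `EE m k`;
* `lam_form` : complex linear forms with vanishing real part on `ℂ^m × ℝ^k`.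
-/

set_option autoImplicit false

open Set Filter Topology ContDiff Metric

noncomputable section

namespace Crest.Agent.R264.Pk

/-! ### selection of a stratum -/

theorem select {X Y α : Type*} [TopologicalSpace X] [TopologicalSpace Y] (S : α → Set Y)
    (hS : ∀ a, IsLocallyClosed (S a)) (p : X → Y) (s : Finset α) :
    ∀ W : Set X, IsOpen W → W.Nonempty → ContinuousOn p W → (∀ q ∈ W, ∃ a ∈ s, p q ∈ S a) →
    ∃ W' ⊆ W, IsOpen W' ∧ W'.Nonempty ∧ ∃ a ∈ s, ∀ q ∈ W', p q ∈ S a := by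
  classical
  induction s using Finset.induction_on with
  | empty =>
    intro W _ hne _ hcov
    obtain ⟨q, hq⟩ := hne
    obtain ⟨a, ha, -⟩ := hcov q hq
    simp at ha
  | insert a s ha ih =>
    intro W hW hne hp hcov
    obtain ⟨U, C, hU, hC, hUC⟩ := hS a
    have h1 : IsOpen (W ∩ p ⁻¹' U) := hp.isOpen_inter_preimage hW hU
    have h2 : IsOpen (W ∩ p ⁻¹' Cᶜ) := hp.isOpen_inter_preimage hW hC.isOpen_compl
    have lift : ∀ W1 ⊆ W, IsOpen W1 → W1.Nonempty → (∀ q ∈ W1, p q ∉ S a) →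
        ∃ W' ⊆ W, IsOpen W' ∧ W'.Nonempty ∧ ∃ a' ∈ insert a s, ∀ q ∈ W', p q ∈ S a' := by
      intro W1 hW1 hW1o hW1n hW1a
      obtain ⟨W', hW', ho, hn, a', ha', h⟩ := ih W1 hW1o hW1n (hp.mono hW1) fun q hq => by
        obtain ⟨b, hb, hb'⟩ := hcov q (hW1 hq)
        rcases Finset.mem_insert.1 hb with rfl | hb
        · exact absurd hb' (hW1a q hq)
        · exact ⟨b, hb, hb'⟩
      exact ⟨W', hW'.trans hW1, ho, hn, a', Finset.mem_insert_of_mem ha', h⟩
    by_cases h3 : ((W ∩ p ⁻¹' U) ∩ (W ∩ p ⁻¹' Cᶜ)).Nonempty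
    · refine lift _ (fun q hq => hq.1.1) (h1.inter h2) h3 fun q hq hqa => ?_
      rw [hUC] at hqa
      exact hq.2.2 hqa.2
    · by_cases h4 : (W ∩ p ⁻¹' U).Nonempty
      · refine ⟨_, inter_subset_left, h1, h4, a, Finset.mem_insert_self _ _, fun q hq => ?_⟩
        rw [hUC]
        refine ⟨hq.2, ?_⟩
        by_contra hqC
        exact h3 ⟨q, hq, hq.1, hqC⟩
      · refine lift W subset_rfl hW hne fun q hq hqa => ?_
        rw [hUC] at hqa
        exact h4 ⟨q, hq, hqa.1⟩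

variable {N : ℕ}

/-- the function `g q` -/
def Gq (g : (Fin N → ℂ) → ℂ) (q : QP N) (x : Fin N → ℂ) : ℂ := g x * qev q x

lemma Fg_eq (g : (Fin N → ℂ) → ℂ) (q : QP N) (x : Fin N → ℂ) : Fg g q x = (Gq g q x).re := rfl

lemma differentiable_qev (q : QP N) : Differentiable ℂ (qev q) := by
  unfold qev; fun_prop

lemma differentiable_Gq {g : (Fin N → ℂ) → ℂ} (hg : Differentiable ℂ g) (q : QP N) :
    Differentiable ℂ (Gq g q) := hg.mul (differentiable_qev q)

/-- the peak is not an interior point of `K` in a complex submanifold of positive dimension -/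
theorem PkHyp.not_interior {g : (Fin N → ℂ) → ℂ} {K S : Set (Fin N → ℂ)} {W2 : Set (QP N)}
    (H : PkHyp g K S W2) (hgh : Differentiable ℂ g) {q : QP N} (hq : q ∈ W2) {E : Type*}
    [NormedAddCommGroup E] [NormedSpace ℂ E] [Nontrivial E] {φ : E → (Fin N → ℂ)} {Ω : Set E}
    (hΩ : IsOpen Ω) (hφ : DifferentiableOn ℂ φ Ω) {w0 : E} (hw0 : w0 ∈ Ω)
    (hφK : ∀ w ∈ Ω, φ w ∈ K) (hφ0 : φ w0 = peak g K q) (hinj : InjOn φ Ω) : False := by
  obtain ⟨e, he⟩ := exists_ne (0 : E)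
  have hline : Continuous (fun s : ℂ => w0 + s • e) := by fun_prop
  have hnear : ∀ᶠ s : ℂ in 𝓝 0, w0 + s • e ∈ Ω := by
    have h1 : (fun s : ℂ => w0 + s • e) 0 ∈ Ω := by simpa using hw0
    exact hline.continuousAt.eventually_mem (hΩ.mem_nhds h1)
  let f : ℂ → ℂ := fun s => Complex.exp (Gq g q (φ (w0 + s • e)))
  have hfd : ∀ᶠ s in 𝓝 (0 : ℂ), DifferentiableAt ℂ f s := by
    filter_upwards [hnear] with s hs
    have h1 : DifferentiableAt ℂ φ (w0 + s • e) := hφ.differentiableAt (hΩ.mem_nhds hs)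
    have h2 : DifferentiableAt ℂ (fun s : ℂ => w0 + s • e) s := by fun_prop
    have h3 : DifferentiableAt ℂ (fun s : ℂ => φ (w0 + s • e)) s := h1.comp s h2
    have h4 : DifferentiableAt ℂ (fun s : ℂ => Gq g q (φ (w0 + s • e))) s :=
      (differentiable_Gq hgh q _).comp s h3
    exact h4.cexp
  have hmax : IsLocalMax (norm ∘ f) 0 := by
    filter_upwards [hnear] with s hs
    simp only [Function.comp_apply, f, Complex.norm_exp, zero_smul, add_zero]
    rw [Real.exp_le_exp, ← Fg_eq, ← Fg_eq, hφ0, (H.spec hq).2]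
    exact Fg_le_Mg H.hgc H.hK q (hφK _ hs)
  have heq := Complex.eventually_eq_of_isLocalMax_norm hfd hmax
  have hcon : ∀ᶠ s in 𝓝 (0 : ℂ), s = 0 := by
    filter_upwards [heq, hnear] with s hs hsΩ
    by_contra hs0
    have h1 : φ (w0 + s • e) ≠ peak g K q := by
      rw [← hφ0]
      intro h2
      have h3 := hinj hsΩ hw0 h2
      have h4 : s • e = 0 := by simpa using h3
      rcases smul_eq_zero.1 h4 with h5 | h5
      · exact hs0 h5
      · exact he h5
    have h2 := H.lt hq (hφK _ hsΩ) h1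
    have h3 := congrArg norm hs
    simp only [f, Complex.norm_exp, zero_smul, add_zero] at h3
    have h4 := Real.exp_injective h3
    rw [← Fg_eq, ← Fg_eq, hφ0] at h4
    linarith
  have h6 : (𝓝[≠] (0 : ℂ)).NeBot := inferInstance
  obtain ⟨s, hs, hs'⟩ := ((hcon.filter_mono nhdsWithin_le_nhds).and
    (self_mem_nhdsWithin (a := (0 : ℂ)) (s := {0}ᶜ))).exists
  exact hs' hs

/-! ### Taylor expansion -/

variable {m k : ℕ}

theorem taylor_EE {f : EE m k → ℂ} (hf : AnalyticAt ℂ f 0) :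
    ∃ (Q : (Fin m → ℂ) →L[ℂ] (Fin m → ℂ) →L[ℂ] ℂ) (C : ℝ), ∀ᶠ y in 𝓝 (0 : EE m k),
      ‖f y - f 0 - fderiv ℂ f 0 y - Q y.1 y.1‖ ≤
        C * (‖y.1‖ ^ 3 + ‖y.1‖ * ‖y.2‖ + ‖y.2‖ ^ 2) := by
  obtain ⟨p, hp⟩ := hf
  have h1 := hp.isBigO_sub_partialSum_pow 3
  obtain ⟨C, hC⟩ := h1.bound
  let B : EE m k →L[ℂ] EE m k →L[ℂ] ℂ :=
    ((continuousMultilinearCurryFin1 ℂ (EE m k) ℂ).toContinuousLinearEquiv :
      ContinuousMultilinearMap ℂ (fun _ : Fin 1 => EE m k) ℂ →L[ℂ] (EE m k →L[ℂ] ℂ)).comp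
      (p 2).curryLeft
  have hB : ∀ y, B y y = p 2 (fun _ => y) := by
    intro y
    show (p 2).curryLeft y (Fin.snoc 0 y) = _
    rw [ContinuousMultilinearMap.curryLeft_apply]
    congr 1
    funext i
    fin_cases i <;> rfl
  let il : (Fin m → ℂ) →L[ℂ] EE m k := ContinuousLinearMap.inl ℂ _ _
  refine ⟨B.bilinearComp il il, |C| + 2 * ‖B‖, ?_⟩
  have h2 : ∀ᶠ y in 𝓝 (0 : EE m k), ‖y‖ < 1 := by
    have := (continuous_norm (E := EE m k)).tendsto 0
    rw [norm_zero] at this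
    exact this.eventually (gt_mem_nhds one_pos)
  filter_upwards [hC, h2] with y hy hy1
  have h3 : p.partialSum 3 y = f 0 + fderiv ℂ f 0 y + B y y := by
    unfold FormalMultilinearSeries.partialSum
    rw [Finset.sum_range_succ, Finset.sum_range_succ, Finset.sum_range_succ, Finset.sum_range_zero,
      hB, hp.coeff_zero, hp.fderiv_eq]
    simp [continuousMultilinearCurryFin1_apply]
    congr 1
    funext i
    fin_cases i
    rfl
  rw [zero_add, h3] at hy
  have hz : ‖y.1‖ ≤ ‖y‖ := norm_fst_le y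
  have hw : ‖y.2‖ ≤ ‖y‖ := norm_snd_le y
  have hyd : y = il y.1 + (0, y.2) := by
    ext i <;> simp [il]
  have h4 : B y y - B.bilinearComp il il y.1 y.1 =
      B (il y.1) (0, y.2) + B (0, y.2) (il y.1) + B (0, y.2) (0, y.2) := by
    rw [ContinuousLinearMap.bilinearComp_apply]
    conv_lhs => rw [hyd]
    simp only [map_add, add_apply]
    have e1 : (il y.1 + (0, y.2)).1 = y.1 := by simp [il]
    rw [e1]
    ring
  have n1 : ‖il y.1‖ = ‖y.1‖ := by simp [il, Prod.norm_def]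
  have n2 : ‖((0 : Fin m → ℂ), y.2)‖ = ‖y.2‖ := by simp [Prod.norm_def]
  have h5 : ‖B y y - B.bilinearComp il il y.1 y.1‖ ≤ 2 * ‖B‖ * (‖y.1‖ * ‖y.2‖ + ‖y.2‖ ^ 2) := by
    rw [h4]
    have b1 := B.le_opNorm₂ (il y.1) ((0 : Fin m → ℂ), y.2)
    have b2 := B.le_opNorm₂ ((0 : Fin m → ℂ), y.2) (il y.1)
    have b3 := B.le_opNorm₂ ((0 : Fin m → ℂ), y.2) ((0 : Fin m → ℂ), y.2)
    rw [n1, n2] at b1 b2
    rw [n2] at b3
    have b4 := norm_add₃_le (a := B (il y.1) (0, y.2)) (b := B (0, y.2) (il y.1))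
      (c := B (0, y.2) (0, y.2))
    nlinarith [norm_nonneg B, norm_nonneg y.2, mul_nonneg (norm_nonneg B) (sq_nonneg ‖y.2‖)]
  have h6 : f y - f 0 - fderiv ℂ f 0 y - B.bilinearComp il il y.1 y.1 =
      (f y - (f 0 + fderiv ℂ f 0 y + B y y)) + (B y y - B.bilinearComp il il y.1 y.1) := by ring
  rw [h6]
  have h7 : ‖y‖ ^ 3 ≤ ‖y.1‖ ^ 3 + ‖y.2‖ ^ 2 := by
    rw [Prod.norm_def] at hy1 ⊢
    rcases le_total ‖y.1‖ ‖y.2‖ with h | h
    · rw [max_eq_right h] at hy1 ⊢
      nlinarith [norm_nonneg y.1, norm_nonneg y.2, pow_nonneg (norm_nonneg y.1) 3,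
        mul_nonneg (sq_nonneg ‖y.2‖) (sub_nonneg.2 hy1.le)]
    · rw [max_eq_left h]
      nlinarith [sq_nonneg ‖y.2‖]
  have h8 : ‖f y - (f 0 + fderiv ℂ f 0 y + B y y)‖ ≤ |C| * (‖y.1‖ ^ 3 + ‖y.2‖ ^ 2) := by
    refine hy.trans ?_
    rw [norm_pow, norm_norm]
    exact (mul_le_mul_of_nonneg_right (le_abs_self C) (by positivity)).trans
      (mul_le_mul_of_nonneg_left h7 (abs_nonneg C))
  refine (norm_add_le _ _).trans ((add_le_add h8 h5).trans ?_)
  have e1 : 0 ≤ ‖y.1‖ * ‖y.2‖ := by positivity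
  have e2 : 0 ≤ ‖y.1‖ ^ 3 := by positivity
  have e3 := norm_nonneg B
  nlinarith [mul_nonneg (abs_nonneg C) e1, mul_nonneg e3 e2]

/-- complex linear forms whose real part vanishes on `ℂ^m × ℝ^k` -/
theorem lam_form (l : EE m k →L[ℂ] ℂ) (h : ∀ (z : Fin m → ℂ) (u : Fin k → ℝ), (l (z, cvec u)).re = 0) :
    ∀ y, l y = Complex.I * ∑ j, (((l (0, Pi.single j 1)).im : ℝ) : ℂ) * y.2 j := by
  have h1 : ∀ z : Fin m → ℂ, l (z, 0) = 0 := by
    intro z
    have c0 : (cvec (0 : Fin k → ℝ)) = 0 := by funext i; simp [cvec]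
    have a1 := h z 0
    have a2 := h (Complex.I • z) 0
    rw [c0] at a1 a2
    have e : ((Complex.I • z, 0) : EE m k) = Complex.I • (z, 0) := by simp
    rw [e, map_smul] at a2
    apply Complex.ext
    · simpa using a1
    · simpa using a2
  have h2 : ∀ j : Fin k, l (0, Pi.single j 1) =
      Complex.I * (((l (0, Pi.single j 1)).im : ℝ) : ℂ) := by
    intro j
    have a := h 0 (Pi.single j 1)
    have e : cvec (Pi.single j 1 : Fin k → ℝ) = Pi.single j 1 := by
      funext i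
      by_cases hij : i = j
      · subst hij; simp [cvec]
      · simp [cvec, hij]
    rw [e] at a
    apply Complex.ext
    · simpa using a
    · simp
  intro y
  have e : y = (y.1, 0) + ∑ j, y.2 j • ((0 : Fin m → ℂ), (Pi.single j 1 : Fin k → ℂ)) := by
    apply Prod.ext
    · simp [Prod.fst_sum]
    · simp only [Prod.snd_add, zero_add, Prod.snd_sum, Prod.smul_snd]
      funext i
      rw [Finset.sum_apply]
      simp [Pi.single_apply]
  conv_lhs => rw [e]
  rw [map_add, h1, zero_add, map_sum, Finset.mul_sum]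
  refine Finset.sum_congr rfl fun j _ => ?_
  rw [map_smul, h2 j, smul_eq_mul]
  simp
  ring

end Crest.Agent.R264.Pk
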