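import Mathlib
import Crest.Agent.R264.Pk4

/-!
# Row 264, module PK (helper318), part 5: control at the peak points (A8)
-/

set_option autoImplicit false

open Set Filter Topology ContDiff Metric

noncomputable section

namespace Crest.Agent.R264.Pk

variable {N m k r : ℕ}

/-- the quadratic polynomial `(Σ c_i (z_i - x_i))^2` -/
def qq (c x : Fin N → ℂ) : QP N :=
  ((∑ i, c i * x i) ^ 2, fun j => -2 * (∑ i, c i * x i) * c j, fun i j => c i * c j)

lemma qev_qq (c x z : Fin N → ℂ) : qev (qq c x) z = (∑ i, c i * (z i - x i)) ^ 2 := by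
  have h1 : (∑ i, c i * (z i - x i)) = (∑ i, c i * z i) - ∑ i, c i * x i := by
    simp only [mul_sub, Finset.sum_sub_distrib]
  have h2 : (∑ i, ∑ j, c i * c j * (z i * z j)) = (∑ i, c i * z i) ^ 2 := by
    rw [sq, Finset.sum_mul_sum]
    exact Finset.sum_congr rfl fun i _ => Finset.sum_congr rfl fun j _ => by ring
  have h3 : ∀ a : ℂ, (∑ i : Fin N, (a * c i) * z i) = a * ∑ i, c i * z i := fun a => by
    rw [Finset.mul_sum]
    exact Finset.sum_congr rfl fun i _ => by ring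
  simp only [qev, qq]
  rw [h1, h2, h3]
  ring

lemma Gq_add (g : (Fin N → ℂ) → ℂ) (q q' : QP N) (x : Fin N → ℂ) :
    Gq g (q + q') x = Gq g q x + Gq g q' x := by simp only [Gq, qev_add, mul_add]

lemma Gq_smul (g : (Fin N → ℂ) → ℂ) (c : ℂ) (q : QP N) (x : Fin N → ℂ) :
    Gq g (c • q) x = c * Gq g q x := by simp only [Gq, qev_smul]; ring

/-- the differential of `g q` at `σ` -/
def lam (g : (Fin N → ℂ) → ℂ) (q : QP N) (σ : Fin N → ℂ) : (Fin N → ℂ) →L[ℂ] ℂ :=
  fderiv ℂ (Gq g q) σ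

section

variable {g : (Fin N → ℂ) → ℂ} (hgh : Differentiable ℂ g)

include hgh

lemma hasFDerivAt_Gq (q : QP N) (σ : Fin N → ℂ) : HasFDerivAt (Gq g q) (lam g q σ) σ :=
  ((differentiable_Gq hgh q) σ).hasFDerivAt

lemma lam_add (q q' : QP N) (σ : Fin N → ℂ) : lam g (q + q') σ = lam g q σ + lam g q' σ := by
  have h := (hasFDerivAt_Gq hgh q σ).add (hasFDerivAt_Gq hgh q' σ)
  refine (hasFDerivAt_Gq hgh (q + q') σ).unique (h.congr_of_eventuallyEq ?_)
  exact Eventually.of_forall fun x => Gq_add g q q' x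

lemma lam_smul (c : ℂ) (q : QP N) (σ : Fin N → ℂ) : lam g (c • q) σ = c • lam g q σ := by
  have h := (hasFDerivAt_Gq hgh q σ).const_mul c
  refine (hasFDerivAt_Gq hgh (c • q) σ).unique (h.congr_of_eventuallyEq ?_)
  exact Eventually.of_forall fun x => Gq_smul g c q x

omit hgh in
lemma hasFDerivAt_lin (c σ : Fin N → ℂ) (x : Fin N → ℂ) :
    HasFDerivAt (fun z : Fin N → ℂ => ∑ i, c i * (z i - σ i))
      (∑ i, c i • (ContinuousLinearMap.proj (R := ℂ) (φ := fun _ : Fin N => ℂ) i)) x := by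
  refine HasFDerivAt.fun_sum fun i _ => ?_
  exact (((ContinuousLinearMap.proj (R := ℂ) (φ := fun _ : Fin N => ℂ) i).hasFDerivAt
    (x := x)).sub_const (σ i)).const_mul (c i)

lemma lam_ql (c σ v : Fin N → ℂ) : lam g (ql c σ) σ v = g σ * ∑ i, c i * v i := by
  have h1 := ((hgh σ).hasFDerivAt).mul (hasFDerivAt_lin c σ σ)
  have h2 : HasFDerivAt (Gq g (ql c σ)) _ σ := h1.congr_of_eventuallyEq
    (Eventually.of_forall fun x => by simp only [Gq, qev_ql, Pi.mul_apply])
  rw [(hasFDerivAt_Gq hgh _ σ).unique h2]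
  simp

lemma lam_qq (c σ : Fin N → ℂ) : lam g (qq c σ) σ = 0 := by
  have h0 := (hasFDerivAt_lin c σ σ).pow 2
  have h1 := ((hgh σ).hasFDerivAt).mul h0
  have h2 : HasFDerivAt (Gq g (qq c σ)) _ σ := h1.congr_of_eventuallyEq
    (Eventually.of_forall fun x => by simp only [Gq, qev_qq, Pi.mul_apply])
  rw [(hasFDerivAt_Gq hgh _ σ).unique h2]
  ext v
  simp

/-- `d (Re (g q))|_S` in the chart through the complex differential -/
lemma Dt_eq_lam {S : Set (Fin N → ℂ)} {x1 : Fin N → ℂ} (c : RChart r S x1) {τ : Fin r → ℝ}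
    (hτ : τ ∈ c.W) (q : QP N) (v : Fin r → ℝ) :
    Dt g c.ι (q, τ) v = (lam g q (c.ι τ) (fderiv ℝ c.ι τ v)).re := by
  have h1 : HasFDerivAt c.ι (fderiv ℝ c.ι τ) τ :=
    ((c.hι.contDiffAt (c.hW.mem_nhds hτ)).differentiableAt (by simp)).hasFDerivAt
  have h2 : HasFDerivAt (Gq g q) ((lam g q (c.ι τ)).restrictScalars ℝ) (c.ι τ) :=
    (hasFDerivAt_Gq hgh q (c.ι τ)).restrictScalars ℝ
  have h3 := Complex.reCLM.hasFDerivAt.comp τ (h2.comp τ h1)
  have h4 : (fun τ' => Fg g q (c.ι τ')) = (Complex.reCLM ∘ (Gq g q ∘ c.ι)) := by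
    funext τ'; rfl
  unfold Dt
  simp only
  rw [h4, h3.fderiv]
  simp

end

/-- first order condition at a peak, in any chart -/
lemma PkHyp.crit_at {g : (Fin N → ℂ) → ℂ} {K S : Set (Fin N → ℂ)} {W2 : Set (QP N)}
    (H : PkHyp g K S W2) {x1 : Fin N → ℂ} (c : RChart r S x1) {q : QP N} (hq : q ∈ W2)
    (hqO : peak g K q ∈ c.O) : Dt g c.ι (q, c.t (peak g K q)) = 0 := by
  have hqS := H.hS q hq
  have hτ := c.t_mem _ hqS hqO
  have hι := c.ι_t _ hqS hqO
  have hcont : ContinuousAt c.ι (c.t (peak g K q)) :=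
    (c.hι.continuousOn).continuousAt (c.hW.mem_nhds hτ)
  have h3 : ∀ᶠ τ in 𝓝 (c.t (peak g K q)), c.ι τ ∈ K := by
    have h4 := eventually_nhdsWithin_iff.1 (H.hKS q hq)
    rw [← hι] at h4
    filter_upwards [hcont.eventually h4, c.hW.mem_nhds hτ] with τ hτ1 hτ2
    exact hτ1 (c.ι_mem τ hτ2).1
  have h5 : IsLocalMax (fun τ => Fg g q (c.ι τ)) (c.t (peak g K q)) := by
    filter_upwards [h3] with τ hτ3
    rw [hι, (H.spec hq).2]
    exact Fg_le_Mg H.hgc H.hK q hτ3
  exact h5.fderiv_eq_zero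

/-- coefficients of a linear functional through an injective linear map -/
lemma exists_coeff (A : EE m k →L[ℂ] (Fin N → ℂ)) (hA : Function.Injective A)
    (l : EE m k →ₗ[ℂ] ℂ) : ∃ a : Fin N → ℂ, ∀ y, ∑ j, a j * A y j = l y := by
  obtain ⟨B, hB⟩ := (A : EE m k →ₗ[ℂ] (Fin N → ℂ)).exists_leftInverse_of_injective
    (LinearMap.ker_eq_bot.2 hA)
  refine ⟨fun j => l (B (Pi.single j 1)), fun y => ?_⟩
  have h1 : A y = ∑ j, A y j • (Pi.single j (1 : ℂ) : Fin N → ℂ) := by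
    funext i
    rw [Finset.sum_apply]
    simp [Pi.single_apply]
  have h2 : B (A y) = y := by
    have := LinearMap.congr_fun hB y
    simpa using this
  conv_rhs => rw [← h2, h1]
  rw [map_sum, map_sum]
  refine Finset.sum_congr rfl fun j _ => ?_
  rw [map_smul, map_smul, smul_eq_mul]
  ring

/-- linear independence of `ν0 + δ e_i` -/
lemma linInd_shift (ν0 : Fin k → ℝ) {δ : ℝ} (hδ : δ ≠ 0) (hs : δ + ∑ j, ν0 j ≠ 0) :
    LinearIndependent ℝ (fun i : Fin k => ν0 + δ • (Pi.single i 1 : Fin k → ℝ)) := by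
  rw [Fintype.linearIndependent_iff]
  intro a ha
  have h1 : ∀ j, (∑ i, a i) * ν0 j + δ * a j = 0 := by
    intro j
    have h2 := congrFun ha j
    rw [Finset.sum_apply] at h2
    simp only [Pi.smul_apply, Pi.add_apply, smul_eq_mul, mul_add, Finset.sum_add_distrib,
      Pi.zero_apply] at h2
    rw [← Finset.sum_mul] at h2
    have h3 : ∑ i, a i * (δ * (Pi.single i 1 : Fin k → ℝ) j) = δ * a j := by
      rw [Finset.sum_eq_single j]
      · simp; ring
      · intro b _ hb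
        simp [Ne.symm hb]
      · simp
    rw [h3] at h2
    exact h2
  have h4 : (∑ i, a i) * (δ + ∑ j, ν0 j) = 0 := by
    have h5 : ∑ j, ((∑ i, a i) * ν0 j + δ * a j) = 0 := Finset.sum_eq_zero fun j _ => h1 j
    rw [Finset.sum_add_distrib, ← Finset.mul_sum, ← Finset.mul_sum] at h5
    linarith
  have h5 : ∑ i, a i = 0 := by
    rcases mul_eq_zero.1 h4 with h | h
    · exact h
    · exact absurd h hs
  intro i
  have h6 := h1 i
  rw [h5, zero_mul, zero_add] at h6
  rcases mul_eq_zero.1 h6 with h | h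
  · exact absurd h hδ
  · exact h

end Crest.Agent.R264.Pk
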