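import Mathlib
import Crest.Agent.R264.Pk5
import Crest.Agent.R264.AIface

/-!
# Row 264, module PK (helper318), part 6: `AI.PKCalc` (A2 + A3)
-/

set_option autoImplicit false

open Set Filter Topology ContDiff Metric

noncomputable section

namespace Crest.Agent.R264.Pk

open Crest.AlgGeometry.Semialg

variable {N : ℕ}

lemma contDiff_eval {σ 𝕜 : Type*} [Fintype σ] [RCLike 𝕜] (p : MvPolynomial σ 𝕜) :
    ContDiff 𝕜 ∞ (fun x : σ → 𝕜 => MvPolynomial.eval x p) := by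
  induction p using MvPolynomial.induction_on with
  | C a => simpa using contDiff_const
  | add p q hp hq => simpa using hp.add hq
  | mul_X p i hp => simpa using hp.mul (contDiff_apply 𝕜 𝕜 i)

lemma contDiff_realCoords : ContDiff ℝ ∞ (realCoords : (Fin N → ℂ) → (Fin N ⊕ Fin N → ℝ)) := by
  rw [contDiff_pi]
  rintro (i | i)
  · exact Complex.reCLM.contDiff.comp (contDiff_apply ℝ ℂ i)
  · exact Complex.imCLM.contDiff.comp (contDiff_apply ℝ ℂ i)

lemma differentiable_eval (g : MvPolynomial (Fin N) ℂ) :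
    Differentiable ℂ (fun x : Fin N → ℂ => MvPolynomial.eval x g) :=
  (contDiff_eval g).differentiable (by simp)

/-- charts of the interface as `RChart` -/
def toRChart {r : ℕ} {S : Set (Fin N → ℂ)} {t : Fin r → MvPolynomial (Fin N ⊕ Fin N) ℝ}
    {B : Set (Fin N → ℂ)} {T : Set (Fin r → ℝ)} {ε : (Fin r → ℝ) → (Fin N → ℂ)}
    (h : AI.IsRChart S (fun x i => MvPolynomial.eval (realCoords x) (t i)) B T ε)
    {x : Fin N → ℂ} (hx : x ∈ B) : RChart r S x where
  O := B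
  W := T
  ι := ε
  t := fun x i => MvPolynomial.eval (realCoords x) (t i)
  hO := h.hB
  hW := h.hT
  mem := hx
  hι := h.hε.contDiffOn h.hT.uniqueDiffOn
  ht := by
    apply ContDiff.contDiffOn
    rw [contDiff_pi]
    exact fun i => (contDiff_eval (t i)).comp contDiff_realCoords
  ι_mem := fun w hw => ⟨(h.maps w hw).2.1, (h.maps w hw).1⟩
  t_ι := fun w hw => (h.maps w hw).2.2
  t_mem := fun y hyS hyO => (h.back y hyO hyS).1
  ι_t := fun y hyS hyO => (h.back y hyO hyS).2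

/-- **A2 + A3, analytic part.** -/
theorem pkCalc : AI.PKCalc := by
  intro N K g ν S W hK hne hW hWne hpos hM hcov hopen
  set g' : (Fin N → ℂ) → ℂ := fun x => MvPolynomial.eval x g with hg'
  have hgh : Differentiable ℂ g' := differentiable_eval g
  have hgs : ContDiff ℝ ∞ g' := (contDiff_eval g).restrict_scalars ℝ
  have hMg : AI.Mfun K g = Mg g' K := rfl
  rw [hMg] at hM hpos
  have hdiff : ∀ q ∈ W, DifferentiableAt ℝ (Mg g' K) q := fun q hq =>
    (hM.differentiableOn (by simp)).differentiableAt (hW.mem_nhds hq)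
  have hpc : ContDiffOn ℝ ∞ (peak g' K) W :=
    contDiffOn_peak hgs.continuous hK hne hW (n := ⊤) (by simpa using hM) hpos
  -- select a stratum
  obtain ⟨W2, hW2, hW2o, hW2n, a, -, ha⟩ := select (fun a => (S a).S) (fun a => (S a).lc)
    (peak g' K) Finset.univ W hW hWne hpc.continuousOn (fun q _ => by
      obtain ⟨a, ha⟩ := hcov (peak g' K q)
      exact ⟨a, Finset.mem_univ _, ha⟩)
  obtain ⟨OK, hOK, hKS⟩ := hopen a
  have H : PkHyp g' K (S a).S W2 :=
    { hg := hgs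
      hK := hK
      hne := hne
      hW2 := hW2o
      hM := (hM.mono hW2).of_le (by norm_cast)
      hpos := fun q hq => hpos q (hW2 hq)
      hS := ha
      hKS := fun q hq => by
        have h1 : peak g' K q ∈ K := (peak_spec hgs.continuous hK hne (hdiff q (hW2 hq))
          (hpos q (hW2 hq))).1
        have h2 : peak g' K q ∈ OK ∩ (S a).S := by rw [← hKS]; exact ⟨h1, ha q hq⟩
        rw [eventually_nhdsWithin_iff]
        filter_upwards [hOK.mem_nhds h2.1] with y hy hyS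
        have h3 : y ∈ K ∩ (S a).S := by rw [hKS]; exact ⟨hy, hyS⟩
        exact h3.1 }
  obtain ⟨q1, hq1⟩ := hW2n
  obtain ⟨B0, T0, ε0, hxB0, hch⟩ := (S a).chart (peak g' K q1) (ha q1 hq1)
  let c : RChart (S a).r (S a).S (peak g' K q1) := toRChart hch hxB0
  obtain ⟨NN, hNN, hNNW, BB, hBB, hPK⟩ := H.peak_crit hq1 c
  -- interior of `NN`
  obtain ⟨NN', hNN'N, hNN'o, hq1N⟩ := _root_.mem_nhds_iff.1 hNN
  obtain ⟨BB', hBB'B, hBB'o, hx1B⟩ := _root_.mem_nhds_iff.1 hBB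
  have hopenp := H.peak_open hq1 c (hNN'o.mem_nhds hq1N)
  rw [eventually_nhdsWithin_iff] at hopenp
  obtain ⟨O1, hO1s, hO1o, hx1O⟩ := _root_.mem_nhds_iff.1 hopenp
  refine ⟨a, peak g' K q1, O1 ∩ BB' ∩ c.O, ha q1 hq1, (hO1o.inter hBB'o).inter c.hO,
    ⟨⟨hx1O, hx1B⟩, c.mem⟩, ?_⟩
  rintro x hxS ⟨⟨hxO1, hxBB⟩, hxO⟩
  obtain ⟨q0, hq0N, hq0W, hq0x⟩ := hO1s hxO1 hxS
  have hxK : x ∈ K := by rw [← hq0x]; exact (H.spec hq0W).1
  refine ⟨hxK, by rw [← hq0x]; exact H.g_ne hq0W, ?_⟩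
  intro B T ε hc2 hxB
  -- the two charts agree near `tS x`
  have hτ1 : c.t x ∈ c.W := c.t_mem x hxS hxO
  have hιx : c.ι (c.t x) = x := c.ι_t x hxS hxO
  have hback := hc2.back x hxB hxS
  have hεcont : ContinuousAt ε (c.t x) := (hc2.hε _ hback.1).continuousAt
  have heq : ε =ᶠ[𝓝 (c.t x)] c.ι := by
    have h1 : ∀ᶠ τ in 𝓝 (c.t x), ε τ ∈ c.O := by
      apply hεcont.eventually_mem
      have h2 : ε (c.t x) = x := hback.2
      rw [h2]
      exact c.hO.mem_nhds hxO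
    filter_upwards [h1, hc2.hT.mem_nhds hback.1] with τ hτ hτT
    have h3 := hc2.maps τ hτT
    have h4 := c.ι_t (ε τ) h3.2.1 hτ
    have h5 : c.t (ε τ) = τ := h3.2.2
    rw [h5] at h4
    exact h4.symm
  have hfd : fderiv ℝ ε ((S a).tS x) = fderiv ℝ c.ι (c.t x) := heq.fderiv_eq
  rw [hfd]
  -- criterion
  have hcrit : ∀ q : QP N, (∀ v ∈ range (fderiv ℝ c.ι (c.t x)),
      (fderiv ℂ (AI.gq g q) x v).re = 0) → Dt g' c.ι (q, c.t x) = 0 := by
    intro q hq
    ext1 v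
    rw [Dt_eq_lam hgh c hτ1, hιx]
    exact hq _ ⟨v, rfl⟩
  obtain ⟨δ, hδ, hδN⟩ := Metric.isOpen_iff.1 hNN'o q0 hq0N
  refine ⟨q0, δ, hδ, ?_, ?_⟩
  · rintro _ ⟨v, rfl⟩
    have h1 := H.crit_at c hq0W (by rw [hq0x]; exact hxO)
    rw [hq0x] at h1
    have h2 := Dt_eq_lam hgh c hτ1 q0 v
    rw [hιx, h1] at h2
    exact h2.symm
  · intro q hq hqT y hyK hyx
    have hqN : q ∈ NN := hNN'N (hδN (by rwa [mem_ball, dist_eq_norm]))
    have h1 := hPK q hqN x hxS (hBB'B hxBB) (hcrit q hqT)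
    have h2 := H.lt (hNNW hqN) hyK (x := y) (by rw [← h1]; exact hyx)
    rw [← h1] at h2
    exact h2

end Crest.Agent.R264.Pk
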