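import Crest.Agent.R264.SAV
import Crest.Agent.R264.AIface

/-!
Row 264 (helper369): the semialgebraic input of `JL.Main` (A6).
-/

set_option autoImplicit false

open Set Topology Filter Complex

namespace Crest.Agent.R264

open JL

variable {m k : ℕ}

theorem Pol.clin {V : Type*} [AddCommGroup V] [Module ℝ V] {W Z : Type*} [AddCommGroup W]
    [Module ℝ W] [Module ℂ W] [IsScalarTower ℝ ℂ W] [AddCommGroup Z] [Module ℝ Z] [Module ℂ Z]
    [IsScalarTower ℝ ℂ Z] (L : W →ₗ[ℂ] Z) {f : V → W} (hf : Pol f) : Pol (fun v => L (f v)) :=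
  (Pol.lin (L.restrictScalars ℝ)).comp hf

theorem pol_Amap {V : Type*} [AddCommGroup V] [Module ℝ V] (Ht : P m k → (Fin k → ℝ)) (a : P m k)
    {f : V → E m k} (hf : Pol f) : Pol (fun v => Amap Ht a (f v)) := by
  unfold Amap
  refine Pol.prodMk (by fun_prop) ?_
  refine Pol.sub (Pol.sub (by fun_prop) ?_) ?_
  · refine Pol.csmul (by fun_prop) ?_
    exact Pol.clin ((beta (fderiv ℝ Ht a)).toLinearMap) (by fun_prop)
  · refine Pol.csmul (by fun_prop) ?_
    exact Pol.clin ((alpha (fderiv ℝ Ht a)).toLinearMap) (by fun_prop)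

/-- the semialgebraic input of `JL.Main` -/
theorem far_eventually_or (Ht : P m k → (Fin k → ℝ)) {UU : Set (E m k)} (hUU : SAV UU) (a : P m k)
    (x : E m k) (r : ℝ) :
    (∀ᶠ ε in 𝓝[>] (0 : ℝ), Far UU Ht a ε x r) ∨ (∀ᶠ ε in 𝓝[>] (0 : ℝ), ¬ Far UU Ht a ε x r) := by
  have hS : SAV {ε : ℝ | ∀ q : E m k × E m k,
      (q.1 ∉ UU ∧ dil ε q.2 = Amap Ht a q.1) → r ≤ dist q.2 x} := by
    refine SAV.ball (Q := fun (ε : ℝ) (q : E m k × E m k) =>
      q.1 ∉ UU ∧ dil ε q.2 = Amap Ht a q.1)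
      (P := fun (_ : ℝ) (q : E m k × E m k) => r ≤ dist q.2 x) ?_ ?_
    · refine SAV.and ?_ ?_
      · exact (hUU.preimage (g := fun p : ℝ × (E m k × E m k) => p.2.1) (by fun_prop)).not
      · refine SAV.eq ?_ (pol_Amap Ht a (by fun_prop))
        unfold dil
        fun_prop
    · exact SAV.le_dist (by fun_prop) (by fun_prop) (by fun_prop)
  have key : ∀ ε : ℝ, 0 < ε → (Far UU Ht a ε x r ↔ ε ∈ {ε : ℝ | ∀ q : E m k × E m k,
      (q.1 ∉ UU ∧ dil ε q.2 = Amap Ht a q.1) → r ≤ dist q.2 x}) := by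
    intro ε hε
    constructor
    · rintro h ⟨p, y⟩ ⟨hp, hy⟩
      have h1 := h p hp
      have h2 : Tmap Ht a ε p = y := by
        unfold Tmap
        rw [← hy]
        unfold dil
        simp only [smul_smul, inv_pow]
        rw [inv_mul_cancel₀ hε.ne', inv_mul_cancel₀ (pow_ne_zero 2 hε.ne'), one_smul, one_smul]
      rw [h2] at h1
      exact h1
    · intro h p hp
      refine h ⟨p, Tmap Ht a ε p⟩ ⟨hp, ?_⟩
      unfold Tmap dil
      simp only [smul_smul, inv_pow]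
      rw [mul_inv_cancel₀ hε.ne', mul_inv_cancel₀ (pow_ne_zero 2 hε.ne'), one_smul, one_smul]
  rcases hS.eventually_or with h | h
  · left
    filter_upwards [h, self_mem_nhdsWithin] with ε h1 h2
    exact (key ε h2).2 h1
  · right
    filter_upwards [h, self_mem_nhdsWithin] with ε h1 h2
    exact fun hh => h1 ((key ε h2).1 hh)

/-- in the exact form of the hypothesis of `JL.Main` -/
theorem far_input (Ht : P m k → (Fin k → ℝ)) {UU : Set (E m k)} (hUU : SAV UU) (O : Set (P m k)) :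
    ∀ a ∈ O, ∀ (x : E m k) (r : ℝ), 0 < r →
      (∀ᶠ ε in 𝓝[>] (0 : ℝ), Far UU Ht a ε x r) ∨
        (∀ᶠ ε in 𝓝[>] (0 : ℝ), ¬ Far UU Ht a ε x r) :=
  fun a _ x r _ => far_eventually_or Ht hUU a x r

theorem AI.farStmt : AI.FarStmt := fun _ _ Ht _ hUU a x r _ => far_eventually_or Ht hUU a x r

end Crest.Agent.R264
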