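import Mathlib

/-!
Row 264, module SAU (helper264), part 1: (S5) nonzero polynomials in `(a, s)` near `s = 0`.
-/

set_option autoImplicit false

open Topology Filter Set MvPolynomial

namespace Crest.Agent.R264.SAU

/-- (S5), algebraic form. A nonzero polynomial `Δ(a, s)` is `s ^ l * (D0(a) + s * R(a, s))` with
`D0 ≠ 0`. -/
theorem s5_alg {ι : Type*} (Δ : MvPolynomial (Option ι) ℝ) (hΔ : Δ ≠ 0) :
    ∃ (l : ℕ) (D0 : MvPolynomial ι ℝ) (R : MvPolynomial (Option ι) ℝ), D0 ≠ 0 ∧
      Δ = X none ^ l * (rename some D0 + X none * R) := by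
  classical
  let e := MvPolynomial.optionEquivLeft ℝ ι
  have he0 : e Δ ≠ 0 := by
    intro h
    exact hΔ (by simpa using h)
  set p : Polynomial (MvPolynomial ι ℝ) := e Δ with hp
  obtain ⟨q, hq⟩ : (Polynomial.X : Polynomial (MvPolynomial ι ℝ)) ^ p.natTrailingDegree ∣ p := by
    rw [Polynomial.X_pow_dvd_iff]
    intro d hd
    exact Polynomial.coeff_eq_zero_of_lt_natTrailingDegree hd
  have hq0 : q.coeff 0 ≠ 0 := by
    have h1 : p.coeff p.natTrailingDegree ≠ 0 := by
      have := Polynomial.trailingCoeff_nonzero_iff_nonzero.2 he0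
      simpa [Polynomial.trailingCoeff] using this
    have h2 : (Polynomial.X ^ p.natTrailingDegree * q).coeff p.natTrailingDegree = q.coeff 0 := by
      simpa using Polynomial.coeff_X_pow_mul q p.natTrailingDegree 0
    rw [← hq] at h2
    rwa [← h2]
  refine ⟨p.natTrailingDegree, q.coeff 0, e.symm q.divX, hq0, ?_⟩
  have hq' : q = Polynomial.C (q.coeff 0) + Polynomial.X * q.divX := by
    conv_lhs => rw [← Polynomial.divX_mul_X_add q]
    ring
  apply e.injective
  rw [← hp]
  conv_lhs => rw [hq, hq']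
  rw [map_mul, map_pow, map_add, map_mul]
  have hX : e (X none) = Polynomial.X := by
    simp [e, MvPolynomial.optionEquivLeft_X_none]
  have hr : e (rename some (q.coeff 0)) = Polynomial.C (q.coeff 0) := by
    simp only [e, MvPolynomial.optionEquivLeft_apply, aeval_rename]
    generalize q.coeff 0 = r
    induction r using MvPolynomial.induction_on with
    | C a =>
      simp only [aeval_C]
      rfl
    | add p q hp hq => simp only [map_add, hp, hq]
    | mul_X p i hp => simp only [map_mul, hp, aeval_X]; simp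
  rw [hX, hr]
  simp

/-- A nonzero real polynomial does not vanish identically on a nonempty open set. -/
theorem exists_eval_ne_zero {ι : Type*} [Fintype ι] (p : MvPolynomial ι ℝ) (hp : p ≠ 0)
    (O : Set (ι → ℝ)) (hO : IsOpen O) (hne : O.Nonempty) : ∃ a ∈ O, eval a p ≠ 0 := by
  classical
  by_contra hcon
  push Not at hcon
  obtain ⟨a, ha⟩ := hne
  obtain ⟨r, hr, hball⟩ := Metric.isOpen_iff.1 hO a ha
  apply hp
  apply MvPolynomial.funext_set (fun i => Ioo (a i - r) (a i + r))
    (fun i => Set.Ioo_infinite (by linarith))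
  intro x hx
  rw [map_zero]
  apply hcon
  apply hball
  rw [Metric.mem_ball, dist_pi_lt_iff hr]
  intro i
  have := hx i (mem_univ i)
  rw [Real.dist_eq, abs_lt]
  constructor <;> linarith [this.1, this.2]

/-- the point `(b, s)` as a point of `Option ι → ℝ`. -/
def cons {ι : Type*} (b : ι → ℝ) (s : ℝ) : Option ι → ℝ := fun o => o.elim s b

@[simp] theorem cons_some {ι : Type*} (b : ι → ℝ) (s : ℝ) (i : ι) : cons b s (some i) = b i := rfl

@[simp] theorem cons_none {ι : Type*} (b : ι → ℝ) (s : ℝ) : cons b s none = s := rfl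

theorem continuous_cons {ι : Type*} : Continuous (fun p : (ι → ℝ) × ℝ => cons p.1 p.2) := by
  apply continuous_pi
  intro o
  cases o with
  | none => exact continuous_snd
  | some i => exact (continuous_apply i).comp continuous_fst

theorem eval_cons_rename {ι : Type*} (b : ι → ℝ) (s : ℝ) (p : MvPolynomial ι ℝ) :
    eval (cons b s) (rename some p) = eval b p := by
  rw [eval_rename]
  rfl

theorem s5_eval {ι : Type*} (Δ : MvPolynomial (Option ι) ℝ) (l : ℕ) (D0 : MvPolynomial ι ℝ)
    (R : MvPolynomial (Option ι) ℝ) (hΔ' : Δ = X none ^ l * (rename some D0 + X none * R))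
    (b : ι → ℝ) (s : ℝ) :
    eval (cons b s) Δ = s ^ l * (eval b D0 + s * eval (cons b s) R) := by
  rw [hΔ', map_mul, map_pow, map_add, map_mul, eval_X, eval_cons_rename, cons_none]

/-- (S5), open form. -/
theorem s5_open {ι : Type*} [Fintype ι] (Δ : MvPolynomial (Option ι) ℝ) (hΔ : Δ ≠ 0)
    (O : Set (ι → ℝ)) (hO : IsOpen O) (hne : O.Nonempty) :
    ∃ a ∈ O, ∃ r > 0, Metric.ball a r ⊆ O ∧ ∃ s1 > (0 : ℝ), ∀ b ∈ Metric.ball a r,
      ∀ s, 0 < s → s < s1 → eval (cons b s) Δ ≠ 0 := by
  obtain ⟨l, D0, R, hD0, hΔ'⟩ := s5_alg Δ hΔ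
  obtain ⟨a, ha, hane⟩ := exists_eval_ne_zero D0 hD0 O hO hne
  obtain ⟨r, hr, hball⟩ := Metric.isOpen_iff.1 hO a ha
  have hev := s5_eval Δ l D0 R hΔ'
  have hg : Continuous (fun p : (ι → ℝ) × ℝ => eval p.1 D0 + p.2 * eval (cons p.1 p.2) R) := by
    apply Continuous.add
    · exact (MvPolynomial.continuous_eval D0).comp continuous_fst
    · exact continuous_snd.mul ((MvPolynomial.continuous_eval R).comp continuous_cons)
  have hg0 : eval a D0 + 0 * eval (cons a 0) R ≠ 0 := by rwa [zero_mul, add_zero]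
  obtain ⟨e, he, hsub⟩ : ∃ e > 0, ∀ p : (ι → ℝ) × ℝ, dist p (a, 0) < e →
      eval p.1 D0 + p.2 * eval (cons p.1 p.2) R ≠ 0 := by
    have h1 := (hg.continuousAt (x := (a, (0 : ℝ)))).eventually_ne hg0
    obtain ⟨e, he, hsub⟩ := Metric.eventually_nhds_iff.1 h1
    exact ⟨e, he, fun p hp => hsub hp⟩
  refine ⟨a, ha, min r e, lt_min hr he, (Metric.ball_subset_ball (min_le_left _ _)).trans hball,
    e, he, ?_⟩
  intro b hb s hs0 hs1
  rw [hev]
  apply mul_ne_zero (pow_ne_zero _ hs0.ne')
  have h1 : dist b a < e := lt_of_lt_of_le (Metric.mem_ball.1 hb) (min_le_right _ _)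
  have h2 : dist s 0 < e := by rw [Real.dist_eq, sub_zero, abs_of_pos hs0]; exact hs1
  have : dist (b, s) (a, (0 : ℝ)) < e := by
    rw [Prod.dist_eq]
    exact max_lt h1 h2
  exact hsub (b, s) this

end Crest.Agent.R264.SAU
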