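import Crest.Agent.R264.TSProj
import Crest.Agent.R264.SAU1

/-!
Row 264, module SAU (helper264), part 2: calculus of total semialgebraic functions.
-/

set_option autoImplicit false

open Topology Filter Set MvPolynomial

namespace Crest.Agent.R264.SAU

open Crest.Agent.R264.TS

variable {ι κ : Type*}

/-- total semialgebraic functions -/
def SAF (f : (ι → ℝ) → ℝ) : Prop := SA {x : Option ι → ℝ | f (fun i => x (some i)) = x none}

/-- `∃` over a real variable -/
theorem SA.exR {P : (ι → ℝ) → ℝ → Prop}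
    (h : SA {x : Option ι → ℝ | P (fun i => x (some i)) (x none)}) :
    SA {x : ι → ℝ | ∃ t, P x t} := h.ex_option

/-- `∀` over a real variable -/
theorem SA.allR {P : (ι → ℝ) → ℝ → Prop}
    (h : SA {x : Option ι → ℝ | P (fun i => x (some i)) (x none)}) :
    SA {x : ι → ℝ | ∀ t, P x t} := h.all_option

/-- `∃` over a real vector -/
theorem SA.exV [Finite κ] {P : (ι → ℝ) → (κ → ℝ) → Prop}
    (h : SA {x : ι ⊕ κ → ℝ | P (fun i => x (Sum.inl i)) (fun k => x (Sum.inr k))}) :
    SA {x : ι → ℝ | ∃ v, P x v} := h.ex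

/-- `∀` over a real vector -/
theorem SA.allV [Finite κ] {P : (ι → ℝ) → (κ → ℝ) → Prop}
    (h : SA {x : ι ⊕ κ → ℝ | P (fun i => x (Sum.inl i)) (fun k => x (Sum.inr k))}) :
    SA {x : ι → ℝ | ∀ v, P x v} := h.all

theorem SAF.poly (p : MvPolynomial ι ℝ) : SAF (fun x => eval x p) := by
  unfold SAF
  have h := SA.eq (rename some p) (X (none : Option ι) : MvPolynomial (Option ι) ℝ)
  convert h using 1
  ext x
  rw [mem_ofPred_eq, mem_ofPred_eq, eval_rename, eval_X]
  rfl

theorem SAF.coord (i : ι) : SAF (fun x : ι → ℝ => x i) := by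
  simpa using SAF.poly (X i : MvPolynomial ι ℝ)

theorem SAF.const (c : ℝ) : SAF (fun _ : ι → ℝ => c) := by
  simpa using SAF.poly (C c : MvPolynomial ι ℝ)

/-- substitution of SA functions in SA sets -/
theorem SAF.mem [Finite κ] {S : Set (κ → ℝ)} (hS : SA S) {f : κ → (ι → ℝ) → ℝ}
    (hf : ∀ k, SAF (f k)) : SA {x : ι → ℝ | (fun k => f k x) ∈ S} := by
  have h : SA {x : ι → ℝ | ∃ v : κ → ℝ, (∀ k, f k x = v k) ∧ v ∈ S} := by
    apply SA.exV
    apply SA.and
    · apply SA.forall_finite
      intro k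
      have := (hf k).reindex (ι := ι ⊕ κ)
        (fun o : Option ι => o.elim (Sum.inr k) (fun i => Sum.inl i))
      exact this
    · exact hS.reindex (fun k => Sum.inr k)
  convert h using 1
  ext x
  constructor
  · intro hx
    exact ⟨_, fun k => rfl, hx⟩
  · rintro ⟨v, hv, hvS⟩
    have : (fun k => f k x) = v := funext hv
    rw [mem_ofPred_eq, this]
    exact hvS

/-- restriction of variables -/
theorem SAF.reindex {f : (κ → ℝ) → ℝ} (hf : SAF f) (e : κ → ι) :
    SAF (fun x : ι → ℝ => f (fun k => x (e k))) := by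
  have := TS.SA.reindex (ι := Option ι) hf (fun o : Option κ => o.elim none (fun k => some (e k)))
  exact this

/-- composition -/
theorem SAF.comp [Finite κ] {f : (κ → ℝ) → ℝ} (hf : SAF f) {g : κ → (ι → ℝ) → ℝ}
    (hg : ∀ k, SAF (g k)) : SAF (fun x => f (fun k => g k x)) := by
  have h : SA {x : Option ι → ℝ | (fun o : Option κ =>
      (fun y : Option ι → ℝ => o.elim (y none) (fun k => g k (fun i => y (some i)))) x) ∈
        {x : Option κ → ℝ | f (fun i => x (some i)) = x none}} := by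
    apply SAF.mem hf
    intro o
    cases o with
    | none => exact SAF.coord none
    | some k => exact (hg k).reindex some
  exact h

theorem SAF.comp2 {f : ℝ → ℝ → ℝ} (hf : SAF (fun x : Fin 2 → ℝ => f (x 0) (x 1)))
    {g h : (ι → ℝ) → ℝ} (hg : SAF g) (hh : SAF h) : SAF (fun x => f (g x) (h x)) := by
  have := SAF.comp hf (g := fun k : Fin 2 => if k = 0 then g else h) (by
    intro k
    fin_cases k
    · simpa using hg
    · simpa using hh)
  simpa using this

theorem SAF.comp1 {f : ℝ → ℝ} (hf : SAF (fun x : Fin 1 → ℝ => f (x 0)))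
    {g : (ι → ℝ) → ℝ} (hg : SAF g) : SAF (fun x => f (g x)) := by
  exact SAF.comp hf (g := fun _ : Fin 1 => g) (fun _ => hg)

theorem SAF.add {f g : (ι → ℝ) → ℝ} (hf : SAF f) (hg : SAF g) : SAF (fun x => f x + g x) := by
  apply SAF.comp2 (f := fun a b => a + b) _ hf hg
  have h := SAF.poly (X 0 + X 1 : MvPolynomial (Fin 2) ℝ)
  convert h using 2 with x
  rw [map_add, eval_X, eval_X]

theorem SAF.sub {f g : (ι → ℝ) → ℝ} (hf : SAF f) (hg : SAF g) : SAF (fun x => f x - g x) := by
  apply SAF.comp2 (f := fun a b => a - b) _ hf hg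
  have h := SAF.poly (X 0 - X 1 : MvPolynomial (Fin 2) ℝ)
  convert h using 2 with x
  rw [map_sub, eval_X, eval_X]

theorem SAF.mul {f g : (ι → ℝ) → ℝ} (hf : SAF f) (hg : SAF g) : SAF (fun x => f x * g x) := by
  apply SAF.comp2 (f := fun a b => a * b) _ hf hg
  have h := SAF.poly (X 0 * X 1 : MvPolynomial (Fin 2) ℝ)
  convert h using 2 with x
  rw [map_mul, eval_X, eval_X]

theorem SAF.neg {f : (ι → ℝ) → ℝ} (hf : SAF f) : SAF (fun x => - f x) := by
  apply SAF.comp1 (f := fun a => - a) _ hf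
  simpa using SAF.poly (- X 0 : MvPolynomial (Fin 1) ℝ)

/-- atoms -/
theorem SAF.lt {f g : (ι → ℝ) → ℝ} (hf : SAF f) (hg : SAF g) : SA {x | f x < g x} := by
  have h : SA {x : Fin 2 → ℝ | x 0 < x 1} := by
    simpa using SA.lt (X 0 : MvPolynomial (Fin 2) ℝ) (X 1)
  have := SAF.mem h (f := fun k : Fin 2 => if k = 0 then f else g) (by
    intro k
    fin_cases k
    · simpa using hf
    · simpa using hg)
  simpa using this

theorem SAF.le {f g : (ι → ℝ) → ℝ} (hf : SAF f) (hg : SAF g) : SA {x | f x ≤ g x} := by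
  simpa only [not_lt] using (SAF.lt hg hf).not

theorem SAF.eq {f g : (ι → ℝ) → ℝ} (hf : SAF f) (hg : SAF g) : SA {x | f x = g x} := by
  have := (SAF.le hf hg).and (SAF.le hg hf)
  simpa only [← le_antisymm_iff] using this

theorem SAF.ne {f g : (ι → ℝ) → ℝ} (hf : SAF f) (hg : SAF g) : SA {x | f x ≠ g x} :=
  (SAF.eq hf hg).not

/-- functions defined by a formula -/
theorem SAF.of_iff {f : (ι → ℝ) → ℝ} {P : (ι → ℝ) → ℝ → Prop} (h : ∀ x t, f x = t ↔ P x t)
    (hP : SA {x : Option ι → ℝ | P (fun i => x (some i)) (x none)}) : SAF f := by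
  unfold SAF
  simpa only [h] using hP

open Classical in
theorem SAF.ite {P : (ι → ℝ) → Prop} (hP : SA {x | P x}) {f g : (ι → ℝ) → ℝ} (hf : SAF f)
    (hg : SAF g) : SAF (fun x => if P x then f x else g x) := by
  apply SAF.of_iff (P := fun x t => (P x ∧ f x = t) ∨ (¬ P x ∧ g x = t))
  · intro x t
    by_cases h : P x <;> simp [h]
  · have h1 : SA {x : Option ι → ℝ | P (fun i => x (some i))} := hP.reindex some
    exact (h1.and hf).or (h1.not.and hg)

theorem SAF.max {f g : (ι → ℝ) → ℝ} (hf : SAF f) (hg : SAF g) :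
    SAF (fun x => max (f x) (g x)) := by
  classical
  have := SAF.ite (SAF.le hf hg) hg hf
  convert this using 1
  funext x
  by_cases h : f x ≤ g x
  · simp [h]
  · simp [h, (not_le.1 h).le]

theorem SAF.abs {f : (ι → ℝ) → ℝ} (hf : SAF f) : SAF (fun x => |f x|) := by
  simpa only [← abs_eq_max_neg] using SAF.max hf hf.neg

theorem SAF.inv {f : (ι → ℝ) → ℝ} (hf : SAF f) : SAF (fun x => (f x)⁻¹) := by
  apply SAF.comp1 (f := fun a => a⁻¹) _ hf
  apply SAF.of_iff (P := fun x t => (x 0 ≠ 0 ∧ x 0 * t = 1) ∨ (x 0 = 0 ∧ t = 0))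
  · intro x t
    by_cases h : x 0 = 0
    · simp [h, eq_comm]
    · simp only [ne_eq, h, not_false_eq_true, true_and, false_and, or_false]
      constructor
      · rintro rfl
        exact mul_inv_cancel₀ h
      · intro h'
        exact (eq_inv_of_mul_eq_one_right h').symm
  · refine SA.or (SA.and (SAF.ne (SAF.coord _) (SAF.const 0))
      (SAF.eq ((SAF.coord _).mul (SAF.coord _)) (SAF.const 1)))
      (SA.and (SAF.eq (SAF.coord _) (SAF.const 0)) (SAF.eq (SAF.coord _) (SAF.const 0)))

theorem SAF.div {f g : (ι → ℝ) → ℝ} (hf : SAF f) (hg : SAF g) : SAF (fun x => f x / g x) := by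
  simpa only [div_eq_mul_inv] using hf.mul hg.inv

/-- sup norm -/
theorem SAF.norm [Fintype κ] {g : κ → (ι → ℝ) → ℝ} (hg : ∀ k, SAF (g k)) :
    SAF (fun x => ‖fun k => g k x‖) := by
  apply SAF.of_iff (P := fun x t => (0 ≤ t ∧ ∀ k, |g k x| ≤ t) ∧
    ∀ t', (0 ≤ t' ∧ ∀ k, |g k x| ≤ t') → t ≤ t')
  · intro x t
    have hle : ∀ t', (0 ≤ t' ∧ ∀ k, |g k x| ≤ t') ↔ ‖fun k => g k x‖ ≤ t' := by
      intro t'
      constructor
      · rintro ⟨h0, h⟩
        exact (pi_norm_le_iff_of_nonneg h0).2 h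
      · intro h
        have h0 : 0 ≤ t' := (norm_nonneg _).trans h
        exact ⟨h0, (pi_norm_le_iff_of_nonneg h0).1 h⟩
    simp only [hle]
    constructor
    · rintro rfl
      exact ⟨le_rfl, fun t' h => h⟩
    · rintro ⟨h1, h2⟩
      exact le_antisymm h1 (h2 _ le_rfl)
  · apply SA.and
    · apply SA.and
      · exact SAF.le (SAF.const 0) (SAF.coord _)
      · apply SA.forall_finite
        intro k
        exact SAF.le ((hg k).reindex some).abs (SAF.coord _)
    · apply SA.allR
      apply SA.imp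
      · apply SA.and
        · exact SAF.le (SAF.const 0) (SAF.coord _)
        · apply SA.forall_finite
          intro k
          exact SAF.le ((hg k).reindex (fun i => some (some i))).abs (SAF.coord _)
      · exact SAF.le (SAF.coord (some none)) (SAF.coord none)

end Crest.Agent.R264.SAU
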