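import Crest.Agent.R264.SAU2

/-!
Row 264, module SAU (helper264), part 3: one-variable facts at `s = 0+` with parameters.
-/

set_option autoImplicit false

open Topology Filter Set MvPolynomial

namespace Crest.Agent.R264.SAU

open Crest.Agent.R264.TS

variable {ι κ : Type*}

/-- semialgebraic function of `(a, s)` -/
def SAF2 (F : (ι → ℝ) → ℝ → ℝ) : Prop :=
  SAF (fun x : Option ι → ℝ => F (fun i => x (some i)) (x none))

/-- the sign of a real polynomial in one variable is constant near `0+` -/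
theorem sign_poly (q : Polynomial ℝ) :
    ∃ e : SignType, ∀ᶠ s in 𝓝[>] (0 : ℝ), SignType.sign (q.eval s) = e := by
  by_cases hq : q = 0
  · exact ⟨0, by simp [hq]⟩
  obtain ⟨g, hg, hndvd⟩ := Polynomial.exists_eq_pow_rootMultiplicity_mul_and_not_dvd q hq 0
  have hg0 : g.eval 0 ≠ 0 := by
    intro h
    exact hndvd (Polynomial.dvd_iff_isRoot.2 h)
  refine ⟨SignType.sign (g.eval 0), ?_⟩
  have hc : ContinuousAt (fun s : ℝ => SignType.sign (g.eval s)) 0 :=
    ContinuousAt.comp (f := fun s : ℝ => g.eval s) (continuousAt_sign_of_ne_zero hg0)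
      g.continuous.continuousAt
  have h1 : ∀ᶠ s in 𝓝 (0 : ℝ), SignType.sign (g.eval s) = SignType.sign (g.eval 0) :=
    by
      rw [ContinuousAt, nhds_discrete SignType, tendsto_pure] at hc
      exact hc
  filter_upwards [nhdsWithin_le_nhds h1, self_mem_nhdsWithin] with s hs hs0
  rw [hg, Polynomial.eval_mul, sign_mul, hs]
  have : SignType.sign (Polynomial.eval s ((Polynomial.X - Polynomial.C 0) ^
      Polynomial.rootMultiplicity 0 q)) = 1 := by
    rw [sign_eq_one_iff]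
    simp only [Polynomial.eval_pow, Polynomial.eval_sub, Polynomial.eval_X, Polynomial.eval_C,
      sub_zero]
    exact pow_pos hs0 _
  rw [this, one_mul]

/-- (EV): near `s = 0+` a semialgebraic condition is eventually true or eventually false. -/
theorem ev {S : Set (Option ι → ℝ)} (hS : SA S) (a : ι → ℝ) :
    (∀ᶠ s in 𝓝[>] (0 : ℝ), cons a s ∈ S) ∨ (∀ᶠ s in 𝓝[>] (0 : ℝ), cons a s ∉ S) := by
  obtain ⟨W, hW⟩ := hS
  have h1 : ∀ p : MvPolynomial (Option ι) ℝ, ∃ e : SignType,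
      ∀ᶠ s in 𝓝[>] (0 : ℝ), SignType.sign (eval (cons a s) p) = e := by
    intro p
    obtain ⟨e, he⟩ := sign_poly ((optionEquivLeft ℝ ι p).map (eval a))
    refine ⟨e, ?_⟩
    filter_upwards [he] with s hs
    rw [← hs]
    congr 1
    exact (eval_optionEquivLeft a s p).symm
  choose e he using h1
  have h2 : ∀ᶠ s in 𝓝[>] (0 : ℝ), ∀ p ∈ W, SignType.sign (eval (cons a s) p) = e p := by
    rw [Filter.eventually_all_finset]
    exact fun p _ => he p
  by_cases h : ∃ᶠ s in 𝓝[>] (0 : ℝ), cons a s ∈ S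
  · left
    obtain ⟨s1, hs1, hs1'⟩ := (h.and_eventually h2).exists
    filter_upwards [h2] with s hs
    exact (hW (cons a s1) (cons a s) (fun p hp => (hs1' p hp).trans (hs p hp).symm)).1 hs1
  · right
    exact not_frequently.1 h

theorem ev' {P : (ι → ℝ) → ℝ → Prop}
    (hP : SA {x : Option ι → ℝ | P (fun i => x (some i)) (x none)}) (a : ι → ℝ) :
    (∀ᶠ s in 𝓝[>] (0 : ℝ), P a s) ∨ (∀ᶠ s in 𝓝[>] (0 : ℝ), ¬ P a s) := ev hP a

/-- bounded SA functions have a limit at `0+` -/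
theorem exists_lim {F : (ι → ℝ) → ℝ → ℝ} (hF : SAF2 F) (hb : ∀ a s, |F a s| ≤ 1) (a : ι → ℝ) :
    ∃ L : ℝ, Tendsto (F a) (𝓝[>] (0 : ℝ)) (𝓝 L) := by
  have hle : ∀ c : ℝ, (∀ᶠ s in 𝓝[>] (0 : ℝ), c ≤ F a s) ∨ (∀ᶠ s in 𝓝[>] (0 : ℝ), F a s < c) := by
    intro c
    have := ev' (P := fun a s => c ≤ F a s) (SAF.le (SAF.const c) hF) a
    simpa only [not_le] using this
  set C : Set ℝ := {c | ∀ᶠ s in 𝓝[>] (0 : ℝ), c ≤ F a s} with hC
  have hne : C.Nonempty := ⟨-1, by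
    show ∀ᶠ s in 𝓝[>] (0 : ℝ), (-1 : ℝ) ≤ F a s
    exact Eventually.of_forall fun s => (abs_le.1 (hb a s)).1⟩
  have hbd : BddAbove C := by
    refine ⟨1, fun c hc => ?_⟩
    obtain ⟨s, hs⟩ := (show ∀ᶠ s in 𝓝[>] (0 : ℝ), c ≤ F a s from hc).exists
    exact hs.trans (abs_le.1 (hb a s)).2
  refine ⟨sSup C, tendsto_order.2 ⟨fun c hc => ?_, fun c hc => ?_⟩⟩
  · obtain ⟨c', hc', hlt⟩ := exists_lt_of_lt_csSup hne hc
    filter_upwards [(show ∀ᶠ s in 𝓝[>] (0 : ℝ), c' ≤ F a s from hc')] with s hs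
    exact hlt.trans_le hs
  · rcases hle c with h | h
    · exact absurd (le_csSup hbd h) (not_le.2 hc)
    · exact h

/-- the limit of a bounded SA function is SA -/
theorem saf_lim {F : (ι → ℝ) → ℝ → ℝ} (hF : SAF2 F) {F0 : (ι → ℝ) → ℝ}
    (h0 : ∀ a, Tendsto (F a) (𝓝[>] (0 : ℝ)) (𝓝 (F0 a))) : SAF F0 := by
  apply SAF.of_iff (P := fun a t => ∀ ε : ℝ, 0 < ε → ∃ d : ℝ, 0 < d ∧ ∀ s : ℝ, 0 < s → s < d →
    |F a s - t| < ε)
  · intro a t
    have key : Tendsto (F a) (𝓝[>] (0 : ℝ)) (𝓝 t) ↔ ∀ ε : ℝ, 0 < ε → ∃ d : ℝ, 0 < d ∧ ∀ s : ℝ,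
        0 < s → s < d → |F a s - t| < ε := by
      rw [Metric.tendsto_nhds]
      refine forall_congr' fun ε => forall_congr' fun hε => ?_
      rw [(nhdsGT_basis (0 : ℝ)).eventually_iff]
      constructor
      · rintro ⟨d, hd, h⟩
        exact ⟨d, hd, fun s h1 h2 => h ⟨h1, h2⟩⟩
      · rintro ⟨d, hd, h⟩
        exact ⟨d, hd, fun s hs => h s hs.1 hs.2⟩
    rw [← key]
    constructor
    · rintro rfl
      exact h0 a
    · intro h
      exact tendsto_nhds_unique (h0 a) h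
  · apply SA.allR
    apply SA.imp (SAF.lt (SAF.const 0) (SAF.coord _))
    apply SA.exR
    apply SA.and (SAF.lt (SAF.const 0) (SAF.coord _))
    apply SA.allR
    apply SA.imp (SAF.lt (SAF.const 0) (SAF.coord _))
    apply SA.imp (SAF.lt (SAF.coord _) (SAF.coord _))
    apply SAF.lt
    · apply SAF.abs
      apply SAF.sub
      · have := SAF.reindex (ι := Option (Option (Option (Option ι)))) hF
          (fun o : Option ι => o.elim none (fun i => some (some (some (some i)))))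
        exact this
      · exact SAF.coord _
    · exact SAF.coord _

/-- `F(a', s)` has a (joint) limit as `a' → b`, `s → 0+`, for every `b ∈ O`. -/
def LimOn (F : (ι → ℝ) → ℝ → ℝ) (O : Set (ι → ℝ)) : Prop :=
  ∃ F0 : (ι → ℝ) → ℝ, ∀ b ∈ O,
    Tendsto (fun p : (ι → ℝ) × ℝ => F p.1 p.2) (𝓝 b ×ˢ 𝓝[>] (0 : ℝ)) (𝓝 (F0 b))

theorem LimOn.mono {F : (ι → ℝ) → ℝ → ℝ} {O O' : Set (ι → ℝ)} (h : LimOn F O) (hO : O' ⊆ O) :
    LimOn F O' := by
  obtain ⟨F0, h⟩ := h
  exact ⟨F0, fun b hb => h b (hO hb)⟩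

end Crest.Agent.R264.SAU
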