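import Crest.Agent.R264.SAU3

/-!
Row 264, module SAU (helper264), part 4: (S6) uniform limits of semialgebraic families.
-/

set_option autoImplicit false

open Topology Filter Set MvPolynomial

namespace Crest.Agent.R264.SAU

open Crest.Agent.R264.TS

/-- (S4) generic smoothness, as an input -/
def GS (ι : Type*) [Fintype ι] : Prop :=
  ∀ f : (ι → ℝ) → ℝ, SAF f → ∃ Δ : MvPolynomial ι ℝ, Δ ≠ 0 ∧
    ContDiffOn ℝ 1 f {x | eval x Δ ≠ 0}

variable {ι κ : Type*}

theorem contDiff_cons [Fintype ι] :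
    ContDiff ℝ 1 (fun p : (ι → ℝ) × ℝ => cons p.1 p.2) := by
  rw [contDiff_pi]
  intro o
  cases o with
  | none => exact contDiff_snd
  | some i => exact (contDiff_apply ℝ ℝ i).comp contDiff_fst

/-- generic smoothness near `s = 0+` -/
theorem sm [Fintype ι] (hGS : GS (Option ι)) {f : (ι → ℝ) → ℝ → ℝ} (hf : SAF2 f)
    {O : Set (ι → ℝ)} (hO : IsOpen O) (hne : O.Nonempty) :
    ∃ O' ⊆ O, IsOpen O' ∧ O'.Nonempty ∧ ∃ s1 > (0 : ℝ),
      ContDiffOn ℝ 1 (fun p : (ι → ℝ) × ℝ => f p.1 p.2) (O' ×ˢ Ioo 0 s1) := by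
  obtain ⟨Δ, hΔ, hsm⟩ := hGS _ hf
  obtain ⟨a, ha, r, hr, hball, s1, hs1, hne0⟩ := s5_open Δ hΔ O hO hne
  refine ⟨Metric.ball a r, hball, Metric.isOpen_ball, ⟨a, Metric.mem_ball_self hr⟩, s1, hs1, ?_⟩
  have h := hsm.comp (contDiff_cons (ι := ι)).contDiffOn
    (s := Metric.ball a r ×ˢ Ioo 0 s1) (by
      rintro ⟨b, s⟩ ⟨hb, hs⟩
      exact hne0 b hb s hs.1 hs.2)
  exact h

/-- generic continuity -/
theorem cont [Fintype ι] (hGS : GS ι) {f : (ι → ℝ) → ℝ} (hf : SAF f)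
    {O : Set (ι → ℝ)} (hO : IsOpen O) (hne : O.Nonempty) :
    ∃ O' ⊆ O, IsOpen O' ∧ O'.Nonempty ∧ ∀ b ∈ O', ContinuousAt f b := by
  obtain ⟨Δ, hΔ, hsm⟩ := hGS _ hf
  obtain ⟨a, ha, hane⟩ := exists_eval_ne_zero Δ hΔ O hO hne
  have hopen : IsOpen {x : ι → ℝ | eval x Δ ≠ 0} :=
    isOpen_ne_fun (MvPolynomial.continuous_eval Δ) continuous_const
  refine ⟨O ∩ {x | eval x Δ ≠ 0}, inter_subset_left, hO.inter hopen, ⟨a, ha, hane⟩, ?_⟩
  rintro b ⟨_, hb⟩
  exact hsm.continuousOn.continuousAt (hopen.mem_nhds hb)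

/-- the set defining `η` -/
def etaSet (P : (ι → ℝ) → ℝ → Prop) (a : ι → ℝ) : Set ℝ :=
  {t | 0 ≤ t ∧ t ≤ 1 ∧ ∀ s, 0 < s → s < t → P a s}

/-- `η a = sup {t ≤ 1 : P a s for 0 < s < t}` -/
noncomputable def eta (P : (ι → ℝ) → ℝ → Prop) (a : ι → ℝ) : ℝ := sSup (etaSet P a)

theorem isGreatest_eta (P : (ι → ℝ) → ℝ → Prop) (a : ι → ℝ) :
    IsGreatest (etaSet P a) (eta P a) := by
  have h0 : (0 : ℝ) ∈ etaSet P a := ⟨le_rfl, zero_le_one, fun s h1 h2 => absurd (h1.trans h2)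
    (lt_irrefl _)⟩
  have hbd : BddAbove (etaSet P a) := ⟨1, fun t ht => ht.2.1⟩
  refine ⟨⟨le_csSup hbd h0, csSup_le ⟨0, h0⟩ fun t ht => ht.2.1, fun s h1 h2 => ?_⟩,
    fun t ht => le_csSup hbd ht⟩
  obtain ⟨t, ht, hst⟩ := exists_lt_of_lt_csSup ⟨0, h0⟩ h2
  exact ht.2.2 s h1 hst

theorem eta_pos {P : (ι → ℝ) → ℝ → Prop} {a : ι → ℝ} (h : ∀ᶠ s in 𝓝[>] (0 : ℝ), P a s) :
    0 < eta P a := by
  rw [(nhdsGT_basis (0 : ℝ)).eventually_iff] at h
  obtain ⟨d, hd, h⟩ := h
  have : min d 1 ∈ etaSet P a := by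
    refine ⟨(lt_min hd one_pos).le, min_le_right _ _, fun s h1 h2 => h ⟨h1, ?_⟩⟩
    exact h2.trans_le (min_le_left _ _)
  exact (lt_min hd one_pos).trans_le ((isGreatest_eta P a).2 this)

theorem eta_spec (P : (ι → ℝ) → ℝ → Prop) (a : ι → ℝ) {s : ℝ} (h1 : 0 < s)
    (h2 : s < eta P a) : P a s := (isGreatest_eta P a).1.2.2 s h1 h2

theorem saf_eta {P : (ι → ℝ) → ℝ → Prop}
    (hP : SA {x : Option ι → ℝ | P (fun i => x (some i)) (x none)}) : SAF (eta P) := by
  apply SAF.of_iff (P := fun a t => (0 ≤ t ∧ t ≤ 1 ∧ ∀ s, 0 < s → s < t → P a s) ∧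
    ∀ t', (0 ≤ t' ∧ t' ≤ 1 ∧ ∀ s, 0 < s → s < t' → P a s) → t' ≤ t)
  · intro a t
    constructor
    · rintro rfl
      exact ⟨(isGreatest_eta P a).1, fun t' h => (isGreatest_eta P a).2 h⟩
    · rintro ⟨h1, h2⟩
      exact (isGreatest_eta P a).unique ⟨h1, h2⟩
  · apply SA.and
    · apply SA.and (SAF.le (SAF.const 0) (SAF.coord _))
      apply SA.and (SAF.le (SAF.coord _) (SAF.const 1))
      apply SA.allR
      apply SA.imp (SAF.lt (SAF.const 0) (SAF.coord _))
      apply SA.imp (SAF.lt (SAF.coord _) (SAF.coord _))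
      have := TS.SA.reindex (ι := Option (Option ι)) hP
        (fun o : Option ι => o.elim none (fun i => some (some i)))
      exact this
    · apply SA.allR
      apply SA.imp
      · apply SA.and (SAF.le (SAF.const 0) (SAF.coord _))
        apply SA.and (SAF.le (SAF.coord _) (SAF.const 1))
        apply SA.allR
        apply SA.imp (SAF.lt (SAF.const 0) (SAF.coord _))
        apply SA.imp (SAF.lt (SAF.coord _) (SAF.coord _))
        have := TS.SA.reindex (ι := Option (Option (Option ι))) hP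
          (fun o : Option ι => o.elim none (fun i => some (some (some i))))
        exact this
      · exact SAF.le (SAF.coord _) (SAF.coord _)

/-- (S6) a bounded semialgebraic family has joint limits at `s = 0+` generically -/
theorem s6 [Fintype ι] (hGS0 : GS ι) (hGS1 : GS (Option ι)) {F : (ι → ℝ) → ℝ → ℝ} (hF : SAF2 F)
    (hb : ∀ a s, |F a s| ≤ 1) {O : Set (ι → ℝ)} (hO : IsOpen O) (hne : O.Nonempty) :
    ∃ O' ⊆ O, IsOpen O' ∧ O'.Nonempty ∧ LimOn F O' := by
  choose F0 hF0 using exists_lim hF hb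
  have hS0 : SAF F0 := saf_lim hF hF0
  obtain ⟨O1, hO1, hO1o, hO1n, hc0⟩ := cont hGS0 hS0 hO hne
  -- `η(a, δ)`
  let P : (Option ι → ℝ) → ℝ → Prop := fun x s =>
    |F (fun i => x (some i)) s - F0 (fun i => x (some i))| ≤ x none
  have hP : SA {x : Option (Option ι) → ℝ | P (fun i => x (some i)) (x none)} := by
    apply SAF.le
    · apply SAF.abs
      apply SAF.sub
      · have := SAF.reindex (ι := Option (Option ι)) hF
          (fun o : Option ι => o.elim none (fun i => some (some i)))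
        exact this
      · have := SAF.reindex (ι := Option (Option ι)) hS0 (fun i : ι => some (some i))
        exact this
    · exact SAF.coord _
  have hη : SAF2 (fun (a : ι → ℝ) (d : ℝ) => eta P (cons a d)) := by
    have h1 := saf_eta hP
    have h2 : (fun x : Option ι → ℝ => eta P (cons (fun i => x (some i)) (x none))) = eta P := by
      funext x
      congr 1
      funext o
      cases o <;> rfl
    unfold SAF2
    rw [h2]
    exact h1
  have hηpos : ∀ (a : ι → ℝ) (d : ℝ), 0 < d → 0 < eta P (cons a d) := by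
    intro a d hd
    apply eta_pos
    have := (hF0 a).eventually (Metric.closedBall_mem_nhds (F0 a) hd)
    filter_upwards [this] with s hs
    rw [Real.dist_eq] at hs
    exact hs
  obtain ⟨O2, hO2, hO2o, hO2n, d0, hd0, hsm⟩ := sm hGS1 hη hO1o hO1n
  refine ⟨O2, hO2.trans hO1, hO2o, hO2n, F0, fun b hb2 => ?_⟩
  rw [Metric.tendsto_nhds]
  intro ε hε
  set d : ℝ := min (ε / 4) (d0 / 2) with hd
  have hdpos : 0 < d := lt_min (by positivity) (by positivity)
  have hdd0 : d < d0 := (min_le_right _ _).trans_lt (by linarith)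
  have hcη : ContinuousAt (fun a : ι → ℝ => eta P (cons a d)) b := by
    have h1 : ContinuousAt (fun p : (ι → ℝ) × ℝ => eta P (cons p.1 p.2)) (b, d) := by
      apply hsm.continuousOn.continuousAt
      exact (hO2o.prod isOpen_Ioo).mem_nhds ⟨hb2, hdpos, hdd0⟩
    have h2 : ContinuousAt (fun a : ι → ℝ => (a, d)) b :=
      (continuous_id.prodMk continuous_const).continuousAt
    exact ContinuousAt.comp (f := fun a : ι → ℝ => (a, d)) (x := b) h1 h2
  have hb1 := hηpos b d hdpos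
  have e1 : ∀ᶠ a in 𝓝 b, eta P (cons b d) / 2 < eta P (cons a d) :=
    hcη.eventually (lt_mem_nhds (by linarith))
  have e2 : ∀ᶠ a in 𝓝 b, |F0 a - F0 b| < ε / 2 := by
    have := (hc0 b (hO2 hb2)).eventually (Metric.ball_mem_nhds (F0 b) (half_pos hε))
    filter_upwards [this] with a ha
    rwa [Real.dist_eq] at ha
  have e3 : ∀ᶠ s in 𝓝[>] (0 : ℝ), 0 < s ∧ s < eta P (cons b d) / 2 := by
    have := Ioo_mem_nhdsGT (half_pos hb1)
    filter_upwards [this] with s hs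
    exact hs
  have e4 := (e1.and e2).prod_mk e3
  filter_upwards [e4] with p hp
  obtain ⟨⟨h1, h2⟩, h3, h4⟩ := hp
  have h5 : P (cons p.1 d) p.2 := eta_spec P (cons p.1 d) h3 (h4.trans h1)
  have h6 : |F p.1 p.2 - F0 p.1| ≤ d := h5
  rw [Real.dist_eq]
  calc |F p.1 p.2 - F0 b| = |(F p.1 p.2 - F0 p.1) + (F0 p.1 - F0 b)| := by ring_nf
    _ ≤ |F p.1 p.2 - F0 p.1| + |F0 p.1 - F0 b| := abs_add_le _ _
    _ < ε / 2 + ε / 2 := by
        have : d ≤ ε / 4 := min_le_left _ _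
        linarith
    _ = ε := by ring

end Crest.Agent.R264.SAU
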