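import Crest.Agent.R264.SAU4
import Crest.Agent.R264.TSChoice2

/-!
Row 264, module SAU (helper264), part 5: (S3) and ARC-1 = existence of semialgebraic arcs.
-/

set_option autoImplicit false

open Topology Filter Set MvPolynomial

namespace Crest.Agent.R264.SAU

open Crest.Agent.R264.TS

variable {ι κ : Type*}

/-- (S3) an SA set is locally constant off a hypersurface -/
theorem s3 [Fintype ι] {Z : Set (ι → ℝ)} (hZ : SA Z) :
    ∃ Δ : MvPolynomial ι ℝ, Δ ≠ 0 ∧ ∀ x, eval x Δ ≠ 0 → ∀ᶠ y in 𝓝 x, (y ∈ Z ↔ x ∈ Z) := by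
  classical
  obtain ⟨W, hW⟩ := hZ
  refine ⟨∏ p ∈ W.filter (· ≠ 0), p, ?_, fun x hx => ?_⟩
  · rw [Finset.prod_ne_zero_iff]
    intro p hp
    exact (Finset.mem_filter.1 hp).2
  have h1 : ∀ᶠ y in 𝓝 x, ∀ p ∈ W, SignType.sign (eval y p) = SignType.sign (eval x p) := by
    rw [Filter.eventually_all_finset]
    intro p hp
    by_cases hp0 : p = 0
    · simp [hp0]
    · have hne : eval x p ≠ 0 := by
        rw [map_prod, Finset.prod_ne_zero_iff] at hx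
        exact hx p (Finset.mem_filter.2 ⟨hp, hp0⟩)
      have hc : ContinuousAt (fun y : ι → ℝ => SignType.sign (eval y p)) x :=
        ContinuousAt.comp (f := fun y : ι → ℝ => eval y p) (continuousAt_sign_of_ne_zero hne)
          (MvPolynomial.continuous_eval p).continuousAt
      rw [ContinuousAt, nhds_discrete SignType, tendsto_pure] at hc
      exact hc
  filter_upwards [h1] with y hy
  exact hW y x hy

/-- ARC-1: existence of semialgebraic arcs -/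
theorem arc1 [Fintype ι] [Fintype κ] [Nonempty κ] (hGS : GS ι) {A : (ι → ℝ) → (κ → ℝ) → Prop}
    (hA : SA {z : ι ⊕ κ → ℝ | A (fun i => z (Sum.inl i)) (fun k => z (Sum.inr k))})
    {O : Set (ι → ℝ)} (hO : IsOpen O) (hne : O.Nonempty)
    (hop : ∀ a ∈ O, IsOpen {v | A a v})
    (hcl : ∀ a ∈ O, ∀ ε : ℝ, 0 < ε → ∃ a', dist a' a < ε ∧ ∃ v, A a' v ∧ ‖v‖ < ε) :
    ∃ O' ⊆ O, IsOpen O' ∧ O'.Nonempty ∧ ∃ s0 > (0 : ℝ), ∃ vv : (ι → ℝ) → ℝ → (κ → ℝ),
      (∀ j, SAF2 (fun a s => vv a s j)) ∧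
      ∀ a ∈ O', ∀ s, 0 < s → s < s0 → A a (vv a s) ∧ ‖vv a s‖ = s := by
  -- the condition `s < ‖v‖` for all points `v` of the fibre
  have hP : SA {x : Option ι → ℝ | ∀ v : κ → ℝ, A (fun i => x (some i)) v → x none < ‖v‖} := by
    apply SA.allV (P := fun (x : Option ι → ℝ) (v : κ → ℝ) =>
      A (fun i => x (some i)) v → x none < ‖v‖)
    apply SA.imp
    · have := TS.SA.reindex (ι := Option ι ⊕ κ) hA (Sum.map some id)
      exact this
    · exact SAF.lt (SAF.coord _) (SAF.norm fun k => SAF.coord (Sum.inr k))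
  have hZ : SA {a : ι → ℝ | ∃ c : ℝ, 0 < c ∧ ∀ v : κ → ℝ, A a v → c < ‖v‖} := by
    apply SA.exR (P := fun (a : ι → ℝ) (c : ℝ) => 0 < c ∧ ∀ v : κ → ℝ, A a v → c < ‖v‖)
    exact SA.and (SAF.lt (SAF.const 0) (SAF.coord _)) hP
  obtain ⟨Δ, hΔ, hloc⟩ := s3 hZ
  obtain ⟨a0, ha0, ha0ne⟩ := exists_eval_ne_zero Δ hΔ O hO hne
  have hloc0 := hloc a0 ha0ne
  have ha0Z : ¬ ∃ c : ℝ, 0 < c ∧ ∀ v : κ → ℝ, A a0 v → c < ‖v‖ := by
    intro hcon
    obtain ⟨B, hBsub, hBo, ha0B⟩ := eventually_nhds_iff.1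
      (hloc0.and (hO.mem_nhds ha0))
    obtain ⟨O1, hO1, hO1o, ⟨b, hb⟩, hc1⟩ := cont hGS
      (saf_eta (P := fun (a : ι → ℝ) (s : ℝ) => ∀ v : κ → ℝ, A a v → s < ‖v‖) hP) hBo ⟨a0, ha0B⟩
    have hbB := hO1 hb
    have hbZ : ∃ c : ℝ, 0 < c ∧ ∀ v : κ → ℝ, A b v → c < ‖v‖ := ((hBsub b hbB).1).2 hcon
    have hbO : b ∈ O := (hBsub b hbB).2
    obtain ⟨c, hc, hcv⟩ := hbZ
    set g := eta (fun (a : ι → ℝ) (s : ℝ) => ∀ v : κ → ℝ, A a v → s < ‖v‖) with hg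
    have hgpos : 0 < g b := by
      apply eta_pos
      filter_upwards [Ioo_mem_nhdsGT hc] with s hs v hv
      exact hs.2.trans (hcv v hv)
    have e1 : ∀ᶠ a in 𝓝 b, g b / 2 < g a :=
      (hc1 b hb).eventually (lt_mem_nhds (by linarith))
    obtain ⟨ρ, hρ, hρ'⟩ := Metric.eventually_nhds_iff.1 e1
    obtain ⟨a', ha', v, hv, hvn⟩ := hcl b hbO (min ρ (g b / 4)) (lt_min hρ (by linarith))
    have h1 := hρ' (ha'.trans_le (min_le_left _ _))
    have h2 := eta_spec (fun (a : ι → ℝ) (s : ℝ) => ∀ v : κ → ℝ, A a v → s < ‖v‖) a'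
      (s := g b / 4) (by linarith) (by rw [← hg]; linarith) v hv
    have h3 := hvn.trans_le (min_le_right _ _)
    exact absurd h2 (not_lt.2 h3.le)
  obtain ⟨B, hBsub, hBo, ha0B⟩ := eventually_nhds_iff.1 (hloc0.and (hO.mem_nhds ha0))
  have hBO : B ⊆ O := fun b hb => (hBsub b hb).2
  have hBZ : ∀ b ∈ B, ∀ c : ℝ, 0 < c → ∃ v : κ → ℝ, A b v ∧ ‖v‖ ≤ c := by
    intro b hb c hc
    have h1 : ¬ ∃ c : ℝ, 0 < c ∧ ∀ v : κ → ℝ, A b v → c < ‖v‖ := fun h =>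
      ha0Z (((hBsub b hb).1).1 h)
    by_contra hcon
    push Not at hcon
    exact h1 ⟨c, hc, hcon⟩
  -- the norms taken on the fibre
  have hN : SA {x : Option ι → ℝ | ∃ v : κ → ℝ, A (fun i => x (some i)) v ∧ ‖v‖ = x none} := by
    apply SA.exV (P := fun (x : Option ι → ℝ) (v : κ → ℝ) =>
      A (fun i => x (some i)) v ∧ ‖v‖ = x none)
    apply SA.and
    · have := TS.SA.reindex (ι := Option ι ⊕ κ) hA (Sum.map some id)
      exact this
    · exact SAF.eq (SAF.norm fun k => SAF.coord (Sum.inr k)) (SAF.coord _)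
  have hev : ∀ b ∈ B, ∀ᶠ s in 𝓝[>] (0 : ℝ), ∃ v : κ → ℝ, A b v ∧ ‖v‖ = s := by
    intro b hb
    rcases ev' (P := fun (a : ι → ℝ) (s : ℝ) => ∃ v : κ → ℝ, A a v ∧ ‖v‖ = s) hN b with h | h
    · exact h
    · exfalso
      rw [(nhdsGT_basis (0 : ℝ)).eventually_iff] at h
      obtain ⟨d, hd, h⟩ := h
      obtain ⟨v, hv, hvn⟩ := hBZ b hb (d / 2) (by linarith)
      by_cases hv0 : v = 0
      · -- `0` belongs to the open fibre
        have h1 : {v | A b v} ∈ 𝓝 (0 : κ → ℝ) := (hop b (hBO hb)).mem_nhds (by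
          rw [hv0] at hv; exact hv)
        obtain ⟨ρ, hρ, hρ'⟩ := Metric.mem_nhds_iff.1 h1
        have ht : 0 < min (ρ / 2) (d / 2) := lt_min (by linarith) (by linarith)
        have hnorm : ‖(fun _ : κ => min (ρ / 2) (d / 2))‖ = min (ρ / 2) (d / 2) := by
          rw [pi_norm_const, Real.norm_eq_abs, abs_of_pos ht]
        have h2 : A b (fun _ : κ => min (ρ / 2) (d / 2)) := by
          apply hρ'
          rw [mem_ball_zero_iff, hnorm]
          exact (min_le_left _ _).trans_lt (by linarith)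
        exact h ⟨ht, (min_le_right _ _).trans_lt (by linarith)⟩ ⟨_, h2, hnorm⟩
      · exact h ⟨norm_pos_iff.2 hv0, hvn.trans_lt (by linarith)⟩ ⟨v, hv, rfl⟩
  set g := eta (fun (a : ι → ℝ) (s : ℝ) => ∃ v : κ → ℝ, A a v ∧ ‖v‖ = s) with hg
  obtain ⟨O2, hO2, hO2o, ⟨b, hb⟩, hc2⟩ := cont hGS
    (saf_eta (P := fun (a : ι → ℝ) (s : ℝ) => ∃ v : κ → ℝ, A a v ∧ ‖v‖ = s) hN) hBo ⟨a0, ha0B⟩
  have hgpos : 0 < g b := eta_pos (hev b (hO2 hb))
  have e1 : ∀ᶠ a in 𝓝 b, g b / 2 < g a :=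
    (hc2 b hb).eventually (lt_mem_nhds (by linarith))
  obtain ⟨O3, hO3sub, hO3o, hbO3⟩ := eventually_nhds_iff.1 (e1.and (hO2o.mem_nhds hb))
  obtain ⟨c, hc, hcs⟩ := SA.exists_choice (P := fun (x : Option ι → ℝ) (v : κ → ℝ) =>
      A (fun i => x (some i)) v ∧ ‖v‖ = x none) (by
    apply SA.and
    · have := TS.SA.reindex (ι := Option ι ⊕ κ) hA (Sum.map some id)
      exact this
    · exact SAF.eq (SAF.norm fun k => SAF.coord (Sum.inr k)) (SAF.coord _))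
  refine ⟨O3, fun a ha => hBO (hO2 (hO3sub a ha).2), hO3o, ⟨b, hbO3⟩, g b / 2, by linarith,
    fun a s => c (cons a s), ?_, ?_⟩
  · intro j
    have h1 : SAF (fun x : Option ι → ℝ => c x j) := by
      unfold SAF
      simpa only [eq_comm] using hcs j
    have h2 : (fun x : Option ι → ℝ => c (cons (fun i => x (some i)) (x none)) j) =
        fun x => c x j := by
      funext x
      congr 1
      funext o
      cases o <;> rfl
    unfold SAF2
    rw [h2]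
    exact h1
  · intro a ha s hs0 hs1
    have h1 : ∃ v : κ → ℝ, A a v ∧ ‖v‖ = s :=
      eta_spec (fun (a : ι → ℝ) (s : ℝ) => ∃ v : κ → ℝ, A a v ∧ ‖v‖ = s) a hs0
        (hs1.trans (hO3sub a ha).1)
    exact hc (cons a s) h1

end Crest.Agent.R264.SAU
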