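import Crest.Agent.R264.SAU5
import Crest.Agent.R264.SAV
import Crest.Agent.R264.AIface

/-!
Row 264, module SAU (helper264): transport of ARC to `P m k` (first half of `AI.ArcStmt`).
-/

set_option autoImplicit false

open Topology Filter Set Complex
open scoped ContDiff

namespace Crest.Agent.R264.SAU

open Crest.Agent.R264.TS
open Crest.Agent.R264.JL (P sig ofR reV imV)

variable {m k : ℕ}

theorem pol_ofR {V : Type*} [AddCommGroup V] [Module ℝ V] {f : V → (Fin k → ℝ)} (hf : Pol f) :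
    Pol (fun v => ofR (f v)) :=
  Pol.comp (Pol.lin (ofR (k := k) : (Fin k → ℝ) →ₗ[ℝ] (Fin k → ℂ))) hf

/-- the fibre condition in `P m k`-coordinates is SA -/
theorem sav_fibre {O : Set (P m k)} {Ht : P m k → (Fin k → ℝ)} {UU : Set (EE m k)}
    (hG : SAV {p : P m k × (Fin k → ℝ) | p.1 ∈ O ∧ p.2 = Ht p.1}) (hU : SAV UU) :
    SAV {p : P m k × (Fin k → ℝ) | p.1 ∈ O ∧
      ((p.1.1, ofR p.1.2 + I • ofR (Ht p.1 + p.2)) : EE m k) ∈ UU} := by
  have h1 : SAV {p : P m k × (Fin k → ℝ) | ∃ y : Fin k → ℝ, (p.1 ∈ O ∧ y = Ht p.1) ∧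
      ((p.1.1, ofR p.1.2 + I • ofR (y + p.2)) : EE m k) ∈ UU} := by
    apply SAV.ex (P := fun (p : P m k × (Fin k → ℝ)) (y : Fin k → ℝ) => (p.1 ∈ O ∧ y = Ht p.1) ∧
      ((p.1.1, ofR p.1.2 + I • ofR (y + p.2)) : EE m k) ∈ UU)
    apply SAV.and
    · exact hG.preimage (g := fun q : (P m k × (Fin k → ℝ)) × (Fin k → ℝ) => (q.1.1, q.2))
        (by fun_prop)
    · apply hU.preimage (g := fun q : (P m k × (Fin k → ℝ)) × (Fin k → ℝ) =>
        ((q.1.1.1, ofR q.1.1.2 + I • ofR (q.2 + q.1.2)) : EE m k))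
      apply Pol.prodMk
      · fun_prop
      · apply Pol.add
        · exact pol_ofR (by fun_prop)
        · exact Pol.csmul (Pol.const I) (pol_ofR (by fun_prop))
  convert h1 using 1
  ext p
  constructor
  · rintro ⟨h1, h2⟩
    exact ⟨Ht p.1, ⟨h1, rfl⟩, h2⟩
  · rintro ⟨y, ⟨h1, rfl⟩, h2⟩
    exact ⟨h1, h2⟩

/-- fibres are open -/
theorem fibre_open {O : Set (P m k)} {Ht : P m k → (Fin k → ℝ)} {UU : Set (EE m k)}
    (hUo : IsOpen UU) (a : P m k) :
    IsOpen {v : Fin k → ℝ | a ∈ O ∧ ((a.1, ofR a.2 + I • ofR (Ht a + v)) : EE m k) ∈ UU} := by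
  by_cases ha : a ∈ O
  · simp only [ha, true_and]
    apply hUo.preimage (f := fun v : Fin k → ℝ =>
      ((a.1, ofR a.2 + I • ofR (Ht a + v)) : EE m k))
    fun_prop
  · simp only [ha, false_and]
    exact isOpen_empty

theorem point_eq (p : EE m k) (y : Fin k → ℝ) :
    ((p.1, ofR (reV p.2) + I • ofR (y + (imV p.2 - y))) : EE m k) = p := by
  refine Prod.ext rfl ?_
  funext i
  simp only [Pi.add_apply, Pi.smul_apply, JL.ofR_apply, JL.reV_apply, smul_eq_mul,
    add_sub_cancel, JL.imV_apply]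
  rw [mul_comm]
  exact Complex.re_add_im _

/-- `0` is in the closure of the fibres -/
theorem fibre_closure {O : Set (P m k)} {Ht : P m k → (Fin k → ℝ)} {UU : Set (EE m k)}
    (hO : IsOpen O) (hH : ContDiffOn ℝ ∞ Ht O)
    (hcl : ∀ a ∈ O, sig Ht a ∈ closure UU) (a : P m k) (ha : a ∈ O) (ε : ℝ) (hε : 0 < ε) :
    ∃ a', dist a' a < ε ∧ ∃ v : Fin k → ℝ,
      (a' ∈ O ∧ ((a'.1, ofR a'.2 + I • ofR (Ht a' + v)) : EE m k) ∈ UU) ∧ ‖v‖ < ε := by
  have hHa : ContinuousAt Ht a := hH.continuousOn.continuousAt (hO.mem_nhds ha)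
  -- the map `p ↦ a'`
  let φ : EE m k → P m k := fun p => (p.1, reV p.2)
  have hφ : Continuous φ := by fun_prop
  have hφa : φ (sig Ht a) = a := by
    refine Prod.ext rfl ?_
    funext i
    simp [φ, sig]
  have hψ : ContinuousAt (fun p : EE m k => imV p.2 - Ht (φ p)) (sig Ht a) := by
    apply ContinuousAt.sub
    · have : Continuous (fun p : EE m k => imV p.2) := by fun_prop
      exact this.continuousAt
    · apply ContinuousAt.comp (f := φ)
      · rw [hφa]; exact hHa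
      · exact hφ.continuousAt
  have hψa : imV (sig Ht a).2 - Ht (φ (sig Ht a)) = 0 := by
    rw [hφa]
    funext i
    simp [sig]
  have e1 : ∀ᶠ p in 𝓝 (sig Ht a), dist (φ p) a < ε := by
    have := hφ.continuousAt (x := sig Ht a)
    rw [ContinuousAt, hφa] at this
    exact this.eventually (Metric.ball_mem_nhds a hε)
  have e2 : ∀ᶠ p in 𝓝 (sig Ht a), φ p ∈ O := by
    have := hφ.continuousAt (x := sig Ht a)
    rw [ContinuousAt, hφa] at this
    exact this.eventually (hO.mem_nhds ha)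
  have e3 : ∀ᶠ p in 𝓝 (sig Ht a), ‖imV p.2 - Ht (φ p)‖ < ε := by
    rw [ContinuousAt, hψa] at hψ
    have := hψ.eventually (Metric.ball_mem_nhds (0 : Fin k → ℝ) hε)
    filter_upwards [this] with p hp
    simpa using hp
  obtain ⟨p, hpU, hp1, hp2, hp3⟩ := (mem_closure_iff_frequently.1 (hcl a ha)).and_eventually
    (e1.and (e2.and e3)) |>.exists
  refine ⟨φ p, hp1, imV p.2 - Ht (φ p), ⟨hp2, ?_⟩, hp3⟩
  have := point_eq p (Ht (φ p))
  change ((p.1, ofR (reV p.2) + I • ofR (Ht (φ p) + (imV p.2 - Ht (φ p)))) : EE m k) ∈ UU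
  rw [this]
  exact hpU

/-- the second half (ARC-2), as an input -/
def Arc2 : Prop := ∀ (n k : ℕ) (vv : (Fin n → ℝ) → ℝ → (Fin k → ℝ)),
  (∀ j, SAF2 (fun a s => vv a s j)) → ∀ O : Set (Fin n → ℝ), IsOpen O → O.Nonempty →
  ∀ s0 : ℝ, 0 < s0 → (∀ a ∈ O, ∀ s, 0 < s → s < s0 → ‖vv a s‖ ≤ s) →
  ∃ (a0 : Fin n → ℝ) (r s1 C : ℝ) (om : ℝ → ℝ), 0 < r ∧ 0 < s1 ∧ s1 ≤ s0 ∧
    Metric.ball a0 r ⊆ O ∧ Monotone om ∧ Tendsto om (𝓝[>] 0) (𝓝 0) ∧ (∀ s, 0 ≤ om s) ∧
    (∀ a ∈ Metric.ball a0 r, ∀ a' ∈ Metric.ball a0 r, ∀ s, 0 < s → s < s1 →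
      ‖vv a s - vv a' s‖ ≤ om s * ‖a - a'‖) ∧
    (∀ a ∈ Metric.ball a0 r, ∀ s s', 0 < s → s < s1 → 0 < s' → s' < s1 →
      ‖vv a s - vv a s'‖ ≤ C * |s - s'|)

/-- A5. -/
theorem arcStmt_of (hGS : ∀ n, GS (Fin n)) (h2 : Arc2) : AI.ArcStmt := by
  intro m k O Ht UU hO hne hH hG hUo hU hcl hnU
  -- `k = 0` is impossible
  rcases Nat.eq_zero_or_pos k with hk | hk
  · exfalso
    subst hk
    obtain ⟨a, ha⟩ := hne
    obtain ⟨a', _, v, ⟨ha'O, hv⟩, _⟩ := fibre_closure hO hH hcl a ha 1 one_pos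
    apply hnU a' ha'O
    have : ((a'.1, ofR a'.2 + I • ofR (Ht a' + v)) : EE m 0) = sig Ht a' := by
      refine Prod.ext rfl ?_
      funext i
      exact i.elim0
    rw [← this]
    exact hv
  have : Nonempty (Fin k) := ⟨⟨0, hk⟩⟩
  let e : P m k ≃ₗ[ℝ] (Fin (Module.finrank ℝ (P m k)) → ℝ) := coordE (P m k)
  let E : P m k ≃L[ℝ] (Fin (Module.finrank ℝ (P m k)) → ℝ) := e.toContinuousLinearEquiv
  have hEe : ∀ a, E a = e a := fun _ => rfl
  have hEs : ∀ b, E.symm b = e.symm b := fun _ => rfl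
  let A : (Fin (Module.finrank ℝ (P m k)) → ℝ) → (Fin k → ℝ) → Prop := fun b v =>
    e.symm b ∈ O ∧ (((e.symm b).1, ofR (e.symm b).2 + I • ofR (Ht (e.symm b) + v)) : EE m k) ∈ UU
  have hA : SA {z : Fin (Module.finrank ℝ (P m k)) ⊕ Fin k → ℝ |
      A (fun i => z (Sum.inl i)) (fun j => z (Sum.inr j))} := by
    rw [← sav_iff_sa]
    apply (sav_fibre hG hU).preimage (g := fun z : Fin (Module.finrank ℝ (P m k)) ⊕ Fin k → ℝ =>
      (e.symm (fun i => z (Sum.inl i)), fun j => z (Sum.inr j)))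
    apply Pol.prodMk
    · apply Pol.comp (Pol.lin (e.symm : (Fin (Module.finrank ℝ (P m k)) → ℝ) →ₗ[ℝ] P m k))
      fun_prop
    · fun_prop
  have hOo : IsOpen (E.symm ⁻¹' O) := hO.preimage E.symm.continuous
  obtain ⟨a1, ha1⟩ := hne
  have hOn : (E.symm ⁻¹' O).Nonempty := ⟨E a1, by
    change E.symm (E a1) ∈ O
    rw [E.symm_apply_apply]
    exact ha1⟩
  obtain ⟨O', hO'O, hO'o, hO'n, s0, hs0, vv, hvs, hvA⟩ := arc1 (κ := Fin k) (hGS _) hA hOo hOn
    (fun b _ => fibre_open hUo (e.symm b)) (by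
      intro b hb ε hε
      obtain ⟨K, hK0, hK⟩ : ∃ K : ℝ, 0 < K ∧ ∀ x : P m k, ‖E x‖ ≤ K * ‖x‖ := by
        refine ⟨‖(E : P m k →L[ℝ] (Fin (Module.finrank ℝ (P m k)) → ℝ))‖ + 1,
          by positivity, fun x => ?_⟩
        refine ((E : P m k →L[ℝ] (Fin (Module.finrank ℝ (P m k)) → ℝ)).le_opNorm x).trans ?_
        exact mul_le_mul_of_nonneg_right (by linarith) (norm_nonneg _)
      obtain ⟨a', ha', v, hv, hvn⟩ := fibre_closure hO hH hcl (E.symm b) hb (min ε (ε / K))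
        (lt_min hε (div_pos hε hK0))
      refine ⟨E a', ?_, v, ?_, hvn.trans_le (min_le_left _ _)⟩
      · have h1 : E a' - b = E (a' - E.symm b) := by
          rw [map_sub, E.apply_symm_apply]
        rw [dist_eq_norm, h1]
        refine (hK _).trans_lt ?_
        rw [dist_eq_norm] at ha'
        calc K * ‖a' - E.symm b‖ < K * (ε / K) :=
              mul_lt_mul_of_pos_left (ha'.trans_le (min_le_right _ _)) hK0
          _ = ε := by field_simp
      · change e.symm (E a') ∈ O ∧ _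
        have h2 : e.symm (E a') = a' := e.symm_apply_apply a'
        have h3 : A (E a') v = (e.symm (E a') ∈ O ∧ (((e.symm (E a')).1,
          ofR (e.symm (E a')).2 + I • ofR (Ht (e.symm (E a')) + v)) : EE m k) ∈ UU) := rfl
        rw [h2] at h3 ⊢
        exact hv)
  obtain ⟨a0, r, s1, C, om, hr, hs1, hs10, hball, hmono, hlim, hom0, hla, hls⟩ :=
    h2 _ k vv hvs O' hO'o hO'n s0 hs0 (fun a ha s h1 h2 => ((hvA a ha s h1 h2).2).le)
  classical
  obtain ⟨K, hK0, hK⟩ : ∃ K : ℝ, 0 < K ∧ ∀ x : P m k, ‖E x‖ ≤ K * ‖x‖ := by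
    refine ⟨‖(E : P m k →L[ℝ] (Fin (Module.finrank ℝ (P m k)) → ℝ))‖ + 1,
      by positivity, fun x => ?_⟩
    refine ((E : P m k →L[ℝ] (Fin (Module.finrank ℝ (P m k)) → ℝ)).le_opNorm x).trans ?_
    exact mul_le_mul_of_nonneg_right (by linarith) (norm_nonneg _)
  have hn : ∀ b ∈ Metric.ball a0 r, ∀ s, 0 < s → s < s1 → A b (vv b s) ∧ ‖vv b s‖ = s :=
    fun b hb s h1 h2 => hvA b (hball hb) s h1 (h2.trans_le hs10)
  refine ⟨{
    O' := E ⁻¹' Metric.ball a0 r
    s₀ := s1 / 2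
    C₀ := max C 1
    vv := fun a s => if s ≤ 0 then 0 else vv (E a) s
    om := fun s => om s * K
    hO' := Metric.isOpen_ball.preimage E.continuous
    hne := ⟨E.symm a0, by
      change E (E.symm a0) ∈ Metric.ball a0 r
      rw [E.apply_symm_apply]
      exact Metric.mem_ball_self hr⟩
    sub := ?_
    hs₀ := by positivity
    hC₀ := le_max_of_le_right zero_le_one
    om_mono := fun s s' _ h _ => mul_le_mul_of_nonneg_right (hmono h) hK0.le
    om_lim := by simpa using hlim.mul_const K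
    zero := fun a _ => by simp
    lipa := ?_
    lips := ?_
    mem := ?_ }⟩
  · intro a ha
    have h1 : E.symm (E a) ∈ O := hO'O (hball ha)
    rwa [E.symm_apply_apply] at h1
  · intro a ha a' ha' s h0 h1
    by_cases hs : s ≤ 0
    · simp only [hs, if_true, sub_self, norm_zero]
      exact mul_nonneg (mul_nonneg (hom0 s) hK0.le) (norm_nonneg _)
    · simp only [hs, if_false]
      refine (hla (E a) ha (E a') ha' s (not_le.1 hs) (by linarith)).trans ?_
      rw [mul_assoc]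
      apply mul_le_mul_of_nonneg_left _ (hom0 s)
      rw [← map_sub]
      exact hK _
  · intro a ha s s' h0 h1 h0' h1'
    have hb := hn (E a) ha
    by_cases hs : s ≤ 0
    · by_cases hs' : s' ≤ 0
      · simp only [hs, hs', if_true, sub_self, norm_zero]
        exact mul_nonneg (le_max_of_le_right zero_le_one) (abs_nonneg _)
      · simp only [hs, hs', if_true, if_false, zero_sub, norm_neg]
        rw [(hb s' (not_le.1 hs') (by linarith)).2]
        have h3 : s = 0 := le_antisymm hs h0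
        rw [h3, zero_sub, abs_neg, abs_of_nonneg h0']
        exact le_mul_of_one_le_left h0' (le_max_right _ _)
    · by_cases hs' : s' ≤ 0
      · simp only [hs, hs', if_true, if_false, sub_zero]
        rw [(hb s (not_le.1 hs) (by linarith)).2]
        have h3 : s' = 0 := le_antisymm hs' h0'
        rw [h3, sub_zero, abs_of_nonneg h0]
        exact le_mul_of_one_le_left h0 (le_max_right _ _)
      · simp only [hs, hs', if_false]
        refine (hls (E a) ha s s' (not_le.1 hs) (by linarith) (not_le.1 hs')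
          (by linarith)).trans ?_
        exact mul_le_mul_of_nonneg_right (le_max_left _ _) (abs_nonneg _)
  · intro a ha s h0 h1
    have hs : ¬ s ≤ 0 := not_le.2 h0
    simp only [hs, if_false]
    have h3 := ((hn (E a) ha s h0 (by linarith)).1).2
    have h4 : e.symm (E a) = a := e.symm_apply_apply a
    rw [h4] at h3
    exact h3

end Crest.Agent.R264.SAU
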