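import Crest.Agent.R264.SAUArc2a

/-!
Row 264, module ARC-2 (helper551): the analytic half of the arc lemma.
-/

set_option autoImplicit false

open Topology Filter Set

namespace Crest.Agent.R264.SAU

open Crest.Agent.R264.TS

variable {ι κ : Type*}

/-- mean value inequality on an interval, lower bound -/
theorem mvt_lower {f g : ℝ → ℝ} {x y c : ℝ} (hxy : x ≤ y)
    (hf : ∀ t ∈ Icc x y, HasDerivAt f (g t) t) (hg : ∀ t ∈ Icc x y, c ≤ g t) :
    c * (y - x) ≤ f y - f x := by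
  refine (convex_Icc x y).mul_sub_le_image_sub_of_le_deriv
    (fun t ht => (hf t ht).continuousAt.continuousWithinAt)
    (fun t ht => ((hf t (interior_subset ht)).differentiableAt).differentiableWithinAt)
    (fun t ht => ?_) x (left_mem_Icc.2 hxy) y (right_mem_Icc.2 hxy) hxy
  rw [(hf t (interior_subset ht)).deriv]
  exact hg t (interior_subset ht)

/-- joint limit unfolded -/
theorem lim_unfold {F : (ι → ℝ) → ℝ → ℝ} {b : ι → ℝ} {L : ℝ} [Fintype ι]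
    (h : Tendsto (fun p : (ι → ℝ) × ℝ => F p.1 p.2) (𝓝 b ×ˢ 𝓝[>] (0 : ℝ)) (𝓝 L)) {e : ℝ}
    (he : 0 < e) : ∃ ρ > 0, ∀ a ∈ Metric.ball b ρ, ∀ s, 0 < s → s < ρ → |F a s - L| < e := by
  have h1 := (Metric.tendsto_nhds.1 h) e he
  rw [Filter.eventually_prod_iff] at h1
  obtain ⟨pa, hpa, pb, hpb, h2⟩ := h1
  obtain ⟨r, hr, hra⟩ := Metric.eventually_nhds_iff.1 hpa
  obtain ⟨d, hd, hdb⟩ := (nhdsGT_basis (0 : ℝ)).eventually_iff.1 hpb
  refine ⟨min r d, lt_min hr hd, fun a ha s h0 hs => ?_⟩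
  have := h2 (hra (lt_of_lt_of_le (Metric.mem_ball.1 ha) (min_le_left _ _)))
    (hdb ⟨h0, lt_of_lt_of_le hs (min_le_right _ _)⟩)
  simpa [Real.dist_eq] using this

section Core

variable [Fintype ι] [DecidableEq ι]

set_option linter.unusedSectionVars false

/-- a `C¹` function of `(a, s)` on `O × (0, s1)` bounded by `s` -/
structure Core (v : (ι → ℝ) → ℝ → ℝ) (O : Set (ι → ℝ)) (s1 : ℝ) : Prop where
  hO : IsOpen O
  smooth : ContDiffOn ℝ 1 (fun p : (ι → ℝ) × ℝ => v p.1 p.2) (O ×ˢ Ioo 0 s1)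
  bd : ∀ a ∈ O, ∀ s, 0 < s → s < s1 → |v a s| ≤ s

variable {v : (ι → ℝ) → ℝ → ℝ} {O : Set (ι → ℝ)} {s1 : ℝ}

theorem Core.fd (h : Core v O s1) {a : ι → ℝ} {s : ℝ} (ha : a ∈ O) (h0 : 0 < s) (hs : s < s1) :
    HasFDerivAt (fun p : (ι → ℝ) × ℝ => v p.1 p.2)
      (fderiv ℝ (fun p : (ι → ℝ) × ℝ => v p.1 p.2) (a, s)) (a, s) := by
  refine ((h.smooth.differentiableOn (by norm_num)).differentiableAt ?_).hasFDerivAt
  exact (h.hO.prod isOpen_Ioo).mem_nhds ⟨ha, h0, hs⟩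

theorem Core.dA_eq (h : Core v O s1) {a : ι → ℝ} {s : ℝ} (ha : a ∈ O) (h0 : 0 < s) (hs : s < s1)
    (i : ι) : dA i v a s =
      fderiv ℝ (fun p : (ι → ℝ) × ℝ => v p.1 p.2) (a, s) (Pi.single i 1, 0) := by
  have h1 : HasDerivAt (fun t : ℝ => (a + t • (Pi.single i 1 : ι → ℝ), s))
      ((Pi.single i 1 : ι → ℝ), (0 : ℝ)) 0 := by
    have h2 : HasDerivAt (fun t : ℝ => a + t • (Pi.single i 1 : ι → ℝ)) (Pi.single i 1) 0 := by
      have := ((hasDerivAt_id (0 : ℝ)).smul_const (Pi.single i 1 : ι → ℝ)).const_add a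
      simpa using this
    exact h2.prodMk (hasDerivAt_const _ _)
  have h3 := h.fd ha h0 hs
  have h4 : HasFDerivAt (fun p : (ι → ℝ) × ℝ => v p.1 p.2)
      (fderiv ℝ (fun p : (ι → ℝ) × ℝ => v p.1 p.2) (a, s))
      ((fun t : ℝ => (a + t • (Pi.single i 1 : ι → ℝ), s)) 0) := by
    simpa using h3
  exact (h4.comp_hasDerivAt 0 h1).deriv

theorem Core.dS_eq (h : Core v O s1) {a : ι → ℝ} {s : ℝ} (ha : a ∈ O) (h0 : 0 < s) (hs : s < s1) :
    dS v a s = fderiv ℝ (fun p : (ι → ℝ) × ℝ => v p.1 p.2) (a, s) (0, 1) := by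
  have h1 : HasDerivAt (fun t : ℝ => (a, s + t)) ((0 : ι → ℝ), (1 : ℝ)) 0 := by
    have h2 : HasDerivAt (fun t : ℝ => s + t) 1 0 := by
      simpa using (hasDerivAt_id (0 : ℝ)).const_add s
    exact (hasDerivAt_const _ _).prodMk h2
  have h3 := h.fd ha h0 hs
  have h4 : HasFDerivAt (fun p : (ι → ℝ) × ℝ => v p.1 p.2)
      (fderiv ℝ (fun p : (ι → ℝ) × ℝ => v p.1 p.2) (a, s))
      ((fun t : ℝ => (a, s + t)) 0) := by
    simpa using h3
  exact (h4.comp_hasDerivAt 0 h1).deriv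

/-- derivative along the `i`-th coordinate line -/
theorem Core.lineA (h : Core v O s1) {a : ι → ℝ} {s t : ℝ} (i : ι)
    (ha : a + t • (Pi.single i 1 : ι → ℝ) ∈ O) (h0 : 0 < s) (hs : s < s1) :
    HasDerivAt (fun t : ℝ => v (a + t • (Pi.single i 1 : ι → ℝ)) s)
      (dA i v (a + t • (Pi.single i 1 : ι → ℝ)) s) t := by
  rw [h.dA_eq ha h0 hs]
  have h1 : HasDerivAt (fun t : ℝ => (a + t • (Pi.single i 1 : ι → ℝ), s))
      ((Pi.single i 1 : ι → ℝ), (0 : ℝ)) t := by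
    have h2 : HasDerivAt (fun t : ℝ => a + t • (Pi.single i 1 : ι → ℝ)) (Pi.single i 1) t := by
      have := ((hasDerivAt_id t).smul_const (Pi.single i 1 : ι → ℝ)).const_add a
      simpa using this
    exact h2.prodMk (hasDerivAt_const _ _)
  exact (h.fd ha h0 hs).comp_hasDerivAt (f := fun t : ℝ => (a + t • (Pi.single i 1 : ι → ℝ), s)) t h1

/-- derivative in `s` -/
theorem Core.lineS (h : Core v O s1) {a : ι → ℝ} {s : ℝ} (ha : a ∈ O) (h0 : 0 < s)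
    (hs : s < s1) : HasDerivAt (fun s : ℝ => v a s) (dS v a s) s := by
  rw [h.dS_eq ha h0 hs]
  have h1 : HasDerivAt (fun s : ℝ => (a, s)) ((0 : ι → ℝ), (1 : ℝ)) s :=
    (hasDerivAt_const _ _).prodMk (hasDerivAt_id s)
  exact (h.fd ha h0 hs).comp_hasDerivAt (f := fun s : ℝ => (a, s)) s h1

/-- (3): the limit of the bounded transform of `∂_i v` is zero -/
theorem Core.limA (h : Core v O s1) (hs1 : 0 < s1) (i : ι) {b : ι → ℝ} (hb : b ∈ O) {L : ℝ}
    (hL : Tendsto (fun p : (ι → ℝ) × ℝ => dA i v p.1 p.2 / (1 + |dA i v p.1 p.2|))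
      (𝓝 b ×ˢ 𝓝[>] (0 : ℝ)) (𝓝 L)) : L = 0 := by
  by_contra hne
  have hLp : 0 < |L| := abs_pos.2 hne
  obtain ⟨ρ, hρ, hlim⟩ := lim_unfold (F := fun a s => dA i v a s / (1 + |dA i v a s|)) hL
    (half_pos hLp)
  obtain ⟨ρ', hρ', hball⟩ := Metric.isOpen_iff.1 h.hO b hb
  set R := min ρ ρ' / 2 with hR
  have hRp : 0 < R := by have := lt_min hρ hρ'; positivity
  have hRρ : R < ρ := by
    have := min_le_left ρ ρ'; have h2 := lt_min hρ hρ'; rw [hR]; linarith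
  have hRρ' : R < ρ' := by
    have := min_le_right ρ ρ'; have h2 := lt_min hρ hρ'; rw [hR]; linarith
  set s : ℝ := min (min (ρ / 2) (s1 / 2)) (|L| * R / 8) with hs
  have hsp : 0 < s := by
    refine lt_min (lt_min (by positivity) (by positivity)) (by positivity)
  have hsρ : s < ρ := by
    have : s ≤ ρ / 2 := (min_le_left _ _).trans (min_le_left _ _)
    linarith
  have hss1 : s < s1 := by
    have : s ≤ s1 / 2 := (min_le_left _ _).trans (min_le_right _ _)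
    linarith
  have hsL : s ≤ |L| * R / 8 := min_le_right _ _
  have hdist : ∀ t ∈ Icc (0 : ℝ) R, dist (b + t • (Pi.single i 1 : ι → ℝ)) b ≤ R := by
    intro t ht
    rw [dist_eq_norm, add_sub_cancel_left, norm_smul, Real.norm_of_nonneg ht.1]
    have : ‖(Pi.single i 1 : ι → ℝ)‖ ≤ 1 := by
      rw [pi_norm_le_iff_of_nonneg zero_le_one]
      intro k
      by_cases hk : k = i
      · subst hk; simp
      · simp [Pi.single_eq_of_ne hk]
    calc t * ‖(Pi.single i 1 : ι → ℝ)‖ ≤ t * 1 := mul_le_mul_of_nonneg_left this ht.1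
      _ ≤ R := by linarith [ht.2]
  have hmemO : ∀ t ∈ Icc (0 : ℝ) R, b + t • (Pi.single i 1 : ι → ℝ) ∈ O := fun t ht =>
    hball (Metric.mem_ball.2 (lt_of_le_of_lt (hdist t ht) hRρ'))
  have hder : ∀ t ∈ Icc (0 : ℝ) R, HasDerivAt (fun t : ℝ => v (b + t • (Pi.single i 1 : ι → ℝ)) s)
      (dA i v (b + t • (Pi.single i 1 : ι → ℝ)) s) t := fun t ht =>
    h.lineA i (hmemO t ht) hsp hss1
  have hsg : ∀ t ∈ Icc (0 : ℝ) R, _ := fun t ht =>
    bdd_sign (hlim (b + t • (Pi.single i 1 : ι → ℝ))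
      (Metric.mem_ball.2 (lt_of_le_of_lt (hdist t ht) hRρ)) s hsp hsρ)
  have hb0 := h.bd _ (hmemO 0 ⟨le_rfl, hRp.le⟩) s hsp hss1
  have hbR := h.bd _ (hmemO R ⟨hRp.le, le_rfl⟩) s hsp hss1
  rw [abs_le] at hb0 hbR
  rcases lt_or_gt_of_ne hne with hneg | hpos
  · have := mvt_lower (f := fun t : ℝ => -v (b + t • (Pi.single i 1 : ι → ℝ)) s)
      (g := fun t => -dA i v (b + t • (Pi.single i 1 : ι → ℝ)) s) (c := |L| / 2) hRp.le
      (fun t ht => (hder t ht).neg)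
      (fun t ht => by
        have := ((hsg t ht).2 hneg).2
        rw [abs_of_neg hneg]; linarith)
    nlinarith [hb0.1, hb0.2, hbR.1, hbR.2]
  · have := mvt_lower (f := fun t : ℝ => v (b + t • (Pi.single i 1 : ι → ℝ)) s)
      (g := fun t => dA i v (b + t • (Pi.single i 1 : ι → ℝ)) s) (c := |L| / 2) hRp.le
      (fun t ht => hder t ht)
      (fun t ht => by
        have := (hsg t ht).1 hpos
        rw [abs_of_pos hpos]; linarith)
    nlinarith [hb0.1, hb0.2, hbR.1, hbR.2]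

/-- (4): the limit of the bounded transform of `∂_s v` is `< 1` in absolute value -/
theorem Core.limS (h : Core v O s1) (hs1 : 0 < s1) {b : ι → ℝ} (hb : b ∈ O) {L : ℝ}
    (hL : Tendsto (fun p : (ι → ℝ) × ℝ => dS v p.1 p.2 / (1 + |dS v p.1 p.2|))
      (𝓝 b ×ˢ 𝓝[>] (0 : ℝ)) (𝓝 L)) : |L| < 1 := by
  by_contra hne
  push Not at hne
  have hLp : 0 < |L| := lt_of_lt_of_le one_pos hne
  obtain ⟨ρ, hρ, hlim⟩ := lim_unfold (F := fun a s => dS v a s / (1 + |dS v a s|)) hL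
    (e := 1 / 3) (by norm_num)
  set s : ℝ := min (ρ / 2) (s1 / 2) with hs
  have hsp : 0 < s := lt_min (by positivity) (by positivity)
  have hsρ : s < ρ := by
    have : s ≤ ρ / 2 := (min_le_left _ _)
    linarith
  have hss1 : s < s1 := by
    have : s ≤ s1 / 2 := min_le_right _ _
    linarith
  have hder : ∀ t ∈ Icc (s / 4) s, HasDerivAt (fun t : ℝ => v b t) (dS v b t) t := fun t ht =>
    h.lineS hb (by linarith [ht.1]) (lt_of_le_of_lt ht.2 hss1)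
  have hG : ∀ t ∈ Icc (s / 4) s, |dS v b t / (1 + |dS v b t|) - L| < 1 / 3 := fun t ht =>
    hlim b (Metric.mem_ball_self hρ) t (by linarith [ht.1]) (lt_of_le_of_lt ht.2 hsρ)
  have hb0 := h.bd b hb (s / 4) (by linarith) (by linarith)
  have hbR := h.bd b hb s hsp hss1
  rw [abs_le] at hb0 hbR
  rcases lt_or_gt_of_ne (abs_pos.1 hLp) with hneg | hpos
  · rw [abs_of_neg hneg] at hne
    have := mvt_lower (f := fun t : ℝ => -v b t)
      (g := fun t => -dS v b t) (c := 2) (x := s / 4) (y := s) (by linarith)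
      (fun t ht => (hder t ht).neg)
      (fun t ht => by
        have h1 := (abs_lt.1 (hG t ht)).2
        have hp : 0 < 1 + |dS v b t| := by positivity
        have h2 : dS v b t / (1 + |dS v b t|) < -(2 / 3) := by linarith
        rw [div_lt_iff₀ hp] at h2
        have h3 : dS v b t < 0 := by nlinarith [abs_nonneg (dS v b t)]
        rw [abs_of_neg h3] at h2
        linarith)
    nlinarith [hb0.1, hb0.2, hbR.1, hbR.2]
  · rw [abs_of_pos hpos] at hne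
    have := mvt_lower (f := fun t : ℝ => v b t)
      (g := fun t => dS v b t) (c := 2) (x := s / 4) (y := s) (by linarith)
      (fun t ht => hder t ht)
      (fun t ht => by
        have h1 := (abs_lt.1 (hG t ht)).1
        have hp : 0 < 1 + |dS v b t| := by positivity
        have h2 : 2 / 3 < dS v b t / (1 + |dS v b t|) := by linarith
        rw [lt_div_iff₀ hp] at h2
        have h3 : 0 < dS v b t := by nlinarith [abs_nonneg (dS v b t)]
        rw [abs_of_pos h3] at h2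
        linarith)
    nlinarith [hb0.1, hb0.2, hbR.1, hbR.2]

/-- norm of the partial derivative in `a` -/
theorem Core.fdA (h : Core v O s1) {a : ι → ℝ} {s M : ℝ} (ha : a ∈ O) (h0 : 0 < s) (hs : s < s1)
    (hM : ∀ i, |dA i v a s| ≤ M) :
    ∃ L : (ι → ℝ) →L[ℝ] ℝ, HasFDerivAt (fun a => v a s) L a ∧ ‖L‖ ≤ Fintype.card ι * M := by
  have h1 : HasFDerivAt (fun a : ι → ℝ => (a, s)) (ContinuousLinearMap.inl ℝ (ι → ℝ) ℝ) a :=
    hasFDerivAt_prodMk_left a s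
  refine ⟨_, (h.fd ha h0 hs).comp (f := fun a : ι → ℝ => (a, s)) a h1, ?_⟩
  have hM0 : 0 ≤ (Fintype.card ι : ℝ) * M := by
    rcases isEmpty_or_nonempty ι with hι | ⟨⟨i⟩⟩
    · simp
    · exact mul_nonneg (Nat.cast_nonneg _) ((abs_nonneg _).trans (hM i))
  refine ContinuousLinearMap.opNorm_le_bound _ hM0 (fun x => ?_)
  have hx : x = ∑ i, x i • (Pi.single i (1 : ℝ) : ι → ℝ) := by
    funext k
    simp [Finset.sum_apply, Pi.single_apply]
  have h2 : ((fderiv ℝ (fun p : (ι → ℝ) × ℝ => v p.1 p.2) (a, s)).comp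
      (ContinuousLinearMap.inl ℝ (ι → ℝ) ℝ)) x = ∑ i, x i * dA i v a s := by
    conv_lhs => rw [hx]
    rw [map_sum]
    refine Finset.sum_congr rfl fun i _ => ?_
    rw [map_smul, smul_eq_mul, h.dA_eq ha h0 hs]
    rfl
  rw [h2, Real.norm_eq_abs]
  calc |∑ i, x i * dA i v a s| ≤ ∑ i, |x i * dA i v a s| := Finset.abs_sum_le_sum_abs _ _
    _ ≤ ∑ _i : ι, ‖x‖ * M := by
      refine Finset.sum_le_sum fun i _ => ?_
      rw [abs_mul]
      exact mul_le_mul (norm_le_pi_norm x i) (hM i) (abs_nonneg _) (norm_nonneg _)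
    _ = Fintype.card ι * M * ‖x‖ := by
      rw [Finset.sum_const, Finset.card_univ, nsmul_eq_mul]; ring

/-- bound for `∂_s v` near a point -/
theorem Core.bdS (h : Core v O s1) (hs1 : 0 < s1) {b : ι → ℝ} (hb : b ∈ O)
    (hlim : LimOn (fun a s => dS v a s / (1 + |dS v a s|)) O) :
    ∃ C ≥ 0, ∀ᶠ ρ in 𝓝[>] (0 : ℝ), ∀ a ∈ Metric.ball b ρ, ∀ s, 0 < s → s < ρ →
      |dS v a s| ≤ C := by
  obtain ⟨F0, hF0⟩ := hlim
  have hL := h.limS hs1 hb (hF0 b hb)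
  set L := F0 b with hLd
  set q : ℝ := (1 + |L|) / 2 with hq
  have hq1 : q < 1 := by rw [hq]; linarith
  have hq0 : 0 ≤ q := by positivity
  obtain ⟨ρ, hρ, hρl⟩ := lim_unfold (F := fun a s => dS v a s / (1 + |dS v a s|)) (hF0 b hb)
    (e := (1 - |L|) / 2) (by linarith)
  refine ⟨q / (1 - q), div_nonneg hq0 (by linarith), ?_⟩
  filter_upwards [Ioo_mem_nhdsGT hρ] with ρ' hρ' a ha s h0 hs
  have h1 := hρl a (Metric.ball_subset_ball hρ'.2.le ha) s h0 (hs.trans hρ'.2)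
  have h2 : |dS v a s / (1 + |dS v a s|)| < q := by
    have h3 := abs_sub_abs_le_abs_sub (dS v a s / (1 + |dS v a s|)) L
    rw [hq]; linarith
  have hp : 0 < 1 + |dS v a s| := by positivity
  rw [abs_div, abs_of_pos hp, div_lt_iff₀ hp] at h2
  rw [le_div_iff₀ (by linarith)]
  linarith

/-- uniform smallness of `∂_i v` on compact sets -/
theorem Core.smallA (h : Core v O s1) (hs1 : 0 < s1) (i : ι) {K : Set (ι → ℝ)} (hK : IsCompact K)
    (hKO : K ⊆ O) (hlim : LimOn (fun a s => dA i v a s / (1 + |dA i v a s|)) O) {ε : ℝ}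
    (hε : 0 < ε) : ∀ᶠ s in 𝓝[>] (0 : ℝ), ∀ b ∈ K, |dA i v b s| ≤ ε := by
  obtain ⟨F0, hF0⟩ := hlim
  have key : ∀ᶠ s in 𝓝 (0 : ℝ), ∀ b ∈ K, 0 < s → |dA i v b s| ≤ ε := by
    refine hK.eventually_forall_of_forall_eventually fun b hb => ?_
    have hL := h.limA hs1 i (hKO hb) (hF0 b (hKO hb))
    have h1 := hF0 b (hKO hb)
    rw [hL] at h1
    obtain ⟨ρ, hρ, hρl⟩ := lim_unfold (F := fun a s => dA i v a s / (1 + |dA i v a s|)) h1
      (e := ε / (1 + ε)) (by positivity)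
    rw [nhds_prod_eq] at *
    have hmem : Metric.ball (0 : ℝ) ρ ×ˢ Metric.ball b ρ ∈ 𝓝 (0 : ℝ) ×ˢ 𝓝 b :=
      prod_mem_prod (Metric.ball_mem_nhds _ hρ) (Metric.ball_mem_nhds _ hρ)
    filter_upwards [hmem] with z hz h0
    have hz1 : z.1 < ρ := by
      have := hz.1
      rw [Metric.mem_ball, Real.dist_eq, sub_zero, abs_of_pos h0] at this
      exact this
    have h2 := hρl z.2 hz.2 z.1 h0 hz1
    have hp : 0 < 1 + |dA i v z.2 z.1| := by positivity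
    rw [sub_zero, abs_div, abs_of_pos hp, div_lt_div_iff₀ hp (by positivity)] at h2
    nlinarith
  filter_upwards [nhdsWithin_le_nhds key, self_mem_nhdsWithin] with s hs h0 b hb
  exact hs b hb h0

end Core

theorem arc2 [Fintype ι] [Fintype κ]
    (S6 : ∀ F : (ι → ℝ) → ℝ → ℝ, SAF2 F → (∀ a s, |F a s| ≤ 1) → ∀ O : Set (ι → ℝ), IsOpen O →
      O.Nonempty → ∃ O' ⊆ O, IsOpen O' ∧ O'.Nonempty ∧ LimOn F O')
    (SM : ∀ f : (ι → ℝ) → ℝ → ℝ, SAF2 f → ∀ O : Set (ι → ℝ), IsOpen O → O.Nonempty →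
      ∃ O' ⊆ O, IsOpen O' ∧ O'.Nonempty ∧ ∃ s1 > 0,
        ContDiffOn ℝ 1 (fun p : (ι → ℝ) × ℝ => f p.1 p.2) (O' ×ˢ Ioo 0 s1))
    (vv : (ι → ℝ) → ℝ → (κ → ℝ)) (hvv : ∀ j, SAF2 (fun a s => vv a s j))
    {O : Set (ι → ℝ)} (hO : IsOpen O) (hne : O.Nonempty) {s0 : ℝ} (hs0 : 0 < s0)
    (hs : ∀ a ∈ O, ∀ s, 0 < s → s < s0 → ‖vv a s‖ ≤ s) :
    ∃ (a0 : ι → ℝ) (r s1 C : ℝ) (om : ℝ → ℝ), 0 < r ∧ 0 < s1 ∧ s1 ≤ s0 ∧
      Metric.ball a0 r ⊆ O ∧ Monotone om ∧ Tendsto om (𝓝[>] 0) (𝓝 0) ∧ (∀ s, 0 ≤ om s) ∧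
      (∀ a ∈ Metric.ball a0 r, ∀ a' ∈ Metric.ball a0 r, ∀ s, 0 < s → s < s1 →
        ‖vv a s - vv a' s‖ ≤ om s * ‖a - a'‖) ∧
      (∀ a ∈ Metric.ball a0 r, ∀ s s', 0 < s → s < s1 → 0 < s' → s' < s1 →
        ‖vv a s - vv a s'‖ ≤ C * |s - s'|) := by
  classical
  -- shrink three times
  obtain ⟨O1, hO1, hO1o, hO1n, hP1⟩ := shrink (α := κ)
    (fun j O => ∀ᶠ s1 in 𝓝[>] (0 : ℝ),
      ContDiffOn ℝ 1 (fun p : (ι → ℝ) × ℝ => vv p.1 p.2 j) (O ×ˢ Ioo 0 s1))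
    (fun j O O' h hsub => h.mono fun s1 h1 => h1.mono (prod_mono hsub subset_rfl))
    (fun j O hO hne => by
      obtain ⟨O', h1, h2, h3, s1, h4, h5⟩ := SM _ (hvv j) O hO hne
      refine ⟨O', h1, h2, h3, ?_⟩
      filter_upwards [Ioo_mem_nhdsGT h4] with s hs'
      exact h5.mono (prod_mono subset_rfl (Ioo_subset_Ioo_right hs'.2.le))) hO hne
  obtain ⟨O2, hO2, hO2o, hO2n, hP2⟩ := shrink (α := ι × κ)
    (fun k O => LimOn (fun a s => dA k.1 (fun a s => vv a s k.2) a s /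
      (1 + |dA k.1 (fun a s => vv a s k.2) a s|)) O)
    (fun k O O' h hsub => h.mono hsub)
    (fun k O hO hne => S6 _ (saf_bdd (saf_dA k.1 (hvv k.2))) (fun a s => bdd_le _) O hO hne)
    hO1o hO1n
  obtain ⟨O3, hO3, hO3o, hO3n, hP3⟩ := shrink (α := κ)
    (fun j O => LimOn (fun a s => dS (fun a s => vv a s j) a s /
      (1 + |dS (fun a s => vv a s j) a s|)) O)
    (fun k O O' h hsub => h.mono hsub)
    (fun j O hO hne => S6 _ (saf_bdd (saf_dS (hvv j))) (fun a s => bdd_le _) O hO hne)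
    hO2o hO2n
  have hO3O : O3 ⊆ O := hO3.trans (hO2.trans hO1)
  have hcore : ∀ᶠ s1 in 𝓝[>] (0 : ℝ), ∀ j, Core (fun a s => vv a s j) O3 s1 := by
    rw [Filter.eventually_all]
    intro j
    filter_upwards [hP1 j, Ioo_mem_nhdsGT hs0] with s1 h1 h2
    refine ⟨hO3o, h1.mono (prod_mono (hO3.trans hO2) subset_rfl), fun a ha s h0 hss => ?_⟩
    exact (norm_le_pi_norm (vv a s) j).trans (hs a (hO3O ha) s h0 (hss.trans h2.2))
  obtain ⟨a0, ha0⟩ := hO3n
  obtain ⟨sc, hsc, hscp⟩ : ∃ sc : ℝ, (∀ j, Core (fun a s => vv a s j) O3 sc) ∧ 0 < sc :=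
    (hcore.and self_mem_nhdsWithin).exists
  -- bound in `s`
  have hbS := fun j => (hsc j).bdS hscp ha0 (hP3 j)
  choose Cs hCs0 hCs using hbS
  have hCs' : ∀ᶠ ρ in 𝓝[>] (0 : ℝ), ∀ j, ∀ a ∈ Metric.ball a0 ρ, ∀ s, 0 < s → s < ρ →
      |dS (fun a s => vv a s j) a s| ≤ Cs j := Filter.eventually_all.2 hCs
  obtain ⟨R, hR, hRO⟩ := Metric.isOpen_iff.1 hO3o a0 ha0
  obtain ⟨r, ⟨hr1, hr2⟩, hr0⟩ := ((hCs'.and (Ioo_mem_nhdsGT hR)).and self_mem_nhdsWithin).exists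
  have hr0' : 0 < r := hr0
  have hKO : Metric.closedBall a0 r ⊆ O3 := (Metric.closedBall_subset_ball hr2.2).trans hRO
  have hKc : IsCompact (Metric.closedBall a0 r) := isCompact_closedBall _ _
  -- uniform smallness
  have hsm : ∀ ε > 0, ∀ᶠ s in 𝓝[>] (0 : ℝ), ∀ i j, ∀ b ∈ Metric.closedBall a0 r,
      |dA i (fun a s => vv a s j) b s| ≤ ε := by
    intro ε hε
    rw [Filter.eventually_all]
    intro i
    rw [Filter.eventually_all]
    intro j
    exact (hsc j).smallA hscp i hKc hKO ((hP2 (i, j)).mono hO3) hε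
  obtain ⟨d1, hd1, hd1'⟩ := (nhdsGT_basis (0 : ℝ)).eventually_iff.1 (hsm 1 one_pos)
  set s1 : ℝ := min (min s0 sc) (min r d1) with hs1
  have hs1p : 0 < s1 := lt_min (lt_min hs0 hscp) (lt_min hr0' hd1)
  have hs1s0 : s1 ≤ s0 := (min_le_left _ _).trans (min_le_left _ _)
  have hs1sc : s1 ≤ sc := (min_le_left _ _).trans (min_le_right _ _)
  have hs1r : s1 ≤ r := (min_le_right _ _).trans (min_le_left _ _)
  have hs1d : s1 ≤ d1 := (min_le_right _ _).trans (min_le_right _ _)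
  -- the modulus
  let A : ℝ → Set ℝ := fun s => {x | x = 0 ∨ ∃ s', 0 < s' ∧ s' ≤ s ∧ s' < s1 ∧
    ∃ b ∈ Metric.closedBall a0 r, ∃ i j, x = |dA i (fun a s => vv a s j) b s'|}
  have hAne : ∀ s, (A s).Nonempty := fun s => ⟨0, Or.inl rfl⟩
  have hAb : ∀ s, ∀ x ∈ A s, x ≤ 1 := by
    rintro s x (rfl | ⟨s', h0, -, hs', b, hb, i, j, rfl⟩)
    · exact zero_le_one
    · exact hd1' ⟨h0, lt_of_lt_of_le hs' hs1d⟩ i j b hb
  have hAbdd : ∀ s, BddAbove (A s) := fun s => ⟨1, fun x hx => hAb s x hx⟩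
  have hA0 : ∀ s, 0 ≤ sSup (A s) := fun s => le_csSup (hAbdd s) (Or.inl rfl)
  set om : ℝ → ℝ := fun s => Fintype.card ι * sSup (A s) with hom
  have hcard : (0 : ℝ) ≤ Fintype.card ι := Nat.cast_nonneg _
  refine ⟨a0, r, s1, ∑ j, Cs j, om, hr0', hs1p, hs1s0,
    (Metric.ball_subset_closedBall.trans hKO).trans hO3O, ?_, ?_, ?_, ?_, ?_⟩
  · intro s t hst
    refine mul_le_mul_of_nonneg_left (csSup_le_csSup (hAbdd t) (hAne s) ?_) hcard
    rintro x (rfl | ⟨s', h0, h1, h2, h3⟩)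
    · exact Or.inl rfl
    · exact Or.inr ⟨s', h0, h1.trans hst, h2, h3⟩
  · rw [Metric.tendsto_nhds]
    intro ε hε
    have hε' : 0 < ε / (Fintype.card ι + 1) := by positivity
    obtain ⟨d, hd, hd'⟩ := (nhdsGT_basis (0 : ℝ)).eventually_iff.1 (hsm _ hε')
    filter_upwards [Ioo_mem_nhdsGT hd] with s hsd
    have h1 : sSup (A s) ≤ ε / (Fintype.card ι + 1) := by
      refine csSup_le (hAne s) ?_
      rintro x (rfl | ⟨s', h0, h1, -, b, hb, i, j, rfl⟩)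
      · exact hε'.le
      · exact hd' ⟨h0, lt_of_le_of_lt h1 hsd.2⟩ i j b hb
    rw [Real.dist_eq, sub_zero, abs_of_nonneg (mul_nonneg hcard (hA0 s))]
    calc (Fintype.card ι : ℝ) * sSup (A s) ≤ Fintype.card ι * (ε / (Fintype.card ι + 1)) :=
          mul_le_mul_of_nonneg_left h1 hcard
      _ < ε := by
        rw [mul_div_assoc', div_lt_iff₀ (by positivity)]
        nlinarith
  · exact fun s => mul_nonneg hcard (hA0 s)
  · intro a ha a' ha' s h0 hss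
    rw [pi_norm_le_iff_of_nonneg (mul_nonneg (mul_nonneg hcard (hA0 s)) (norm_nonneg _))]
    intro j
    have hM : ∀ b ∈ Metric.closedBall a0 r, ∀ i, |dA i (fun a s => vv a s j) b s| ≤ sSup (A s) :=
      fun b hb i => le_csSup (hAbdd s) (Or.inr ⟨s, h0, le_rfl, hss, b, hb, i, j, rfl⟩)
    have hfd : ∀ b ∈ Metric.ball a0 r, ∃ L : (ι → ℝ) →L[ℝ] ℝ,
        HasFDerivAt (fun a => vv a s j) L b ∧ ‖L‖ ≤ om s := fun b hb =>
      (hsc j).fdA (hKO (Metric.ball_subset_closedBall hb)) h0 (lt_of_lt_of_le hss hs1sc)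
        (hM b (Metric.ball_subset_closedBall hb))
    choose! L hL1 hL2 using hfd
    exact (convex_ball a0 r).norm_image_sub_le_of_norm_hasFDerivWithin_le
      (fun b hb => (hL1 b hb).hasFDerivWithinAt) (fun b hb => hL2 b hb) ha' ha
  · intro a ha s s' h0 hss h0' hss'
    have hC0 : 0 ≤ ∑ j, Cs j := Finset.sum_nonneg fun j _ => hCs0 j
    rw [pi_norm_le_iff_of_nonneg (mul_nonneg hC0 (abs_nonneg _))]
    intro j
    have h1 := (convex_Ioo (0 : ℝ) s1).norm_image_sub_le_of_norm_hasDerivWithin_le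
      (f := fun s => vv a s j) (f' := fun s => dS (fun a s => vv a s j) a s) (C := Cs j)
      (fun t ht => ((hsc j).lineS (hKO (Metric.ball_subset_closedBall ha)) ht.1
        (lt_of_lt_of_le ht.2 hs1sc)).hasDerivWithinAt)
      (fun t ht => hr1 j a ha t ht.1 (lt_of_lt_of_le ht.2 hs1r)) ⟨h0', hss'⟩ ⟨h0, hss⟩
    refine h1.trans ?_
    rw [Real.norm_eq_abs]
    exact mul_le_mul_of_nonneg_right
      (Finset.single_le_sum (f := Cs) (fun j _ => hCs0 j) (Finset.mem_univ j)) (abs_nonneg _)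

end Crest.Agent.R264.SAU
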