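import Crest.Agent.R264.SAU3

/-!
Row 264, module ARC-2 (helper551), part a: derivatives of semialgebraic functions are
semialgebraic.
-/

set_option autoImplicit false

open Topology Filter Set

namespace Crest.Agent.R264.SAU

open Crest.Agent.R264.TS

variable {ι κ : Type*}

theorem hasDerivAt_iff_eps (f : ℝ → ℝ) (t : ℝ) :
    HasDerivAt f t 0 ↔ ∀ ε : ℝ, 0 < ε → ∃ d : ℝ, 0 < d ∧ ∀ h : ℝ, |h| < d →
      |f h - f 0 - h * t| ≤ ε * |h| := by
  rw [hasDerivAt_iff_isLittleO_nhds_zero, Asymptotics.isLittleO_iff]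
  refine forall_congr' fun ε => forall_congr' fun hε => ?_
  rw [Metric.eventually_nhds_iff]
  simp only [Real.dist_eq, sub_zero, zero_add, smul_eq_mul, Real.norm_eq_abs]

theorem SAF2.at_zero [Finite ι] {g : (ι → ℝ) → ℝ → ℝ} (hg : SAF2 g) : SAF (fun a => g a 0) := by
  have := SAF.comp (ι := ι) hg (g := fun (o : Option ι) (a : ι → ℝ) => o.elim 0 a) (by
    intro o
    cases o with
    | none => exact SAF.const 0
    | some i => exact SAF.coord i)
  exact this

theorem sa_hasDeriv [Finite ι] {g : (ι → ℝ) → ℝ → ℝ} (hg : SAF2 g) :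
    SA {x : Option ι → ℝ | HasDerivAt (g (fun i => x (some i))) (x none) 0} := by
  simp only [hasDerivAt_iff_eps]
  apply SA.allR
  apply SA.imp (SAF.lt (SAF.const 0) (SAF.coord _))
  apply SA.exR
  apply SA.and (SAF.lt (SAF.const 0) (SAF.coord _))
  apply SA.allR
  apply SA.imp (SAF.lt (SAF.coord _).abs (SAF.coord _))
  apply SAF.le
  · apply SAF.abs
    apply SAF.sub
    · apply SAF.sub
      · have := SAF.reindex (ι := Option (Option (Option (Option ι)))) hg
          (fun o : Option ι => o.elim none (fun i => some (some (some (some i)))))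
        exact this
      · have := SAF.reindex (ι := Option (Option (Option (Option ι)))) hg.at_zero
          (fun i : ι => some (some (some (some i))))
        exact this
    · exact (SAF.coord _).mul (SAF.coord _)
  · exact (SAF.coord _).mul (SAF.coord _).abs

theorem saf_deriv [Finite ι] {g : (ι → ℝ) → ℝ → ℝ} (hg : SAF2 g) :
    SAF (fun a => deriv (g a) 0) := by
  apply SAF.of_iff (P := fun a t => HasDerivAt (g a) t 0 ∨
    ((∀ t', ¬ HasDerivAt (g a) t' 0) ∧ t = 0))
  · intro a t
    by_cases h : DifferentiableAt ℝ (g a) 0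
    · constructor
      · rintro rfl
        exact Or.inl h.hasDerivAt
      · rintro (h' | ⟨h', -⟩)
        · exact h'.deriv
        · exact (h' _ h.hasDerivAt).elim
    · have h1 : ∀ t', ¬ HasDerivAt (g a) t' 0 := fun t' h' => h h'.differentiableAt
      rw [deriv_zero_of_not_differentiableAt h]
      constructor
      · rintro rfl
        exact Or.inr ⟨h1, rfl⟩
      · rintro (h' | ⟨-, h'⟩)
        · exact (h1 _ h').elim
        · exact h'.symm
  · apply SA.or (sa_hasDeriv hg)
    apply SA.and
    · apply SA.allR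
      apply SA.not
      have := (sa_hasDeriv hg).reindex (ι := Option (Option ι))
        (fun o : Option ι => o.elim none (fun i => some (some i)))
      exact this
    · exact SAF.eq (SAF.coord _) (SAF.const 0)

/-- derivative in the direction of a coordinate of `a` -/
noncomputable def dA [DecidableEq ι] (i : ι) (F : (ι → ℝ) → ℝ → ℝ) (a : ι → ℝ) (s : ℝ) : ℝ :=
  deriv (fun h : ℝ => F (a + h • Pi.single i 1) s) 0

/-- derivative in `s` -/
noncomputable def dS (F : (ι → ℝ) → ℝ → ℝ) (a : ι → ℝ) (s : ℝ) : ℝ :=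
  deriv (fun h : ℝ => F a (s + h)) 0

theorem saf_dA [Finite ι] [DecidableEq ι] (i : ι) {F : (ι → ℝ) → ℝ → ℝ} (hF : SAF2 F) :
    SAF2 (dA i F) := by
  have hg : SAF2 (fun (x : Option ι → ℝ) (h : ℝ) =>
      F (fun k => x (some k) + h * (Pi.single i (1 : ℝ) : ι → ℝ) k) (x none)) := by
    have := SAF.comp (ι := Option (Option ι)) hF
      (g := fun (o : Option ι) (z : Option (Option ι) → ℝ) =>
        o.elim (z (some none)) (fun k => z (some (some k)) + z none * (Pi.single i (1 : ℝ) : ι → ℝ) k))
      (by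
        intro o
        cases o with
        | none => exact SAF.coord _
        | some k => exact (SAF.coord _).add ((SAF.coord _).mul (SAF.const _)))
    exact this
  exact saf_deriv hg

theorem saf_dS [Finite ι] {F : (ι → ℝ) → ℝ → ℝ} (hF : SAF2 F) : SAF2 (dS F) := by
  have hg : SAF2 (fun (x : Option ι → ℝ) (h : ℝ) => F (fun k => x (some k)) (x none + h)) := by
    have := SAF.comp (ι := Option (Option ι)) hF
      (g := fun (o : Option ι) (z : Option (Option ι) → ℝ) =>
        o.elim (z (some none) + z none) (fun k => z (some (some k))))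
      (by
        intro o
        cases o with
        | none => exact (SAF.coord _).add (SAF.coord _)
        | some k => exact SAF.coord _)
    exact this
  exact saf_deriv hg

/-- bounded transform -/
theorem saf_bdd {F : (ι → ℝ) → ℝ → ℝ} (hF : SAF2 F) :
    SAF2 (fun a s => F a s / (1 + |F a s|)) :=
  SAF.div hF ((SAF.const 1).add (SAF.abs hF))

theorem bdd_le (g : ℝ) : |g / (1 + |g|)| ≤ 1 := by
  have h : 0 < 1 + |g| := by positivity
  rw [abs_div, abs_of_pos h, div_le_one h]
  linarith

/-- if `g/(1+|g|)` is close to `L ≠ 0` then `g` has the sign of `L` and `|g| ≥ |L|/2` -/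
theorem bdd_sign {g L : ℝ} (h : |g / (1 + |g|) - L| < |L| / 2) :
    (0 < L → L / 2 ≤ g) ∧ (L < 0 → L / 2 ≤ -g - L ∧ g ≤ L / 2) := by
  have hp : 0 < 1 + |g| := by positivity
  constructor
  · intro hL
    rw [abs_of_pos hL, abs_lt] at h
    have h1 : L / 2 < g / (1 + |g|) := by linarith [h.1]
    rw [lt_div_iff₀ hp] at h1
    nlinarith [abs_nonneg g]
  · intro hL
    rw [abs_of_neg hL, abs_lt] at h
    have h1 : g / (1 + |g|) < L / 2 := by linarith [h.2]
    rw [div_lt_iff₀ hp] at h1
    constructor <;> nlinarith [abs_nonneg g]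

/-- shrinking an open set finitely many times -/
theorem shrink {X α : Type*} [TopologicalSpace X] [Finite α] (P : α → Set X → Prop)
    (hmono : ∀ k O O', P k O → O' ⊆ O → P k O')
    (hex : ∀ k O, IsOpen O → O.Nonempty → ∃ O' ⊆ O, IsOpen O' ∧ O'.Nonempty ∧ P k O')
    {O : Set X} (hO : IsOpen O) (hne : O.Nonempty) :
    ∃ O' ⊆ O, IsOpen O' ∧ O'.Nonempty ∧ ∀ k, P k O' := by
  classical
  cases nonempty_fintype α
  suffices h : ∀ S : Finset α, ∃ O' ⊆ O, IsOpen O' ∧ O'.Nonempty ∧ ∀ k ∈ S, P k O' by
    obtain ⟨O', h1, h2, h3, h4⟩ := h Finset.univ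
    exact ⟨O', h1, h2, h3, fun k => h4 k (Finset.mem_univ k)⟩
  intro S
  induction S using Finset.induction_on with
  | empty => exact ⟨O, subset_rfl, hO, hne, by simp⟩
  | insert a S ha ih =>
    obtain ⟨O1, h1, h2, h3, h4⟩ := ih
    obtain ⟨O2, h5, h6, h7, h8⟩ := hex a O1 h2 h3
    refine ⟨O2, h5.trans h1, h6, h7, ?_⟩
    intro k hk
    rcases Finset.mem_insert.1 hk with rfl | hk
    · exact h8
    · exact hmono k _ _ (h4 k hk) h5

end Crest.Agent.R264.SAU
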