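import Crest.Agent.R264.TSCalc

/-!
Row 264, module TS: generic smoothness of semialgebraic functions (S4) and S3, by the strong form of
Tarski-Seidenberg (order isomorphisms between the fibres).
-/

set_option autoImplicit false
set_option linter.unusedSectionVars false

open Set Filter Topology Polynomial
open scoped ContDiff

namespace Crest.Agent.R264.TS

universe u v

section

variable {ι : Type v} [Fintype ι]

/-! ### S3 -/

lemma continuous_eval (p : MvPolynomial ι ℝ) : Continuous fun x : ι → ℝ => MvPolynomial.eval x p :=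
  MvPolynomial.continuous_eval p

lemma eventually_sign_eq {X : Type*} [TopologicalSpace X] {f : X → ℝ} {x0 : X}
    (hf : ContinuousAt f x0) (h0 : f x0 ≠ 0) :
    ∀ᶠ x in 𝓝 x0, SignType.sign (f x) = SignType.sign (f x0) := by
  rcases lt_or_gt_of_ne h0 with h | h
  · filter_upwards [hf.eventually (gt_mem_nhds h)] with x hx
    rw [sign_neg h, sign_neg hx]
  · filter_upwards [hf.eventually (lt_mem_nhds h)] with x hx
    rw [sign_pos h, sign_pos hx]

open Classical in
/-- the product of the nonzero members of `W` -/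
noncomputable def discr (W : Finset (MvPolynomial ι ℝ)) : MvPolynomial ι ℝ :=
  ∏ p ∈ W.filter (· ≠ 0), p

lemma discr_ne_zero (W : Finset (MvPolynomial ι ℝ)) : discr W ≠ 0 := by
  classical
  unfold discr
  rw [Finset.prod_ne_zero_iff]
  intro p hp
  exact (Finset.mem_filter.1 hp).2

lemma eval_ne_zero_of_discr {W : Finset (MvPolynomial ι ℝ)} {x : ι → ℝ}
    (h : MvPolynomial.eval x (discr W) ≠ 0) {p : MvPolynomial ι ℝ} (hp : p ∈ W) (hp0 : p ≠ 0) :
    MvPolynomial.eval x p ≠ 0 := by
  classical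
  unfold discr at h
  rw [map_prod, Finset.prod_ne_zero_iff] at h
  exact h p (Finset.mem_filter.2 ⟨hp, hp0⟩)

/-- off the zero set of `discr W` the signs of the members of `W` are locally constant -/
lemma eventually_sameSign {W : Finset (MvPolynomial ι ℝ)} {x0 : ι → ℝ}
    (h : MvPolynomial.eval x0 (discr W) ≠ 0) : ∀ᶠ x in 𝓝 x0, SameSign W x x0 := by
  unfold SameSign
  rw [Filter.eventually_all_finset]
  intro p hp
  by_cases hp0 : p = 0
  · rw [hp0]; simp
  · exact eventually_sign_eq (continuous_eval p).continuousAt (eval_ne_zero_of_discr h hp hp0)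

/-- S3: off the zero set of a nonzero polynomial, membership in an SA set is locally constant -/
theorem SA.exists_discr {s : Set (ι → ℝ)} (hs : SA s) :
    ∃ Δ : MvPolynomial ι ℝ, Δ ≠ 0 ∧ ∀ x0, MvPolynomial.eval x0 Δ ≠ 0 →
      ∀ᶠ x in 𝓝 x0, (x ∈ s ↔ x0 ∈ s) := by
  obtain ⟨W, hW⟩ := hs
  refine ⟨discr W, discr_ne_zero W, fun x0 h0 => ?_⟩
  filter_upwards [eventually_sameSign h0] with x hx
  exact hW _ _ hx

end

/-! ### implicit functions -/

section

variable {ι : Type v} [Fintype ι]

lemma contDiff_eval_option (p : MvPolynomial (Option ι) ℝ) {n : ℕ∞ω} :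
    ContDiff ℝ n fun z : (ι → ℝ) × ℝ => MvPolynomial.eval (fun o : Option ι => o.elim z.2 z.1) p := by
  induction p using MvPolynomial.induction_on with
  | C a => simpa using contDiff_const
  | add p q hp hq => simpa using hp.add hq
  | mul_X p i hp =>
    simp only [map_mul, MvPolynomial.eval_X]
    refine hp.mul ?_
    cases i with
    | none => exact contDiff_snd
    | some i => exact (contDiff_apply ℝ ℝ i).comp contDiff_fst

/-- the specialisation of a polynomial in `Option ι` variables at a point of `ι → ℝ` -/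
noncomputable def spec (p : MvPolynomial (Option ι) ℝ) (x : ι → ℝ) : ℝ[X] :=
  (MvPolynomial.optionEquivLeft ℝ ι p).map (MvPolynomial.eval x)

omit [Fintype ι] in
lemma eval_spec (p : MvPolynomial (Option ι) ℝ) (x : ι → ℝ) (t : ℝ) :
    (spec p x).eval t = MvPolynomial.eval (fun o : Option ι => o.elim t x) p :=
  (eval_option x t p).symm

theorem exists_implicit (p : MvPolynomial (Option ι) ℝ) {x0 : ι → ℝ} {r : ℝ}
    (h0 : (spec p x0).eval r = 0) (h1 : (spec p x0).derivative.eval r ≠ 0) :
    ∃ h : (ι → ℝ) → ℝ, ContDiffAt ℝ ω h x0 ∧ h x0 = r ∧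
      ∀ᶠ x in 𝓝 x0, (spec p x).eval (h x) = 0 := by
  let f : (ι → ℝ) × ℝ → ℝ := fun z => MvPolynomial.eval (fun o : Option ι => o.elim z.2 z.1) p
  have hf : ContDiffAt ℝ ω f (x0, r) := (contDiff_eval_option p).contDiffAt
  have hd : HasFDerivAt f (fderiv ℝ f (x0, r)) (x0, r) :=
    (hf.differentiableAt (by simp)).hasFDerivAt
  have hval : fderiv ℝ f (x0, r) (0, 1) = (spec p x0).derivative.eval r := by
    have e1 : HasDerivAt (fun t : ℝ => ((x0, t) : (ι → ℝ) × ℝ)) (0, 1) r :=
      (hasDerivAt_const r x0).prodMk (hasDerivAt_id r)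
    have e2 := hd.comp_hasDerivAt r e1
    have e3 : HasDerivAt (fun t => (spec p x0).eval t) ((spec p x0).derivative.eval r) r :=
      (spec p x0).hasDerivAt r
    have e4 : (f ∘ fun t : ℝ => ((x0, t) : (ι → ℝ) × ℝ)) = fun t => (spec p x0).eval t := by
      ext t
      exact (eval_spec p x0 t).symm
    rw [e4] at e2
    exact e2.unique e3
  have hinv : (fderiv ℝ f (x0, r) ∘L .inr ℝ (ι → ℝ) ℝ).IsInvertible := by
    refine ⟨ContinuousLinearEquiv.unitsEquivAut ℝ (Units.mk0 _ h1), ?_⟩
    ext
    simp only [ContinuousLinearEquiv.coe_coe, ContinuousLinearEquiv.unitsEquivAut_apply,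
      Units.val_mk0, one_mul, ContinuousLinearMap.comp_apply, ContinuousLinearMap.inr_apply]
    exact hval.symm
  have hω : (ω : ℕ∞ω) ≠ 0 := by simp
  refine ⟨hf.implicitFunction hω hinv, hf.contDiffAt_implicitFunction hω hinv,
    hf.implicitFunction_apply_self hω hinv, ?_⟩
  have h2 := hf.eventually_apply_implicitFunction hω hinv
  have h3 : f (x0, r) = 0 := by
    change MvPolynomial.eval (fun o : Option ι => o.elim r x0) p = 0
    rw [← eval_spec, h0]
  filter_upwards [h2] with x hx
  rw [h3] at hx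
  rw [eval_spec]
  exact hx


/-! ### S4 -/

/-- the roots of the nonzero specialisations of `F` at `x` -/
def rootSet (F : Finset (MvPolynomial (Option ι) ℝ)) (x : ι → ℝ) : Set ℝ :=
  {t | ∃ p ∈ F, spec p x ≠ 0 ∧ (spec p x).eval t = 0}

omit [Fintype ι] in
lemma rootSet_finite (F : Finset (MvPolynomial (Option ι) ℝ)) (x : ι → ℝ) :
    (rootSet F x).Finite := by
  classical
  have : rootSet F x ⊆ ⋃ p ∈ F, ((spec p x).roots.toFinset : Set ℝ) := by
    rintro t ⟨p, hp, h0, h1⟩
    exact mem_iUnion₂.2 ⟨p, hp, by simp [h0, h1]⟩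
  exact (F.finite_toSet.biUnion fun p _ => (spec p x).roots.toFinset.finite_toSet).subset this

omit [Fintype ι] in
/-- signs are constant on intervals free of roots -/
lemma sameSign_of_rootSet {F : Finset (MvPolynomial (Option ι) ℝ)} {x : ι → ℝ} {s t : ℝ}
    (hst : s ≤ t) (h : ∀ r ∈ Icc s t, r ∉ rootSet F x) :
    SameSign F (fun o : Option ι => o.elim s x) (fun o : Option ι => o.elim t x) := by
  intro p hp
  rw [← eval_spec, ← eval_spec]
  by_cases h0 : spec p x = 0
  · rw [h0]; simp
  · exact sign_eq_of_no_root hst fun r hr hr0 => h r hr ⟨p, hp, h0, hr0⟩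

omit [Fintype ι] in
/-- order isomorphisms matching the signs match the root sets -/
lemma rootSet_image {F : Finset (MvPolynomial (Option ι) ℝ)} {x y : ι → ℝ} {φ : ℝ ≃o ℝ}
    (h : ∀ t, SameSign F (fun o : Option ι => o.elim t x) (fun o : Option ι => o.elim (φ t) y))
    (t : ℝ) : t ∈ rootSet F x ↔ φ t ∈ rootSet F y := by
  have h' : ∀ p ∈ F, ∀ t, SignType.sign ((spec p x).eval t) =
      SignType.sign ((spec p y).eval (φ t)) := by
    intro p hp t
    rw [eval_spec, eval_spec]
    exact h t p hp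
  have hz : ∀ p ∈ F, (spec p x = 0 ↔ spec p y = 0) := by
    intro p hp
    have inf : ∀ q : ℝ[X], (∀ t, q.eval t = 0) → q = 0 := by
      intro q hq
      exact Polynomial.funext fun t => by rw [hq t, eval_zero]
    constructor
    · intro h0
      apply inf
      intro t
      have := h' p hp (φ.symm t)
      rw [h0, OrderIso.apply_symm_apply] at this
      simpa using this.symm
    · intro h0
      apply inf
      intro t
      have := h' p hp t
      rw [h0] at this
      simpa using this
  constructor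
  · rintro ⟨p, hp, h0, h1⟩
    refine ⟨p, hp, fun h2 => h0 ((hz p hp).2 h2), ?_⟩
    have := h' p hp t
    rw [h1, sign_zero] at this
    exact sign_eq_zero_iff.1 this.symm
  · rintro ⟨p, hp, h0, h1⟩
    refine ⟨p, hp, fun h2 => h0 ((hz p hp).1 h2), ?_⟩
    have := h' p hp t
    rw [h1, sign_zero] at this
    exact sign_eq_zero_iff.1 this

/-- closure under the derivative in the last variable -/
lemma exists_closed (F : Finset (MvPolynomial (Option ι) ℝ)) :
    ∃ F' : Finset (MvPolynomial (Option ι) ℝ), F ⊆ F' ∧ ∀ p ∈ F', ∀ x : ι → ℝ,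
      derivative (spec p x) ≠ 0 → ∃ q ∈ F', spec q x = derivative (spec p x) := by
  classical
  let e := MvPolynomial.optionEquivLeft ℝ ι
  let N := (F.image e).sup natDegree
  let D : ℕ → MvPolynomial (Option ι) ℝ → MvPolynomial (Option ι) ℝ := fun k p =>
    e.symm (derivative^[k] (e p))
  have hD0 : ∀ p, D 0 p = p := fun p => by simp [D]
  have hDs : ∀ k p (x : ι → ℝ), spec (D (k + 1) p) x = derivative (spec (D k p) x) := by
    intro k p x
    simp only [spec, D]
    change ((e (e.symm _)).map _) = derivative ((e (e.symm _)).map _)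
    rw [AlgEquiv.apply_symm_apply, AlgEquiv.apply_symm_apply, Function.iterate_succ_apply',
      derivative_map]
  have hDN : ∀ p ∈ F, ∀ k, N < k → ∀ x : ι → ℝ, spec (D k p) x = 0 := by
    intro p hp k hk x
    simp only [spec, D]
    change ((e (e.symm _)).map _) = 0
    rw [AlgEquiv.apply_symm_apply]
    have h1 : (e p).natDegree < k := by
      refine lt_of_le_of_lt ?_ hk
      exact Finset.le_sup (f := natDegree) (Finset.mem_image_of_mem e hp)
    rw [Polynomial.iterate_derivative_eq_zero h1, Polynomial.map_zero]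
  refine ⟨(F ×ˢ Finset.range (N + 1)).image fun z => D z.2 z.1, ?_, ?_⟩
  · intro p hp
    rw [Finset.mem_image]
    exact ⟨(p, 0), Finset.mem_product.2 ⟨hp, by simp⟩, hD0 p⟩
  · intro p hp x hx
    rw [Finset.mem_image] at hp
    obtain ⟨⟨q, k⟩, hqk, rfl⟩ := hp
    rw [Finset.mem_product, Finset.mem_range] at hqk
    simp only at hqk hx ⊢
    rw [← hDs] at hx ⊢
    refine ⟨D (k + 1) q, ?_, rfl⟩
    rw [Finset.mem_image]
    refine ⟨(q, k + 1), Finset.mem_product.2 ⟨hqk.1, ?_⟩, rfl⟩
    rw [Finset.mem_range]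
    by_contra hcon
    exact hx (hDN q hqk.1 (k + 1) (by omega) x)

/-- each root of the family is a simple root of some member -/
lemma exists_simple {F : Finset (MvPolynomial (Option ι) ℝ)} {x : ι → ℝ}
    (hF : ∀ p ∈ F, derivative (spec p x) ≠ 0 → ∃ q ∈ F, spec q x = derivative (spec p x))
    {r : ℝ} (hr : r ∈ rootSet F x) :
    ∃ p ∈ F, (spec p x).eval r = 0 ∧ (derivative (spec p x)).eval r ≠ 0 := by
  classical
  obtain ⟨p0, hp0, h00, h01⟩ := hr
  let A := F.filter fun p => spec p x ≠ 0 ∧ (spec p x).eval r = 0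
  have hA : A.Nonempty := ⟨p0, Finset.mem_filter.2 ⟨hp0, h00, h01⟩⟩
  obtain ⟨p, hpA, hmin⟩ := A.exists_min_image (fun p => (spec p x).natDegree) hA
  obtain ⟨hpF, hp1, hp2⟩ := Finset.mem_filter.1 hpA
  refine ⟨p, hpF, hp2, fun hder => ?_⟩
  by_cases h0 : derivative (spec p x) = 0
  · have e1 : spec p x = C ((spec p x).coeff 0) := Polynomial.eq_C_of_natDegree_eq_zero
      (Polynomial.derivative_eq_zero.1 h0)
    rw [e1, eval_C] at hp2
    rw [hp2, C_0] at e1
    exact hp1 e1
  · obtain ⟨q, hq, hqe⟩ := hF p hpF h0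
    have hqA : q ∈ A := Finset.mem_filter.2 ⟨hq, by rw [hqe]; exact h0, by rw [hqe]; exact hder⟩
    have h1 := hmin q hqA
    simp only [hqe] at h1
    have h2 : (spec p x).natDegree ≠ 0 := fun h3 => h0 (Polynomial.derivative_eq_zero.2 h3)
    have h3 := Polynomial.natDegree_derivative_lt h2
    omega

/-- **S4 (generic smoothness)**, pointwise form -/
theorem SAFunOn.exists_contDiffAt {f : (ι → ℝ) → ℝ} {W : Set (ι → ℝ)} (hf : SAFunOn f W) :
    ∃ Δ : MvPolynomial ι ℝ, Δ ≠ 0 ∧ ∀ x0 ∈ W, W ∈ 𝓝 x0 → MvPolynomial.eval x0 Δ ≠ 0 →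
      ContDiffAt ℝ ω f x0 := by
  classical
  obtain ⟨F0, hF0⟩ := hf
  obtain ⟨F, hFF, hFd⟩ := exists_closed F0
  have hF : ∀ z w : Option ι → ℝ, SameSign F z w →
      (((fun i => z (some i)) ∈ W ∧ z none = f (fun i => z (some i))) ↔
      ((fun i => w (some i)) ∈ W ∧ w none = f (fun i => w (some i)))) :=
    fun z w h => hF0 z w (h.mono hFF)
  obtain ⟨V, hV⟩ := TS.exists_iso F
  refine ⟨discr V, discr_ne_zero V, fun x0 hx0W hW h0 => ?_⟩
  -- the value of `f` is a root
  have hroot : ∀ x ∈ W, f x ∈ rootSet F x := by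
    intro x hx
    by_contra hcon
    have hfin := rootSet_finite F x
    obtain ⟨ε, hε, hball⟩ := Metric.isOpen_iff.1 hfin.isClosed.isOpen_compl (f x) hcon
    have hs := sameSign_of_rootSet (F := F) (x := x) (s := f x) (t := f x + ε / 2)
      (by linarith) (fun r hr => by
        have : r ∈ Metric.ball (f x) ε := by
          rw [Metric.mem_ball, Real.dist_eq, abs_lt]
          constructor <;> linarith [hr.1, hr.2]
        exact hball this)
    have := (hF _ _ hs).1 ⟨hx, rfl⟩
    have h2 : f x + ε / 2 = f x := this.2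
    linarith
  -- implicit functions
  have himp : ∀ r : rootSet F x0, ∃ (p : MvPolynomial (Option ι) ℝ) (h : (ι → ℝ) → ℝ), p ∈ F ∧
      spec p x0 ≠ 0 ∧ ContDiffAt ℝ ω h x0 ∧ h x0 = r ∧ ∀ᶠ x in 𝓝 x0, (spec p x).eval (h x) = 0 := by
    rintro ⟨r, hr⟩
    obtain ⟨p, hp, h1, h2⟩ := exists_simple (fun p hp => hFd p hp x0) hr
    obtain ⟨h, h3, h4, h5⟩ := exists_implicit p h1 h2
    refine ⟨p, h, hp, ?_, h3, h4, h5⟩
    intro h6
    rw [h6] at h2
    simp at h2
  choose p h hpF hp0 hsm hx0 hev using himp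
  have hfinZ : Finite (rootSet F x0) := (rootSet_finite F x0).to_subtype
  -- everything near `x0`
  have E1 : ∀ᶠ x in 𝓝 x0, SameSign V x x0 := eventually_sameSign h0
  have E2 : ∀ᶠ x in 𝓝 x0, ∀ r : rootSet F x0, (spec (p r) x).eval (h r x) = 0 :=
    Filter.eventually_all.2 hev
  have E3 : ∀ᶠ x in 𝓝 x0, ∀ r r' : rootSet F x0, (r : ℝ) < r' → h r x < h r' x := by
    rw [Filter.eventually_all]
    intro r
    rw [Filter.eventually_all]
    intro r'
    by_cases hrr : (r : ℝ) < r'
    · have c1 : ContinuousAt (h r) x0 := (hsm r).continuousAt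
      have c2 : ContinuousAt (h r') x0 := (hsm r').continuousAt
      have : h r x0 < h r' x0 := by rw [hx0, hx0]; exact hrr
      filter_upwards [c1.eventually_lt c2 this] with x hx
      exact fun _ => hx
    · exact Eventually.of_forall fun x hx => absurd hx hrr
  have key : ∀ᶠ x in 𝓝 x0, f x = h ⟨f x0, hroot x0 hx0W⟩ x := by
    filter_upwards [E1, E2, E3, hW] with x e1 e2 e3 hxW
    obtain ⟨φ, hφ⟩ := hV x0 x e1.symm
    have hZ := rootSet_image hφ
    -- `φ (f x0) = f x`
    have hfx : φ (f x0) = f x := by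
      have := (hF _ _ (hφ (f x0))).1 ⟨hx0W, rfl⟩
      exact this.2
    -- the roots `h r x`
    have hmem : ∀ r : rootSet F x0, h r x ∈ rootSet F x := by
      intro r
      refine ⟨p r, hpF r, ?_, e2 r⟩
      intro hz
      apply hp0 r
      apply Polynomial.funext
      intro t
      have h1 := hφ t (p r) (hpF r)
      rw [← eval_spec, ← eval_spec, hz] at h1
      rw [eval_zero]
      simpa using h1
    let g1 : rootSet F x0 → rootSet F x := fun r => ⟨h r x, hmem r⟩
    let g2 : rootSet F x0 → rootSet F x := fun r => ⟨φ r, (hZ r).1 r.2⟩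
    have m1 : StrictMono g1 := fun r r' hrr => e3 r r' hrr
    have m2 : StrictMono g2 := fun r r' hrr => φ.lt_iff_lt.2 hrr
    have s2 : Function.Surjective g2 := by
      rintro ⟨t, ht⟩
      refine ⟨⟨φ.symm t, (hZ _).2 (by simpa using ht)⟩, ?_⟩
      exact Subtype.ext (φ.apply_symm_apply t)
    have hfinx : Finite (rootSet F x) := (rootSet_finite F x).to_subtype
    have s1 : Function.Surjective g1 := by
      have hcard : Nat.card (rootSet F x0) = Nat.card (rootSet F x) :=
        Nat.card_eq_of_bijective g2 ⟨m2.injective, s2⟩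
      have := Fintype.ofFinite (rootSet F x0)
      have := Fintype.ofFinite (rootSet F x)
      rw [Nat.card_eq_fintype_card, Nat.card_eq_fintype_card] at hcard
      exact ((Fintype.bijective_iff_injective_and_card g1).2 ⟨m1.injective, hcard⟩).2
    have heq : g1 = g2 := by
      rw [← StrictMono.range_inj m1 m2, s1.range_eq, s2.range_eq]
    have h3 := congrFun heq ⟨f x0, hroot x0 hx0W⟩
    have h4 := congrArg Subtype.val h3
    simp only [g1, g2] at h4
    rw [h4, hfx]
  exact (hsm _).congr_of_eventuallyEq key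

/-- **S4 (generic smoothness)** -/
theorem SAFunOn.exists_contDiffOn {f : (ι → ℝ) → ℝ} {W : Set (ι → ℝ)} (hW : IsOpen W)
    (hf : SAFunOn f W) : ∃ Δ : MvPolynomial ι ℝ, Δ ≠ 0 ∧
      ContDiffOn ℝ ω f (W ∩ {x | MvPolynomial.eval x Δ ≠ 0}) := by
  obtain ⟨Δ, h1, h2⟩ := hf.exists_contDiffAt
  exact ⟨Δ, h1, fun x hx => (h2 x hx.1 (hW.mem_nhds hx.1) hx.2).contDiffWithinAt⟩

end

end Crest.Agent.R264.TS
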