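import Crest.Agent.R264.SAUArc
import Crest.Agent.R264.SAUArc2
import Crest.Agent.R264.TSSmooth

/-!
Row 264, module SAU (helper264): `arcStmt : AI.ArcStmt` (node A5), unconditional.
-/

set_option autoImplicit false

open Topology Filter Set MvPolynomial
open scoped ContDiff

namespace Crest.Agent.R264.SAU

open Crest.Agent.R264.TS

/-- (S4) for total SA functions, from `TS.SAFunOn.exists_contDiffOn` -/
theorem gs_all (ι : Type*) [Fintype ι] : GS ι := by
  intro f hf
  have h1 : SAFunOn f univ := by
    unfold SAFunOn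
    unfold SAF at hf
    simpa only [mem_univ, true_and, eq_comm] using hf
  obtain ⟨Δ, hΔ, h⟩ := h1.exists_contDiffOn isOpen_univ
  refine ⟨Δ, hΔ, ?_⟩
  have h2 := h.of_le (m := 1) le_top
  simpa only [univ_inter] using h2

theorem arc2_all : Arc2 := by
  intro n k vv hvv O hO hne s0 hs0 hs
  exact arc2 (fun F hF hb O hO hne => s6 (gs_all _) (gs_all _) hF hb hO hne)
    (fun f hf O hO hne => sm (gs_all _) hf hO hne) vv hvv hO hne hs0 hs

/-- A5 -/
theorem arcStmt : AI.ArcStmt := arcStmt_of (fun _ => gs_all _) arc2_all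

end Crest.Agent.R264.SAU
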