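import Crest.Agent.R264.SmDefs

/-! Row 264, PART 0: algebra (helper659).  Lying over for one element, separability. -/

set_option autoImplicit false

namespace Crest.Agent.R264.Sm

open Polynomial

section General

variable {R A : Type*} [CommRing R] [IsDomain R] [IsIntegrallyClosed R] [CommRing A] [IsDomain A]
  [Algebra R A] [Module.IsTorsionFree R A]

/-- Lying over for `R[s] ⊆ A`: a common zero of the minimal polynomial of `s` over a point `e` of
`R` lifts to a maximal ideal of `A`. -/
theorem lying_over [Algebra.IsIntegral R A] (s : A) {K : Type*} [Field K] (e : R →+* K)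
    (he : Function.Surjective e) (τ : K) (h : ((minpoly R s).map e).eval τ = 0) :
    ∃ Q : Ideal A, Q.IsMaximal ∧ (∀ r : R, e r = 0 → algebraMap R A r ∈ Q) ∧
      (∀ r : R, e r = τ → s - algebraMap R A r ∈ Q) := by
  have hs : IsIntegral R s := Algebra.IsIntegral.isIntegral s
  let φ : R[X] →+* A := (aeval s : R[X] →ₐ[R] A).toRingHom
  let _ : Algebra R[X] A := φ.toAlgebra
  have hφ : ∀ p : R[X], algebraMap R[X] A p = aeval s p := fun p => rfl
  have : IsScalarTower R R[X] A := IsScalarTower.of_algebraMap_eq' (by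
    ext r
    simp [hφ, RingHom.comp_apply])
  have : Algebra.IsIntegral R[X] A := Algebra.IsIntegral.tower_top (R := R)
  let ε : R[X] →+* K := eval₂RingHom e τ
  have hε : Function.Surjective ε := by
    intro k
    obtain ⟨r, hr⟩ := he k
    exact ⟨C r, by simp [ε, hr]⟩
  have : (RingHom.ker ε).IsMaximal := RingHom.ker_isMaximal_of_surjective ε hε
  have hker : RingHom.ker (algebraMap R[X] A) ≤ RingHom.ker ε := by
    intro p hp
    rw [RingHom.mem_ker, hφ] at hp
    obtain ⟨q, rfl⟩ := minpoly.isIntegrallyClosed_dvd hs hp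
    rw [RingHom.mem_ker, map_mul]
    have : ε (minpoly R s) = 0 := by
      simpa [ε, eval_map] using h
    rw [this, zero_mul]
  obtain ⟨Q, hQ, hQc⟩ := Ideal.exists_ideal_over_maximal_of_isIntegral (RingHom.ker ε) hker
  refine ⟨Q, hQ, ?_, ?_⟩
  · intro r hr
    have : C r ∈ RingHom.ker ε := by simp [RingHom.mem_ker, ε, hr]
    rw [← hQc, Ideal.mem_comap, hφ] at this
    simpa using this
  · intro r hr
    have : X - C r ∈ RingHom.ker ε := by simp [RingHom.mem_ker, ε, hr]
    rw [← hQc, Ideal.mem_comap, hφ] at this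
    simpa using this

/-- Separability of the minimal polynomial in characteristic zero, with denominators cleared. -/
theorem exists_sep [CharZero R] (s : A) (hs : IsIntegral R s) :
    ∃ (a : R) (u v : R[X]), a ≠ 0 ∧
      u * minpoly R s + v * derivative (minpoly R s) = C a := by
  let K := FractionRing R
  let L := FractionRing A
  let _ : Algebra K L := FractionRing.liftAlgebra R L
  have : CharZero K := IsFractionRing.charZero R
  have h1 := minpoly.isIntegrallyClosed_eq_field_fractions K L hs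
  have hint : IsIntegral K (algebraMap A L s) := by
    have h2 : IsIntegral R (algebraMap A L s) := hs.algebraMap
    exact h2.tower_top
  have hirr : Irreducible (minpoly K (algebraMap A L s)) := minpoly.irreducible hint
  have hsep : (minpoly K (algebraMap A L s)).Separable := hirr.separable
  rw [h1] at hsep
  obtain ⟨u, v, huv⟩ := hsep
  obtain ⟨b, hb0, hb⟩ := IsLocalization.integerNormalization_spec (nonZeroDivisors R) u
  obtain ⟨c, hc0, hc⟩ := IsLocalization.integerNormalization_spec (nonZeroDivisors R) v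
  have hb1 : b ≠ 0 := nonZeroDivisors.ne_zero hb0
  have hc1 : c ≠ 0 := nonZeroDivisors.ne_zero hc0
  refine ⟨b * c, C c * IsLocalization.integerNormalization (nonZeroDivisors R) u,
    C b * IsLocalization.integerNormalization (nonZeroDivisors R) v, mul_ne_zero hb1 hc1, ?_⟩
  apply Polynomial.map_injective (algebraMap R K) (IsFractionRing.injective R K)
  rw [Polynomial.map_add, Polynomial.map_mul, Polynomial.map_mul, Polynomial.map_mul,
    Polynomial.map_mul, hb, hc, ← derivative_map, map_C, map_C, map_C, map_mul]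
  have e1 : b • u = C (algebraMap R K b) * u := by
    rw [← IsScalarTower.algebraMap_smul K b u, smul_eq_C_mul]
  have e2 : c • v = C (algebraMap R K c) * v := by
    rw [← IsScalarTower.algebraMap_smul K c v, smul_eq_C_mul]
  rw [e1, e2, C_mul]
  linear_combination (C (algebraMap R K b) * C (algebraMap R K c)) * huv

/-- The constant coefficient of the minimal polynomial of a nonzero element is nonzero. -/
theorem coeff_zero_ne_zero (s : A) (hs : IsIntegral R s) (h : s ≠ 0) :
    (minpoly R s).coeff 0 ≠ 0 := by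
  intro h0
  have h1 : (minpoly R s).divX * X = minpoly R s := by
    have := Polynomial.divX_mul_X_add (minpoly R s)
    rwa [h0, C_0, add_zero] at this
  have h2 : aeval s (minpoly R s).divX = 0 := by
    have h3 := minpoly.aeval R s
    rw [← h1, map_mul, aeval_X] at h3
    exact (mul_eq_zero.mp h3).resolve_right h
  have h4 : minpoly R s ∣ (minpoly R s).divX := minpoly.isIntegrallyClosed_dvd hs h2
  have h5 : (minpoly R s).divX ≠ 0 := by
    intro h6
    rw [h6, zero_mul] at h1
    exact minpoly.ne_zero hs h1.symm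
  have h7 := Polynomial.natDegree_le_of_dvd h4 h5
  rw [Polynomial.natDegree_divX_eq_natDegree_tsub_one] at h7
  have h8 := minpoly.natDegree_pos hs
  omega

end General

/-- Noether normalisation data for a prime ideal. -/
structure Noe {N : ℕ} (P : Ideal (MvPolynomial (Fin N) ℂ)) where
  d : ℕ
  g : MvPolynomial (Fin d) ℂ →ₐ[ℂ] (MvPolynomial (Fin N) ℂ ⧸ P)
  inj : Function.Injective g
  int : g.IsIntegral
  p : Fin d → MvPolynomial (Fin N) ℂ
  hp : ∀ i, Ideal.Quotient.mk P (p i) = g (MvPolynomial.X i)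

variable {N : ℕ} {P : Ideal (MvPolynomial (Fin N) ℂ)}

theorem exists_noe (P : Ideal (MvPolynomial (Fin N) ℂ)) (hP : P ≠ ⊤) : Nonempty (Noe P) := by
  obtain ⟨s, -, g, hg, hint⟩ := exists_integral_inj_algHom_of_quotient P hP
  choose p hp using fun i => Ideal.Quotient.mk_surjective (g (MvPolynomial.X i))
  exact ⟨⟨s, g, hg, hint, p, hp⟩⟩

namespace Noe

variable (n : Noe P)

/-- The projection. -/
noncomputable def π (x : Fin N → ℂ) : Fin n.d → ℂ := fun i => MvPolynomial.eval x (n.p i)

/-- The minimal polynomial of (the class of) `s` over `ℂ[t]`. -/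
noncomputable def F (s : MvPolynomial (Fin N) ℂ) : Polynomial (MvPolynomial (Fin n.d) ℂ) :=
  letI := n.g.toRingHom.toAlgebra
  minpoly (MvPolynomial (Fin n.d) ℂ) (Ideal.Quotient.mk P s)

/-- Evaluation at a point of the zero locus. -/
noncomputable def evq {x : Fin N → ℂ} (hx : x ∈ MvPolynomial.zeroLocus ℂ P) :
    (MvPolynomial (Fin N) ℂ ⧸ P) →ₐ[ℂ] ℂ :=
  Ideal.Quotient.liftₐ P (MvPolynomial.aeval x) (fun a ha => hx a ha)

theorem evq_mk {x : Fin N → ℂ} (hx : x ∈ MvPolynomial.zeroLocus ℂ P)
    (s : MvPolynomial (Fin N) ℂ) :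
    evq hx (Ideal.Quotient.mk P s) = MvPolynomial.eval x s := by
  simp [evq]

theorem evq_g {x : Fin N → ℂ} (hx : x ∈ MvPolynomial.zeroLocus ℂ P)
    (q : MvPolynomial (Fin n.d) ℂ) : evq hx (n.g q) = MvPolynomial.eval (n.π x) q := by
  have : (evq hx).comp n.g = MvPolynomial.aeval (n.π x) := by
    apply MvPolynomial.algHom_ext
    intro i
    simp [← n.hp i, evq_mk, π]
  rw [← MvPolynomial.coe_aeval_eq_eval, ← this]
  rfl

variable [hP : P.IsPrime]

omit hP in
theorem F_monic (s : MvPolynomial (Fin N) ℂ) : (n.F s).Monic := by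
  let _ := n.g.toRingHom.toAlgebra
  exact minpoly.monic (n.int _)

omit hP in
theorem F_root (s : MvPolynomial (Fin N) ℂ) {x : Fin N → ℂ}
    (hx : x ∈ MvPolynomial.zeroLocus ℂ P) :
    ((n.F s).map (MvPolynomial.eval (n.π x))).eval (MvPolynomial.eval x s) = 0 := by
  let _ := n.g.toRingHom.toAlgebra
  have h : aeval (Ideal.Quotient.mk P s) (n.F s) = 0 := minpoly.aeval _ _
  have h2 := congrArg (evq hx) h
  rw [map_zero, aeval_def] at h2
  rw [eval_map]
  have h3 := Polynomial.hom_eval₂ (n.F s) (algebraMap (MvPolynomial (Fin n.d) ℂ)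
    (MvPolynomial (Fin N) ℂ ⧸ P)) (evq hx).toRingHom (Ideal.Quotient.mk P s)
  have h4 : ((evq hx).toRingHom.comp (algebraMap (MvPolynomial (Fin n.d) ℂ)
    (MvPolynomial (Fin N) ℂ ⧸ P))) = MvPolynomial.eval (n.π x) := by
    ext q
    · simp [RingHom.algebraMap_toAlgebra]
    · have := n.evq_g hx (MvPolynomial.X q)
      simpa [RingHom.algebraMap_toAlgebra] using this
  rw [h4] at h3
  have h5 : (evq hx).toRingHom (Ideal.Quotient.mk P s) = MvPolynomial.eval x s := evq_mk hx s
  rw [h5] at h3
  rw [← h3]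
  exact h2

theorem F_lift (s : MvPolynomial (Fin N) ℂ) (t : Fin n.d → ℂ) (τ : ℂ)
    (h : ((n.F s).map (MvPolynomial.eval t)).eval τ = 0) :
    ∃ x ∈ MvPolynomial.zeroLocus ℂ P, n.π x = t ∧ MvPolynomial.eval x s = τ := by
  let _ := n.g.toRingHom.toAlgebra
  have : Algebra.IsIntegral (MvPolynomial (Fin n.d) ℂ) (MvPolynomial (Fin N) ℂ ⧸ P) := ⟨n.int⟩
  have hinj : Function.Injective (algebraMap (MvPolynomial (Fin n.d) ℂ)
    (MvPolynomial (Fin N) ℂ ⧸ P)) := n.inj
  have : FaithfulSMul (MvPolynomial (Fin n.d) ℂ) (MvPolynomial (Fin N) ℂ ⧸ P) :=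
    (faithfulSMul_iff_algebraMap_injective _ _).mpr hinj
  obtain ⟨Q, hQ, hQ1, hQ2⟩ := lying_over (R := MvPolynomial (Fin n.d) ℂ)
    (Ideal.Quotient.mk P s) (MvPolynomial.eval t) (fun c => ⟨MvPolynomial.C c, by simp⟩) τ h
  have hQ' : (Q.comap (Ideal.Quotient.mk P)).IsMaximal :=
    Ideal.comap_isMaximal_of_surjective _ Ideal.Quotient.mk_surjective
  obtain ⟨x, hx⟩ := MvPolynomial.isMaximal_iff_eq_vanishingIdeal_singleton.mp hQ'
  have hmem : ∀ q, Ideal.Quotient.mk P q ∈ Q → MvPolynomial.eval x q = 0 := by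
    intro q hq
    have : q ∈ MvPolynomial.vanishingIdeal ℂ {x} := by
      rw [← hx]; exact hq
    have := (MvPolynomial.mem_vanishingIdeal_singleton_iff x q).mp this
    simpa [MvPolynomial.aeval_eq_eval] using this
  refine ⟨x, ?_, ?_, ?_⟩
  · intro q hq
    have := hmem q (by rw [Ideal.Quotient.eq_zero_iff_mem.mpr hq]; exact Q.zero_mem)
    simpa [MvPolynomial.aeval_eq_eval] using this
  · funext i
    have h1 := hQ1 (MvPolynomial.X i - MvPolynomial.C (t i)) (by simp)
    have h2 : Ideal.Quotient.mk P (n.p i - MvPolynomial.C (t i)) ∈ Q := by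
      rw [map_sub, n.hp i]
      have e : n.g (MvPolynomial.C (t i)) = Ideal.Quotient.mk P (MvPolynomial.C (t i)) := by
        have h := n.g.commutes (t i)
        rw [MvPolynomial.algebraMap_eq] at h
        rw [h]
        rfl
      have e2 : algebraMap (MvPolynomial (Fin n.d) ℂ) (MvPolynomial (Fin N) ℂ ⧸ P)
        (MvPolynomial.X i - MvPolynomial.C (t i)) = n.g (MvPolynomial.X i) -
          n.g (MvPolynomial.C (t i)) := by
        rw [← map_sub]; rfl
      rw [e2, e] at h1
      exact h1
    have h3 := hmem _ h2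
    simp only [map_sub, MvPolynomial.eval_C] at h3
    simpa [π, sub_eq_zero] using h3
  · have h1 := hQ2 (MvPolynomial.C τ) (by simp)
    have h2 : Ideal.Quotient.mk P (s - MvPolynomial.C τ) ∈ Q := by
      rw [map_sub]
      have e : n.g (MvPolynomial.C τ) = Ideal.Quotient.mk P (MvPolynomial.C τ) := by
        have h := n.g.commutes τ
        rw [MvPolynomial.algebraMap_eq] at h
        rw [h]
        rfl
      rw [← e]
      exact h1
    have h3 := hmem _ h2
    simpa [sub_eq_zero] using h3

theorem F_sep (s : MvPolynomial (Fin N) ℂ) :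
    ∃ (a : MvPolynomial (Fin n.d) ℂ) (u v : Polynomial (MvPolynomial (Fin n.d) ℂ)), a ≠ 0 ∧
      u * n.F s + v * derivative (n.F s) = C a := by
  let _ := n.g.toRingHom.toAlgebra
  have hinj : Function.Injective (algebraMap (MvPolynomial (Fin n.d) ℂ)
    (MvPolynomial (Fin N) ℂ ⧸ P)) := n.inj
  have : FaithfulSMul (MvPolynomial (Fin n.d) ℂ) (MvPolynomial (Fin N) ℂ ⧸ P) :=
    (faithfulSMul_iff_algebraMap_injective _ _).mpr hinj
  exact exists_sep _ (n.int _)

omit hP in
/-- `a ∘ π` as a polynomial on `ℂ^N`. -/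
theorem eval_pull (a : MvPolynomial (Fin n.d) ℂ) (x : Fin N → ℂ) :
    MvPolynomial.eval x (MvPolynomial.bind₁ n.p a) = MvPolynomial.eval (n.π x) a := by
  have : (MvPolynomial.aeval x).comp (MvPolynomial.bind₁ n.p) = MvPolynomial.aeval (n.π x) := by
    apply MvPolynomial.algHom_ext
    intro i
    simp [π, MvPolynomial.aeval_eq_eval]
  have h := congrArg (fun f : MvPolynomial (Fin n.d) ℂ →ₐ[ℂ] ℂ => f a) this
  simpa [MvPolynomial.aeval_eq_eval] using h

omit hP in
theorem pull_notMem {a : MvPolynomial (Fin n.d) ℂ} (ha : a ≠ 0) :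
    MvPolynomial.bind₁ n.p a ∉ P := by
  intro h
  apply ha
  apply n.inj
  rw [map_zero]
  have : (Ideal.Quotient.mkₐ ℂ P).comp (MvPolynomial.bind₁ n.p) = n.g := by
    apply MvPolynomial.algHom_ext
    intro i
    simp [n.hp i]
  rw [← this]
  exact Ideal.Quotient.eq_zero_iff_mem.mpr h

end Noe

end Crest.Agent.R264.Sm
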