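import Crest.Agent.R264.SmOp

/-! Row 264, PART 0: `CovThm` (helper659): local holomorphic sections of `π : Z(P) → ℂ^d`. -/

set_option autoImplicit false

namespace Crest.Agent.R264.Sm

open Polynomial Topology Filter

variable {N : ℕ} {P : Ideal (MvPolynomial (Fin N) ℂ)} [hP : P.IsPrime]

namespace Noe

variable (n : Noe P)

/-- the branch polynomial -/
theorem exists_branch : ∃ a : MvPolynomial (Fin n.d) ℂ, a ≠ 0 ∧
    ∀ t, MvPolynomial.eval t a ≠ 0 → ∀ (l : Fin N) (T : ℂ),
      ((n.FX l).map (MvPolynomial.eval t)).eval T = 0 →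
      ((derivative (n.FX l)).map (MvPolynomial.eval t)).eval T ≠ 0 := by
  have h : ∀ l : Fin N, ∃ a : MvPolynomial (Fin n.d) ℂ, a ≠ 0 ∧
      ∀ t, MvPolynomial.eval t a ≠ 0 → ∀ (T : ℂ),
      ((n.FX l).map (MvPolynomial.eval t)).eval T = 0 →
      ((derivative (n.FX l)).map (MvPolynomial.eval t)).eval T ≠ 0 := by
    intro l
    obtain ⟨a, u, v, ha, huv⟩ := n.F_sep (MvPolynomial.X l)
    refine ⟨a, ha, ?_⟩
    intro t ht T hT hT'
    apply ht
    have h1 := congrArg (fun p => (p.map (MvPolynomial.eval t)).eval T) huv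
    simp only [Polynomial.map_add, Polynomial.map_mul, Polynomial.eval_add, Polynomial.eval_mul,
      Polynomial.map_C, Polynomial.eval_C] at h1
    rw [← h1]
    unfold FX at hT hT'
    rw [hT, hT']
    ring
  choose a ha hsep using h
  refine ⟨∏ l, a l, Finset.prod_ne_zero_iff.mpr fun l _ => ha l, ?_⟩
  intro t ht l
  apply hsep l t
  rw [map_prod] at ht
  exact Finset.prod_ne_zero_iff.mp ht l (Finset.mem_univ l)

/-- local holomorphic sections -/
theorem section_at {y : Fin N → ℂ} (hy : y ∈ MvPolynomial.zeroLocus ℂ P)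
    (hsep : ∀ l : Fin N, ((derivative (n.FX l)).map (MvPolynomial.eval (n.π y))).eval (y l) ≠ 0) :
    ∃ (O : Set (Fin N → ℂ)) (W : Set (Fin n.d → ℂ)) (ψ : (Fin n.d → ℂ) → (Fin N → ℂ)),
      IsOpen O ∧ IsOpen W ∧ y ∈ O ∧ DifferentiableOn ℂ ψ W ∧
      (∀ w ∈ W, ψ w ∈ MvPolynomial.zeroLocus ℂ P ∧ ψ w ∈ O ∧ n.π (ψ w) = w) ∧
      (∀ z ∈ MvPolynomial.zeroLocus ℂ P, z ∈ O → n.π z ∈ W ∧ ψ (n.π z) = z) := by
  have hroot : ∀ (l : Fin N) {z : Fin N → ℂ}, z ∈ MvPolynomial.zeroLocus ℂ P →
      ((n.FX l).map (MvPolynomial.eval (n.π z))).eval (z l) = 0 := by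
    intro l z hz
    have := n.F_root (MvPolynomial.X l) hz
    rwa [MvPolynomial.eval_X] at this
  choose r hr1 hr2 using fun l => simple_root (n.FX l) (n.π y) (y l) (hroot l hy) (hsep l)
  have G1 : ∀ᶠ t in 𝓝 (n.π y), ∀ l, DifferentiableAt ℂ (r l) t := eventually_all.mpr hr1
  have G2 : ∀ᶠ z in 𝓝 y, ∀ l, ((n.FX l).map (MvPolynomial.eval (n.π z))).eval (z l) = 0 →
      r l (n.π z) = z l := by
    rw [eventually_all]
    intro l
    have hc : ContinuousAt (fun z : Fin N → ℂ => (n.π z, z l)) y :=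
      (n.continuous_π.prodMk (continuous_apply l)).continuousAt
    exact hc.eventually (hr2 l)
  obtain ⟨O1, hO1, hO1o, hyO1⟩ := mem_nhds_iff.mp G2
  obtain ⟨W, hW, hWo, hyW⟩ := mem_nhds_iff.mp (G1.and (n.open_at hy O1 hO1o hyO1))
  have key : ∀ z ∈ MvPolynomial.zeroLocus ℂ P, z ∈ O1 → (fun l => r l (n.π z)) = z := by
    intro z hz hzO
    funext l
    exact hO1 hzO l (hroot l hz)
  refine ⟨O1 ∩ n.π ⁻¹' W, W, fun t l => r l t, hO1o.inter (hWo.preimage n.continuous_π), hWo,
    ⟨hyO1, hyW⟩, ?_, ?_, ?_⟩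
  · intro t ht
    apply DifferentiableAt.differentiableWithinAt
    exact differentiableAt_pi.mpr fun l => (hW ht).1 l
  · intro w hw
    obtain ⟨z, hz, hzO, hzw⟩ := (hW hw).2
    have h1 := key z hz hzO
    rw [hzw] at h1
    show (fun l => r l w) ∈ _ ∧ (fun l => r l w) ∈ _ ∧ n.π (fun l => r l w) = w
    rw [h1]
    exact ⟨hz, ⟨hzO, by rw [Set.mem_preimage, hzw]; exact hw⟩, hzw⟩
  · intro z hz hzO
    exact ⟨hzO.2, key z hz hzO.1⟩

/-- The covering structure with a chosen branch polynomial. -/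
theorem exists_cov : ∃ (a : MvPolynomial (Fin n.d) ℂ) (C : Cov (MvPolynomial.zeroLocus ℂ P)),
    a ≠ 0 ∧ ∃ e : C.d = n.d, ∀ x, C.a (C.π x) = MvPolynomial.eval (n.π x) a := by
  obtain ⟨a, ha, hsep⟩ := n.exists_branch
  refine ⟨a, ?_, ha, ?_⟩
  · refine
      { d := n.d
        π := n.π
        a := fun t => MvPolynomial.eval t a
        m := ∏ l, (n.FX l).natDegree
        closed := isClosed_Z
        diff := ?_
        line := ?_
        fib := n.fib
        sec := ?_
        dense := ?_ }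
    · unfold π
      rw [differentiable_pi]
      intro i
      exact (contDiff_eval (n.p i)).differentiable one_ne_zero
    · intro t₀ t₁ h1
      let q : ℂ[X] := MvPolynomial.aeval (fun i => C (t₀ i) + X * C (t₁ i - t₀ i)) a
      have hq : ∀ ζ : ℂ, q.eval ζ = MvPolynomial.eval (t₀ + ζ • (t₁ - t₀)) a := by
        intro ζ
        have : (Polynomial.aeval ζ : ℂ[X] →ₐ[ℂ] ℂ).comp
            (MvPolynomial.aeval (fun i => C (t₀ i) + X * C (t₁ i - t₀ i))) =
            MvPolynomial.aeval (t₀ + ζ • (t₁ - t₀)) := by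
          apply MvPolynomial.algHom_ext
          intro i
          simp
        have h2 := congrArg (fun f : MvPolynomial (Fin n.d) ℂ →ₐ[ℂ] ℂ => f a) this
        simpa [q, MvPolynomial.aeval_eq_eval, Polynomial.coe_aeval_eq_eval] using h2
      have hq0 : q ≠ 0 := by
        intro h0
        have := hq 1
        rw [h0, Polynomial.eval_zero] at this
        apply h1
        rw [this]
        congr 1
        simp
      refine (q.roots.toFinset.finite_toSet).subset ?_
      intro ζ hζ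
      rw [Finset.mem_coe, Multiset.mem_toFinset, Polynomial.mem_roots hq0]
      show q.eval ζ = 0
      rw [hq]
      exact hζ
    · intro y hy hya
      apply n.section_at hy
      intro l
      apply hsep _ hya l
      have := n.F_root (MvPolynomial.X l) hy
      rwa [MvPolynomial.eval_X] at this
    · intro y hy O hO hyO
      exact n.dense_pull ha hy O hO hyO
  · exact ⟨rfl, fun x => rfl⟩

end Noe

theorem covThm : CovThm := by
  intro N P hP
  obtain ⟨n⟩ := exists_noe P hP.ne_top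
  obtain ⟨a, C, ha, -, hC⟩ := n.exists_cov
  refine ⟨C, MvPolynomial.bind₁ n.p a, n.pull_notMem ha, ?_⟩
  intro x
  rw [n.eval_pull, hC]

end Crest.Agent.R264.Sm
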