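import Crest.Agent.R264.TopDefs

/-!
Row 264, PART 0 (U is smooth): interface (helper659).

* `LocHolo X f`    : `f : ℂ^N → ℂ` restricted to `X` is locally the restriction of an ambient
                     holomorphic function.
* `Cov Z`          : a finite branched covering `π : Z → ℂ^d` (from Noether normalisation), étale
                     with local holomorphic sections outside `{a = 0}`.
* `EQThm`          : equicontinuity of bounded holomorphic functions at a (possibly singular) point.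
* `CovThm`         : every zero locus of a prime ideal has a `Cov`.
-/

set_option autoImplicit false

open Topology Filter Set

namespace Crest.Agent.R264.Sm

open Crest.AlgGeometry.Semialg

variable {N : ℕ}

/-- `f` is holomorphic along `X`: near every point of `X` it agrees on `X` with an ambient
holomorphic function. -/
def LocHolo (X : Set (Fin N → ℂ)) (f : (Fin N → ℂ) → ℂ) : Prop :=
  ∀ x ∈ X, ∃ O : Set (Fin N → ℂ), IsOpen O ∧ x ∈ O ∧
    ∃ Φ : (Fin N → ℂ) → ℂ, DifferentiableOn ℂ Φ O ∧ ∀ y ∈ X, y ∈ O → f y = Φ y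

/-- A finite branched covering `π : Z → ℂ^d` with branch locus in `{a = 0}`. -/
structure Cov (Z : Set (Fin N → ℂ)) where
  d : ℕ
  π : (Fin N → ℂ) → (Fin d → ℂ)
  a : (Fin d → ℂ) → ℂ
  m : ℕ
  closed : IsClosed Z
  diff : Differentiable ℂ π
  /-- `a` restricted to a complex line through a point where it is nonzero has finitely many zeros -/
  line : ∀ t₀ t₁ : Fin d → ℂ, a t₁ ≠ 0 → {ζ : ℂ | a (t₀ + ζ • (t₁ - t₀)) = 0}.Finite
  /-- finite fibres with bounded cardinality -/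
  fib : ∀ t : Fin d → ℂ, {y | y ∈ Z ∧ π y = t}.Finite ∧ {y | y ∈ Z ∧ π y = t}.ncard ≤ m
  /-- local sections over `{a ≠ 0}` -/
  sec : ∀ y ∈ Z, a (π y) ≠ 0 → ∃ (O : Set (Fin N → ℂ)) (W : Set (Fin d → ℂ))
    (ψ : (Fin d → ℂ) → (Fin N → ℂ)), IsOpen O ∧ IsOpen W ∧ y ∈ O ∧ DifferentiableOn ℂ ψ W ∧
      (∀ w ∈ W, ψ w ∈ Z ∧ ψ w ∈ O ∧ π (ψ w) = w) ∧
      (∀ z ∈ Z, z ∈ O → π z ∈ W ∧ ψ (π z) = z)
  /-- `{a ∘ π ≠ 0}` is dense in `Z` -/
  dense : ∀ y ∈ Z, ∀ O : Set (Fin N → ℂ), IsOpen O → y ∈ O → ∃ z ∈ Z, z ∈ O ∧ a (π z) ≠ 0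

/-- (EQ) Equicontinuity at `k ∈ Z` of the holomorphic functions bounded by `1` on
`Z ∩ ball k r`. -/
def EQThm : Prop :=
  ∀ (N : ℕ) (Z : Set (Fin N → ℂ)), Nonempty (Cov Z) → ∀ k ∈ Z, ∀ r : ℝ, 0 < r →
    ∀ ε : ℝ, 0 < ε → ∃ δ : ℝ, 0 < δ ∧ ∀ f : (Fin N → ℂ) → ℂ,
      LocHolo (Z ∩ Metric.ball k r) f → (∀ y ∈ Z ∩ Metric.ball k r, ‖f y‖ ≤ 1) →
      ∀ y ∈ Z, dist y k < δ → ‖f y - f k‖ ≤ ε

/-- Zero loci of prime ideals are finite branched coverings. -/
def CovThm : Prop :=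
  ∀ (N : ℕ) (P : Ideal (MvPolynomial (Fin N) ℂ)), P.IsPrime →
    ∃ C : Cov (MvPolynomial.zeroLocus ℂ P), ∃ A : MvPolynomial (Fin N) ℂ, A ∉ P ∧
      ∀ x, MvPolynomial.eval x A = C.a (C.π x)

end Crest.Agent.R264.Sm
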