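import Mathlib

/-! Row 264, PART 0: removable finite set + Schwarz (helper659). -/

set_option autoImplicit false

open Topology Filter Set

namespace Crest.Agent.R264.Sm

open scoped Classical in
theorem removable_schwarz {R B : ℝ} (hR : 1 < R) {E : Set ℂ} (hE : E.Finite) {NN : ℂ → ℂ}
    (hd : ∀ ζ ∈ Metric.ball (0 : ℂ) R, ζ ∉ E → DifferentiableAt ℂ NN ζ)
    (hb : ∀ ζ ∈ Metric.ball (0 : ℂ) R, ζ ∉ E → ‖NN ζ‖ ≤ B) (h1 : (1 : ℂ) ∉ E) (hN1 : NN 1 = 0) :
    ∃ g₀ : ℂ, Filter.Tendsto NN (nhdsWithin 0 ((insert 0 E)ᶜ)) (nhds g₀) ∧ ‖g₀‖ ≤ 2 * B / R := by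
  set D := Metric.ball (0 : ℂ) R with hD
  have hDo : IsOpen D := Metric.isOpen_ball
  have hR0 : 0 < R := by linarith
  let G : ℂ → ℂ := fun ζ => if ζ ∈ E then limUnder (𝓝[≠] ζ) NN else NN ζ
  have hGE : ∀ ζ, ζ ∉ E → G ζ = NN ζ := fun ζ h => if_neg h
  have hGd : DifferentiableOn ℂ G D := by
    intro ζ₀ hζ₀
    have hs : D ∩ (E \ {ζ₀})ᶜ ∈ 𝓝 ζ₀ :=
      inter_mem (hDo.mem_nhds hζ₀)
        ((hE.subset sdiff_subset).isClosed.isOpen_compl.mem_nhds fun h => h.2 rfl)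
    by_cases hζE : ζ₀ ∈ E
    · have h2 : DifferentiableOn ℂ (Function.update NN ζ₀ (limUnder (𝓝[≠] ζ₀) NN))
          (D ∩ (E \ {ζ₀})ᶜ) := by
        apply Complex.differentiableOn_update_limUnder_of_bddAbove hs
        · intro ζ hζ
          apply DifferentiableAt.differentiableWithinAt
          exact hd ζ hζ.1.1 (fun h => hζ.1.2 ⟨h, hζ.2⟩)
        · refine ⟨B, ?_⟩
          rintro _ ⟨ζ, hζ, rfl⟩
          exact hb ζ hζ.1.1 (fun h => hζ.1.2 ⟨h, hζ.2⟩)
      have h3 : G =ᶠ[𝓝 ζ₀] Function.update NN ζ₀ (limUnder (𝓝[≠] ζ₀) NN) := by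
        filter_upwards [hs] with ζ hζ
        by_cases he : ζ = ζ₀
        · subst he
          simp [G, hζE]
        · rw [Function.update_of_ne he]
          exact hGE ζ (fun h => hζ.2 ⟨h, he⟩)
      exact ((h2.differentiableAt hs).congr_of_eventuallyEq h3).differentiableWithinAt
    · have h3 : G =ᶠ[𝓝 ζ₀] NN := by
        filter_upwards [hE.isClosed.isOpen_compl.mem_nhds hζE] with ζ hζ
        exact hGE ζ hζ
      exact ((hd ζ₀ hζ₀ hζE).congr_of_eventuallyEq h3).differentiableWithinAt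
  have hdense : Dense Eᶜ := hE.countable.dense_compl ℂ
  have hGb : ∀ ζ ∈ D, ‖G ζ‖ ≤ B := by
    intro ζ hζ
    have hc : ContinuousAt G ζ := (hGd.differentiableAt (hDo.mem_nhds hζ)).continuousAt
    have hne : (𝓝[Eᶜ] ζ).NeBot := mem_closure_iff_nhdsWithin_neBot.mp (hdense ζ)
    have ht : Tendsto (fun z => ‖G z‖) (𝓝[Eᶜ] ζ) (𝓝 ‖G ζ‖) := hc.norm.mono_left nhdsWithin_le_nhds
    apply le_of_tendsto ht
    filter_upwards [self_mem_nhdsWithin, nhdsWithin_le_nhds (hDo.mem_nhds hζ)] with z hz hzD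
    rw [hGE z hz]
    exact hb z hzD hz
  have h0D : (0 : ℂ) ∈ D := Metric.mem_ball_self hR0
  have h1D : (1 : ℂ) ∈ D := by
    rw [hD, mem_ball_zero_iff, norm_one]; exact hR
  refine ⟨G 0, ?_, ?_⟩
  · have hc : ContinuousAt G 0 := (hGd.differentiableAt (hDo.mem_nhds h0D)).continuousAt
    have ht : Tendsto G (𝓝[(insert 0 E)ᶜ] 0) (𝓝 (G 0)) := hc.mono_left nhdsWithin_le_nhds
    apply ht.congr'
    filter_upwards [self_mem_nhdsWithin] with z hz
    exact hGE z (fun h => hz (mem_insert_of_mem _ h))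
  · have hmaps : MapsTo G D (Metric.closedBall (G 0) (2 * B)) := by
      intro z hz
      rw [mem_closedBall_iff_norm]
      have := hGb z hz
      have := hGb 0 h0D
      exact (norm_sub_le _ _).trans (by linarith)
    have h2 := Complex.dist_le_div_mul_dist_of_mapsTo_ball hGd hmaps h1D
    rw [hGE 1 h1, hN1] at h2
    simpa using h2

end Crest.Agent.R264.Sm
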