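import Crest.Agent.R264.SmDefs
import Crest.Agent.R264.SmRem

/-! Row 264, PART 0: `EQThm` (helper659). -/

set_option autoImplicit false

open Topology Filter Set

namespace Crest.Agent.R264.Sm

variable {N : ℕ}

/-- continuity along `X` of a holomorphic function on `X` -/
theorem LocHolo.cont {X : Set (Fin N → ℂ)} {f : (Fin N → ℂ) → ℂ} (h : LocHolo X f)
    {x : Fin N → ℂ} (hx : x ∈ X) (ε : ℝ) (hε : 0 < ε) :
    ∃ G : Set (Fin N → ℂ), IsOpen G ∧ x ∈ G ∧ ∀ y ∈ X, y ∈ G → ‖f y - f x‖ < ε := by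
  obtain ⟨O, hO, hxO, Φ, hΦ, hfΦ⟩ := h x hx
  refine ⟨O ∩ Φ ⁻¹' Metric.ball (Φ x) ε, ?_, ?_, ?_⟩
  · exact hΦ.continuousOn.isOpen_inter_preimage hO Metric.isOpen_ball
  · exact ⟨hxO, Metric.mem_ball_self hε⟩
  · intro y hy hyG
    rw [hfΦ y hy hyG.1, hfΦ x hx hxO, ← dist_eq_norm]
    exact hyG.2

theorem diffAt_prod {E ι : Type*} [NormedAddCommGroup E] [NormedSpace ℂ E] (s : Finset ι)
    (g : ι → E → ℂ) (x : E) (h : ∀ i ∈ s, DifferentiableAt ℂ (g i) x) :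
    DifferentiableAt ℂ (fun t => ∏ i ∈ s, g i t) x := by
  classical
  induction s using Finset.induction_on with
  | empty => simp
  | insert a s ha ih =>
    simp only [Finset.prod_insert ha]
    exact (h a (Finset.mem_insert_self a s)).mul
      (ih fun i hi => h i (Finset.mem_insert_of_mem hi))

section Fib

variable {Z : Set (Fin N → ℂ)} (C : Cov Z) (k : Fin N → ℂ) (ρ : ℝ)

/-- the fibre over `t` inside the ball -/
def Fb (t : Fin C.d → ℂ) : Set (Fin N → ℂ) := {y | y ∈ Z ∧ y ∈ Metric.ball k ρ ∧ C.π y = t}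

theorem Fb_finite (t : Fin C.d → ℂ) : (Fb C k ρ t).Finite :=
  (C.fib t).1.subset fun _ hy => ⟨hy.1, hy.2.2⟩

theorem Fb_ncard (t : Fin C.d → ℂ) : (Fb_finite C k ρ t).toFinset.card ≤ C.m := by
  have h1 : (Fb_finite C k ρ t).toFinset.card = (Fb C k ρ t).ncard :=
    (Set.ncard_eq_toFinset_card _ (Fb_finite C k ρ t)).symm
  rw [h1]
  have h2 : Fb C k ρ t ⊆ {y | y ∈ Z ∧ C.π y = t} := fun _ hy => ⟨hy.1, hy.2.2⟩
  exact (Set.ncard_le_ncard h2 (C.fib t).1).trans (C.fib t).2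

/-- the product over the fibre -/
noncomputable def PP (f : (Fin N → ℂ) → ℂ) (T : ℂ) (t : Fin C.d → ℂ) : ℂ :=
  ∏ y ∈ (Fb_finite C k ρ t).toFinset, (T - f y)

variable {k ρ}

theorem compact_KK (C : Cov Z) : IsCompact (Z ∩ Metric.closedBall k ρ) :=
  (isCompact_closedBall k ρ).inter_left C.closed

/-- no fibre points outside an open set containing the fibre over `t₁` -/
theorem eventually_sub (G : Set (Fin N → ℂ)) (hG : IsOpen G) (t₁ : Fin C.d → ℂ)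
    (h : ∀ z ∈ Z, z ∈ Metric.closedBall k ρ → C.π z = t₁ → z ∈ G) :
    ∀ᶠ t in 𝓝 t₁, ∀ z ∈ Fb C k ρ t, z ∈ G := by
  have hK : IsCompact ((Z ∩ Metric.closedBall k ρ) ∩ Gᶜ) :=
    (compact_KK C).inter_right hG.isClosed_compl
  have h1 : (C.π '' ((Z ∩ Metric.closedBall k ρ) ∩ Gᶜ))ᶜ ∈ 𝓝 t₁ := by
    apply (hK.image C.diff.continuous).isClosed.isOpen_compl.mem_nhds
    rintro ⟨z, hz, hzt⟩
    exact hz.2 (h z hz.1.1 hz.1.2 hzt)
  filter_upwards [h1] with t ht z hz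
  by_contra hzG
  exact ht ⟨z, ⟨⟨hz.1, Metric.ball_subset_closedBall hz.2.1⟩, hzG⟩, hz.2.2⟩

/-- local form of the product -/
theorem PP_local {r : ℝ} (hρr : ρ < r) {f : (Fin N → ℂ) → ℂ}
    (hf : LocHolo (Z ∩ Metric.ball k r) f) (T : ℂ) (t₁ : Fin C.d → ℂ) (ha : C.a t₁ ≠ 0)
    (hsph : ∀ z ∈ Z, z ∈ Metric.closedBall k ρ → C.π z = t₁ → z ∈ Metric.ball k ρ) :
    ∃ g : (Fin C.d → ℂ) → ℂ, DifferentiableAt ℂ g t₁ ∧ PP C k ρ f T =ᶠ[𝓝 t₁] g := by
  classical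
  set F₁ := (Fb_finite C k ρ t₁).toFinset with hF₁
  have hmem : ∀ y ∈ F₁, y ∈ Z ∧ y ∈ Metric.ball k ρ ∧ C.π y = t₁ := by
    intro y hy
    exact (Fb_finite C k ρ t₁).mem_toFinset.mp hy
  obtain ⟨G, hG, hGd⟩ := (Fb_finite C k ρ t₁).t2_separation
  -- sections
  have hsec : ∀ y : Fin N → ℂ, ∃ (B : Set (Fin N → ℂ)) (W : Set (Fin C.d → ℂ))
      (ψ : (Fin C.d → ℂ) → (Fin N → ℂ)) (Φ : (Fin N → ℂ) → ℂ), y ∈ F₁ →
        IsOpen B ∧ IsOpen W ∧ t₁ ∈ W ∧ y ∈ B ∧ DifferentiableOn ℂ ψ W ∧ DifferentiableOn ℂ Φ B ∧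
        ψ t₁ = y ∧ B ⊆ G y ∧ B ⊆ Metric.ball k ρ ∧ (∀ z ∈ Z, z ∈ B → f z = Φ z) ∧
        (∀ w ∈ W, ψ w ∈ Z ∧ C.π (ψ w) = w) ∧
        (∀ z ∈ Z, z ∈ B → ψ (C.π z) = z) := by
    intro y
    by_cases hy : y ∈ F₁
    · obtain ⟨hyZ, hyb, hyt⟩ := hmem y hy
      obtain ⟨O, W, ψ, hO, hW, hyO, hψ, h1, h2⟩ := C.sec y hyZ (by rw [hyt]; exact ha)
      have hyr : y ∈ Z ∩ Metric.ball k r := ⟨hyZ, Metric.ball_subset_ball hρr.le hyb⟩
      obtain ⟨A, hA, hyA, Φ, hΦ, hfΦ⟩ := hf y hyr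
      refine ⟨O ∩ A ∩ G y ∩ Metric.ball k ρ, W, ψ, Φ, fun _ => ?_⟩
      have h3 := h2 y hyZ hyO
      rw [hyt] at h3
      refine ⟨((hO.inter hA).inter (hG y).2).inter Metric.isOpen_ball, hW, h3.1,
        ⟨⟨⟨hyO, hyA⟩, (hG y).1⟩, hyb⟩, hψ, hΦ.mono ?_, h3.2, ?_, ?_, ?_, ?_, ?_⟩
      · exact fun z hz => hz.1.1.2
      · exact fun z hz => hz.1.2
      · exact fun z hz => hz.2
      · intro z hz hzB
        exact hfΦ z ⟨hz, Metric.ball_subset_ball hρr.le hzB.2⟩ hzB.1.1.2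
      · intro w hw
        exact ⟨(h1 w hw).1, (h1 w hw).2.2⟩
      · intro z hz hzB
        exact (h2 z hz hzB.1.1.1).2
    · exact ⟨∅, ∅, 0, 0, fun h => absurd h hy⟩
  choose B W ψ Φ hS using hsec
  refine ⟨fun t => ∏ y ∈ F₁, (T - Φ y (ψ y t)), ?_, ?_⟩
  · apply diffAt_prod
    intro y hy
    obtain ⟨hB, hW, htW, hyB, hψ, hΦ, hψy, -⟩ := hS y hy
    apply (differentiableAt_const T).sub
    have h1 : DifferentiableAt ℂ (ψ y) t₁ := hψ.differentiableAt (hW.mem_nhds htW)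
    have h2 : DifferentiableAt ℂ (Φ y) (ψ y t₁) := by
      rw [hψy]; exact hΦ.differentiableAt (hB.mem_nhds hyB)
    exact h2.comp t₁ h1
  · -- eventual description of the fibre
    have e1 : ∀ᶠ t in 𝓝 t₁, ∀ y ∈ F₁, t ∈ W y ∧ ψ y t ∈ B y := by
      rw [Filter.eventually_all_finset]
      intro y hy
      obtain ⟨hB, hW, htW, hyB, hψ, -, hψy, -⟩ := hS y hy
      have h1 : ContinuousAt (ψ y) t₁ := (hψ.differentiableAt (hW.mem_nhds htW)).continuousAt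
      have h2 : ∀ᶠ t in 𝓝 t₁, ψ y t ∈ B y := by
        apply h1
        rw [hψy]
        exact hB.mem_nhds hyB
      have h3 : ∀ᶠ t in 𝓝 t₁, t ∈ W y := hW.mem_nhds htW
      exact h3.and h2
    have e2 : ∀ᶠ t in 𝓝 t₁, ∀ z ∈ Fb C k ρ t, z ∈ ⋃ y ∈ F₁, B y := by
      apply eventually_sub C (⋃ y ∈ F₁, B y)
      · exact isOpen_biUnion fun y hy => (hS y hy).1
      · intro z hz hzb hzt
        have hzF : z ∈ F₁ := (Fb_finite C k ρ t₁).mem_toFinset.mpr ⟨hz, hsph z hz hzb hzt, hzt⟩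
        exact mem_biUnion hzF (hS z hzF).2.2.2.1
    filter_upwards [e1, e2] with t ht1 ht2
    have himg : (Fb_finite C k ρ t).toFinset = F₁.image (fun y => ψ y t) := by
      ext z
      rw [(Fb_finite C k ρ t).mem_toFinset, Finset.mem_image]
      constructor
      · intro hz
        obtain ⟨y, hy, hzy⟩ := mem_iUnion₂.mp (ht2 z hz)
        refine ⟨y, hy, ?_⟩
        have := (hS y hy).2.2.2.2.2.2.2.2.2.2.2 z hz.1 hzy
        rwa [hz.2.2] at this
      · rintro ⟨y, hy, rfl⟩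
        obtain ⟨-, -, -, -, -, -, -, -, hBb, -, hW, -⟩ := hS y hy
        exact ⟨(hW t (ht1 y hy).1).1, hBb (ht1 y hy).2, (hW t (ht1 y hy).1).2⟩
    have hinj : ∀ y ∈ F₁, ∀ y' ∈ F₁, ψ y t = ψ y' t → y = y' := by
      intro y hy y' hy' he
      by_contra hne
      have hd := hGd ((Fb_finite C k ρ t₁).mem_toFinset.mp hy)
        ((Fb_finite C k ρ t₁).mem_toFinset.mp hy') hne
      have h1 := (hS y hy).2.2.2.2.2.2.2.1 (ht1 y hy).2
      have h2 := (hS y' hy').2.2.2.2.2.2.2.1 (ht1 y' hy').2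
      rw [← he] at h2
      exact Set.disjoint_left.mp hd h1 h2
    unfold PP
    rw [himg, Finset.prod_image hinj]
    apply Finset.prod_congr rfl
    intro y hy
    obtain ⟨-, -, -, -, -, -, -, -, -, hfΦ, hW, -⟩ := hS y hy
    rw [hfΦ _ (hW t (ht1 y hy).1).1 (ht1 y hy).2]

end Fib

/-- The key estimate at a good point. -/
theorem key_est {Z : Set (Fin N → ℂ)} (C : Cov Z) {k : Fin N → ℂ} (hk : k ∈ Z) {r ρ r' : ℝ}
    (hρ : 0 < ρ) (hρr : ρ < r) (hr' : 0 < r')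
    (hiso : ∀ z ∈ Z, z ∈ Metric.closedBall k ρ → C.π z = C.π k → z = k)
    (hsph : ∀ t ∈ Metric.ball (C.π k) r', ∀ z ∈ Z, z ∈ Metric.closedBall k ρ → C.π z = t →
      z ∈ Metric.ball k ρ)
    (f : (Fin N → ℂ) → ℂ) (hf : LocHolo (Z ∩ Metric.ball k r) f)
    (hf1 : ∀ y ∈ Z ∩ Metric.ball k r, ‖f y‖ ≤ 1)
    (y : Fin N → ℂ) (hy : y ∈ Z) (hyρ : y ∈ Metric.ball k ρ) (hya : C.a (C.π y) ≠ 0)
    (hyr : ‖C.π y - C.π k‖ < r') :
    (‖f y - f k‖ / 2) ^ C.m ≤ 2 * 2 ^ C.m * ‖C.π y - C.π k‖ / r' := by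
  by_cases h0 : C.π y = C.π k
  · have hyk := hiso y hy (Metric.ball_subset_closedBall hyρ) h0
    have hm : C.m ≠ 0 := by
      intro hm0
      have h1 := (C.fib (C.π k)).2
      have h2 : 0 < {z | z ∈ Z ∧ C.π z = C.π k}.ncard :=
        (Set.ncard_pos (C.fib (C.π k)).1).mpr ⟨k, hk, rfl⟩
      omega
    rw [hyk]
    simp [hm]
  · set η := ‖C.π y - C.π k‖ with hη
    have hη0 : 0 < η := norm_pos_iff.mpr (sub_ne_zero.mpr h0)
    set t₀ := C.π k with ht₀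
    set t₁ := C.π y with ht₁
    set R := r' / η with hRdef
    have hR1 : 1 < R := (one_lt_div hη0).mpr hyr
    let tt : ℂ → (Fin C.d → ℂ) := fun ζ => t₀ + ζ • (t₁ - t₀)
    have htt1 : tt 1 = t₁ := by simp [tt]
    have htt0 : tt 0 = t₀ := by simp [tt]
    have httd : Differentiable ℂ tt := by
      intro ζ
      exact (differentiableAt_const t₀).add (differentiableAt_id.smul_const (t₁ - t₀))
    have httball : ∀ ζ ∈ Metric.ball (0 : ℂ) R, tt ζ ∈ Metric.ball t₀ r' := by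
      intro ζ hζ
      rw [mem_ball_zero_iff] at hζ
      rw [Metric.mem_ball, dist_eq_norm]
      simp only [tt, add_sub_cancel_left, norm_smul]
      rw [← hη]
      calc ‖ζ‖ * η < R * η := by gcongr
        _ = r' := by rw [hRdef]; field_simp
    set E : Set ℂ := {ζ | C.a (t₀ + ζ • (t₁ - t₀)) = 0} with hE
    have hEfin : E.Finite := C.line t₀ t₁ hya
    have h1E : (1 : ℂ) ∉ E := by
      intro h
      have : C.a (tt 1) = 0 := h
      rw [htt1] at this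
      exact hya this
    have hmemZ : ∀ t, ∀ z ∈ (Fb_finite C k ρ t).toFinset, z ∈ Z ∩ Metric.ball k r := by
      intro t z hz
      have := (Fb_finite C k ρ t).mem_toFinset.mp hz
      exact ⟨this.1, Metric.ball_subset_ball hρr.le this.2.1⟩
    have hyZ : y ∈ Z ∩ Metric.ball k r := ⟨hy, Metric.ball_subset_ball hρr.le hyρ⟩
    have hkZ : k ∈ Z ∩ Metric.ball k r := ⟨hk, Metric.mem_ball_self (hρ.trans hρr)⟩
    obtain ⟨g₀, hg₀, hg₀b⟩ := removable_schwarz (R := R) (B := 2 ^ C.m) hR1 hEfin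
      (NN := fun ζ => PP C k ρ f (f y) (tt ζ)) (by
        intro ζ hζ hζE
        obtain ⟨g, hg, hge⟩ := PP_local C hρr hf (f y) (tt ζ) hζE
          (hsph (tt ζ) (httball ζ hζ))
        have h1 : DifferentiableAt ℂ (PP C k ρ f (f y)) (tt ζ) := hg.congr_of_eventuallyEq hge
        exact h1.comp ζ (httd ζ)) (by
        intro ζ hζ _
        unfold PP
        rw [norm_prod]
        calc ∏ z ∈ (Fb_finite C k ρ (tt ζ)).toFinset, ‖f y - f z‖
            ≤ ∏ z ∈ (Fb_finite C k ρ (tt ζ)).toFinset, (2 : ℝ) := by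
              apply Finset.prod_le_prod (fun _ _ => norm_nonneg _)
              intro z hz
              have h1 := hf1 y hyZ
              have h2 := hf1 z (hmemZ _ z hz)
              exact (norm_sub_le _ _).trans (by linarith)
          _ = 2 ^ (Fb_finite C k ρ (tt ζ)).toFinset.card := Finset.prod_const _
          _ ≤ 2 ^ C.m := pow_le_pow_right₀ (by norm_num) (Fb_ncard C k ρ (tt ζ))) h1E (by
        show PP C k ρ f (f y) (tt 1) = 0
        unfold PP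
        apply Finset.prod_eq_zero (i := y)
        · rw [(Fb_finite C k ρ (tt 1)).mem_toFinset]
          exact ⟨hy, hyρ, by rw [htt1]⟩
        · exact sub_self _)
    have h2 : 2 * 2 ^ C.m / R = 2 * 2 ^ C.m * η / r' := by
      rw [hRdef]; field_simp
    rw [h2] at hg₀b
    refine le_trans ?_ hg₀b
    -- lower bound for the limit
    have hlow : ∀ c : ℝ, 0 ≤ c → c < ‖f y - f k‖ → (c / 2) ^ C.m ≤ ‖g₀‖ := by
      intro c hc0 hc
      have hd0 : 0 < ‖f y - f k‖ - c := by linarith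
      obtain ⟨G, hG, hkG, hGf⟩ := hf.cont hkZ _ hd0
      have h3 : ∀ᶠ t in 𝓝 t₀, ∀ z ∈ Fb C k ρ t, z ∈ G := by
        apply eventually_sub C G hG t₀
        intro z hz hzb hzt
        rw [hiso z hz hzb hzt]
        exact hkG
      have h4 : ∀ᶠ ζ in 𝓝[(insert 0 E)ᶜ] (0 : ℂ), ∀ z ∈ Fb C k ρ (tt ζ), z ∈ G := by
        apply Filter.Eventually.filter_mono nhdsWithin_le_nhds
        have h5 : Tendsto tt (𝓝 0) (𝓝 t₀) := by
          have := (httd 0).continuousAt.tendsto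
          rwa [htt0] at this
        exact h5.eventually h3
      have hne : (𝓝[(insert 0 E)ᶜ] (0 : ℂ)).NeBot := by
        have hfin : (insert (0 : ℂ) E).Finite := hEfin.insert 0
        have hdense : Dense ((insert (0 : ℂ) E)ᶜ) := hfin.countable.dense_compl ℂ
        exact mem_closure_iff_nhdsWithin_neBot.mp (hdense 0)
      apply ge_of_tendsto hg₀.norm
      filter_upwards [h4] with ζ hζ
      unfold PP
      rw [norm_prod]
      have hc2 : c / 2 ≤ 1 := by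
        have h1 := hf1 y hyZ
        have h2 := hf1 k hkZ
        have h3 : ‖f y - f k‖ ≤ 2 := (norm_sub_le _ _).trans (by linarith)
        linarith
      calc (c / 2) ^ C.m ≤ (c / 2) ^ (Fb_finite C k ρ (tt ζ)).toFinset.card :=
            pow_le_pow_of_le_one (by positivity) hc2 (Fb_ncard C k ρ (tt ζ))
        _ = ∏ z ∈ (Fb_finite C k ρ (tt ζ)).toFinset, (c / 2) := (Finset.prod_const _).symm
        _ ≤ ∏ z ∈ (Fb_finite C k ρ (tt ζ)).toFinset, ‖f y - f z‖ := by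
            apply Finset.prod_le_prod (fun _ _ => by positivity)
            intro z hz
            have hzF := (Fb_finite C k ρ (tt ζ)).mem_toFinset.mp hz
            have h6 := hGf z (hmemZ _ z hz) (hζ z hzF)
            have h7 : ‖f y - f k‖ ≤ ‖f y - f z‖ + ‖f z - f k‖ := norm_sub_le_norm_sub_add_norm_sub _ _ _
            linarith
    by_cases hpos : ‖f y - f k‖ = 0
    · by_cases hm : C.m = 0
      · have : (0 : ℝ) ≤ ‖g₀‖ := norm_nonneg _
        rw [hpos, hm]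
        exfalso
        have h1 := (C.fib (C.π k)).2
        have h2 : 0 < {z | z ∈ Z ∧ C.π z = C.π k}.ncard :=
          (Set.ncard_pos (C.fib (C.π k)).1).mpr ⟨k, hk, rfl⟩
        omega
      · rw [hpos]
        simp [hm]
    · have hp : 0 < ‖f y - f k‖ := lt_of_le_of_ne (norm_nonneg _) (Ne.symm hpos)
      have hcont : Tendsto (fun c : ℝ => (c / 2) ^ C.m) (𝓝[<] ‖f y - f k‖)
          (𝓝 ((‖f y - f k‖ / 2) ^ C.m)) := by
        apply Tendsto.mono_left _ nhdsWithin_le_nhds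
        exact ((continuous_id.div_const 2).pow C.m).tendsto _
      apply le_of_tendsto hcont
      have h5 : ∀ᶠ c in 𝓝[<] ‖f y - f k‖, 0 < c :=
        Filter.Eventually.filter_mono nhdsWithin_le_nhds (lt_mem_nhds hp)
      filter_upwards [h5, self_mem_nhdsWithin] with c hc1 hc2
      exact hlow c hc1.le hc2

theorem eqThm : EQThm := by
  rintro N Z ⟨C⟩ k hk r hr ε hε
  -- choice of ρ
  obtain ⟨ρ₀, hρ₀, hρ₀b⟩ : ∃ ρ₀ > 0, ∀ z ∈ Metric.ball k ρ₀, z ∈ Z → C.π z = C.π k → z = k := by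
    have hfin : ({z | z ∈ Z ∧ C.π z = C.π k} \ {k}).Finite := (C.fib (C.π k)).1.subset sdiff_subset
    have h1 : ({z | z ∈ Z ∧ C.π z = C.π k} \ {k})ᶜ ∈ 𝓝 k :=
      hfin.isClosed.isOpen_compl.mem_nhds (fun h => h.2 rfl)
    obtain ⟨ρ₀, hρ₀, hb⟩ := Metric.mem_nhds_iff.mp h1
    refine ⟨ρ₀, hρ₀, fun z hz hzZ hzt => ?_⟩
    by_contra hne
    exact hb hz ⟨⟨hzZ, hzt⟩, hne⟩
  set ρ := min ρ₀ r / 2 with hρdef
  have hmin : 0 < min ρ₀ r := lt_min hρ₀ hr
  have hρ : 0 < ρ := by positivity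
  have hρρ₀ : ρ < ρ₀ := by
    have := min_le_left ρ₀ r
    linarith
  have hρr : ρ < r := by
    have := min_le_right ρ₀ r
    linarith
  have hiso : ∀ z ∈ Z, z ∈ Metric.closedBall k ρ → C.π z = C.π k → z = k := fun z hz hzb hzt =>
    hρ₀b z (Metric.closedBall_subset_ball hρρ₀ hzb) hz hzt
  -- choice of r'
  obtain ⟨r', hr', hsph⟩ : ∃ r' > 0, ∀ t ∈ Metric.ball (C.π k) r', ∀ z ∈ Z,
      z ∈ Metric.closedBall k ρ → C.π z = t → z ∈ Metric.ball k ρ := by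
    have hK : IsCompact (Z ∩ Metric.sphere k ρ) := (isCompact_sphere k ρ).inter_left C.closed
    have h1 : (C.π '' (Z ∩ Metric.sphere k ρ))ᶜ ∈ 𝓝 (C.π k) := by
      apply (hK.image C.diff.continuous).isClosed.isOpen_compl.mem_nhds
      rintro ⟨z, hz, hzt⟩
      have := hiso z hz.1 (Metric.sphere_subset_closedBall hz.2) hzt
      rw [this] at hz
      have h2 := hz.2
      rw [Metric.mem_sphere, dist_self] at h2
      exact hρ.ne h2
    obtain ⟨r', hr', hb⟩ := Metric.mem_nhds_iff.mp h1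
    refine ⟨r', hr', fun t ht z hz hzb hzt => ?_⟩
    rw [Metric.mem_ball]
    refine lt_of_le_of_ne hzb ?_
    intro he
    exact hb ht ⟨z, ⟨hz, he⟩, hzt⟩
  -- choice of δ
  set η := min r' (r' * (ε / 4) ^ C.m / (2 * 2 ^ C.m)) with hηdef
  have hη : 0 < η := lt_min hr' (by positivity)
  obtain ⟨δ₀, hδ₀, hδ⟩ := Metric.continuousAt_iff.mp (C.diff.continuous.continuousAt (x := k)) η hη
  refine ⟨min δ₀ ρ, lt_min hδ₀ hρ, ?_⟩
  intro f hf hf1 y hy hyd
  have hyδ : dist y k < δ₀ := lt_of_lt_of_le hyd (min_le_left _ _)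
  have hyρ : dist y k < ρ := lt_of_lt_of_le hyd (min_le_right _ _)
  have hyZ : y ∈ Z ∩ Metric.ball k r := ⟨hy, hyρ.trans hρr⟩
  obtain ⟨G, hG, hyG, hGf⟩ := hf.cont hyZ (ε / 2) (by positivity)
  obtain ⟨y₁, hy₁, hy₁O, hy₁a⟩ := C.dense y hy (G ∩ Metric.ball k (min δ₀ ρ))
    (hG.inter Metric.isOpen_ball) ⟨hyG, hyd⟩
  have hy₁ρ : y₁ ∈ Metric.ball k ρ := Metric.ball_subset_ball (min_le_right _ _) hy₁O.2
  have hy₁η : ‖C.π y₁ - C.π k‖ < η := by
    rw [← dist_eq_norm]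
    exact hδ (lt_of_lt_of_le hy₁O.2 (min_le_left _ _))
  have h1 := key_est C hk hρ hρr hr' hiso hsph f hf hf1 y₁ hy₁ hy₁ρ hy₁a
    (hy₁η.trans_le (min_le_left _ _))
  have h2 : ‖f y₁ - f k‖ ≤ ε / 2 := by
    by_contra hcon
    push Not at hcon
    have h3 : (ε / 4) ^ C.m ≤ (‖f y₁ - f k‖ / 2) ^ C.m := by
      apply pow_le_pow_left₀ (by positivity)
      linarith
    have h4 : 2 * 2 ^ C.m * ‖C.π y₁ - C.π k‖ / r' < (ε / 4) ^ C.m := by
      have h5 : ‖C.π y₁ - C.π k‖ < r' * (ε / 4) ^ C.m / (2 * 2 ^ C.m) :=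
        hy₁η.trans_le (min_le_right _ _)
      rw [lt_div_iff₀ (by positivity)] at h5
      rw [div_lt_iff₀ hr']
      linarith
    linarith
  have h3 := hGf y₁ ⟨hy₁, Metric.ball_subset_ball hρr.le hy₁ρ⟩ hy₁O.1
  have h4 : ‖f y - f k‖ ≤ ‖f y - f y₁‖ + ‖f y₁ - f k‖ := norm_sub_le_norm_sub_add_norm_sub _ _ _
  rw [norm_sub_rev (f y) (f y₁)] at h4
  linarith

end Crest.Agent.R264.Sm
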