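import Crest.Agent.R264.SmDefs
import Crest.Agent.R264.TopSetup

/-!
Row 264, PART 0: final argument (helper119).

* `sp_disc`, `sp_ball`, `exists_harnack_nhd` : Schwarz-Pick type inequality
* `LocChart.transport` : the regular locus is `Γ`-invariant
* `EQU` : equicontinuity at every point of `U`
* `isSubmfd_of`
-/

set_option autoImplicit false

open Topology Filter Set

namespace Crest.Agent.R264.Sm

open Crest.AlgGeometry.Semialg

variable {N : ℕ}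

/-- Schwarz-Pick/Harnack on the disc. -/
theorem sp_disc {g : ℂ → ℂ} {R c : ℝ} (hR : 0 < R) (hg : DifferentiableOn ℂ g (Metric.ball 0 R))
    (hc : ∀ z ∈ Metric.ball (0 : ℂ) R, ‖g z‖ ≤ c) {z : ℂ} (hz : ‖z‖ ≤ R / 2) :
    c - ‖g z‖ ≤ 3 * (c - ‖g 0‖) := by
  have h0 : ‖g 0‖ ≤ c := hc 0 (by simpa using hR)
  have hzR : z ∈ Metric.ball (0 : ℂ) R := by
    rw [mem_ball_zero_iff]; linarith
  obtain ⟨θ, hθ1, hθ2⟩ : ∃ θ : ℂ, ‖θ‖ = 1 ∧ θ * g 0 = (‖g 0‖ : ℂ) := by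
    by_cases h : g 0 = 0
    · exact ⟨1, by simp, by simp [h]⟩
    · have hn : (‖g 0‖ : ℂ) ≠ 0 := by
        simpa using h
      refine ⟨(starRingEnd ℂ) (g 0) / ‖g 0‖, ?_, ?_⟩
      · rw [norm_div, Complex.norm_conj, Complex.norm_real, norm_norm, div_self]
        simpa using h
      · rw [div_mul_eq_mul_div, div_eq_iff hn, Complex.conj_mul', pow_two]
  -- `f z = θ (g z - g 0)`
  have key : ∀ ε : ℝ, 0 < ε → c - ‖g z‖ ≤ 3 * (c - ‖g 0‖) + 2 * ε := by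
    intro ε hε
    have hM : 0 < c - ‖g 0‖ + ε := by linarith
    have hf : DifferentiableOn ℂ (fun z => θ * (g z - g 0)) (Metric.ball 0 R) :=
      (hg.sub_const _).const_mul θ
    have hmaps : Set.MapsTo (fun z => θ * (g z - g 0)) (Metric.ball 0 R)
        {z | z.re ≤ c - ‖g 0‖ + ε} := by
      intro y hy
      have h1 : (θ * (g y - g 0)).re = (θ * g y).re - ‖g 0‖ := by
        rw [mul_sub, hθ2, Complex.sub_re, Complex.ofReal_re]
      have h2 : (θ * g y).re ≤ c := by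
        refine (Complex.re_le_norm _).trans ?_
        rw [norm_mul, hθ1, one_mul]
        exact hc y hy
      show (θ * (g y - g 0)).re ≤ _
      rw [h1]
      linarith
    have hb := Complex.borelCaratheodory_zero hM hf hmaps hR hzR (by simp)
    have h3 : 2 * (c - ‖g 0‖ + ε) * ‖z‖ / (R - ‖z‖) ≤ 2 * (c - ‖g 0‖ + ε) := by
      rw [div_le_iff₀ (by linarith)]
      have : ‖z‖ ≤ R - ‖z‖ := by linarith
      gcongr
    have h4 : ‖g z - g 0‖ ≤ 2 * (c - ‖g 0‖ + ε) := by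
      have : ‖θ * (g z - g 0)‖ = ‖g z - g 0‖ := by rw [norm_mul, hθ1, one_mul]
      rw [← this]
      exact hb.trans h3
    have h5 : ‖g 0‖ ≤ ‖g z‖ + ‖g z - g 0‖ := by
      have := norm_sub_norm_le (g 0) (g z)
      rw [norm_sub_rev] at this
      linarith
    linarith
  by_contra hcon
  push Not at hcon
  have := key ((c - ‖g z‖ - 3 * (c - ‖g 0‖)) / 4) (by linarith)
  linarith

/-- The same in a ball of a normed space. -/
theorem sp_ball {E : Type*} [NormedAddCommGroup E] [NormedSpace ℂ E] {F : E → ℂ} {w : E}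
    {R c : ℝ} (hR : 0 < R) (hF : DifferentiableOn ℂ F (Metric.ball w R))
    (hc : ∀ z ∈ Metric.ball w R, ‖F z‖ ≤ c) {w' : E} (hw : dist w' w ≤ R / 2) :
    c - ‖F w'‖ ≤ 3 * (c - ‖F w‖) := by
  have hmap : MapsTo (fun ζ : ℂ => w + ζ • (w' - w)) (Metric.ball 0 2) (Metric.ball w R) := by
    intro ζ hζ
    rw [mem_ball_zero_iff] at hζ
    rw [Metric.mem_ball, dist_eq_norm, add_sub_cancel_left, norm_smul]
    rw [dist_eq_norm] at hw
    rcases eq_or_lt_of_le (norm_nonneg (w' - w)) with h | h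
    · rw [← h, mul_zero]; exact hR
    · calc ‖ζ‖ * ‖w' - w‖ < 2 * ‖w' - w‖ := by gcongr
        _ ≤ R := by linarith
  have hd : DifferentiableOn ℂ (fun ζ : ℂ => F (w + ζ • (w' - w))) (Metric.ball 0 2) := by
    refine hF.comp ?_ hmap
    fun_prop
  have := sp_disc (g := fun ζ : ℂ => F (w + ζ • (w' - w))) (c := c) (by norm_num : (0:ℝ) < 2) hd
    (fun z hz => hc _ (hmap hz)) (z := 1) (by simp)
  simpa using this

theorem LocHolo.comp_chart {n : ℕ} {U : Set (Fin N → ℂ)} {x : Fin N → ℂ} (C : LocChart n U x)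
    {f : (Fin N → ℂ) → ℂ} (hf : LocHolo U f) : DifferentiableOn ℂ (f ∘ C.ψ) C.W := by
  intro w hw
  obtain ⟨O, hO, hxO, Φ, hΦ, he⟩ := hf (C.ψ w) (C.ψ_mem w hw).1
  have hd : DifferentiableAt ℂ C.ψ w := (C.hψ w hw).differentiableAt (C.hW.mem_nhds hw)
  have h1 : DifferentiableAt ℂ (Φ ∘ C.ψ) w :=
    ((hΦ _ hxO).differentiableAt (hO.mem_nhds hxO)).comp w hd
  refine (h1.congr_of_eventuallyEq ?_).differentiableWithinAt
  have h2 : ∀ᶠ v in 𝓝 w, C.ψ v ∈ O := hd.continuousAt.eventually (hO.mem_nhds hxO)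
  filter_upwards [h2, C.hW.mem_nhds hw] with v hv hvW
  exact he _ (C.ψ_mem v hvW).1 hv

/-- Near a regular point. -/
theorem exists_harnack_nhd {n : ℕ} {U : Set (Fin N → ℂ)} {x : Fin N → ℂ} (hx : x ∈ U)
    (C : LocChart n U x) : ∃ O : Set (Fin N → ℂ), IsOpen O ∧ x ∈ O ∧
      (∀ y ∈ U, y ∈ O → Nonempty (LocChart n U y)) ∧
      ∀ (f : (Fin N → ℂ) → ℂ) (c : ℝ), LocHolo U f → (∀ y ∈ U, ‖f y‖ ≤ c) →
        ∀ y ∈ U, y ∈ O → ∀ y' ∈ U, y' ∈ O → c - ‖f y'‖ ≤ 3 * (c - ‖f y‖) := by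
  obtain ⟨R, hR, hRW⟩ := Metric.isOpen_iff.mp C.hW (C.π x) (C.π_mem x hx C.mem)
  refine ⟨C.O ∩ C.π ⁻¹' Metric.ball (C.π x) (R / 5), ?_, ⟨C.mem, ?_⟩, ?_, ?_⟩
  · exact C.hπ.continuousOn.isOpen_inter_preimage C.hO Metric.isOpen_ball
  · exact Metric.mem_ball_self (by positivity)
  · rintro y hy ⟨hyO, -⟩
    exact ⟨{ C with mem := hyO }⟩
  · rintro f c hf hc y hy ⟨hyO, hyB⟩ y' hy' ⟨hyO', hyB'⟩
    have hb : Metric.ball (C.π y) (4 * (R / 5)) ⊆ C.W := by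
      refine (Metric.ball_subset_ball' ?_).trans hRW
      rw [mem_preimage, Metric.mem_ball] at hyB
      linarith
    have hd : dist (C.π y') (C.π y) ≤ 4 * (R / 5) / 2 := by
      rw [mem_preimage, Metric.mem_ball] at hyB hyB'
      have := dist_triangle_right (C.π y') (C.π y) (C.π x)
      linarith
    have := sp_ball (F := f ∘ C.ψ) (c := c) (by positivity)
      ((hf.comp_chart C).mono hb) (fun z hz => hc _ (C.ψ_mem z (hb hz)).1) hd
    simpa [Function.comp, C.ψ_π y hy hyO, C.ψ_π y' hy' hyO'] using this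


/-- Transport of a chart by a holomorphic bijection (given with a holomorphic inverse near the
two points). -/
theorem transport {n : ℕ} {U : Set (Fin N → ℂ)} {x : U} (C : LocChart n U (x : Fin N → ℂ))
    (γ : Equiv.Perm U) (h1 : IsHolomorphicMap U (fun y : U => ((γ y : U) : Fin N → ℂ)))
    (h2 : IsHolomorphicMap U (fun y : U => ((γ.symm y : U) : Fin N → ℂ))) :
    Nonempty (LocChart n U ((γ x : U) : Fin N → ℂ)) := by
  obtain ⟨O₁, hO₁, hx₁, Φ, hΦ, eΦ⟩ := h1 x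
  obtain ⟨O₂, hO₂, hx₂, Φ', hΦ', eΦ'⟩ := h2 (γ x)
  have eΦ1 : ∀ y : U, (y : Fin N → ℂ) ∈ O₁ → ((γ y : U) : Fin N → ℂ) = Φ y := eΦ
  have eΦ2 : ∀ y : U, (y : Fin N → ℂ) ∈ O₂ → ((γ.symm y : U) : Fin N → ℂ) = Φ' y := eΦ'
  set O' : Set (Fin N → ℂ) := O₂ ∩ Φ' ⁻¹' (C.O ∩ O₁) with hO'
  have hO'o : IsOpen O' := hΦ'.continuousOn.isOpen_inter_preimage hO₂ (C.hO.inter hO₁)
  -- parameter domain
  set W₁ : Set (Fin n → ℂ) := C.W ∩ C.ψ ⁻¹' O₁ with hW₁
  have hW₁o : IsOpen W₁ := C.hψ.continuousOn.isOpen_inter_preimage C.hW hO₁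
  have hψ1 : DifferentiableOn ℂ (fun w => Φ (C.ψ w)) W₁ :=
    hΦ.comp (C.hψ.mono inter_subset_left) (fun w hw => hw.2)
  set W' : Set (Fin n → ℂ) := W₁ ∩ (fun w => Φ (C.ψ w)) ⁻¹' O' with hW'
  have hW'o : IsOpen W' := hψ1.continuousOn.isOpen_inter_preimage hW₁o hO'o
  have hπ' : DifferentiableOn ℂ (fun z => C.π (Φ' z)) O' :=
    C.hπ.comp (hΦ'.mono inter_subset_left) (fun z hz => hz.2.1)
  have hmem : ((γ x : U) : Fin N → ℂ) ∈ O' := by
    refine ⟨hx₂, ?_⟩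
    have : Φ' ((γ x : U) : Fin N → ℂ) = x := by
      rw [← eΦ2 (γ x) hx₂, Equiv.symm_apply_apply]
    rw [mem_preimage, this]
    exact ⟨C.mem, hx₁⟩
  refine ⟨{ O := O', W := W', ψ := fun w => Φ (C.ψ w), π := fun z => C.π (Φ' z),
            hO := hO'o, hW := hW'o, mem := hmem, hψ := hψ1.mono inter_subset_left, hπ := hπ',
            ψ_mem := ?_, π_ψ := ?_, π_mem := ?_, ψ_π := ?_ }⟩
  · rintro w ⟨⟨hw, hw1⟩, hw2⟩
    refine ⟨?_, hw2⟩
    have hu := (C.ψ_mem w hw).1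
    have e := eΦ1 ⟨C.ψ w, hu⟩ hw1
    simp only at e
    rw [← e]
    exact (γ ⟨C.ψ w, hu⟩).2
  · rintro w ⟨⟨hw, hw1⟩, hw2⟩
    have hu := (C.ψ_mem w hw).1
    have e := eΦ1 ⟨C.ψ w, hu⟩ hw1
    simp only at e
    have hmem2 : ((γ ⟨C.ψ w, hu⟩ : U) : Fin N → ℂ) ∈ O₂ := by
      rw [e]; exact hw2.1
    have e2 := eΦ2 (γ ⟨C.ψ w, hu⟩) hmem2
    rw [Equiv.symm_apply_apply, e] at e2
    simp only at e2 ⊢
    rw [← e2, C.π_ψ w hw]
  · rintro y hy ⟨hy2, hyC, hy1⟩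
    have e2 := eΦ2 ⟨y, hy⟩ hy2
    simp only at e2
    have hu : Φ' y ∈ U := by rw [← e2]; exact (γ.symm ⟨y, hy⟩).2
    have hψπ : C.ψ (C.π (Φ' y)) = Φ' y := C.ψ_π _ hu hyC
    have e1 := eΦ1 (γ.symm ⟨y, hy⟩) (by rw [e2]; exact hy1)
    rw [Equiv.apply_symm_apply, e2] at e1
    simp only at e1
    refine ⟨⟨C.π_mem _ hu hyC, ?_⟩, ?_⟩
    · rw [mem_preimage, hψπ]; exact hy1
    · rw [mem_preimage, hψπ, ← e1]
      exact ⟨hy2, hyC, hy1⟩
  · rintro y hy ⟨hy2, hyC, hy1⟩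
    have e2 := eΦ2 ⟨y, hy⟩ hy2
    simp only at e2
    have hu : Φ' y ∈ U := by rw [← e2]; exact (γ.symm ⟨y, hy⟩).2
    have hψπ : C.ψ (C.π (Φ' y)) = Φ' y := C.ψ_π _ hu hyC
    have e1 := eΦ1 (γ.symm ⟨y, hy⟩) (by rw [e2]; exact hy1)
    rw [Equiv.apply_symm_apply, e2] at e1
    simp only at e1 ⊢
    rw [hψπ, ← e1]

/-- Equicontinuity at every point of `U` of the bounded holomorphic functions on `U`. -/
def EQU (U : Set (Fin N → ℂ)) : Prop :=
  ∀ k ∈ U, ∀ ε : ℝ, 0 < ε → ∃ δ : ℝ, 0 < δ ∧ ∀ f : (Fin N → ℂ) → ℂ, LocHolo U f →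
    (∀ y ∈ U, ‖f y‖ ≤ 1) → ∀ y ∈ U, dist y k < δ → ‖f y - f k‖ ≤ ε

theorem LocHolo.mono {X Y : Set (Fin N → ℂ)} {f : (Fin N → ℂ) → ℂ} (h : LocHolo Y f)
    (hXY : X ⊆ Y) : LocHolo X f := by
  intro x hx
  obtain ⟨O, hO, hxO, Φ, hΦ, he⟩ := h x (hXY hx)
  exact ⟨O, hO, hxO, Φ, hΦ, fun y hy hyO => he y (hXY hy) hyO⟩

/-- `EQU` from `EQThm`, for a finite union of coverings. -/
theorem equ_of {U V O : Set (Fin N → ℂ)} (hEQ : EQThm) (hO : IsOpen O) (hU : U = O ∩ V)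
    {ι : Type*} [Finite ι] (Z : ι → Set (Fin N → ℂ)) (hZ : ∀ i, Nonempty (Cov (Z i)))
    (hV : V = ⋃ i, Z i) : EQU U := by
  intro k hk ε hε
  have hkO : k ∈ O := by rw [hU] at hk; exact hk.1
  obtain ⟨r, hr, hrO⟩ := Metric.isOpen_iff.mp hO k hkO
  have hsub : ∀ i, Z i ∩ Metric.ball k r ⊆ U := by
    rintro i y ⟨hy, hyB⟩
    rw [hU, hV]
    exact ⟨hrO hyB, mem_iUnion.mpr ⟨i, hy⟩⟩
  have h1 : ∀ i, ∃ δ : ℝ, 0 < δ ∧ ∀ f : (Fin N → ℂ) → ℂ, LocHolo U f →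
    (∀ y ∈ U, ‖f y‖ ≤ 1) → ∀ y ∈ Z i, dist y k < δ → ‖f y - f k‖ ≤ ε := by
    intro i
    by_cases hki : k ∈ Z i
    · obtain ⟨δ, hδ, h⟩ := hEQ N (Z i) (hZ i) k hki r hr ε hε
      exact ⟨δ, hδ, fun f hf hb y hy hyk =>
        h f (hf.mono (hsub i)) (fun y hy => hb y (hsub i hy)) y hy hyk⟩
    · obtain ⟨C⟩ := hZ i
      obtain ⟨δ, hδ, h⟩ := Metric.isOpen_iff.mp C.closed.isOpen_compl k hki
      exact ⟨δ, hδ, fun f _ _ y hy hyk => absurd hy (h hyk)⟩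
  choose δ hδ h using h1
  obtain ⟨e, he, hle⟩ : ∃ e : ℝ, 0 < e ∧ ∀ i, e ≤ δ i := by
    have := Fintype.ofFinite ι
    rcases isEmpty_or_nonempty ι with h | h
    · exact ⟨1, one_pos, fun i => (h.false i).elim⟩
    · refine ⟨Finset.univ.inf' Finset.univ_nonempty δ, ?_, fun i => Finset.inf'_le _ (Finset.mem_univ i)⟩
      rw [Finset.lt_inf'_iff]
      exact fun i _ => hδ i
  refine ⟨e, he, fun f hf hb y hy hyk => ?_⟩
  have hyV : y ∈ ⋃ i, Z i := by rw [← hV]; rw [hU] at hy; exact hy.2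
  obtain ⟨i, hi⟩ := mem_iUnion.mp hyV
  exact h i f hf hb y hi (lt_of_lt_of_le hyk (hle i))

/-- pull back of a function by `γ`, extended by `0`. -/
noncomputable def pull {U : Set (Fin N → ℂ)} (D : (Fin N → ℂ) → ℂ) (γ : Equiv.Perm U)
    (y : Fin N → ℂ) : ℂ :=
  open Classical in if h : y ∈ U then D (γ ⟨y, h⟩ : U) else 0

theorem pull_coe {U : Set (Fin N → ℂ)} (D : (Fin N → ℂ) → ℂ) (γ : Equiv.Perm U) (y : U) :
    pull D γ y = D (γ y : U) := by
  simp [pull, y.2]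

theorem locHolo_pull {U : Set (Fin N → ℂ)} {D : (Fin N → ℂ) → ℂ} (hD : Differentiable ℂ D)
    {γ : Equiv.Perm U} (h1 : IsHolomorphicMap U (fun y : U => ((γ y : U) : Fin N → ℂ))) :
    LocHolo U (pull D γ) := by
  intro x hx
  obtain ⟨O, hO, hxO, Φ, hΦ, he⟩ := h1 ⟨x, hx⟩
  refine ⟨O, hO, hxO, D ∘ Φ, hD.comp_differentiableOn hΦ, fun y hy hyO => ?_⟩
  have := he ⟨y, hy⟩ hyO
  simp only at this
  rw [show pull D γ y = D (γ ⟨y, hy⟩ : U) from pull_coe D γ ⟨y, hy⟩, this]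
  rfl

theorem LocHolo.div_const {X : Set (Fin N → ℂ)} {f : (Fin N → ℂ) → ℂ} (h : LocHolo X f) (c : ℂ) :
    LocHolo X (fun y => f y / c) := by
  intro x hx
  obtain ⟨O, hO, hxO, Φ, hΦ, he⟩ := h x hx
  refine ⟨O, hO, hxO, fun y => Φ y / c, ?_, fun y hy hyO => ?_⟩
  · simpa only [div_eq_mul_inv] using hΦ.mul_const c⁻¹
  · show f y / c = Φ y / c
    rw [he y hy hyO]

/-- **Final argument of Part 0.** -/
theorem isSubmfd_of {U : Set (Fin N → ℂ)} {Γ : Subgroup (Equiv.Perm U)} (S : Setup N U Γ)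
    (hEQ : EQU U) {n : ℕ} (D : (Fin N → ℂ) → ℂ) (hD : Differentiable ℂ D)
    (hreg : ∀ x ∈ U, D x ≠ 0 → Nonempty (LocChart n U x)) (hne : ∃ x ∈ U, D x ≠ 0) :
    IsSubmfd n U := by
  -- the supremum
  obtain ⟨M, hM⟩ : ∃ M : ℝ, ∀ x ∈ U, ‖D x‖ ≤ M := by
    have hcpt : IsCompact (closure U) := S.bdd.isCompact_closure
    obtain ⟨M, hM⟩ := (hcpt.image_of_continuousOn hD.continuous.norm.continuousOn).isBounded.subset_closedBall 0
    refine ⟨M, fun x hx => ?_⟩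
    have := hM (mem_image_of_mem _ (subset_closure hx))
    rw [mem_closedBall_zero_iff, norm_norm] at this
    exact this
  let A : Set ℝ := (fun x => ‖D x‖) '' U
  have hAne : A.Nonempty := S.nonempty.image _
  have hAbdd : BddAbove A := ⟨M, by rintro _ ⟨x, hx, rfl⟩; exact hM x hx⟩
  set c : ℝ := sSup A with hc
  have hle : ∀ x ∈ U, ‖D x‖ ≤ c := fun x hx => le_csSup hAbdd (mem_image_of_mem _ hx)
  have hcpos : 0 < c := by
    obtain ⟨x, hx, hx0⟩ := hne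
    exact lt_of_lt_of_le (norm_pos_iff.mpr hx0) (hle x hx)
  obtain ⟨a, -, ha, haA⟩ := exists_seq_tendsto_sSup hAne hAbdd
  choose x hxU hxa using haA
  obtain ⟨K, hK, hcov⟩ := S.exists_compact
  choose g hg κ hκK hgκ using fun k => hcov ⟨x k, hxU k⟩
  obtain ⟨k0, hk0K, φ, hφ, hlim⟩ := hK.tendsto_subseq hκK
  -- rename
  let γ : ℕ → Equiv.Perm U := fun j => g (φ j)
  let u : ℕ → U := fun j => κ (φ j)
  have hγ : ∀ j, γ j ∈ Γ := fun j => hg _
  have hγi : ∀ j, (γ j).symm ∈ Γ := fun j => Γ.inv_mem (hγ j)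
  have hulim : Tendsto u atTop (𝓝 k0) := hlim
  have hDlim : Tendsto (fun j => ‖D ((γ j (u j) : U) : Fin N → ℂ)‖) atTop (𝓝 c) := by
    have h := ha.comp hφ.tendsto_atTop
    refine h.congr fun j => ?_
    have h1 : γ j (u j) = ⟨x (φ j), hxU (φ j)⟩ := hgκ (φ j)
    rw [h1]
    exact (hxa (φ j)).symm
  let F : ℕ → (Fin N → ℂ) → ℂ := fun j => pull D (γ j)
  have hFh : ∀ j, LocHolo U (F j) := fun j => locHolo_pull hD (S.hol _ (hγ j))
  have hFc : ∀ j, ∀ y ∈ U, ‖F j y‖ ≤ c := by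
    intro j y hy
    show ‖pull D (γ j) ((⟨y, hy⟩ : U) : Fin N → ℂ)‖ ≤ c
    rw [pull_coe]
    exact hle _ (Subtype.coe_prop _)
  have hF0 : ∀ j, ∀ y : U, ¬ Nonempty (LocChart n U (y : Fin N → ℂ)) → F j y = 0 := by
    intro j y hy
    show pull D (γ j) y = 0
    rw [pull_coe]
    by_contra h0
    obtain ⟨C⟩ := hreg _ (Subtype.coe_prop (γ j y)) h0
    have := transport C (γ j).symm (S.hol _ (hγi j)) (by
      rw [Equiv.symm_symm]; exact S.hol _ (hγ j))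
    rw [Equiv.symm_apply_apply] at this
    exact hy this
  -- equicontinuity at singular points
  have hsing : ∀ y : U, ¬ Nonempty (LocChart n U (y : Fin N → ℂ)) →
      ∃ δ : ℝ, 0 < δ ∧ ∀ j, ∀ z : U, dist (z : Fin N → ℂ) y < δ → ‖F j z‖ ≤ c / 2 := by
    intro y hy
    obtain ⟨δ, hδ, h⟩ := hEQ y y.2 (1 / 2) (by norm_num)
    refine ⟨δ, hδ, fun j z hz => ?_⟩
    have h1 := h (fun w => F j w / (c : ℂ)) ((hFh j).div_const _) (fun w hw => by
      rw [norm_div, Complex.norm_real, Real.norm_eq_abs, abs_of_pos hcpos, div_le_one hcpos]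
      exact hFc j w hw) z z.2 hz
    rw [hF0 j y hy, zero_div, sub_zero, norm_div, Complex.norm_real, Real.norm_eq_abs,
      abs_of_pos hcpos, div_le_iff₀ hcpos] at h1
    linarith
  -- propagation
  have hprop : ∀ (a b : ℕ → ℝ), (∀ j, a j ≤ c) → (∀ᶠ j in atTop, c - a j ≤ 3 * (c - b j)) →
      Tendsto b atTop (𝓝 c) → Tendsto a atTop (𝓝 c) := by
    intro a b ha hab hb
    have h3 : Tendsto (fun j => c - 3 * (c - b j)) atTop (𝓝 c) := by
      have : Tendsto (fun j => c - 3 * (c - b j)) atTop (𝓝 (c - 3 * (c - c))) :=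
        tendsto_const_nhds.sub ((tendsto_const_nhds.sub hb).const_mul 3)
      simpa using this
    refine tendsto_of_tendsto_of_tendsto_of_le_of_le' h3 tendsto_const_nhds ?_
      (Eventually.of_forall ha)
    filter_upwards [hab] with j hj
    linarith
  let G : Set U := {y | Tendsto (fun j => ‖F j y‖) atTop (𝓝 c)}
  have hGreg : ∀ y ∈ G, Nonempty (LocChart n U (y : Fin N → ℂ)) := by
    intro y hy
    by_contra h
    have h1 : Tendsto (fun j => ‖F j y‖) atTop (𝓝 0) := by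
      simp [hF0 _ y h]
    exact hcpos.ne (tendsto_nhds_unique h1 hy)
  have hGopen : IsOpen G := by
    rw [isOpen_iff_mem_nhds]
    intro y hy
    obtain ⟨C⟩ := hGreg y hy
    obtain ⟨O, hO, hyO, -, hH⟩ := exists_harnack_nhd y.2 C
    have h1 : (Subtype.val : U → _) ⁻¹' O ∈ 𝓝 y :=
      continuous_subtype_val.continuousAt.preimage_mem_nhds (hO.mem_nhds hyO)
    filter_upwards [h1] with z hz
    exact hprop _ _ (fun j => hFc j z z.2)
      (Eventually.of_forall fun j => hH (F j) c (hFh j) (hFc j) y y.2 hyO z z.2 hz) hy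
  have hGclosed : IsClosed G := by
    rw [← isOpen_compl_iff, isOpen_iff_mem_nhds]
    intro y hy
    by_cases hr : Nonempty (LocChart n U (y : Fin N → ℂ))
    · obtain ⟨C⟩ := hr
      obtain ⟨O, hO, hyO, -, hH⟩ := exists_harnack_nhd y.2 C
      have h1 : (Subtype.val : U → _) ⁻¹' O ∈ 𝓝 y :=
        continuous_subtype_val.continuousAt.preimage_mem_nhds (hO.mem_nhds hyO)
      filter_upwards [h1] with z hz hzG
      exact hy (hprop _ _ (fun j => hFc j y y.2)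
        (Eventually.of_forall fun j => hH (F j) c (hFh j) (hFc j) z z.2 hz y y.2 hyO) hzG)
    · obtain ⟨δ, hδ, h⟩ := hsing y hr
      filter_upwards [Metric.ball_mem_nhds y hδ] with z hz hzG
      have h1 : ∀ j, ‖F j z‖ ≤ c / 2 := fun j => h j z hz
      have h2 : c ≤ c / 2 := le_of_tendsto hzG (Eventually.of_forall h1)
      linarith
  have hGne : G.Nonempty := by
    refine ⟨k0, ?_⟩
    have hFu : Tendsto (fun j => ‖F j (u j)‖) atTop (𝓝 c) := by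
      refine hDlim.congr fun j => ?_
      show _ = ‖pull D (γ j) (u j)‖
      rw [pull_coe]
    by_cases hr : Nonempty (LocChart n U (k0 : Fin N → ℂ))
    · obtain ⟨C⟩ := hr
      obtain ⟨O, hO, hyO, -, hH⟩ := exists_harnack_nhd k0.2 C
      have h1 : ∀ᶠ j in atTop, ((u j : U) : Fin N → ℂ) ∈ O :=
        hulim.eventually (continuous_subtype_val.continuousAt.preimage_mem_nhds (hO.mem_nhds hyO))
      refine hprop _ (fun j => ‖F j (u j)‖) (fun j => hFc j k0 k0.2) ?_ hFu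
      filter_upwards [h1] with j hj
      exact hH (F j) c (hFh j) (hFc j) (u j) (u j).2 hj k0 k0.2 hyO
    · exfalso
      obtain ⟨δ, hδ, h⟩ := hsing k0 hr
      have h1 : ∀ᶠ j in atTop, ‖F j (u j)‖ ≤ c / 2 := by
        filter_upwards [hulim.eventually (Metric.ball_mem_nhds k0 hδ)] with j hj
        exact h j (u j) hj
      have h2 : c ≤ c / 2 := le_of_tendsto hFu h1
      linarith
  have : PreconnectedSpace U := isPreconnected_iff_preconnectedSpace.mp S.conn.isPreconnected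
  have huniv : G = univ := IsClopen.eq_univ ⟨hGclosed, hGopen⟩ hGne
  intro x hx
  exact hGreg ⟨x, hx⟩ (by rw [huniv]; exact mem_univ _)

end Crest.Agent.R264.Sm
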