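import Crest.Agent.R264.SmFin

/-!
Row 264, PART 0: identity theorem on a connected submanifold (helper119).
-/

set_option autoImplicit false

open Topology Filter Set

namespace Crest.Agent.R264.Sm

variable {N : ℕ}

/-- Identity theorem in a ball of a normed space (by slices). -/
theorem id_ball {E : Type*} [NormedAddCommGroup E] [NormedSpace ℂ E] {F : E → ℂ} {w : E} {R : ℝ}
    (hF : DifferentiableOn ℂ F (Metric.ball w R)) {a : E} (ha : a ∈ Metric.ball w R)
    (h0 : ∀ᶠ y in 𝓝 a, F y = 0) : ∀ y ∈ Metric.ball w R, F y = 0 := by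
  intro y hy
  let s : Set ℂ := (fun ζ : ℂ => a + ζ • (y - a)) ⁻¹' Metric.ball w R
  have hcont : Continuous (fun ζ : ℂ => a + ζ • (y - a)) := by fun_prop
  have hso : IsOpen s := Metric.isOpen_ball.preimage hcont
  have hsc : Convex ℝ s := by
    intro z hz z' hz' p q hp hq hpq
    have h := (convex_ball w R) hz hz' hp hq hpq
    have e : a + (p • z + q • z') • (y - a)
        = p • (a + z • (y - a)) + q • (a + z' • (y - a)) := by
      have ha' : a = p • a + q • a := by rw [← add_smul, hpq, one_smul]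
      calc a + (p • z + q • z') • (y - a)
          = (p • a + q • a) + (p • z + q • z') • (y - a) := by rw [← ha']
        _ = _ := by
          rw [smul_add, smul_add, add_smul, smul_assoc, smul_assoc]
          abel
    show a + (p • z + q • z') • (y - a) ∈ Metric.ball w R
    rw [e]
    exact h
  have hd : DifferentiableOn ℂ (fun ζ : ℂ => F (a + ζ • (y - a))) s := by
    refine hF.comp ?_ (fun ζ hζ => hζ)
    fun_prop
  have han : AnalyticOnNhd ℂ (fun ζ : ℂ => F (a + ζ • (y - a))) s := hd.analyticOnNhd hso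
  have h0s : (0 : ℂ) ∈ s := by
    show a + (0 : ℂ) • (y - a) ∈ Metric.ball w R
    simpa using ha
  have hz : (fun ζ : ℂ => F (a + ζ • (y - a))) =ᶠ[𝓝 0] 0 := by
    have : Tendsto (fun ζ : ℂ => a + ζ • (y - a)) (𝓝 0) (𝓝 a) := by
      have := hcont.tendsto 0
      simpa using this
    exact this.eventually h0
  have := han.eqOn_zero_of_preconnected_of_eventuallyEq_zero hsc.isPreconnected h0s hz
  have h1 : (1 : ℂ) ∈ s := by
    show a + (1 : ℂ) • (y - a) ∈ Metric.ball w R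
    simpa using hy
  simpa using this h1

/-- **Identity theorem** on a connected submanifold. -/
theorem identity_thm {n : ℕ} {U : Set (Fin N → ℂ)} (hU : IsSubmfd n U) (hc : IsPreconnected U)
    {f : (Fin N → ℂ) → ℂ} (hf : LocHolo U f) {x₀ : Fin N → ℂ} (hx₀ : x₀ ∈ U)
    {O : Set (Fin N → ℂ)} (hO : IsOpen O) (hxO : x₀ ∈ O) (h0 : ∀ y ∈ U, y ∈ O → f y = 0) :
    ∀ y ∈ U, f y = 0 := by
  let G : Set U := {y | ∀ᶠ z : U in 𝓝 y, f z = 0}
  have hGo : IsOpen G := isOpen_setOfPred_eventually_nhds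
  have hGne : G.Nonempty := by
    refine ⟨⟨x₀, hx₀⟩, ?_⟩
    have h1 : (Subtype.val : U → _) ⁻¹' O ∈ 𝓝 (⟨x₀, hx₀⟩ : U) :=
      continuous_subtype_val.continuousAt.preimage_mem_nhds (hO.mem_nhds hxO)
    filter_upwards [h1] with z hz
    exact h0 z z.2 hz
  have hGc : IsClosed G := by
    rw [← isOpen_compl_iff, isOpen_iff_mem_nhds]
    intro y hy
    obtain ⟨C⟩ := hU y y.2
    obtain ⟨R, hR, hRW⟩ := Metric.isOpen_iff.mp C.hW (C.π y) (C.π_mem y y.2 C.mem)
    have hO' : IsOpen (C.O ∩ C.π ⁻¹' Metric.ball (C.π y) R) :=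
      C.hπ.continuousOn.isOpen_inter_preimage C.hO Metric.isOpen_ball
    have h1 : (Subtype.val : U → _) ⁻¹' (C.O ∩ C.π ⁻¹' Metric.ball (C.π y) R) ∈ 𝓝 y :=
      continuous_subtype_val.continuousAt.preimage_mem_nhds
        (hO'.mem_nhds ⟨C.mem, Metric.mem_ball_self hR⟩)
    filter_upwards [h1] with z hz hzG
    -- `f ∘ ψ` vanishes near `π z`
    apply hy
    have hd := (hf.comp_chart C).mono hRW
    have hψz : C.ψ (C.π z) = z := C.ψ_π z z.2 hz.1
    have hzW : C.π z ∈ C.W := C.π_mem z z.2 hz.1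
    have hev : ∀ᶠ w in 𝓝 (C.π z), (f ∘ C.ψ) w = 0 := by
      have hcont : ContinuousAt C.ψ (C.π z) :=
        (C.hψ _ hzW).differentiableAt (C.hW.mem_nhds hzW) |>.continuousAt
      have h2 : ∃ O₂ : Set (Fin N → ℂ), IsOpen O₂ ∧ (z : Fin N → ℂ) ∈ O₂ ∧
          ∀ v : U, (v : Fin N → ℂ) ∈ O₂ → f v = 0 := by
        obtain ⟨t, ht, hto, hzt⟩ := eventually_nhds_iff.mp (show ∀ᶠ v : U in 𝓝 z, f v = 0 from hzG)
        obtain ⟨O₂, hO₂, rfl⟩ := isOpen_induced_iff.mp hto
        exact ⟨O₂, hO₂, hzt, fun v hv => ht v hv⟩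
      obtain ⟨O₂, hO₂, hzO₂, h3⟩ := h2
      have h4 : ∀ᶠ w in 𝓝 (C.π z), C.ψ w ∈ O₂ := by
        apply hcont.eventually
        rw [hψz]
        exact hO₂.mem_nhds hzO₂
      filter_upwards [h4, C.hW.mem_nhds hzW] with w hw hwW
      exact h3 ⟨C.ψ w, (C.ψ_mem w hwW).1⟩ hw
    have hall := id_ball hd hz.2 hev
    show ∀ᶠ v : U in 𝓝 y, f v = 0
    filter_upwards [h1] with v hv
    have := hall (C.π v) hv.2
    rwa [Function.comp, C.ψ_π v v.2 hv.1] at this
  have : PreconnectedSpace U := isPreconnected_iff_preconnectedSpace.mp hc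
  have huniv : G = univ := IsClopen.eq_univ ⟨hGc, hGo⟩ hGne
  intro y hy
  have h : (⟨y, hy⟩ : U) ∈ G := by rw [huniv]; exact mem_univ _
  exact (show ∀ᶠ z : U in 𝓝 ⟨y, hy⟩, f z = 0 from h).self_of_nhds

end Crest.Agent.R264.Sm
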