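import Crest.Agent.R264.TopAsm

/-!
Row 264 (S0402), TOP INTERFACE, part 2 (helper369): the algebraic data which Part 0 hands to
Part A, and the assembly with it.

`AlgData n V U`: prime ideal `I0` of `U`, polynomials `t_1..t_n` algebraically independent modulo
`I0` and a polynomial `D ∉ I0` such that at every `x ∈ V` with `D x ≠ 0` the map `t` is a chart of
`V` near `x` and `V ⊆ Z(I0)` near `x`.
-/

set_option autoImplicit false

open Topology Filter Set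

namespace Crest.Agent.R264

open Crest.AlgGeometry.Semialg

/-- the polynomial map `ℂ^N → ℂ^n` -/
noncomputable def polyMap {N n : ℕ} (t : Fin n → MvPolynomial (Fin N) ℂ) (y : Fin N → ℂ) :
    Fin n → ℂ := fun i => MvPolynomial.eval y (t i)

/-- Algebraic data of `U = O ∩ V` (output of Part 0, input of Part A). -/
structure AlgData {N : ℕ} (n : ℕ) (V U : Set (Fin N → ℂ)) where
  /-- the ideal of `U` -/
  I0 : Ideal (MvPolynomial (Fin N) ℂ)
  prime : I0.IsPrime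
  van : ∀ f, f ∈ I0 ↔ ∀ x ∈ U, MvPolynomial.eval x f = 0
  /-- `V₀ = Z(I0)` is contained in `V` -/
  V0_sub : ∀ x : Fin N → ℂ, (∀ f ∈ I0, MvPolynomial.eval x f = 0) → x ∈ V
  /-- the coordinates -/
  t : Fin n → MvPolynomial (Fin N) ℂ
  indep : ∀ R : MvPolynomial (Fin n) ℂ, MvPolynomial.bind₁ t R ∈ I0 → R = 0
  /-- the bad locus is in `{D = 0}` -/
  D : MvPolynomial (Fin N) ℂ
  hD : D ∉ I0
  chart : ∀ x ∈ V, MvPolynomial.eval x D ≠ 0 → ∃ C : LocChart n V x, C.π = polyMap t ∧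
    ∀ y ∈ V, y ∈ C.O → ∀ f ∈ I0, MvPolynomial.eval y f = 0

/-- PART 0 (with the algebraic data): for ANY representation `U = O ∩ V`. -/
def Part0A : Prop :=
  ∀ (N : ℕ) (U : Set (Fin N → ℂ)) (Γ : Subgroup (Equiv.Perm U)), Setup N U Γ →
    ∀ V O : Set (Fin N → ℂ), IsAlgebraicSet V → IsOpen O → U = O ∩ V →
    ∃ n : ℕ, IsSubmfd n U ∧ Nonempty (AlgData n V U)

/-- PARTS A + B + C (with the algebraic data as input). -/
def PartABCA : Prop :=
  ∀ (N : ℕ) (U : Set (Fin N → ℂ)) (Γ : Subgroup (Equiv.Perm U)), Setup N U Γ →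
    ∀ V O : Set (Fin N → ℂ), IsAlgebraicSet V → IsOpen O → U = O ∩ V →
    ∀ n : ℕ, 0 < n → IsSubmfd n U → AlgData n V U →
    ∃ (D : Set (Fin n → ℂ)) (Ψ : U → (Fin n → ℂ)) (Θ : (Fin n → ℂ) → (Fin N → ℂ)),
      IsOpen D ∧ Bornology.IsBounded D ∧ Biholo U D Ψ Θ ∧ Spans D

/-- S0402 from the three parts, with the algebraic data passed from Part 0 to Part A. -/
theorem mainA_of (h0 : Part0A) (hABC : PartABCA) (hD : ThmD)
    (N : ℕ) (V U : Set (Fin N → ℂ)) (hV : IsAlgebraicSet V)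
    (hUV : ∃ O : Set (Fin N → ℂ), IsOpen O ∧ U = O ∩ V)
    (hconn : IsConnected U) (hsa : IsSemialgebraic U)
    (hbd : Bornology.IsBounded U) (Γ : Subgroup (Equiv.Perm U))
    (hΓ : ∀ γ ∈ Γ, IsHolomorphicMap U (fun y : U => ((γ y : U) : Fin N → ℂ)))
    (hpd : ProperlyDiscontinuousSMul Γ U)
    (hcpt : CompactSpace (Quotient (MulAction.orbitRel Γ U))) :
    ∃ (m : ℕ) (D : Set (Fin m → ℂ)), IsBoundedSymmetricDomain D ∧
      ∃ (Ψ : U → (Fin m → ℂ)) (Θ : (Fin m → ℂ) → (Fin N → ℂ)),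
        IsHolomorphicMap U Ψ ∧ DifferentiableOn ℂ Θ D ∧
        (∀ y : U, Ψ y ∈ D ∧ Θ (Ψ y) = (y : Fin N → ℂ)) ∧
        (∀ z ∈ D, ∃ y : U, (y : Fin N → ℂ) = Θ z ∧ Ψ y = z) := by
  obtain ⟨O, hO, hUO⟩ := hUV
  have S : Setup N U Γ := ⟨⟨V, O, hV, hO, hUO⟩, hconn, hsa, hbd, hΓ, hpd, hcpt⟩
  obtain ⟨n, hn, ⟨A⟩⟩ := h0 N U Γ S V O hV hO hUO
  rcases Nat.eq_zero_or_pos n with rfl | hpos
  · obtain ⟨x0, hx0⟩ := S.nonempty
    have hss := subsingleton_of_isSubmfd_zero hn hconn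
    refine ⟨0, univ, isBSD_zero _ ⟨0, mem_univ _⟩, fun _ => 0, fun _ => x0, ?_, ?_, ?_, ?_⟩
    · intro x
      exact ⟨univ, isOpen_univ, mem_univ _, fun _ => 0, differentiableOn_const _, fun _ _ => rfl⟩
    · exact differentiableOn_const _
    · intro y
      exact ⟨mem_univ _, hss hx0 y.2⟩
    · intro z _
      exact ⟨⟨x0, hx0⟩, rfl, Subsingleton.elim _ _⟩
  · obtain ⟨D, Ψ, Θ, hDo, hDb, B, hsp⟩ := hABC N U Γ S V O hV hO hUO n hpos hn A
    have hbsd : IsBoundedSymmetricDomain D :=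
      hD n D (B.trGrp Γ) hpos hDo (B.isConnected hconn) hDb (B.grp hDo S) hsp
    exact ⟨n, D, hbsd, Ψ, Θ, B.hΨ, B.hΘ, fun y => ⟨B.mem y, B.left y⟩, B.right⟩

end Crest.Agent.R264
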