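import Crest.Agent.R264.SmCov
import Crest.Agent.R264.SmFin
import Crest.Agent.R264.SmEQ
import Crest.Agent.R264.TopAlg
import Crest.Agent.R266.Osgood

/-! Row 264, PART 0: the algebraic data and the assembly (helper659). -/

set_option autoImplicit false

open Topology Filter Set

namespace Crest.Agent.R264.Sm

open Crest.AlgGeometry.Semialg

variable {N : ℕ}

theorem mem_zl {I : Ideal (MvPolynomial (Fin N) ℂ)} {x : Fin N → ℂ} :
    x ∈ MvPolynomial.zeroLocus ℂ I ↔ ∀ f ∈ I, MvPolynomial.eval x f = 0 := by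
  simp [MvPolynomial.mem_zeroLocus_iff, MvPolynomial.aeval_eq_eval]

theorem mem_vs {x : Fin N → ℂ} {f : MvPolynomial (Fin N) ℂ} :
    f ∈ MvPolynomial.vanishingIdeal ℂ {x} ↔ MvPolynomial.eval x f = 0 := by
  simp [MvPolynomial.aeval_eq_eval]

/-- every point of the zero locus lies on the zero locus of a minimal prime -/
theorem exists_minimal (I : Ideal (MvPolynomial (Fin N) ℂ)) {x : Fin N → ℂ}
    (hx : x ∈ MvPolynomial.zeroLocus ℂ I) :
    ∃ P ∈ I.minimalPrimes, x ∈ MvPolynomial.zeroLocus ℂ P := by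
  have h1 : I ≤ MvPolynomial.vanishingIdeal ℂ {x} := fun f hf => mem_vs.mpr (mem_zl.mp hx f hf)
  have : (MvPolynomial.vanishingIdeal ℂ {x} : Ideal (MvPolynomial (Fin N) ℂ)).IsPrime :=
    (MvPolynomial.isMaximal_iff_eq_vanishingIdeal_singleton.mpr ⟨x, rfl⟩).isPrime
  obtain ⟨P, hP, hPx⟩ := Ideal.exists_minimalPrimes_le h1
  exact ⟨P, hP, mem_zl.mpr fun f hf => mem_vs.mp (hPx hf)⟩

theorem zl_eq_iUnion (I : Ideal (MvPolynomial (Fin N) ℂ)) :
    MvPolynomial.zeroLocus ℂ I =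
      ⋃ P : {P // P ∈ I.minimalPrimes}, MvPolynomial.zeroLocus ℂ P.1 := by
  ext x
  rw [mem_iUnion]
  constructor
  · intro hx
    obtain ⟨P, hP, hxP⟩ := exists_minimal I hx
    exact ⟨⟨P, hP⟩, hxP⟩
  · rintro ⟨P, hP⟩
    exact mem_zl.mpr fun f hf => mem_zl.mp hP f (P.2.1.2 hf)

theorem finite_minimal (I : Ideal (MvPolynomial (Fin N) ℂ)) : I.minimalPrimes.Finite :=
  Ideal.finite_minimalPrimes_of_isNoetherianRing _ I

/-- a polynomial isolating one component -/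
theorem exists_isolating (I P : Ideal (MvPolynomial (Fin N) ℂ)) (hP : P ∈ I.minimalPrimes) :
    ∃ h : MvPolynomial (Fin N) ℂ, h ∉ P ∧ ∀ x ∈ MvPolynomial.zeroLocus ℂ I,
      MvPolynomial.eval x h ≠ 0 → x ∈ MvPolynomial.zeroLocus ℂ P := by
  classical
  have hPp : P.IsPrime := hP.1.1
  have h1 : ∀ Q : Ideal (MvPolynomial (Fin N) ℂ), ∃ q : MvPolynomial (Fin N) ℂ,
      q ∉ P ∧ (Q ∈ I.minimalPrimes → Q ≠ P → q ∈ Q) := by
    intro Q
    by_cases hQ : Q ∈ I.minimalPrimes ∧ Q ≠ P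
    · have : ¬ Q ≤ P := by
        intro hle
        exact hQ.2 (le_antisymm hle (hP.2 hQ.1.1 hle))
      obtain ⟨q, hq, hqP⟩ := SetLike.not_le_iff_exists.mp this
      exact ⟨q, hqP, fun _ _ => hq⟩
    · refine ⟨1, fun h => hPp.ne_top ((Ideal.eq_top_iff_one P).mpr h), ?_⟩
      intro h2 h3
      exact absurd ⟨h2, h3⟩ hQ
  choose q hqP hqQ using h1
  refine ⟨∏ Q ∈ (finite_minimal I).toFinset, q Q, ?_, ?_⟩
  · intro h
    obtain ⟨Q, -, hQ⟩ := (hPp.prod_mem_iff).mp h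
    exact hqP Q hQ
  · intro x hx hne
    obtain ⟨Q, hQ, hxQ⟩ := exists_minimal I hx
    by_cases hQP : Q = P
    · rw [← hQP]; exact hxQ
    · exfalso
      apply hne
      rw [map_prod]
      exact Finset.prod_eq_zero ((finite_minimal I).mem_toFinset.mpr hQ)
        (mem_zl.mp hxQ _ (hqQ Q hQ hQP))

/-- restriction of a chart -/
def _root_.Crest.Agent.R264.LocChart.restr {n : ℕ} {V : Set (Fin N → ℂ)} {x : Fin N → ℂ}
    (C : LocChart n V x) (O : Set (Fin N → ℂ)) (hO : IsOpen O) (hx : x ∈ O) :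
    LocChart n (O ∩ V) x where
  O := C.O ∩ O
  W := C.W ∩ C.ψ ⁻¹' O
  ψ := C.ψ
  π := C.π
  hO := C.hO.inter hO
  hW := C.hψ.continuousOn.isOpen_inter_preimage C.hW hO
  mem := ⟨C.mem, hx⟩
  hψ := C.hψ.mono inter_subset_left
  hπ := C.hπ.mono inter_subset_left
  ψ_mem := fun w hw => ⟨⟨hw.2, (C.ψ_mem w hw.1).1⟩, ⟨(C.ψ_mem w hw.1).2, hw.2⟩⟩
  π_ψ := fun w hw => C.π_ψ w hw.1
  π_mem := fun y hy hyO => ⟨C.π_mem y hy.2 hyO.1, by
    rw [mem_preimage, C.ψ_π y hy.2 hyO.1]; exact hyO.2⟩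
  ψ_π := fun y hy hyO => C.ψ_π y hy.2 hyO.1

/-- identity theorem on a connected submanifold -/
theorem identity_alg {n : ℕ} {U : Set (Fin N → ℂ)} (hU : IsSubmfd n U) (hc : IsConnected U)
    (f : (Fin N → ℂ) → ℂ) (hf : Differentiable ℂ f) (x₀ : U)
    (h0 : ∀ᶠ y : U in 𝓝 x₀, f y = 0) : ∀ x ∈ U, f x = 0 := by
  have : ConnectedSpace U := isConnected_iff_connectedSpace.mp hc
  let A : Set U := {x | ∀ᶠ y : U in 𝓝 x, f y = 0}
  have hAo : IsOpen A := isOpen_iff_mem_nhds.mpr fun x hx => by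
    have h1 : ∀ᶠ z : U in 𝓝 x, ∀ᶠ y : U in 𝓝 z, f y = 0 := eventually_eventually_nhds.mpr hx
    exact h1
  have hAc : IsClosed A := by
    rw [← closure_subset_iff_isClosed]
    intro x hx
    obtain ⟨C⟩ := hU x x.2
    have hw0 : C.π x ∈ C.W := C.π_mem x x.2 C.mem
    obtain ⟨ρ, hρ, hball⟩ := Metric.isOpen_iff.mp C.hW _ hw0
    have hπc : ContinuousOn C.π C.O := C.hπ.continuousOn
    have hNo : IsOpen (C.O ∩ C.π ⁻¹' Metric.ball (C.π x) ρ) :=
      hπc.isOpen_inter_preimage C.hO Metric.isOpen_ball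
    let NN : Set U := Subtype.val ⁻¹' (C.O ∩ C.π ⁻¹' Metric.ball (C.π x) ρ)
    have hNN : NN ∈ 𝓝 x := (hNo.preimage continuous_subtype_val).mem_nhds
      ⟨C.mem, Metric.mem_ball_self hρ⟩
    obtain ⟨y, hyN, hyA⟩ := mem_closure_iff_nhds.mp hx NN hNN
    -- `f ∘ ψ` vanishes near `π y`
    have han : AnalyticOnNhd ℂ (fun w => f (C.ψ w)) (Metric.ball (C.π x) ρ) := by
      apply Crest.Agent.R266.SCV.analyticOnNhd_of_differentiableOn Metric.isOpen_ball
      exact hf.comp_differentiableOn (C.hψ.mono hball)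
    have hψy : C.ψ (C.π y) = y := C.ψ_π y y.2 hyN.1
    have hev : (fun w => f (C.ψ w)) =ᶠ[𝓝 (C.π y)] 0 := by
      have h1 : ∀ᶠ w in 𝓝 (C.π y), w ∈ C.W := C.hW.mem_nhds (C.π_mem y y.2 hyN.1)
      obtain ⟨G, hG, hGe⟩ : ∃ G ∈ 𝓝 (y : Fin N → ℂ), ∀ z : U, (z : Fin N → ℂ) ∈ G → f z = 0 := by
        have h2 : {z : U | f z = 0} ∈ 𝓝 y := hyA
        rw [nhds_subtype_eq_comap, mem_comap] at h2
        obtain ⟨G, hG, hGs⟩ := h2
        exact ⟨G, hG, fun z hz => hGs hz⟩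
      have h3 : ∀ᶠ w in 𝓝 (C.π y), C.ψ w ∈ G := by
        have hct : ContinuousAt C.ψ (C.π y) :=
          (C.hψ.continuousOn).continuousAt (C.hW.mem_nhds (C.π_mem y y.2 hyN.1))
        apply hct
        rw [hψy]
        exact hG
      filter_upwards [h1, h3] with w hw1 hw3
      exact hGe ⟨C.ψ w, (C.ψ_mem w hw1).1⟩ hw3
    have hz := han.eqOn_zero_of_preconnected_of_eventuallyEq_zero
      (convex_ball _ _).isPreconnected hyN.2 hev
    have : ∀ᶠ z : U in 𝓝 x, f z = 0 := by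
      filter_upwards [hNN] with z hzN
      have := hz hzN.2
      simp only [Pi.zero_apply] at this
      rwa [C.ψ_π z z.2 hzN.1] at this
    exact this
  have huniv : A = univ := IsClopen.eq_univ ⟨hAc, hAo⟩ ⟨x₀, h0⟩
  intro x hx
  have : (⟨x, hx⟩ : U) ∈ A := by rw [huniv]; trivial
  exact (show ∀ᶠ y : U in 𝓝 (⟨x, hx⟩ : U), f y = 0 from this).self_of_nhds

/-- charts of `V = Z(I)` at the points where the isolating polynomial and the branch polynomial
do not vanish -/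
theorem chart_at (I P : Ideal (MvPolynomial (Fin N) ℂ)) [hPp : P.IsPrime] (hIP : I ≤ P)
    (n : Noe P) (h : MvPolynomial (Fin N) ℂ)
    (hh : ∀ x ∈ MvPolynomial.zeroLocus ℂ I, MvPolynomial.eval x h ≠ 0 →
      x ∈ MvPolynomial.zeroLocus ℂ P)
    (a : MvPolynomial (Fin n.d) ℂ)
    (hsep : ∀ t, MvPolynomial.eval t a ≠ 0 → ∀ (l : Fin N) (T : ℂ),
      ((n.FX l).map (MvPolynomial.eval t)).eval T = 0 →
      ((Polynomial.derivative (n.FX l)).map (MvPolynomial.eval t)).eval T ≠ 0)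
    (x : Fin N → ℂ) (hx : x ∈ MvPolynomial.zeroLocus ℂ I)
    (hD : MvPolynomial.eval x (h * MvPolynomial.bind₁ n.p a) ≠ 0) :
    ∃ C : LocChart n.d (MvPolynomial.zeroLocus ℂ I) x, C.π = polyMap n.p ∧
      ∀ y ∈ MvPolynomial.zeroLocus ℂ I, y ∈ C.O → ∀ f ∈ P, MvPolynomial.eval y f = 0 := by
  rw [map_mul, n.eval_pull] at hD
  have hhx := left_ne_zero_of_mul hD
  have hax := right_ne_zero_of_mul hD
  have hxP := hh x hx hhx
  have hs : ∀ l : Fin N, ((Polynomial.derivative (n.FX l)).map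
      (MvPolynomial.eval (n.π x))).eval (x l) ≠ 0 := by
    intro l
    apply hsep _ hax l
    have := n.F_root (MvPolynomial.X l) hxP
    rwa [MvPolynomial.eval_X] at this
  obtain ⟨O, W, ψ, hO, hW, hxO, hψ, h1, h2⟩ := n.section_at hxP hs
  have hne : IsOpen {z : Fin N → ℂ | MvPolynomial.eval z h ≠ 0} :=
    isOpen_ne_fun (MvPolynomial.continuous_eval h) continuous_const
  refine ⟨
    { O := O ∩ {z | MvPolynomial.eval z h ≠ 0}
      W := W ∩ ψ ⁻¹' {z | MvPolynomial.eval z h ≠ 0}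
      ψ := ψ
      π := n.π
      hO := hO.inter hne
      hW := hψ.continuousOn.isOpen_inter_preimage hW hne
      mem := ⟨hxO, hhx⟩
      hψ := hψ.mono inter_subset_left
      hπ := ?_
      ψ_mem := ?_
      π_ψ := fun w hw => (h1 w hw.1).2.2
      π_mem := ?_
      ψ_π := fun y hy hyO => (h2 y (hh y hy hyO.2) hyO.1).2 }, rfl, ?_⟩
  · apply Differentiable.differentiableOn
    unfold Noe.π
    rw [differentiable_pi]
    intro i
    exact (Noe.contDiff_eval (n.p i)).differentiable one_ne_zero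
  · intro w hw
    refine ⟨?_, (h1 w hw.1).2.1, hw.2⟩
    exact mem_zl.mpr fun f hf => mem_zl.mp (h1 w hw.1).1 f (hIP hf)
  · intro y hy hyO
    have h3 := h2 y (hh y hy hyO.2) hyO.1
    refine ⟨h3.1, ?_⟩
    rw [mem_preimage, h3.2]
    exact hyO.2
  · intro y hy hyO
    exact mem_zl.mp (hh y hy hyO.2)

/-- the ideal of `U` is `P` -/
theorem van_of {n : ℕ} (I P : Ideal (MvPolynomial (Fin N) ℂ)) [hPp : P.IsPrime] (hIP : I ≤ P)
    (h : MvPolynomial (Fin N) ℂ) (hhP : h ∉ P)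
    (hh : ∀ x ∈ MvPolynomial.zeroLocus ℂ I, MvPolynomial.eval x h ≠ 0 →
      x ∈ MvPolynomial.zeroLocus ℂ P)
    (U O : Set (Fin N → ℂ)) (hO : IsOpen O) (hU : U = O ∩ MvPolynomial.zeroLocus ℂ I)
    (hsub : IsSubmfd n U) (hconn : IsConnected U)
    (x₀ : Fin N → ℂ) (hx₀ : x₀ ∈ MvPolynomial.zeroLocus ℂ P) (hx₀O : x₀ ∈ O)
    (f : MvPolynomial (Fin N) ℂ) : f ∈ P ↔ ∀ x ∈ U, MvPolynomial.eval x f = 0 := by
  have hPI : ∀ x ∈ MvPolynomial.zeroLocus ℂ P, x ∈ MvPolynomial.zeroLocus ℂ I := fun x hx =>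
    mem_zl.mpr fun g hg => mem_zl.mp hx g (hIP hg)
  constructor
  · intro hf
    obtain ⟨z₀, hz₀P, hz₀O, hz₀⟩ := Noe.dense_ne hhP hx₀ O hO hx₀O
    have hz₀U : z₀ ∈ U := by rw [hU]; exact ⟨hz₀O, hPI _ hz₀P⟩
    have hdiff : Differentiable ℂ fun x : Fin N → ℂ => MvPolynomial.eval x f :=
      (Noe.contDiff_eval f).differentiable one_ne_zero
    refine identity_alg hsub hconn (fun x => MvPolynomial.eval x f) hdiff ⟨z₀, hz₀U⟩ ?_
    have hc : Continuous fun y : U => MvPolynomial.eval (y : Fin N → ℂ) h :=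
      (MvPolynomial.continuous_eval h).comp continuous_subtype_val
    have h2 : ∀ᶠ y : U in 𝓝 ⟨z₀, hz₀U⟩, MvPolynomial.eval (y : Fin N → ℂ) h ≠ 0 :=
      hc.continuousAt.eventually_ne hz₀
    filter_upwards [h2] with y hy
    have hyI : (y : Fin N → ℂ) ∈ MvPolynomial.zeroLocus ℂ I := (hU.subset y.2).2
    exact mem_zl.mp (hh y hyI hy) f hf
  · intro hf
    by_contra hfP
    obtain ⟨z, hzP, hzO, hz⟩ := Noe.dense_ne hfP hx₀ O hO hx₀O
    exact hz (hf z (by rw [hU]; exact ⟨hzO, hPI z hzP⟩))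

/-- Assembly of Part 0. -/
theorem part0A_of (hEQ : EQThm) : Part0A := by
  intro N U Γ S V O hV hO hUO
  obtain ⟨I, rfl⟩ := hV
  obtain ⟨x₀, hx₀⟩ := S.nonempty
  have hx₀' : x₀ ∈ O ∩ MvPolynomial.zeroLocus ℂ I := by rw [← hUO]; exact hx₀
  obtain ⟨P, hP, hx₀P⟩ := exists_minimal I hx₀'.2
  have hPp : P.IsPrime := hP.1.1
  have hIP : I ≤ P := hP.1.2
  obtain ⟨n⟩ := exists_noe P hPp.ne_top
  obtain ⟨h, hhP, hh⟩ := exists_isolating I P hP
  obtain ⟨a, ha, hsep⟩ := n.exists_branch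
  have hDP : h * MvPolynomial.bind₁ n.p a ∉ P := fun hmem =>
    (hPp.mem_or_mem hmem).elim hhP (n.pull_notMem ha)
  have hchart := chart_at I P hIP n h hh a hsep
  generalize h * MvPolynomial.bind₁ n.p a = D at hDP hchart
  obtain ⟨z₀, hz₀P, hz₀O, hz₀⟩ := Noe.dense_ne hDP hx₀P O hO hx₀'.1
  have hz₀V : z₀ ∈ MvPolynomial.zeroLocus ℂ I :=
    mem_zl.mpr fun f hf => mem_zl.mp hz₀P f (hIP hf)
  have hE : EQU U := by
    have hfin : Finite {P // P ∈ I.minimalPrimes} := (finite_minimal I).to_subtype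
    exact equ_of hEQ hO hUO (fun P : {P // P ∈ I.minimalPrimes} => MvPolynomial.zeroLocus ℂ P.1)
      (fun P => by
        obtain ⟨C, -⟩ := covThm N P.1 P.2.1.1
        exact ⟨C⟩) (zl_eq_iUnion I)
  have hsub : IsSubmfd n.d U := by
    refine isSubmfd_of S hE (fun x => MvPolynomial.eval x D)
      ((Noe.contDiff_eval D).differentiable one_ne_zero) ?_
      ⟨z₀, by rw [hUO]; exact ⟨hz₀O, hz₀V⟩, hz₀⟩
    intro x hx hxD
    rw [hUO] at hx
    obtain ⟨C, -, -⟩ := hchart x hx.2 hxD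
    rw [hUO]
    exact ⟨C.restr O hO hx.1⟩
  exact ⟨n.d, hsub, ⟨
    { I0 := P
      prime := hPp
      van := van_of I P hIP h hhP hh U O hO hUO hsub S.conn x₀ hx₀P hx₀'.1
      V0_sub := fun x hx => mem_zl.mpr fun f hf => hx f (hIP hf)
      t := n.p
      indep := fun R hR => by
        by_contra hne
        exact n.pull_notMem hne hR
      D := D
      hD := hDP
      chart := hchart }⟩⟩

/-- PART 0 of row 264. -/
theorem part0A : Part0A := part0A_of eqThm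

end Crest.Agent.R264.Sm
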