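import Crest.Agent.R264.SmAlg

/-! Row 264, PART 0: the covering `π : Z(P) → ℂ^d` (helper659): finite fibres, properness,
openness, density. -/

set_option autoImplicit false

namespace Crest.Agent.R264.Sm

open Polynomial Topology Filter

/-- A monic polynomial with a small constant coefficient has a small root. -/
theorem exists_small_root (p : ℂ[X]) (hp : p.Monic) (ε : ℝ) (hε : 0 < ε)
    (h : ‖p.coeff 0‖ < ε ^ p.natDegree) : ∃ τ, p.eval τ = 0 ∧ ‖τ‖ < ε := by
  by_contra hcon
  push Not at hcon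
  have hs : p.Splits := IsAlgClosed.splits p
  have h1 := hs.coeff_zero_eq_prod_roots_of_monic hp
  have h2 : ε ^ p.natDegree ≤ ‖p.roots.prod‖ := by
    have hcard : p.natDegree = Multiset.card p.roots := hs.natDegree_eq_card_roots
    rw [hcard]
    have : ∀ s : Multiset ℂ, (∀ z ∈ s, ε ≤ ‖z‖) → ε ^ Multiset.card s ≤ ‖s.prod‖ := by
      intro s
      induction s using Multiset.induction_on with
      | empty => intro _; simp
      | cons a s ih =>
        intro hs'
        rw [Multiset.card_cons, Multiset.prod_cons, norm_mul, pow_succ, mul_comm]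
        have h3 := ih (fun z hz => hs' z (Multiset.mem_cons_of_mem hz))
        have h4 := hs' a (Multiset.mem_cons_self a s)
        gcongr
    apply this
    intro z hz
    exact hcon z (Polynomial.isRoot_of_mem_roots hz)
  rw [h1, norm_mul, norm_pow, norm_neg, norm_one, one_pow, one_mul] at h
  linarith

/-- A nonzero polynomial does not vanish identically near a point. -/
theorem exists_eval_ne_zero {d : ℕ} (a : MvPolynomial (Fin d) ℂ) (ha : a ≠ 0)
    (t : Fin d → ℂ) (s : Set (Fin d → ℂ)) (hs : s ∈ 𝓝 t) :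
    ∃ u ∈ s, MvPolynomial.eval u a ≠ 0 := by
  by_contra hcon
  push Not at hcon
  apply ha
  obtain ⟨r, hr, hrs⟩ := Metric.mem_nhds_iff.mp hs
  apply MvPolynomial.funext_set (fun i => Metric.ball (t i) r)
  · intro i
    exact infinite_of_mem_nhds (t i) (Metric.ball_mem_nhds _ hr)
  · intro x hx
    rw [map_zero]
    apply hcon
    apply hrs
    rw [Metric.mem_ball, dist_pi_lt_iff hr]
    intro i
    exact hx i (Set.mem_univ i)

/-- Monic polynomials with bounded coefficients have bounded roots. -/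
theorem root_bound (p : ℂ[X]) (hp : p.Monic) (C : ℝ) (hC : ∀ i, ‖p.coeff i‖ ≤ C) (z : ℂ)
    (hz : p.eval z = 0) : ‖z‖ ≤ 1 + C * p.natDegree := by
  have hC0 : 0 ≤ C := (norm_nonneg _).trans (hC 0)
  by_contra hcon
  push Not at hcon
  have hn : p.natDegree ≠ 0 := by
    intro h0
    have : p = 1 := by
      rw [← Polynomial.eq_one_of_monic_natDegree_zero hp h0]
    rw [this] at hz
    simp at hz
  have hz1 : 1 < ‖z‖ := by nlinarith [mul_nonneg hC0 (Nat.cast_nonneg (α := ℝ) p.natDegree)]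
  rw [Polynomial.eval_eq_sum_range, Finset.sum_range_succ, hp.coeff_natDegree, one_mul] at hz
  have h1 : z ^ p.natDegree = - ∑ i ∈ Finset.range p.natDegree, p.coeff i * z ^ i := by
    linear_combination hz
  have h2 : ‖z‖ ^ p.natDegree ≤ C * p.natDegree * ‖z‖ ^ (p.natDegree - 1) := by
    rw [← norm_pow, h1, norm_neg]
    refine (norm_sum_le _ _).trans ?_
    calc ∑ i ∈ Finset.range p.natDegree, ‖p.coeff i * z ^ i‖
        ≤ ∑ i ∈ Finset.range p.natDegree, C * ‖z‖ ^ (p.natDegree - 1) := by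
          apply Finset.sum_le_sum
          intro i hi
          rw [norm_mul, norm_pow]
          have hi' : i ≤ p.natDegree - 1 := by
            have := Finset.mem_range.mp hi
            omega
          exact mul_le_mul (hC i) (pow_le_pow_right₀ hz1.le hi') (by positivity) hC0
      _ = C * p.natDegree * ‖z‖ ^ (p.natDegree - 1) := by
          rw [Finset.sum_const, Finset.card_range, nsmul_eq_mul]; ring
  have h3 : ‖z‖ ^ p.natDegree = ‖z‖ * ‖z‖ ^ (p.natDegree - 1) := by
    rw [← pow_succ']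
    congr 1
    omega
  rw [h3] at h2
  have h4 : 0 < ‖z‖ ^ (p.natDegree - 1) := by positivity
  have h5 := le_of_mul_le_mul_right h2 h4
  linarith

variable {N : ℕ} {P : Ideal (MvPolynomial (Fin N) ℂ)} [hP : P.IsPrime]

namespace Noe

variable (n : Noe P)

omit hP in
theorem continuous_π : Continuous n.π := by
  unfold π
  exact continuous_pi fun i => MvPolynomial.continuous_eval _

omit hP in
theorem isClosed_Z : IsClosed (MvPolynomial.zeroLocus ℂ P) := by
  have : MvPolynomial.zeroLocus ℂ P = ⋂ f ∈ P, {x | MvPolynomial.eval x f = 0} := by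
    ext x
    simp [MvPolynomial.mem_zeroLocus_iff, MvPolynomial.aeval_eq_eval]
  rw [this]
  exact isClosed_biInter fun f _ => isClosed_eq (MvPolynomial.continuous_eval f) continuous_const

/-- the coordinate polynomial `F_l` -/
noncomputable def FX (l : Fin N) : Polynomial (MvPolynomial (Fin n.d) ℂ) :=
  n.F (MvPolynomial.X l)

omit hP in
theorem natDegree_map (s : MvPolynomial (Fin N) ℂ) (t : Fin n.d → ℂ) :
    ((n.F s).map (MvPolynomial.eval t)).natDegree = (n.F s).natDegree :=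
  (n.F_monic s).natDegree_map _

omit hP in
/-- fibres are finite with bounded cardinality -/
theorem fib (t : Fin n.d → ℂ) :
    {y | y ∈ MvPolynomial.zeroLocus ℂ P ∧ n.π y = t}.Finite ∧
      {y | y ∈ MvPolynomial.zeroLocus ℂ P ∧ n.π y = t}.ncard ≤ ∏ l, (n.FX l).natDegree := by
  classical
  let S : Finset (Fin N → ℂ) :=
    Fintype.piFinset fun l => ((n.FX l).map (MvPolynomial.eval t)).roots.toFinset
  have hsub : {y | y ∈ MvPolynomial.zeroLocus ℂ P ∧ n.π y = t} ⊆ (S : Set (Fin N → ℂ)) := by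
    rintro y ⟨hy, hyt⟩
    rw [Finset.mem_coe, Fintype.mem_piFinset]
    intro l
    rw [Multiset.mem_toFinset, Polynomial.mem_roots']
    refine ⟨((n.F_monic _).map _).ne_zero, ?_⟩
    have := n.F_root (MvPolynomial.X l) hy
    rw [hyt, MvPolynomial.eval_X] at this
    exact this
  refine ⟨S.finite_toSet.subset hsub, ?_⟩
  calc _ ≤ (S : Set (Fin N → ℂ)).ncard := Set.ncard_le_ncard hsub S.finite_toSet
    _ = S.card := Set.ncard_coe_finset S
    _ = ∏ l, (((n.FX l).map (MvPolynomial.eval t)).roots.toFinset).card := Fintype.card_piFinset _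
    _ ≤ ∏ l, (n.FX l).natDegree := by
        apply Finset.prod_le_prod'
        intro l _
        refine (Multiset.toFinset_card_le _).trans ?_
        refine (Polynomial.card_roots' _).trans ?_
        exact Polynomial.natDegree_map_le

omit hP in
/-- properness -/
theorem isCompact_preimage (K : Set (Fin n.d → ℂ)) (hK : IsCompact K) :
    IsCompact (MvPolynomial.zeroLocus ℂ P ∩ n.π ⁻¹' K) := by
  apply Metric.isCompact_of_isClosed_isBounded
  · exact isClosed_Z.inter (hK.isClosed.preimage n.continuous_π)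
  · -- bound the coefficients
    have hcoef : ∀ l : Fin N, ∃ C : ℝ, ∀ t ∈ K, ∀ i,
        ‖((n.FX l).map (MvPolynomial.eval t)).coeff i‖ ≤ C := by
      intro l
      have h1 : ∀ i, ∃ C : ℝ, ∀ t ∈ K, ‖MvPolynomial.eval t ((n.FX l).coeff i)‖ ≤ C := fun i =>
        hK.exists_bound_of_continuousOn (MvPolynomial.continuous_eval _).continuousOn
      choose C hC using h1
      refine ⟨∑ i ∈ (n.FX l).support, |C i|, ?_⟩
      intro t ht i
      rw [Polynomial.coeff_map]
      by_cases hi : i ∈ (n.FX l).support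
      · refine (hC i t ht).trans ((le_abs_self _).trans ?_)
        exact Finset.single_le_sum (f := fun i => |C i|) (fun j _ => abs_nonneg _) hi
      · rw [Polynomial.notMem_support_iff.mp hi, map_zero, norm_zero]
        exact Finset.sum_nonneg fun j _ => abs_nonneg _
    choose C hC using hcoef
    rw [isBounded_iff_forall_norm_le]
    refine ⟨∑ l, |1 + C l * (n.FX l).natDegree|, ?_⟩
    rintro y ⟨hy, hyK⟩
    rw [pi_norm_le_iff_of_nonneg (Finset.sum_nonneg fun j _ => abs_nonneg _)]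
    intro l
    have h1 := n.F_root (MvPolynomial.X l) hy
    rw [MvPolynomial.eval_X] at h1
    have h2 := root_bound _ ((n.F_monic (MvPolynomial.X l)).map (MvPolynomial.eval (n.π y)))
      (C l) (hC l _ hyK) (y l) h1
    rw [n.natDegree_map] at h2
    refine h2.trans ((le_abs_self _).trans ?_)
    exact Finset.single_le_sum (f := fun l => |1 + C l * (n.FX l).natDegree|)
      (fun j _ => abs_nonneg _) (Finset.mem_univ l)

omit hP in
/-- a polynomial separating `y` from finitely many points -/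
theorem _root_.Crest.Agent.R264.Sm.exists_separating {N : ℕ} (S : Set (Fin N → ℂ)) (hS : S.Finite)
    (y : Fin N → ℂ) :
    ∃ s : MvPolynomial (Fin N) ℂ, MvPolynomial.eval y s = 0 ∧
      ∀ z ∈ S, z ≠ y → MvPolynomial.eval z s = -1 := by
  classical
  have h1 : ∀ z : Fin N → ℂ, ∃ q : MvPolynomial (Fin N) ℂ, MvPolynomial.eval y q = 1 ∧
      (z ≠ y → MvPolynomial.eval z q = 0) := by
    intro z
    by_cases hz : z = y
    · exact ⟨1, by simp, fun h => absurd hz h⟩
    · obtain ⟨l, hl⟩ := Function.ne_iff.mp hz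
      have hne : y l - z l ≠ 0 := sub_ne_zero.mpr (Ne.symm hl)
      refine ⟨MvPolynomial.C (y l - z l)⁻¹ * (MvPolynomial.X l - MvPolynomial.C (z l)), ?_, ?_⟩
      · simp [inv_mul_cancel₀ hne]
      · intro _; simp
  choose q hq1 hq2 using h1
  refine ⟨(∏ z ∈ hS.toFinset.filter (· ≠ y), q z) - 1, ?_, ?_⟩
  · simp [map_prod, hq1]
  · intro z hz hzy
    rw [map_sub, map_prod, map_one, Finset.prod_eq_zero (i := z)]
    · simp
    · simp [hz, hzy]
    · exact hq2 z hzy

/-- openness of `π : Z → ℂ^d` -/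
theorem open_at {y : Fin N → ℂ} (hy : y ∈ MvPolynomial.zeroLocus ℂ P) (O : Set (Fin N → ℂ))
    (hO : IsOpen O) (hyO : y ∈ O) :
    ∀ᶠ t in 𝓝 (n.π y), ∃ z ∈ MvPolynomial.zeroLocus ℂ P, z ∈ O ∧ n.π z = t := by
  obtain ⟨s, hs0, hs1⟩ := exists_separating _ (n.fib (n.π y)).1 y
  set K : Set (Fin N → ℂ) := (MvPolynomial.zeroLocus ℂ P ∩
    n.π ⁻¹' (Metric.closedBall (n.π y) 1)) ∩ Oᶜ ∩ {z | ‖MvPolynomial.eval z s‖ ≤ 1 / 2} with hK
  have hKc : IsCompact K := by
    refine ((n.isCompact_preimage _ (isCompact_closedBall _ _)).inter_right hO.isClosed_compl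
      ).inter_right ?_
    exact isClosed_le (MvPolynomial.continuous_eval s).norm continuous_const
  have h1 : (n.π '' K)ᶜ ∈ 𝓝 (n.π y) := by
    apply (hKc.image n.continuous_π).isClosed.isOpen_compl.mem_nhds
    rintro ⟨z, hz, hzy⟩
    have hzne : z ≠ y := by
      rintro rfl
      exact hz.1.2 hyO
    have := hs1 z ⟨hz.1.1.1, hzy⟩ hzne
    have h2 := hz.2
    rw [Set.mem_ofPred_eq, this] at h2
    norm_num at h2
  -- small roots
  have h2 : ∀ᶠ t in 𝓝 (n.π y), ‖((n.F s).map (MvPolynomial.eval t)).coeff 0‖ <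
      (1 / 2 : ℝ) ^ (n.F s).natDegree := by
    have hc : Continuous fun t : Fin n.d → ℂ => ‖((n.F s).map (MvPolynomial.eval t)).coeff 0‖ := by
      simp only [Polynomial.coeff_map]
      exact (MvPolynomial.continuous_eval _).norm
    have h0 : ‖((n.F s).map (MvPolynomial.eval (n.π y))).coeff 0‖ <
      (1 / 2 : ℝ) ^ (n.F s).natDegree := by
      have := n.F_root s hy
      rw [hs0] at this
      rw [Polynomial.coeff_zero_eq_eval_zero, this, norm_zero]
      positivity
    exact hc.continuousAt.eventually_lt continuousAt_const h0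
  have h3 : Metric.closedBall (n.π y) 1 ∈ 𝓝 (n.π y) := Metric.closedBall_mem_nhds _ one_pos
  filter_upwards [h1, h2, h3] with t ht1 ht2 ht3
  rw [← n.natDegree_map s t] at ht2
  obtain ⟨τ, hτ, hτ2⟩ := exists_small_root _ ((n.F_monic s).map (MvPolynomial.eval t)) (1 / 2)
    (by norm_num) ht2
  obtain ⟨z, hz, hzt, hzτ⟩ := n.F_lift s t τ hτ
  refine ⟨z, hz, ?_, hzt⟩
  by_contra hzO
  apply ht1
  refine ⟨z, ⟨⟨⟨hz, ?_⟩, hzO⟩, ?_⟩, hzt⟩
  · rw [Set.mem_preimage, hzt]; exact ht3
  · rw [Set.mem_ofPred_eq, hzτ]; exact hτ2.le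

/-- density of `{b ∘ π ≠ 0}` -/
theorem dense_pull {b : MvPolynomial (Fin n.d) ℂ} (hb : b ≠ 0) {y : Fin N → ℂ}
    (hy : y ∈ MvPolynomial.zeroLocus ℂ P) (O : Set (Fin N → ℂ)) (hO : IsOpen O) (hyO : y ∈ O) :
    ∃ z ∈ MvPolynomial.zeroLocus ℂ P, z ∈ O ∧ MvPolynomial.eval (n.π z) b ≠ 0 := by
  obtain ⟨u, ⟨z, hz, hzO, hzu⟩, hu⟩ := exists_eval_ne_zero b hb (n.π y) _ (n.open_at hy O hO hyO)
  exact ⟨z, hz, hzO, by rw [hzu]; exact hu⟩

omit hP in
theorem F_coeff_zero {f : MvPolynomial (Fin N) ℂ} {x : Fin N → ℂ}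
    (hx : x ∈ MvPolynomial.zeroLocus ℂ P) (hf : MvPolynomial.eval x f = 0) :
    MvPolynomial.eval (n.π x) ((n.F f).coeff 0) = 0 := by
  have h := n.F_root f hx
  rw [hf, ← Polynomial.coeff_zero_eq_eval_zero, Polynomial.coeff_map] at h
  exact h

theorem F_coeff_zero_ne {f : MvPolynomial (Fin N) ℂ} (hf : f ∉ P) : (n.F f).coeff 0 ≠ 0 := by
  let _ := n.g.toRingHom.toAlgebra
  have hinj : Function.Injective (algebraMap (MvPolynomial (Fin n.d) ℂ)
    (MvPolynomial (Fin N) ℂ ⧸ P)) := n.inj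
  have : FaithfulSMul (MvPolynomial (Fin n.d) ℂ) (MvPolynomial (Fin N) ℂ ⧸ P) :=
    (faithfulSMul_iff_algebraMap_injective _ _).mpr hinj
  have hne : Ideal.Quotient.mk P f ≠ 0 := fun h => hf (Ideal.Quotient.eq_zero_iff_mem.mp h)
  have hint : IsIntegral (MvPolynomial (Fin n.d) ℂ) (Ideal.Quotient.mk P f) := n.int _
  exact coeff_zero_ne_zero _ hint hne

/-- DN: `{f ≠ 0}` is dense in `Z(P)` for `f ∉ P`. -/
theorem dense_ne {f : MvPolynomial (Fin N) ℂ} (hf : f ∉ P) {y : Fin N → ℂ}
    (hy : y ∈ MvPolynomial.zeroLocus ℂ P) (O : Set (Fin N → ℂ)) (hO : IsOpen O) (hyO : y ∈ O) :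
    ∃ z ∈ MvPolynomial.zeroLocus ℂ P, z ∈ O ∧ MvPolynomial.eval z f ≠ 0 := by
  obtain ⟨n⟩ := exists_noe P hP.ne_top
  obtain ⟨z, hz, hzO, hzb⟩ := n.dense_pull (n.F_coeff_zero_ne hf) hy O hO hyO
  exact ⟨z, hz, hzO, fun h => hzb (n.F_coeff_zero hz h)⟩

/-- the two-variable polynomial function `F_l(t, T)` -/
noncomputable def ev2 {d : ℕ} (F : Polynomial (MvPolynomial (Fin d) ℂ))
    (v : (Fin d → ℂ) × ℂ) : ℂ := (F.map (MvPolynomial.eval v.1)).eval v.2

omit hP in
theorem ev2_eq {d : ℕ} (F : Polynomial (MvPolynomial (Fin d) ℂ)) (v : (Fin d → ℂ) × ℂ) :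
    ev2 F v = ∑ i ∈ Finset.range (F.natDegree + 1), MvPolynomial.eval v.1 (F.coeff i) * v.2 ^ i := by
  unfold ev2
  rw [Polynomial.eval_eq_sum_range' (n := F.natDegree + 1)]
  · simp [Polynomial.coeff_map]
  · exact Nat.lt_succ_of_le Polynomial.natDegree_map_le

theorem contDiff_eval {d : ℕ} (q : MvPolynomial (Fin d) ℂ) :
    ContDiff ℂ 1 (fun t : Fin d → ℂ => MvPolynomial.eval t q) := by
  induction q using MvPolynomial.induction_on with
  | C a => simpa using contDiff_const
  | add p q hp hq => simpa using hp.add hq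
  | mul_X p i hp =>
    have : ContDiff ℂ 1 (fun t : Fin d → ℂ => t i) := contDiff_apply ℂ ℂ i
    simpa using hp.mul this

theorem contDiff_ev2 {d : ℕ} (F : Polynomial (MvPolynomial (Fin d) ℂ)) :
    ContDiff ℂ 1 (ev2 F) := by
  have : ev2 F = fun v => ∑ i ∈ Finset.range (F.natDegree + 1),
      MvPolynomial.eval v.1 (F.coeff i) * v.2 ^ i := funext (ev2_eq F)
  rw [this]
  apply ContDiff.sum
  intro i _
  exact ((contDiff_eval _).comp contDiff_fst).mul (contDiff_snd.pow i)

/-- simple roots depend holomorphically on the parameters -/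
theorem simple_root {d : ℕ} (F : Polynomial (MvPolynomial (Fin d) ℂ)) (t₀ : Fin d → ℂ) (T₀ : ℂ)
    (h0 : (F.map (MvPolynomial.eval t₀)).eval T₀ = 0)
    (h1 : ((derivative F).map (MvPolynomial.eval t₀)).eval T₀ ≠ 0) :
    ∃ r : (Fin d → ℂ) → ℂ, (∀ᶠ t in 𝓝 t₀, DifferentiableAt ℂ r t) ∧
      (∀ᶠ v in 𝓝 (t₀, T₀), (F.map (MvPolynomial.eval v.1)).eval v.2 = 0 → r v.1 = v.2) := by
  have hc : ContDiffAt ℂ 1 (ev2 F) (t₀, T₀) := (contDiff_ev2 F).contDiffAt
  have hinv : (fderiv ℂ (ev2 F) (t₀, T₀) ∘L .inr ℂ (Fin d → ℂ) ℂ).IsInvertible := by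
    have hd : HasDerivAt (fun T => ev2 F (t₀, T))
        (((derivative F).map (MvPolynomial.eval t₀)).eval T₀) T₀ := by
      have := (F.map (MvPolynomial.eval t₀)).hasDerivAt T₀
      rw [Polynomial.derivative_map] at this
      exact this
    have hd2 : HasDerivAt (fun T => ev2 F (t₀, T))
        ((fderiv ℂ (ev2 F) (t₀, T₀) ∘L .inr ℂ (Fin d → ℂ) ℂ) 1) T₀ := by
      have h := hc.differentiableAt one_ne_zero |>.hasFDerivAt
      have h2 : HasFDerivAt (fun T : ℂ => (t₀, T)) (ContinuousLinearMap.inr ℂ (Fin d → ℂ) ℂ) T₀ :=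
        hasFDerivAt_prodMk_right t₀ T₀
      have h3 := h.comp T₀ h2
      exact h3.hasDerivAt
    have he := hd.unique hd2
    set L := (fderiv ℂ (ev2 F) (t₀, T₀) ∘L .inr ℂ (Fin d → ℂ) ℂ)
    have hL : L 1 ≠ 0 := by rw [← he]; exact h1
    refine ⟨ContinuousLinearEquiv.unitsEquivAut ℂ (Units.mk0 (L 1) hL), ?_⟩
    ext
    simp
  refine ⟨hc.implicitFunction one_ne_zero hinv, ?_, ?_⟩
  · have h := hc.contDiffAt_implicitFunction one_ne_zero hinv
    have h2 := h.eventually (by simp)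
    filter_upwards [h2] with t ht
    exact ht.differentiableAt one_ne_zero
  · have h := hc.eventually_apply_eq_iff_implicitFunction one_ne_zero hinv
    filter_upwards [h] with v hv hv0
    apply hv.mp
    have e1 : ev2 F v = 0 := hv0
    have e2 : ev2 F (t₀, T₀) = 0 := h0
    rw [e1, e2]

end Noe

end Crest.Agent.R264.Sm
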