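import Mathlib
import Crest.Agent.R266.SCV
import Crest.Agent.R264.DADefs
import Crest.Agent.R264.BergIface

/-!
Row 264 (S0402), part D8 (analysis side): Lie algebras of holomorphic fields and their
complexification (helper469).
-/

set_option autoImplicit false

open Set Filter Topology
open scoped TensorProduct ComplexConjugate ContDiff

namespace Crest.Agent.R264.Sym

attribute [-instance] LieAlgebra.ExtendScalars.instBracketTensorProduct

lemma lie_tmul_tmul {g : Type*} [LieRing g] [LieAlgebra ℝ g] (c d : ℂ) (A B : g) :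
    ⁅c ⊗ₜ[ℝ] A, d ⊗ₜ[ℝ] B⁆ = (c * d) ⊗ₜ[ℝ] ⁅A, B⁆ := rfl

variable {E : Type*} [NormedAddCommGroup E] [NormedSpace ℂ E]

/-- a real Lie algebra of holomorphic vector fields on `D`
(bracket `[X,Y] = DY.X - DX.Y`) -/
structure Fields (D : Set E) (g : Type*) [LieRing g] [LieAlgebra ℝ g] where
  /-- evaluation of the abstract elements as fields -/
  ev : g →ₗ[ℝ] (E → E)
  hol : ∀ X, DifferentiableOn ℂ (ev X) D
  lie : ∀ X Y, ∀ x ∈ D,
    ev ⁅X, Y⁆ x = fderiv ℂ (ev Y) x (ev X x) - fderiv ℂ (ev X) x (ev Y x)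

namespace Fields

variable {D : Set E} {g : Type*} [LieRing g] [LieAlgebra ℝ g] (F : Fields D g)

/-- the complexified evaluation -/
noncomputable def evC : (ℂ ⊗[ℝ] g) →ₗ[ℂ] (E → E) := LinearMap.liftBaseChange ℂ F.ev

@[simp] lemma evC_tmul (c : ℂ) (A : g) : F.evC (c ⊗ₜ[ℝ] A) = c • F.ev A := by
  simp [evC]

lemma evC_hol (X : ℂ ⊗[ℝ] g) : DifferentiableOn ℂ (F.evC X) D := by
  induction X using TensorProduct.induction_on with
  | zero => simp
  | tmul c A => rw [evC_tmul]; exact (F.hol A).const_smul c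
  | add X Y hX hY => rw [map_add]; exact hX.add hY

variable {F}

lemma evC_diffAt (hD : IsOpen D) (X : ℂ ⊗[ℝ] g) {x : E} (hx : x ∈ D) :
    DifferentiableAt ℂ (F.evC X) x :=
  (F.evC_hol X).differentiableAt (hD.mem_nhds hx)

lemma ev_diffAt (hD : IsOpen D) (X : g) {x : E} (hx : x ∈ D) :
    DifferentiableAt ℂ (F.ev X) x :=
  (F.hol X).differentiableAt (hD.mem_nhds hx)

lemma evC_lie (hD : IsOpen D) (X Y : ℂ ⊗[ℝ] g) {x : E} (hx : x ∈ D) :
    F.evC ⁅X, Y⁆ x = fderiv ℂ (F.evC Y) x (F.evC X x) - fderiv ℂ (F.evC X) x (F.evC Y x) := by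
  induction X using TensorProduct.induction_on with
  | zero =>
    have h0 : fderiv ℂ (0 : E → E) x = 0 := by
      have := fderiv_const_apply (𝕜 := ℂ) (x := x) (0 : E)
      exact this
    simp [h0]
  | tmul c A =>
    induction Y using TensorProduct.induction_on with
    | zero =>
      have h0 : fderiv ℂ (0 : E → E) x = 0 := by
        have := fderiv_const_apply (𝕜 := ℂ) (x := x) (0 : E)
        exact this
      simp [h0]
    | tmul d B =>
      rw [lie_tmul_tmul]
      simp only [evC_tmul]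
      rw [fderiv_const_smul (F.ev_diffAt hD B hx), fderiv_const_smul (F.ev_diffAt hD A hx)]
      simp only [Pi.smul_apply, F.lie A B x hx, map_smul, _root_.smul_apply,
        smul_sub, smul_smul]
      ring_nf
    | add Y Z hY hZ =>
      rw [lie_add, map_add, map_add, Pi.add_apply, Pi.add_apply, hY, hZ,
        fderiv_add (F.evC_diffAt hD Y hx) (F.evC_diffAt hD Z hx)]
      simp only [map_add, _root_.add_apply]
      abel
  | add X Z hX hZ =>
      rw [add_lie, map_add, map_add, Pi.add_apply, Pi.add_apply, hX, hZ,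
        fderiv_add (F.evC_diffAt hD X hx) (F.evC_diffAt hD Z hx)]
      simp only [map_add, _root_.add_apply]
      abel

variable (F)

/-- the isotropy subalgebra at `x` of the complexification -/
noncomputable def iso (hD : IsOpen D) {x : E} (hx : x ∈ D) : LieSubalgebra ℂ (ℂ ⊗[ℝ] g) where
  carrier := {X | F.evC X x = 0}
  add_mem' := by
    intro X Y hX hY
    simp only [Set.mem_ofPred_eq] at *
    rw [map_add, Pi.add_apply, hX, hY, add_zero]
  zero_mem' := by simp
  smul_mem' := by
    intro c X hX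
    simp only [Set.mem_ofPred_eq] at *
    rw [map_smul, Pi.smul_apply, hX, smul_zero]
  lie_mem' := by
    intro X Y hX hY
    simp only [AddSubsemigroup.mem_carrier, AddSubmonoid.mem_toSubsemigroup,
      Submodule.mem_toAddSubmonoid, Submodule.mem_mk, AddSubmonoid.mem_mk,
      AddSubsemigroup.mem_mk, Set.mem_ofPred_eq] at *
    rw [evC_lie hD X Y hx, hX, hY]
    simp

@[simp] lemma mem_iso {hD : IsOpen D} {x : E} {hx : x ∈ D} {X : ℂ ⊗[ℝ] g} :
    X ∈ F.iso hD hx ↔ F.evC X x = 0 := Iff.rfl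

end Fields

end Crest.Agent.R264.Sym
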