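import Crest.Agent.R264.SymBasic

/-!
Row 264 (S0402), part D8 (a), (b): the Casimir tensors (helper469).
-/

set_option autoImplicit false

open Set Filter Topology
open scoped TensorProduct ComplexConjugate ContDiff

namespace Crest.Agent.R264.Sym

attribute [-instance] LieAlgebra.ExtendScalars.instBracketTensorProduct

/-- Lemma I (for tensors of degree `j`): a `Γ`-invariant holomorphic tensor field vanishes. -/
def LemIProp {E : Type*} [NormedAddCommGroup E] [NormedSpace ℂ E] (D : Set E) (Γ : Set (E → E))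
    (j : ℕ) : Prop :=
  ∀ s : E → MultilinearMap ℂ (fun _ : Fin j => E →L[ℂ] ℂ) ℂ,
    (∀ ξ, DifferentiableOn ℂ (fun x => s x ξ) D) →
    (∀ γ ∈ Γ, ∀ x ∈ D, ∀ ξ, s (γ x) ξ = s x (fun i => (ξ i).comp (fderiv ℂ γ x))) →
    ∀ x ∈ D, s x = 0

section Algebra

variable {g : Type*} [LieRing g] [LieAlgebra ℝ g] [Module.Finite ℝ g]

lemma killing_tmul (c d : ℂ) (A B : g) :
    killingForm ℂ (ℂ ⊗[ℝ] g) (c ⊗ₜ[ℝ] A) (d ⊗ₜ[ℝ] B) = (killingForm ℝ g A B) • (c * d) := by
  have h := LieModule.traceForm_baseChange ℝ g g ℂ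
  have h2 : killingForm ℂ (ℂ ⊗[ℝ] g) (c ⊗ₜ[ℝ] A) (d ⊗ₜ[ℝ] B)
      = (LinearMap.BilinForm.baseChange ℂ (killingForm ℝ g)) (c ⊗ₜ[ℝ] A) (d ⊗ₜ[ℝ] B) := by
    rw [killingForm, killingForm, ← h]
  rw [h2, LinearMap.BilinForm.baseChange_tmul]

variable [LieAlgebra.IsKilling ℝ g]

/-- dual basis for the Killing form -/
noncomputable def db {ι : Type*} [Fintype ι] [DecidableEq ι] (b : Module.Basis ι ℝ g) :
    Module.Basis ι ℝ g :=
  (killingForm ℝ g).dualBasis (LieAlgebra.IsKilling.killingForm_nondegenerate ℝ g) b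

variable {ι : Type*} [Fintype ι] [DecidableEq ι] (b : Module.Basis ι ℝ g)

lemma sum_db (Y : g) : ∑ a, killingForm ℝ g Y (b a) • db b a = Y := by
  conv_rhs => rw [← (db b).sum_repr Y]
  refine Finset.sum_congr rfl (fun a _ => ?_)
  rw [db, LinearMap.BilinForm.dualBasis_repr_apply]

lemma killing_b_db (i j : ι) : killingForm ℝ g (b i) (db b j) = if i = j then 1 else 0 := by
  rw [LieModule.traceForm_comm, db]
  have := LinearMap.BilinForm.apply_dualBasis_left
    (LieAlgebra.IsKilling.killingForm_nondegenerate ℝ g) b j i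
  exact this

lemma sum_b (Y : g) : ∑ a, killingForm ℝ g Y (db b a) • b a = Y := by
  conv_rhs => rw [← b.sum_repr Y]
  refine Finset.sum_congr rfl (fun a _ => ?_)
  congr 1
  conv_lhs => rw [← b.sum_repr Y]
  rw [map_sum, LinearMap.sum_apply]
  simp only [map_smul, LinearMap.smul_apply, killing_b_db, smul_eq_mul, mul_ite, mul_one,
    mul_zero]
  simp

lemma sum_casimir {V : Type*} [AddCommGroup V] [Module ℝ V] (β : g →ₗ[ℝ] g →ₗ[ℝ] V)
    (φ : g ≃ₗ⁅ℝ⁆ g) :
    ∑ a, β (φ (b a)) (φ (db b a)) = ∑ a, β (b a) (db b a) := by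
  have h1 : ∀ a, β (φ (b a)) (φ (db b a))
      = ∑ c, killingForm ℝ g (φ (b a)) (db b c) • β (b c) (φ (db b a)) := by
    intro a
    conv_lhs => rw [← sum_b b (φ (b a))]
    rw [map_sum, LinearMap.sum_apply]
    simp only [map_smul, LinearMap.smul_apply]
  simp_rw [h1]
  rw [Finset.sum_comm]
  refine Finset.sum_congr rfl (fun c _ => ?_)
  have h2 : ∀ a, killingForm ℝ g (φ (b a)) (db b c)
      = killingForm ℝ g (φ.symm (db b c)) (b a) := by
    intro a
    rw [← LieAlgebra.killingForm_of_equiv_apply φ (φ.symm (db b c)) (b a),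
      LieEquiv.apply_symm_apply, LieModule.traceForm_comm]
  have h3 : ∑ a, killingForm ℝ g (φ (b a)) (db b c) • φ (db b a) = db b c := by
    simp_rw [h2]
    have h4 : ∑ a, killingForm ℝ g (φ.symm (db b c)) (b a) • φ (db b a)
        = φ (∑ a, killingForm ℝ g (φ.symm (db b c)) (b a) • db b a) := by
      rw [map_sum]; simp
    rw [h4, sum_db, LieEquiv.apply_symm_apply]
  conv_rhs => rw [← h3]
  rw [map_sum]
  simp only [map_smul]

/-- expansion of elements of the complexification in the basis `b` by the Killing form -/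
lemma sum_b_cx (Y : ℂ ⊗[ℝ] g) :
    ∑ a, killingForm ℂ (ℂ ⊗[ℝ] g) Y ((1 : ℂ) ⊗ₜ[ℝ] db b a) • ((1 : ℂ) ⊗ₜ[ℝ] b a) = Y := by
  induction Y using TensorProduct.induction_on with
  | zero => simp
  | tmul c A =>
    have h : ∀ a, killingForm ℂ (ℂ ⊗[ℝ] g) (c ⊗ₜ[ℝ] A) ((1 : ℂ) ⊗ₜ[ℝ] db b a)
        • ((1 : ℂ) ⊗ₜ[ℝ] b a) = c ⊗ₜ[ℝ] (killingForm ℝ g A (db b a) • b a) := by
      intro a
      rw [killing_tmul, TensorProduct.smul_tmul', smul_eq_mul, mul_one, mul_one,
        TensorProduct.smul_tmul]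
    simp_rw [h]
    rw [← TensorProduct.tmul_sum, sum_b]
  | add X Y hX hY =>
    conv_rhs => rw [← hX, ← hY]
    rw [← Finset.sum_add_distrib]
    refine Finset.sum_congr rfl (fun a _ => ?_)
    rw [map_add, LinearMap.add_apply, add_smul]

end Algebra

end Crest.Agent.R264.Sym
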