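import Mathlib

/-!
Row 264, module TS (Tarski-Seidenberg), part 0: the one variable core lemma.

Two finite families of real polynomials `P`, `Q` with the same sign diagram (witnessed by an order
isomorphism of the line), together with two further polynomials `p`, `q` whose derivatives belong
to the families and whose signs match at the zeros of the members of the families: then the
enlarged families have the same sign diagram.
-/

set_option autoImplicit false
set_option linter.unusedSectionVars false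

open Polynomial Set

namespace Crest.Agent.R264.TS

/-! ### Piecewise linear order isomorphisms -/

/-- the piecewise linear map fixing the complement of `(c, d)` and mapping `u` to `v`. -/
noncomputable def bumpFun (c u v d t : ℝ) : ℝ :=
  if t ≤ c then t else if t ≤ u then c + (t - c) * ((v - c) / (u - c))
  else if t < d then d - (d - t) * ((d - v) / (d - u)) else t

section

variable {c u v d : ℝ} (h1 : c < u) (h2 : u < d) (h3 : c < v) (h4 : v < d)

include h1 h2 h3 h4

lemma bumpFun_of_le_c {t : ℝ} (ht : t ≤ c) : bumpFun c u v d t = t := by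
  simp [bumpFun, ht]

lemma bumpFun_of_mem_left {t : ℝ} (ht : c < t) (ht' : t ≤ u) :
    bumpFun c u v d t = c + (t - c) * ((v - c) / (u - c)) := by
  simp [bumpFun, not_le.2 ht, ht']

lemma bumpFun_of_mem_right {t : ℝ} (ht : u < t) (ht' : t < d) :
    bumpFun c u v d t = d - (d - t) * ((d - v) / (d - u)) := by
  have : ¬ t ≤ c := by linarith
  simp [bumpFun, not_le.2 ht, ht', this]

lemma bumpFun_of_d_le {t : ℝ} (ht : d ≤ t) : bumpFun c u v d t = t := by
  have : ¬ t ≤ c := by linarith
  have : ¬ t ≤ u := by linarith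
  simp [bumpFun, not_lt.2 ht, *]

lemma bumpFun_left_mem {t : ℝ} (ht : c < t) (ht' : t ≤ u) :
    c < bumpFun c u v d t ∧ bumpFun c u v d t ≤ v := by
  rw [bumpFun_of_mem_left h1 h2 h3 h4 ht ht']
  have hcu : 0 < u - c := by linarith
  have hcv : 0 < v - c := by linarith
  constructor
  · have : 0 < (t - c) * ((v - c) / (u - c)) := mul_pos (by linarith) (div_pos hcv hcu)
    linarith
  · have : (t - c) * ((v - c) / (u - c)) ≤ (u - c) * ((v - c) / (u - c)) :=
      mul_le_mul_of_nonneg_right (by linarith) (div_pos hcv hcu).le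
    rw [mul_div_cancel₀ _ hcu.ne'] at this
    linarith

lemma bumpFun_right_mem {t : ℝ} (ht : u < t) (ht' : t < d) :
    v < bumpFun c u v d t ∧ bumpFun c u v d t < d := by
  rw [bumpFun_of_mem_right h1 h2 h3 h4 ht ht']
  have hdu : 0 < d - u := by linarith
  have hdv : 0 < d - v := by linarith
  constructor
  · have : (d - t) * ((d - v) / (d - u)) < (d - u) * ((d - v) / (d - u)) :=
      mul_lt_mul_of_pos_right (by linarith) (div_pos hdv hdu)
    rw [mul_div_cancel₀ _ hdu.ne'] at this
    linarith
  · have : 0 < (d - t) * ((d - v) / (d - u)) := mul_pos (by linarith) (div_pos hdv hdu)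
    linarith

lemma bumpFun_inv (t : ℝ) : bumpFun c v u d (bumpFun c u v d t) = t := by
  have hcu : 0 < u - c := by linarith
  have hdu : 0 < d - u := by linarith
  have hcv : 0 < v - c := by linarith
  have hdv : 0 < d - v := by linarith
  rcases le_or_gt t c with a | a
  · rw [bumpFun_of_le_c h1 h2 h3 h4 a, bumpFun_of_le_c h3 h4 h1 h2 a]
  rcases le_or_gt t u with b | b
  · have := bumpFun_left_mem h1 h2 h3 h4 a b
    rw [bumpFun_of_mem_left h3 h4 h1 h2 this.1 this.2, bumpFun_of_mem_left h1 h2 h3 h4 a b]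
    field_simp
    ring
  rcases lt_or_ge t d with e | e
  · have := bumpFun_right_mem h1 h2 h3 h4 b e
    rw [bumpFun_of_mem_right h3 h4 h1 h2 this.1 this.2, bumpFun_of_mem_right h1 h2 h3 h4 b e]
    field_simp
    ring
  · rw [bumpFun_of_d_le h1 h2 h3 h4 e, bumpFun_of_d_le h3 h4 h1 h2 e]

lemma bumpFun_u : bumpFun c u v d u = v := by
  rw [bumpFun_of_mem_left h1 h2 h3 h4 h1 le_rfl]
  have hcu : 0 < u - c := by linarith
  field_simp
  ring

lemma bumpFun_strictMono : StrictMono (bumpFun c u v d) := by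
  have hcu : 0 < u - c := by linarith
  have hdu : 0 < d - u := by linarith
  have hcv : 0 < v - c := by linarith
  have hdv : 0 < d - v := by linarith
  have hL : 0 < (v - c) / (u - c) := div_pos hcv hcu
  have hR : 0 < (d - v) / (d - u) := div_pos hdv hdu
  intro s t hst
  rcases le_or_gt s c with a | a
  · rw [bumpFun_of_le_c h1 h2 h3 h4 a]
    rcases le_or_gt t c with a' | a'
    · rw [bumpFun_of_le_c h1 h2 h3 h4 a']; exact hst
    rcases le_or_gt t u with b' | b'
    · linarith [(bumpFun_left_mem h1 h2 h3 h4 a' b').1]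
    rcases lt_or_ge t d with e' | e'
    · linarith [(bumpFun_right_mem h1 h2 h3 h4 b' e').1]
    · rw [bumpFun_of_d_le h1 h2 h3 h4 e']; exact hst
  rcases le_or_gt s u with b | b
  · rcases le_or_gt t u with b' | b'
    · rw [bumpFun_of_mem_left h1 h2 h3 h4 a b, bumpFun_of_mem_left h1 h2 h3 h4 (a.trans hst) b']
      have := mul_lt_mul_of_pos_right (show s - c < t - c by linarith) hL
      linarith
    rcases lt_or_ge t d with e' | e'
    · linarith [(bumpFun_right_mem h1 h2 h3 h4 b' e').1, (bumpFun_left_mem h1 h2 h3 h4 a b).2]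
    · rw [bumpFun_of_d_le h1 h2 h3 h4 e']
      linarith [(bumpFun_left_mem h1 h2 h3 h4 a b).2]
  rcases lt_or_ge s d with e | e
  · rcases lt_or_ge t d with e' | e'
    · rw [bumpFun_of_mem_right h1 h2 h3 h4 b e, bumpFun_of_mem_right h1 h2 h3 h4 (b.trans hst) e']
      have := mul_lt_mul_of_pos_right (show d - t < d - s by linarith) hR
      linarith
    · rw [bumpFun_of_d_le h1 h2 h3 h4 e']
      linarith [(bumpFun_right_mem h1 h2 h3 h4 b e).2]
  · rw [bumpFun_of_d_le h1 h2 h3 h4 e, bumpFun_of_d_le h1 h2 h3 h4 (e.trans hst.le)]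
    exact hst

end

/-- order isomorphism of the line fixing the complement of `(c, d)` and mapping `u` to `v`. -/
lemma exists_bump {c u v d : ℝ} (h1 : c < u) (h2 : u < d) (h3 : c < v) (h4 : v < d) :
    ∃ θ : ℝ ≃o ℝ, θ u = v ∧ (∀ t, t ≤ c → θ t = t) ∧ (∀ t, d ≤ t → θ t = t) := by
  refine ⟨(bumpFun_strictMono h1 h2 h3 h4).orderIsoOfRightInverse _ (bumpFun c v u d)
    (fun t => bumpFun_inv h3 h4 h1 h2 t), ?_, ?_, ?_⟩
  · exact bumpFun_u h1 h2 h3 h4
  · intro t ht; exact bumpFun_of_le_c h1 h2 h3 h4 ht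
  · intro t ht; exact bumpFun_of_d_le h1 h2 h3 h4 ht

/-! ### Sign of a polynomial on root free intervals -/

lemma sign_eq_of_no_root {p : ℝ[X]} {s t : ℝ} (hst : s ≤ t)
    (h : ∀ r ∈ Icc s t, p.eval r ≠ 0) :
    SignType.sign (p.eval s) = SignType.sign (p.eval t) := by
  have hs := h s ⟨le_rfl, hst⟩
  have ht := h t ⟨hst, le_rfl⟩
  rcases lt_or_gt_of_ne hs with a | a <;> rcases lt_or_gt_of_ne ht with b | b
  · rw [sign_neg a, sign_neg b]
  · exfalso
    obtain ⟨r, hr, hr'⟩ := intermediate_value_Icc hst (p.continuous.continuousOn (s := Icc s t))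
      (show (0 : ℝ) ∈ Icc _ _ from ⟨a.le, b.le⟩)
    exact h r hr hr'
  · exfalso
    obtain ⟨r, hr, hr'⟩ := intermediate_value_Icc' hst (p.continuous.continuousOn (s := Icc s t))
      (show (0 : ℝ) ∈ Icc _ _ from ⟨b.le, a.le⟩)
    exact h r hr hr'
  · rw [sign_pos a, sign_pos b]

end Crest.Agent.R264.TS
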