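import Crest.Agent.R264.TS0

/-!
Row 264, module TS (Tarski-Seidenberg), part 1: the core lemma in one variable.
-/

set_option autoImplicit false

open Polynomial Set

namespace Crest.Agent.R264.TS

/-! ### monotonicity and behaviour at infinity -/

lemma strictMonoOn_of_deriv {p : ℝ[X]} {a b : ℝ} (h : ∀ x ∈ Ioo a b, 0 < p.derivative.eval x) :
    StrictMonoOn (fun x => p.eval x) (Icc a b) := by
  refine strictMonoOn_of_deriv_pos (convex_Icc a b) p.continuous.continuousOn ?_
  intro x hx
  rw [interior_Icc] at hx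
  rw [Polynomial.deriv]
  exact h x hx

lemma exists_pos_right {p : ℝ[X]} {t : ℝ} (h : ∀ s, t ≤ s → 0 < p.derivative.eval s) :
    ∃ s, t < s ∧ 0 < p.eval s := by
  have hdeg : 0 < p.degree := by
    by_contra hcon
    have h1 : p.degree ≤ 0 := not_lt.1 hcon
    have h2 := h t le_rfl
    rw [Polynomial.eq_C_of_degree_le_zero h1] at h2
    simp at h2
  have hT := Polynomial.abs_tendsto_atTop p hdeg
  obtain ⟨s, hs1, hs2⟩ := ((hT.eventually_gt_atTop |p.eval t|).and
    (Filter.eventually_gt_atTop t)).exists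
  refine ⟨s, hs2, ?_⟩
  have hm : p.eval t < p.eval s :=
    (strictMonoOn_of_deriv (p := p) (a := t) (b := s) fun x hx => h x hx.1.le)
      ⟨le_rfl, hs2.le⟩ ⟨hs2.le, le_rfl⟩ hs2
  by_contra hcon
  have h3 : p.eval s ≤ 0 := not_lt.1 hcon
  rw [abs_of_nonpos h3, abs_of_nonpos (hm.le.trans h3)] at hs1
  linarith

lemma exists_neg_left {p : ℝ[X]} {t : ℝ} (h : ∀ s, s ≤ t → 0 < p.derivative.eval s) :
    ∃ s, s < t ∧ p.eval s < 0 := by
  obtain ⟨s, hs1, hs2⟩ := exists_pos_right (p := - p.comp (-X)) (t := -t) (by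
    intro s hs
    have := h (-s) (by linarith)
    simpa [Polynomial.derivative_comp] using this)
  refine ⟨-s, by linarith, ?_⟩
  simpa using hs2

/-! ### The data -/

/-- `φ` matches the signs of the derivatives of `p`, `q` and the signs of `p`, `q` on the finite
set `Z`, which contains the zeros of `p'`. -/
structure Dat (Z : Set ℝ) (p q : ℝ[X]) (φ : ℝ ≃o ℝ) : Prop where
  fin : Z.Finite
  dsgn : ∀ t, SignType.sign (p.derivative.eval t) = SignType.sign (q.derivative.eval (φ t))
  droot : ∀ t, p.derivative.eval t = 0 → t ∈ Z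
  zsgn : ∀ t ∈ Z, SignType.sign (p.eval t) = SignType.sign (q.eval (φ t))

lemma sign_neg_eq (a b : ℝ) (h : SignType.sign a = SignType.sign b) :
    SignType.sign (-a) = SignType.sign (-b) := by
  rw [Left.sign_neg, Left.sign_neg, h]

lemma Dat.neg {Z : Set ℝ} {p q : ℝ[X]} {φ : ℝ ≃o ℝ} (h : Dat Z p q φ) : Dat Z (-p) (-q) φ where
  fin := h.fin
  dsgn t := by
    simp only [derivative_neg, eval_neg]
    exact sign_neg_eq _ _ (h.dsgn t)
  droot t ht := h.droot t (by simpa using ht)
  zsgn t ht := by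
    simp only [eval_neg]
    exact sign_neg_eq _ _ (h.zsgn t ht)

/-- the nearest point to the left -/
lemma left_end {Z : Set ℝ} (hZ : Z.Finite) (t : ℝ) :
    (∃ a ∈ Z, a < t ∧ ∀ z ∈ Z, z < t → z ≤ a) ∨ ∀ z ∈ Z, t ≤ z := by
  by_cases h : (Z ∩ Iio t).Nonempty
  · left
    obtain ⟨a, ha, ha'⟩ := (hZ.subset inter_subset_left).exists_maximal h
    refine ⟨a, ha.1, ha.2, fun z hz hzt => ?_⟩
    by_contra hcon
    exact hcon (ha' ⟨hz, hzt⟩ (not_le.1 hcon).le)
  · right
    intro z hz
    by_contra hcon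
    exact h ⟨z, hz, not_le.1 hcon⟩

/-- the nearest point to the right -/
lemma right_end {Z : Set ℝ} (hZ : Z.Finite) (t : ℝ) :
    (∃ a ∈ Z, t < a ∧ ∀ z ∈ Z, t < z → a ≤ z) ∨ ∀ z ∈ Z, z ≤ t := by
  by_cases h : (Z ∩ Ioi t).Nonempty
  · left
    obtain ⟨a, ha, ha'⟩ := (hZ.subset inter_subset_left).exists_minimal h
    refine ⟨a, ha.1, ha.2, fun z hz hzt => ?_⟩
    by_contra hcon
    exact hcon (ha' ⟨hz, hzt⟩ (not_le.1 hcon).le)
  · right
    intro z hz
    by_contra hcon
    exact h ⟨z, hz, not_le.1 hcon⟩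

section

variable {Z : Set ℝ} {p q : ℝ[X]} {φ : ℝ ≃o ℝ}

lemma Dat.qroot (h : Dat Z p q φ) {s : ℝ} (hs : q.derivative.eval s = 0) : φ.symm s ∈ Z := by
  apply h.droot
  have := h.dsgn (φ.symm s)
  rw [OrderIso.apply_symm_apply, hs, sign_zero, sign_eq_zero_iff] at this
  exact this

/-- positivity of the derivative on the left part of the interval of the complement of `Z` -/
lemma Dat.pos_left (h : Dat Z p q φ) {t : ℝ} (ht : 0 < p.derivative.eval t) {a : ℝ}
    (ha : ∀ z ∈ Z, z < t → z ≤ a) {x : ℝ} (hx : a < x) (hxt : x ≤ t) :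
    0 < p.derivative.eval x := by
  have : SignType.sign (p.derivative.eval x) = SignType.sign (p.derivative.eval t) := by
    refine sign_eq_of_no_root hxt fun r hr h0 => ?_
    rcases hr.2.lt_or_eq with h1 | h1
    · have := ha r (h.droot r h0) h1
      linarith [hr.1]
    · rw [h1] at h0; exact ht.ne' h0
  rw [sign_pos ht, sign_eq_one_iff] at this
  exact this

lemma Dat.pos_right (h : Dat Z p q φ) {t : ℝ} (ht : 0 < p.derivative.eval t) {a : ℝ}
    (ha : ∀ z ∈ Z, t < z → a ≤ z) {x : ℝ} (hx : x < a) (hxt : t ≤ x) :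
    0 < p.derivative.eval x := by
  have : SignType.sign (p.derivative.eval t) = SignType.sign (p.derivative.eval x) := by
    refine sign_eq_of_no_root hxt fun r hr h0 => ?_
    rcases hr.1.lt_or_eq with h1 | h1
    · have := ha r (h.droot r h0) h1
      linarith [hr.2]
    · rw [← h1] at h0; exact ht.ne' h0
  rw [sign_pos ht] at this
  exact sign_eq_one_iff.1 this.symm

lemma Dat.dq_pos (h : Dat Z p q φ) {x : ℝ} (hx : 0 < p.derivative.eval x) :
    0 < q.derivative.eval (φ x) := by
  have := h.dsgn x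
  rw [sign_pos hx] at this
  exact sign_eq_one_iff.1 this.symm

lemma Dat.dq_pos' (h : Dat Z p q φ) {y : ℝ} (hx : 0 < p.derivative.eval (φ.symm y)) :
    0 < q.derivative.eval y := by
  simpa using h.dq_pos hx

/-- one case of Lemma A -/
lemma Dat.signA_pos (h : Dat Z p q φ) (hm : ∀ t, p.eval t = 0 → q.eval (φ t) = 0) {t : ℝ}
    (ht : 0 < p.derivative.eval t) (hp : 0 < p.eval t) : 0 < q.eval (φ t) := by
  -- a point `t₁ < t` with `p t₁ ≥ 0`, matched signs, and `p' > 0` on `(t₁, t]`
  obtain ⟨t1, h1, h2, h3, h4⟩ : ∃ t1, t1 < t ∧ 0 ≤ p.eval t1 ∧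
      SignType.sign (p.eval t1) = SignType.sign (q.eval (φ t1)) ∧
      ∀ x, t1 < x → x ≤ t → 0 < p.derivative.eval x := by
    have root : ∀ a, a < t → p.eval a < 0 → (∀ x, a < x → x ≤ t → 0 < p.derivative.eval x) →
        ∃ t1, t1 < t ∧ 0 ≤ p.eval t1 ∧
        SignType.sign (p.eval t1) = SignType.sign (q.eval (φ t1)) ∧
        ∀ x, t1 < x → x ≤ t → 0 < p.derivative.eval x := by
      intro a ha hpa hder
      obtain ⟨r, hr, hr'⟩ := intermediate_value_Ioo ha.le
        (p.continuous.continuousOn (s := Icc a t)) (show (0 : ℝ) ∈ Ioo _ _ from ⟨hpa, hp⟩)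
      have hr'' : p.eval r = 0 := hr'
      refine ⟨r, hr.2, hr''.ge, ?_, fun x hx => hder x (hr.1.trans hx)⟩
      rw [hr'', hm r hr'']
    rcases left_end h.fin t with ⟨a, haZ, hat, ha⟩ | ha
    · by_cases hpa : 0 ≤ p.eval a
      · exact ⟨a, hat, hpa, h.zsgn a haZ, fun x hx hxt => h.pos_left ht ha hx hxt⟩
      · exact root a hat (not_le.1 hpa) (fun x hx hxt => h.pos_left ht ha hx hxt)
    · have hd : ∀ s, s ≤ t → 0 < p.derivative.eval s := fun s hs =>
        h.pos_left ht (a := s - 1) (fun z hz hzt => absurd (ha z hz) (not_le.2 hzt))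
          (by linarith) hs
      obtain ⟨s, hs1, hs2⟩ := exists_neg_left hd
      exact root s hs1 hs2 (fun x _ hxt => hd x hxt)
  have hq1 : 0 ≤ q.eval (φ t1) := by
    rcases h2.lt_or_eq with h5 | h5
    · rw [sign_pos h5] at h3
      exact (sign_eq_one_iff.1 h3.symm).le
    · rw [← h5, sign_zero] at h3
      exact (sign_eq_zero_iff.1 h3.symm).ge
  have hlt : φ t1 < φ t := φ.lt_iff_lt.2 h1
  have hmono := strictMonoOn_of_deriv (p := q) (a := φ t1) (b := φ t) (fun y hy => by
    apply h.dq_pos'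
    apply h4
    · rw [← φ.lt_iff_lt]; simpa using hy.1
    · rw [← φ.le_iff_le]; simpa using hy.2.le)
  exact lt_of_le_of_lt hq1 (hmono ⟨le_rfl, hlt.le⟩ ⟨hlt.le, le_rfl⟩ hlt)

lemma Dat.signA_neg (h : Dat Z p q φ) (hm : ∀ t, p.eval t = 0 → q.eval (φ t) = 0) {t : ℝ}
    (ht : 0 < p.derivative.eval t) (hp : p.eval t < 0) : q.eval (φ t) < 0 := by
  obtain ⟨t1, h1, h2, h3, h4⟩ : ∃ t1, t < t1 ∧ p.eval t1 ≤ 0 ∧
      SignType.sign (p.eval t1) = SignType.sign (q.eval (φ t1)) ∧
      ∀ x, x < t1 → t ≤ x → 0 < p.derivative.eval x := by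
    have root : ∀ a, t < a → 0 < p.eval a → (∀ x, x < a → t ≤ x → 0 < p.derivative.eval x) →
        ∃ t1, t < t1 ∧ p.eval t1 ≤ 0 ∧
        SignType.sign (p.eval t1) = SignType.sign (q.eval (φ t1)) ∧
        ∀ x, x < t1 → t ≤ x → 0 < p.derivative.eval x := by
      intro a ha hpa hder
      obtain ⟨r, hr, hr'⟩ := intermediate_value_Ioo ha.le
        (p.continuous.continuousOn (s := Icc t a)) (show (0 : ℝ) ∈ Ioo _ _ from ⟨hp, hpa⟩)
      have hr'' : p.eval r = 0 := hr'
      refine ⟨r, hr.1, hr''.le, ?_, fun x hx => hder x (hx.trans hr.2)⟩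
      rw [hr'', hm r hr'']
    rcases right_end h.fin t with ⟨a, haZ, hat, ha⟩ | ha
    · by_cases hpa : p.eval a ≤ 0
      · exact ⟨a, hat, hpa, h.zsgn a haZ, fun x hx hxt => h.pos_right ht ha hx hxt⟩
      · exact root a hat (not_le.1 hpa) (fun x hx hxt => h.pos_right ht ha hx hxt)
    · have hd : ∀ s, t ≤ s → 0 < p.derivative.eval s := fun s hs =>
        h.pos_right ht (a := s + 1) (fun z hz hzt => absurd (ha z hz) (not_le.2 hzt))
          (by linarith) hs
      obtain ⟨s, hs1, hs2⟩ := exists_pos_right hd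
      exact root s hs1 hs2 (fun x _ hxt => hd x hxt)
  have hq1 : q.eval (φ t1) ≤ 0 := by
    rcases h2.lt_or_eq with h5 | h5
    · rw [sign_neg h5] at h3
      exact (sign_eq_neg_one_iff.1 h3.symm).le
    · rw [h5, sign_zero] at h3
      exact (sign_eq_zero_iff.1 h3.symm).le
  have hlt : φ t < φ t1 := φ.lt_iff_lt.2 h1
  have hmono := strictMonoOn_of_deriv (p := q) (a := φ t) (b := φ t1) (fun y hy => by
    apply h.dq_pos'
    apply h4
    · rw [← φ.lt_iff_lt]; simpa using hy.2
    · rw [← φ.le_iff_le]; simpa using hy.1.le)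
  exact lt_of_lt_of_le (hmono ⟨le_rfl, hlt.le⟩ ⟨hlt.le, le_rfl⟩ hlt) hq1

lemma Dat.signA_of_pos (h : Dat Z p q φ) (hm : ∀ t, p.eval t = 0 → q.eval (φ t) = 0) {t : ℝ}
    (ht : 0 < p.derivative.eval t) :
    SignType.sign (p.eval t) = SignType.sign (q.eval (φ t)) := by
  rcases lt_trichotomy (p.eval t) 0 with h0 | h0 | h0
  · rw [sign_neg h0, sign_neg (h.signA_neg hm ht h0)]
  · rw [h0, hm t h0]
  · rw [sign_pos h0, sign_pos (h.signA_pos hm ht h0)]

/-- Lemma A: if all zeros are matched then all signs are matched -/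
lemma Dat.signA (h : Dat Z p q φ) (hm : ∀ t, p.eval t = 0 → q.eval (φ t) = 0) (t : ℝ) :
    SignType.sign (p.eval t) = SignType.sign (q.eval (φ t)) := by
  rcases lt_trichotomy (p.derivative.eval t) 0 with h0 | h0 | h0
  · have := h.neg.signA_of_pos (t := t) (by simpa using hm) (by simpa using h0)
    simp only [eval_neg] at this
    simpa using sign_neg_eq _ _ this
  · exact h.zsgn t (h.droot t h0)
  · exact h.signA_of_pos hm h0

/-! ### Lemma B -/

/-- `θ` preserves the sign of a polynomial without zeros on the interval moved by `θ` -/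
lemma sign_stable {r : ℝ[X]} {c d : ℝ} {θ : ℝ ≃o ℝ} (hc : ∀ t, t ≤ c → θ t = t)
    (hd : ∀ t, d ≤ t → θ t = t) (hr : r = 0 ∨ ∀ s, c < s → s < d → r.eval s ≠ 0) (s : ℝ) :
    SignType.sign (r.eval (θ s)) = SignType.sign (r.eval s) := by
  rcases hr with hr | hr
  · simp [hr]
  rcases le_or_gt s c with h1 | h1
  · rw [hc s h1]
  rcases le_or_gt d s with h2 | h2
  · rw [hd s h2]
  have h3 : c < θ s := by
    have := θ.lt_iff_lt.2 h1; rwa [hc c le_rfl] at this
  have h4 : θ s < d := by
    have := θ.lt_iff_lt.2 h2; rwa [hd d le_rfl] at this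
  rcases le_total s (θ s) with h5 | h5
  · exact (sign_eq_of_no_root h5 fun x hx => hr x (by linarith [hx.1]) (by linarith [hx.2])).symm
  · exact sign_eq_of_no_root h5 fun x hx => hr x (by linarith [hx.1]) (by linarith [hx.2])

/-- one case of Lemma B: an unmatched zero `t0` of `p` with `p' (t0) > 0`.  There is an open
interval around `φ t0` not meeting `φ '' Z` containing a zero `s0` of `q`. -/
lemma Dat.exists_s0 (h : Dat Z p q φ) {t0 : ℝ} (ht : 0 < p.derivative.eval t0)
    (h0 : p.eval t0 = 0) (hq : q.eval (φ t0) ≠ 0) :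
    ∃ c d s0, c < φ t0 ∧ φ t0 < d ∧ c < s0 ∧ s0 < d ∧ q.eval s0 = 0 ∧
      (∀ s, c < s → s < d → φ.symm s ∉ Z) ∧
      (∀ x, c < φ x → φ x < d → 0 < p.derivative.eval x) := by
  have ht0Z : t0 ∉ Z := fun hZ => by
    have := h.zsgn t0 hZ
    rw [h0, sign_zero] at this
    exact hq (sign_eq_zero_iff.1 this.symm)
  -- the ends
  obtain ⟨c0, hc0, hc0Z⟩ : ∃ c0, c0 < t0 ∧ ∀ z ∈ Z, z < t0 → z ≤ c0 := by
    rcases left_end h.fin t0 with ⟨a, haZ, hat, ha⟩ | ha
    · exact ⟨a, hat, ha⟩
    · exact ⟨t0 - 1, by linarith, fun z hz hzt => absurd (ha z hz) (not_le.2 hzt)⟩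
  obtain ⟨d0, hd0, hd0Z⟩ : ∃ d0, t0 < d0 ∧ ∀ z ∈ Z, t0 < z → d0 ≤ z := by
    rcases right_end h.fin t0 with ⟨a, haZ, hat, ha⟩ | ha
    · exact ⟨a, hat, ha⟩
    · exact ⟨t0 + 1, by linarith, fun z hz hzt => absurd (ha z hz) (not_le.2 hzt)⟩
  rcases lt_or_gt_of_ne hq with hq | hq
  · -- the zero is on the right
    obtain ⟨a, hat, hqa, ha⟩ : ∃ a, t0 < a ∧ 0 < q.eval (φ a) ∧ ∀ z ∈ Z, t0 < z → a ≤ z := by
      rcases right_end h.fin t0 with ⟨a, haZ, hat, ha⟩ | ha
      · refine ⟨a, hat, ?_, ha⟩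
        have h1 : p.eval t0 < p.eval a :=
          (strictMonoOn_of_deriv (p := p) (a := t0) (b := a) fun x hx =>
            h.pos_right ht ha hx.2 hx.1.le) ⟨le_rfl, hat.le⟩ ⟨hat.le, le_rfl⟩ hat
        rw [h0] at h1
        have := h.zsgn a haZ
        rw [sign_pos h1] at this
        exact sign_eq_one_iff.1 this.symm
      · have hd : ∀ s, φ t0 ≤ s → 0 < q.derivative.eval s := fun s hs => by
          apply h.dq_pos'
          refine h.pos_right ht (a := φ.symm s + 1)
            (fun z hz hzt => absurd (ha z hz) (not_le.2 hzt)) (by linarith) ?_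
          rw [← φ.le_iff_le]; simpa using hs
        obtain ⟨s, hs1, hs2⟩ := exists_pos_right hd
        refine ⟨φ.symm s, ?_, by simpa using hs2,
          fun z hz hzt => absurd (ha z hz) (not_le.2 hzt)⟩
        rw [← φ.lt_iff_lt]; simpa using hs1
    have hlt : φ t0 < φ a := φ.lt_iff_lt.2 hat
    obtain ⟨s0, hs0, hs0'⟩ := intermediate_value_Ioo hlt.le
      (q.continuous.continuousOn (s := Icc (φ t0) (φ a))) (show (0 : ℝ) ∈ Ioo _ _ from ⟨hq, hqa⟩)
    refine ⟨φ c0, φ a, s0, φ.lt_iff_lt.2 hc0, hlt, (φ.lt_iff_lt.2 hc0).trans hs0.1, hs0.2, hs0',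
      ?_, ?_⟩
    · intro s hs1 hs2 hsZ
      have h3 : c0 < φ.symm s := by rw [← φ.lt_iff_lt]; simpa using hs1
      have h4 : φ.symm s < a := by rw [← φ.lt_iff_lt]; simpa using hs2
      rcases lt_trichotomy (φ.symm s) t0 with h5 | h5 | h5
      · linarith [hc0Z _ hsZ h5]
      · rw [h5] at hsZ; exact ht0Z hsZ
      · linarith [ha _ hsZ h5]
    · intro x hx1 hx2
      have h3 : c0 < x := φ.lt_iff_lt.1 hx1
      have h4 : x < a := φ.lt_iff_lt.1 hx2
      rcases le_total x t0 with h5 | h5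
      · exact h.pos_left ht hc0Z h3 h5
      · exact h.pos_right ht ha h4 h5
  · -- the zero is on the left
    obtain ⟨a, hat, hqa, ha⟩ : ∃ a, a < t0 ∧ q.eval (φ a) < 0 ∧ ∀ z ∈ Z, z < t0 → z ≤ a := by
      rcases left_end h.fin t0 with ⟨a, haZ, hat, ha⟩ | ha
      · refine ⟨a, hat, ?_, ha⟩
        have h1 : p.eval a < p.eval t0 :=
          (strictMonoOn_of_deriv (p := p) (a := a) (b := t0) fun x hx =>
            h.pos_left ht ha hx.1 hx.2.le) ⟨le_rfl, hat.le⟩ ⟨hat.le, le_rfl⟩ hat
        rw [h0] at h1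
        have := h.zsgn a haZ
        rw [sign_neg h1] at this
        exact sign_eq_neg_one_iff.1 this.symm
      · have hd : ∀ s, s ≤ φ t0 → 0 < q.derivative.eval s := fun s hs => by
          apply h.dq_pos'
          refine h.pos_left ht (a := φ.symm s - 1)
            (fun z hz hzt => absurd (ha z hz) (not_le.2 hzt)) (by linarith) ?_
          rw [← φ.le_iff_le]; simpa using hs
        obtain ⟨s, hs1, hs2⟩ := exists_neg_left hd
        refine ⟨φ.symm s, ?_, by simpa using hs2,
          fun z hz hzt => absurd (ha z hz) (not_le.2 hzt)⟩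
        rw [← φ.lt_iff_lt]; simpa using hs1
    have hlt : φ a < φ t0 := φ.lt_iff_lt.2 hat
    obtain ⟨s0, hs0, hs0'⟩ := intermediate_value_Ioo hlt.le
      (q.continuous.continuousOn (s := Icc (φ a) (φ t0))) (show (0 : ℝ) ∈ Ioo _ _ from ⟨hqa, hq⟩)
    refine ⟨φ a, φ d0, s0, hlt, φ.lt_iff_lt.2 hd0, hs0.1, hs0.2.trans (φ.lt_iff_lt.2 hd0), hs0',
      ?_, ?_⟩
    · intro s hs1 hs2 hsZ
      have h3 : a < φ.symm s := by rw [← φ.lt_iff_lt]; simpa using hs1
      have h4 : φ.symm s < d0 := by rw [← φ.lt_iff_lt]; simpa using hs2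
      rcases lt_trichotomy (φ.symm s) t0 with h5 | h5 | h5
      · linarith [ha _ hsZ h5]
      · rw [h5] at hsZ; exact ht0Z hsZ
      · linarith [hd0Z _ hsZ h5]
    · intro x hx1 hx2
      have h3 : a < x := φ.lt_iff_lt.1 hx1
      have h4 : x < d0 := φ.lt_iff_lt.1 hx2
      rcases le_total x t0 with h5 | h5
      · exact h.pos_left ht ha h3 h5
      · exact h.pos_right ht hd0Z h4 h5

/-- Lemma B -/
lemma Dat.exists_theta (h : Dat Z p q φ) {t0 : ℝ} (h0 : p.eval t0 = 0)
    (hq : q.eval (φ t0) ≠ 0) :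
    ∃ (θ : ℝ ≃o ℝ) (c d : ℝ), (∀ t, t ≤ c → θ t = t) ∧ (∀ t, d ≤ t → θ t = t) ∧
      q.eval (θ (φ t0)) = 0 ∧ (∀ s, c < s → s < d → φ.symm s ∉ Z) ∧
      (∀ x, c < φ x → φ x < d → p.eval x = 0 → x = t0) := by
  have aux : ∀ p q : ℝ[X], Dat Z p q φ → 0 < p.derivative.eval t0 → p.eval t0 = 0 →
      q.eval (φ t0) ≠ 0 → ∃ (θ : ℝ ≃o ℝ) (c d : ℝ), (∀ t, t ≤ c → θ t = t) ∧
      (∀ t, d ≤ t → θ t = t) ∧
      q.eval (θ (φ t0)) = 0 ∧ (∀ s, c < s → s < d → φ.symm s ∉ Z) ∧
      (∀ x, c < φ x → φ x < d → p.eval x = 0 → x = t0) := by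
    intro p q h ht h0 hq
    obtain ⟨c, d, s0, h1, h2, h3, h4, h5, h6, h7⟩ := h.exists_s0 ht h0 hq
    obtain ⟨θ, hθ, hθc, hθd⟩ := exists_bump h1 h2 h3 h4
    refine ⟨θ, c, d, hθc, hθd, by rw [hθ, h5], h6, ?_⟩
    intro x hx1 hx2 hx
    rcases lt_trichotomy x t0 with h8 | h8 | h8
    · exfalso
      have : p.eval x < p.eval t0 :=
        (strictMonoOn_of_deriv (p := p) (a := x) (b := t0) fun y hy =>
          h7 y (hx1.trans (φ.lt_iff_lt.2 hy.1)) ((φ.lt_iff_lt.2 hy.2).trans h2))
          ⟨le_rfl, h8.le⟩ ⟨h8.le, le_rfl⟩ h8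
      rw [hx, h0] at this
      exact lt_irrefl _ this
    · exact h8
    · exfalso
      have : p.eval t0 < p.eval x :=
        (strictMonoOn_of_deriv (p := p) (a := t0) (b := x) fun y hy =>
          h7 y (h1.trans (φ.lt_iff_lt.2 hy.1)) ((φ.lt_iff_lt.2 hy.2).trans hx2))
          ⟨le_rfl, h8.le⟩ ⟨h8.le, le_rfl⟩ h8
      rw [hx, h0] at this
      exact lt_irrefl _ this
  rcases lt_trichotomy (p.derivative.eval t0) 0 with h1 | h1 | h1
  · obtain ⟨θ, c, d, a1, a2, a3, a4, a5⟩ := aux (-p) (-q) h.neg (by simpa using h1)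
      (by simpa using h0) (by simpa using hq)
    exact ⟨θ, c, d, a1, a2, by simpa using a3, a4, fun x hx1 hx2 hx => a5 x hx1 hx2
      (by simpa using hx)⟩
  · exfalso
    have := h.zsgn t0 (h.droot t0 h1)
    rw [h0, sign_zero] at this
    exact hq (sign_eq_zero_iff.1 this.symm)
  · exact aux p q h h1 h0 hq

end

/-! ### The core theorem -/

/-- Core theorem: `P`, `Q` finite families with the same sign diagram through `φ`, containing
`p'`, `q'`; the signs of `p`, `q` are matched at the zeros of the nonzero members of the family,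
and at `0` if `p' = 0`.  Then the enlarged families have the same sign diagram. -/
theorem core {ι : Type*} [Finite ι] (P Q : ι → ℝ[X]) (p q : ℝ[X]) (i0 : ι)
    (hP : P i0 = derivative p) (hQ : Q i0 = derivative q) (φ : ℝ ≃o ℝ)
    (hφ : ∀ i t, SignType.sign ((P i).eval t) = SignType.sign ((Q i).eval (φ t)))
    (hroot : ∀ i, P i ≠ 0 → ∀ t, (P i).eval t = 0 →
      SignType.sign (p.eval t) = SignType.sign (q.eval (φ t)))
    (h0 : derivative p = 0 → SignType.sign (p.coeff 0) = SignType.sign (q.coeff 0)) :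
    ∃ ψ : ℝ ≃o ℝ, (∀ i t, SignType.sign ((P i).eval t) = SignType.sign ((Q i).eval (ψ t))) ∧
      ∀ t, SignType.sign (p.eval t) = SignType.sign (q.eval (ψ t)) := by
  classical
  by_cases hp : derivative p = 0
  · -- constants
    have hq : derivative q = 0 := by
      apply Polynomial.eq_zero_of_infinite_isRoot
      refine Set.infinite_of_injective_forall_mem (f := fun n : ℕ => (n : ℝ)) Nat.cast_injective ?_
      intro n
      have := hφ i0 (φ.symm n)
      rw [hP, hp, hQ] at this
      simp only [eval_zero, sign_zero, OrderIso.apply_symm_apply] at this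
      exact sign_eq_zero_iff.1 this.symm
    refine ⟨φ, hφ, fun t => ?_⟩
    have e1 : p = C (p.coeff 0) := Polynomial.eq_C_of_natDegree_eq_zero
      (Polynomial.natDegree_eq_zero_of_derivative_eq_zero hp)
    have e2 : q = C (q.coeff 0) := Polynomial.eq_C_of_natDegree_eq_zero
      (Polynomial.natDegree_eq_zero_of_derivative_eq_zero hq)
    rw [e1, e2, eval_C, eval_C]
    exact h0 hp
  · have hp0 : p ≠ 0 := by rintro rfl; simp at hp
    set Z : Set ℝ := {t | ∃ i, P i ≠ 0 ∧ (P i).eval t = 0} with hZ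
    have hZf : Z.Finite := by
      have : Z ⊆ ⋃ i, ((P i).roots.toFinset : Set ℝ) := by
        rintro t ⟨i, hi, hi'⟩
        exact mem_iUnion.2 ⟨i, by simp [hi, hi']⟩
      exact (finite_iUnion fun i => (P i).roots.toFinset.finite_toSet).subset this
    -- induction on the number of unmatched zeros
    have key : ∀ n : ℕ, ∀ φ : ℝ ≃o ℝ,
        (∀ i t, SignType.sign ((P i).eval t) = SignType.sign ((Q i).eval (φ t))) →
        (∀ t ∈ Z, SignType.sign (p.eval t) = SignType.sign (q.eval (φ t))) →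
        (p.roots.toFinset.filter fun t => q.eval (φ t) ≠ 0).card = n →
        ∃ ψ : ℝ ≃o ℝ, (∀ i t, SignType.sign ((P i).eval t) = SignType.sign ((Q i).eval (ψ t))) ∧
          ∀ t, SignType.sign (p.eval t) = SignType.sign (q.eval (ψ t)) := by
      intro n
      induction n using Nat.strong_induction_on with
      | _ n ih =>
        intro φ h1 h2 h3
        have hD : Dat Z p q φ :=
          { fin := hZf
            dsgn := fun t => by rw [← hP, ← hQ]; exact h1 i0 t
            droot := fun t ht => ⟨i0, by rw [hP]; exact hp, by rw [hP]; exact ht⟩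
            zsgn := h2 }
        by_cases hm : ∀ t, p.eval t = 0 → q.eval (φ t) = 0
        · exact ⟨φ, h1, hD.signA hm⟩
        · push Not at hm
          obtain ⟨t0, ht0, hqt0⟩ := hm
          obtain ⟨θ, c, d, a1, a2, a3, a4, a5⟩ := hD.exists_theta ht0 hqt0
          have hfix : ∀ t, φ t ∉ Ioo c d → θ (φ t) = φ t := by
            intro t ht
            rcases le_or_gt (φ t) c with h4 | h4
            · exact a1 _ h4
            · exact a2 _ (not_lt.1 fun h5 => ht ⟨h4, h5⟩)
          refine ih _ ?_ (φ.trans θ) ?_ ?_ rfl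
          · rw [← h3]
            apply Finset.card_lt_card
            refine ⟨?_, ?_⟩
            · intro t ht
              rw [Finset.mem_filter] at ht ⊢
              refine ⟨ht.1, ?_⟩
              have hpt : p.eval t = 0 := by
                simpa [hp0] using ht.1
              by_cases h4 : φ t ∈ Ioo c d
              · have := a5 t h4.1 h4.2 hpt
                subst this
                exact absurd a3 ht.2
              · have := ht.2
                rw [OrderIso.trans_apply, hfix t h4] at this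
                exact this
            · intro hsub
              have h5 : t0 ∈ p.roots.toFinset.filter fun t => q.eval (φ t) ≠ 0 := by
                rw [Finset.mem_filter]
                exact ⟨by simp [hp0, ht0], hqt0⟩
              have h6 := hsub h5
              rw [Finset.mem_filter] at h6
              exact h6.2 a3
          · intro i t
            rw [h1 i t, OrderIso.trans_apply]
            refine (sign_stable a1 a2 ?_ (φ t)).symm
            by_cases hQi : Q i = 0
            · exact Or.inl hQi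
            · right
              intro s hs1 hs2 hs3
              refine a4 s hs1 hs2 ⟨i, ?_, ?_⟩
              · intro hPi
                apply hQi
                apply Polynomial.eq_zero_of_infinite_isRoot
                refine Set.infinite_of_injective_forall_mem (f := fun n : ℕ => (n : ℝ))
                  Nat.cast_injective ?_
                intro n
                have := h1 i (φ.symm n)
                rw [hPi] at this
                simp only [eval_zero, sign_zero, OrderIso.apply_symm_apply] at this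
                exact sign_eq_zero_iff.1 this.symm
              · have := h1 i (φ.symm s)
                rw [OrderIso.apply_symm_apply, hs3, sign_zero] at this
                exact sign_eq_zero_iff.1 this
          · intro t ht
            rw [OrderIso.trans_apply, hfix t ?_]
            · exact h2 t ht
            · intro h4
              exact a4 (φ t) h4.1 h4.2 (by simpa using ht)
    exact key _ φ hφ (fun t ht => by
      obtain ⟨i, hi, hi'⟩ := ht
      exact hroot i hi t hi') rfl

end Crest.Agent.R264.TS
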