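import Mathlib

/-!
Row 264, module TS (Tarski-Seidenberg): semialgebraic subsets of `ι → ℝ`.

A set is semialgebraic when membership depends only on the signs of finitely many polynomials
(this is equivalent to being a finite union of sets `{P_j = 0, 0 < Q_j}`).
-/

set_option autoImplicit false

open Set

namespace Crest.Agent.R264.TS

/-- the points `x`, `y` give the same signs to all polynomials of `W` -/
def SameSign {ι : Type*} (W : Finset (MvPolynomial ι ℝ)) (x y : ι → ℝ) : Prop :=
  ∀ p ∈ W, SignType.sign (MvPolynomial.eval x p) = SignType.sign (MvPolynomial.eval y p)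

/-- semialgebraic sets: membership depends only on the signs of finitely many polynomials -/
def SA {ι : Type*} (s : Set (ι → ℝ)) : Prop :=
  ∃ W : Finset (MvPolynomial ι ℝ), ∀ x y, SameSign W x y → (x ∈ s ↔ y ∈ s)

section

variable {ι κ : Type*} {s t : Set (ι → ℝ)}

lemma SameSign.symm {W : Finset (MvPolynomial ι ℝ)} {x y : ι → ℝ} (h : SameSign W x y) :
    SameSign W y x := fun p hp => (h p hp).symm

lemma SameSign.refl (W : Finset (MvPolynomial ι ℝ)) (x : ι → ℝ) : SameSign W x x :=
  fun _ _ => rfl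

lemma SameSign.trans {W : Finset (MvPolynomial ι ℝ)} {x y z : ι → ℝ} (h : SameSign W x y)
    (h' : SameSign W y z) : SameSign W x z := fun p hp => (h p hp).trans (h' p hp)

lemma SameSign.mono {W W' : Finset (MvPolynomial ι ℝ)} {x y : ι → ℝ} (h : SameSign W' x y)
    (hW : W ⊆ W') : SameSign W x y := fun p hp => h p (hW hp)

/-- enough: one implication -/
lemma SA.of_imp (W : Finset (MvPolynomial ι ℝ)) (h : ∀ x y, SameSign W x y → x ∈ s → y ∈ s) :
    SA s := ⟨W, fun x y hxy => ⟨h x y hxy, h y x hxy.symm⟩⟩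

lemma SA.univ : SA (univ : Set (ι → ℝ)) := ⟨∅, fun _ _ _ => by simp⟩

lemma SA.empty : SA (∅ : Set (ι → ℝ)) := ⟨∅, fun _ _ _ => by simp⟩

lemma SA.const (P : Prop) : SA {_x : ι → ℝ | P} := ⟨∅, fun _ _ _ => by simp⟩

lemma SA.compl (hs : SA s) : SA sᶜ := by
  obtain ⟨W, hW⟩ := hs
  exact ⟨W, fun x y h => not_congr (hW x y h)⟩

lemma SA.inter (hs : SA s) (ht : SA t) : SA (s ∩ t) := by
  classical
  obtain ⟨W, hW⟩ := hs
  obtain ⟨V, hV⟩ := ht
  exact ⟨W ∪ V, fun x y h => and_congr (hW x y (h.mono Finset.subset_union_left))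
    (hV x y (h.mono Finset.subset_union_right))⟩

lemma SA.union (hs : SA s) (ht : SA t) : SA (s ∪ t) := by
  classical
  obtain ⟨W, hW⟩ := hs
  obtain ⟨V, hV⟩ := ht
  exact ⟨W ∪ V, fun x y h => or_congr (hW x y (h.mono Finset.subset_union_left))
    (hV x y (h.mono Finset.subset_union_right))⟩

lemma SA.diff (hs : SA s) (ht : SA t) : SA (s \ t) := hs.inter ht.compl

/-- set-builder versions, convenient for formulas -/
lemma SA.not {P : (ι → ℝ) → Prop} (h : SA {x | P x}) : SA {x | ¬ P x} := h.compl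

lemma SA.and {P Q : (ι → ℝ) → Prop} (h : SA {x | P x}) (h' : SA {x | Q x}) :
    SA {x | P x ∧ Q x} := h.inter h'

lemma SA.or {P Q : (ι → ℝ) → Prop} (h : SA {x | P x}) (h' : SA {x | Q x}) :
    SA {x | P x ∨ Q x} := h.union h'

lemma SA.imp {P Q : (ι → ℝ) → Prop} (h : SA {x | P x}) (h' : SA {x | Q x}) :
    SA {x | P x → Q x} := by
  have e : {x | P x → Q x} = {x | ¬ P x ∨ Q x} := by
    ext x; exact imp_iff_not_or
  rw [e]; exact h.not.or h'

lemma SA.iff {P Q : (ι → ℝ) → Prop} (h : SA {x | P x}) (h' : SA {x | Q x}) :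
    SA {x | P x ↔ Q x} := by
  have e : {x | P x ↔ Q x} = {x | (P x → Q x) ∧ (Q x → P x)} := by
    ext x; exact iff_iff_implies_and_implies
  rw [e]; exact (h.imp h').and (h'.imp h)

lemma SA.iUnion {α : Type*} [Finite α] {f : α → Set (ι → ℝ)} (h : ∀ a, SA (f a)) :
    SA (⋃ a, f a) := by
  classical
  have := Fintype.ofFinite α
  choose W hW using h
  refine SA.of_imp (Finset.univ.biUnion W) fun x y hxy hx => ?_
  rw [mem_iUnion] at hx ⊢
  obtain ⟨a, ha⟩ := hx
  exact ⟨a, (hW a x y (hxy.mono (Finset.subset_biUnion_of_mem W (Finset.mem_univ a)))).1 ha⟩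

lemma SA.iInter {α : Type*} [Finite α] {f : α → Set (ι → ℝ)} (h : ∀ a, SA (f a)) :
    SA (⋂ a, f a) := by
  have := (SA.iUnion fun a => (h a).compl).compl
  rwa [compl_iUnion, iInter_congr fun a => compl_compl (f a)] at this

lemma SA.exists_finite {α : Type*} [Finite α] {P : α → (ι → ℝ) → Prop} (h : ∀ a, SA {x | P a x}) :
    SA {x | ∃ a, P a x} := by
  convert SA.iUnion h using 1
  ext x; simp

lemma SA.forall_finite {α : Type*} [Finite α] {P : α → (ι → ℝ) → Prop} (h : ∀ a, SA {x | P a x}) :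
    SA {x | ∀ a, P a x} := by
  convert SA.iInter h using 1
  ext x; simp

lemma SA.biUnion_finset {α : Type*} (S : Finset α) {f : α → Set (ι → ℝ)} (h : ∀ a ∈ S, SA (f a)) :
    SA (⋃ a ∈ S, f a) := by
  have := SA.iUnion (α := S) (f := fun a => f a) fun a => h a a.2
  convert this using 1
  ext x; simp

lemma SA.biUnion_finite {α : Type*} {S : Set α} (hS : S.Finite) {f : α → Set (ι → ℝ)}
    (h : ∀ a ∈ S, SA (f a)) : SA (⋃ a ∈ S, f a) := by
  have := SA.biUnion_finset hS.toFinset (f := f) fun a ha => h a (hS.mem_toFinset.1 ha)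
  convert this using 1
  ext x; simp

/-! ### polynomial conditions -/

lemma SA.sign_eq (p : MvPolynomial ι ℝ) (e : SignType) :
    SA {x | SignType.sign (MvPolynomial.eval x p) = e} :=
  SA.of_imp {p} fun x y h hx => by
    have := h p (Finset.mem_singleton_self p)
    change SignType.sign (MvPolynomial.eval y p) = e
    rw [← this]; exact hx

lemma SA.pos (p : MvPolynomial ι ℝ) : SA {x | 0 < MvPolynomial.eval x p} := by
  simpa only [sign_eq_one_iff] using SA.sign_eq p 1

lemma SA.neg (p : MvPolynomial ι ℝ) : SA {x | MvPolynomial.eval x p < 0} := by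
  simpa only [sign_eq_neg_one_iff] using SA.sign_eq p (-1)

lemma SA.eq_zero (p : MvPolynomial ι ℝ) : SA {x | MvPolynomial.eval x p = 0} := by
  simpa only [sign_eq_zero_iff] using SA.sign_eq p 0

lemma SA.nonneg (p : MvPolynomial ι ℝ) : SA {x | 0 ≤ MvPolynomial.eval x p} := by
  simpa only [not_lt] using (SA.neg p).not

lemma SA.lt (p q : MvPolynomial ι ℝ) :
    SA {x | MvPolynomial.eval x p < MvPolynomial.eval x q} := by
  simpa only [map_sub, sub_pos] using SA.pos (q - p)

lemma SA.le (p q : MvPolynomial ι ℝ) :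
    SA {x | MvPolynomial.eval x p ≤ MvPolynomial.eval x q} := by
  simpa only [map_sub, sub_nonneg] using SA.nonneg (q - p)

lemma SA.eq (p q : MvPolynomial ι ℝ) :
    SA {x | MvPolynomial.eval x p = MvPolynomial.eval x q} := by
  simpa only [map_sub, sub_eq_zero] using SA.eq_zero (p - q)

/-- preimage under a polynomial map -/
lemma SA.preimage {s : Set (κ → ℝ)} (hs : SA s) (P : κ → MvPolynomial ι ℝ) :
    SA {x : ι → ℝ | (fun k => MvPolynomial.eval x (P k)) ∈ s} := by
  classical
  obtain ⟨W, hW⟩ := hs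
  refine SA.of_imp (W.image (MvPolynomial.aeval P)) fun x y hxy hx => ?_
  have key : ∀ (z : ι → ℝ) (q : MvPolynomial κ ℝ), MvPolynomial.eval z (MvPolynomial.aeval P q) =
      MvPolynomial.eval (fun k => MvPolynomial.eval z (P k)) q := by
    intro z q
    induction q using MvPolynomial.induction_on with
    | C a => simp
    | add p q hp hq => rw [map_add, map_add, map_add, hp, hq]
    | mul_X p i hp => rw [map_mul, map_mul, map_mul, hp, MvPolynomial.aeval_X, MvPolynomial.eval_X]
  refine (hW _ _ fun q hq => ?_).1 hx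
  rw [← key, ← key]
  exact hxy _ (Finset.mem_image_of_mem _ hq)

/-- preimage under a reindexing -/
lemma SA.reindex {s : Set (κ → ℝ)} (hs : SA s) (f : κ → ι) :
    SA {x : ι → ℝ | (fun k => x (f k)) ∈ s} := by
  simpa using hs.preimage (fun k => (MvPolynomial.X (f k) : MvPolynomial ι ℝ))

end

end Crest.Agent.R264.TS
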