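import Crest.Agent.R264.TS1
import Crest.Agent.R264.TSDefs

/-!
Row 264, module TS (Tarski-Seidenberg), part 2: elimination of one variable.
-/

set_option autoImplicit false

open Polynomial Set

namespace Crest.Agent.R264.TS

section Algebra

variable {A : Type*} [CommRing A]

/-- pseudo division -/
lemma exists_pseudo_div (q : A[X]) (hq : 1 ≤ q.natDegree) :
    ∀ (n : ℕ) (p : A[X]), p.natDegree ≤ n → ∃ (k : ℕ) (a r : A[X]),
      C (q.leadingCoeff ^ k) * p = a * q + r ∧ r.natDegree < q.natDegree := by
  intro n
  induction n with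
  | zero =>
    intro p hp
    exact ⟨0, 0, p, by simp, by omega⟩
  | succ n ih =>
    intro p hp
    by_cases hpm : p.natDegree < q.natDegree
    · exact ⟨0, 0, p, by simp, hpm⟩
    rcases Nat.lt_or_ge p.natDegree (n + 1) with h1 | h1
    · exact ih p (by omega)
    have hpn : p.natDegree = n + 1 := le_antisymm hp h1
    set m := q.natDegree with hm
    set p1 : A[X] := C q.leadingCoeff * p - C p.leadingCoeff * X ^ (n + 1 - m) * q with hp1
    have hdeg : p1.natDegree ≤ n + 1 := by
      rw [hp1]
      refine (Polynomial.natDegree_sub_le _ _).trans (max_le ?_ ?_)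
      · exact (Polynomial.natDegree_C_mul_le _ _).trans hp
      · rw [mul_assoc]
        refine (Polynomial.natDegree_C_mul_le _ _).trans ?_
        refine Polynomial.natDegree_mul_le.trans ?_
        have := Polynomial.natDegree_X_pow_le (R := A) (n + 1 - m)
        omega
    have hcoeff : p1.coeff (n + 1) = 0 := by
      have e1 : n + 1 = m + (n + 1 - m) := by omega
      have e2 : (X ^ (n + 1 - m) * q).coeff (n + 1) = q.leadingCoeff := by
        conv_lhs => rw [e1]
        rw [show m + (n + 1 - m) - m = n + 1 - m by omega, Polynomial.coeff_X_pow_mul]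
        rfl
      rw [hp1, coeff_sub, coeff_C_mul, mul_assoc, coeff_C_mul, e2]
      have e3 : p.coeff (n + 1) = p.leadingCoeff := by rw [← hpn]; rfl
      rw [e3]; ring
    have hdeg' : p1.natDegree ≤ n := by
      by_contra hcon
      have h2 : p1.natDegree = n + 1 := by omega
      have h3 : p1.leadingCoeff = 0 := by rw [Polynomial.leadingCoeff, h2]; exact hcoeff
      rw [Polynomial.leadingCoeff_eq_zero] at h3
      rw [h3] at h2
      simp at h2
    obtain ⟨k, a, r, h4, h5⟩ := ih p1 hdeg'
    refine ⟨k + 1, a + C (q.leadingCoeff ^ k) * (C p.leadingCoeff * X ^ (n + 1 - m)), r, ?_, h5⟩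
    have h6 : C q.leadingCoeff * p = p1 + C p.leadingCoeff * X ^ (n + 1 - m) * q := by
      rw [hp1]; ring
    calc C (q.leadingCoeff ^ (k + 1)) * p = C (q.leadingCoeff ^ k) * (C q.leadingCoeff * p) := by
          rw [pow_succ, C_mul]; ring
      _ = C (q.leadingCoeff ^ k) * p1 +
          C (q.leadingCoeff ^ k) * (C p.leadingCoeff * X ^ (n + 1 - m) * q) := by rw [h6]; ring
      _ = _ := by rw [h4]; ring

lemma exists_prem (p q : A[X]) : ∃ r : A[X], r.natDegree ≤ q.natDegree - 1 ∧
    (1 ≤ q.natDegree → ∃ (k : ℕ) (a : A[X]),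
      C (q.leadingCoeff ^ (2 * k)) * p = a * q + r) := by
  by_cases hq : 1 ≤ q.natDegree
  · obtain ⟨k, a, r, h1, h2⟩ := exists_pseudo_div q hq p.natDegree p le_rfl
    refine ⟨C (q.leadingCoeff ^ k) * r, ?_, fun _ => ⟨k, C (q.leadingCoeff ^ k) * a, ?_⟩⟩
    · have := Polynomial.natDegree_C_mul_le (q.leadingCoeff ^ k) r
      omega
    · calc C (q.leadingCoeff ^ (2 * k)) * p
          = C (q.leadingCoeff ^ k) * (C (q.leadingCoeff ^ k) * p) := by
            rw [two_mul, pow_add, C_mul]; ring
        _ = _ := by rw [h1]; ring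
  · exact ⟨0, by simp, fun h => absurd h hq⟩

/-- the pseudo remainder (with an even power of the leading coefficient) -/
noncomputable def prem (p q : A[X]) : A[X] := (exists_prem p q).choose

lemma natDegree_prem (p q : A[X]) : (prem p q).natDegree ≤ q.natDegree - 1 :=
  (exists_prem p q).choose_spec.1

lemma prem_spec (p q : A[X]) (hq : 1 ≤ q.natDegree) : ∃ (k : ℕ) (a : A[X]),
      C (q.leadingCoeff ^ (2 * k)) * p = a * q + prem p q :=
  (exists_prem p q).choose_spec.2 hq

/-- truncation: the terms of degree `≤ j` -/
noncomputable def tail (q : A[X]) (j : ℕ) : A[X] :=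
  ∑ i ∈ Finset.range (j + 1), monomial i (q.coeff i)

lemma coeff_tail (q : A[X]) (j i : ℕ) :
    (tail q j).coeff i = if i ≤ j then q.coeff i else 0 := by
  simp only [tail, finsetSum_coeff, coeff_monomial, Finset.sum_ite_eq', Finset.mem_range]
  simp only [Nat.lt_succ_iff]

lemma natDegree_tail_le (q : A[X]) (j : ℕ) : (tail q j).natDegree ≤ j := by
  rw [Polynomial.natDegree_le_iff_coeff_eq_zero]
  intro i hi
  rw [coeff_tail, if_neg (not_le.2 hi)]

lemma natDegree_tail (q : A[X]) (j : ℕ) (h : q.coeff j ≠ 0) : (tail q j).natDegree = j := by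
  refine le_antisymm (natDegree_tail_le q j) ?_
  apply Polynomial.le_natDegree_of_ne_zero
  rw [coeff_tail, if_pos le_rfl]; exact h

lemma leadingCoeff_tail (q : A[X]) (j : ℕ) (h : q.coeff j ≠ 0) :
    (tail q j).leadingCoeff = q.coeff j := by
  rw [Polynomial.leadingCoeff, natDegree_tail q j h, coeff_tail, if_pos le_rfl]

lemma tail_map_eq {B : Type*} [CommRing B] (f : A →+* B) (q : A[X]) (j : ℕ)
    (h : ∀ i, j < i → f (q.coeff i) = 0) : (tail q j).map f = q.map f := by
  ext i
  rw [coeff_map, coeff_map, coeff_tail]
  split_ifs with hi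
  · rfl
  · rw [map_zero, h i (not_le.1 hi)]

end Algebra

section Elim

variable {A X : Type*} [CommRing A] (ev : X → A →+* ℝ)

/-- the two specialisations of the family `F` have the same sign diagram -/
def Sim (F : Finset A[X]) (x y : X) : Prop :=
  ∃ φ : ℝ ≃o ℝ, ∀ p ∈ F, ∀ t, SignType.sign ((p.map (ev x)).eval t) =
    SignType.sign ((p.map (ev y)).eval (φ t))

lemma sign_mul_pow_even {c a : ℝ} (k : ℕ) (hc : c ≠ 0) :
    SignType.sign (c ^ (2 * k) * a) = SignType.sign a := by
  have : 0 < c ^ (2 * k) := by
    rw [pow_mul]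
    exact pow_pos (by positivity) k
  rw [sign_mul, sign_pos this, one_mul]

open Classical in
/-- the derived family -/
noncomputable def derived (F : Finset A[X]) (p : A[X]) (N : ℕ) : Finset A[X] :=
  let G := insert (derivative p) (F.erase p)
  G ∪ (G ×ˢ Finset.range N).image (fun z => prem p (tail z.1 z.2)) ∪
    ((insert p G) ×ˢ Finset.range N).image (fun z => C (z.1.coeff z.2))

/-- signs of the derived family determine the signs of the family -/
lemma Sim.of_derived {F : Finset A[X]} {p : A[X]} {N : ℕ}
    (hN : ∀ q ∈ F, q.natDegree < N) (hpN : p.natDegree < N) {x y : X}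
    (h : Sim ev (derived F p N) x y) : Sim ev F x y := by
  classical
  obtain ⟨φ, hφ⟩ := h
  set G := insert (derivative p) (F.erase p) with hG
  have hGN : ∀ q ∈ G, q.natDegree < N := by
    intro q hq
    rw [hG, Finset.mem_insert] at hq
    rcases hq with rfl | hq
    · exact lt_of_le_of_lt ((Polynomial.natDegree_derivative_le p).trans (Nat.sub_le _ _)) hpN
    · exact hN q (Finset.mem_of_mem_erase hq)
  have hmemG : ∀ q ∈ G, q ∈ derived F p N := by
    intro q hq
    simp only [derived, Finset.mem_union]
    exact Or.inl (Or.inl hq)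
  have hmemP : ∀ q ∈ G, ∀ j < N, prem p (tail q j) ∈ derived F p N := by
    intro q hq j hj
    simp only [derived, Finset.mem_union, Finset.mem_image]
    exact Or.inl (Or.inr ⟨(q, j), Finset.mem_product.2 ⟨hq, Finset.mem_range.2 hj⟩, rfl⟩)
  have hmemC : ∀ q ∈ insert p G, ∀ j < N, C (q.coeff j) ∈ derived F p N := by
    intro q hq j hj
    simp only [derived, Finset.mem_union, Finset.mem_image]
    exact Or.inr ⟨(q, j), Finset.mem_product.2 ⟨hq, Finset.mem_range.2 hj⟩, rfl⟩
  have hcoef : ∀ q ∈ insert p G, ∀ j < N,
      SignType.sign (ev x (q.coeff j)) = SignType.sign (ev y (q.coeff j)) := by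
    intro q hq j hj
    have := hφ _ (hmemC q hq j hj) 0
    simpa using this
  have hcore := core (ι := G) (fun i => (i.1).map (ev x)) (fun i => (i.1).map (ev y))
    (p.map (ev x)) (p.map (ev y)) ⟨derivative p, Finset.mem_insert_self _ _⟩
    (by simp [derivative_map]) (by simp [derivative_map]) φ
    (fun i t => hφ i.1 (hmemG i.1 i.2) t) ?_ ?_
  · obtain ⟨ψ, h1, h2⟩ := hcore
    refine ⟨ψ, fun q hq t => ?_⟩
    by_cases hqp : q = p
    · rw [hqp]; exact h2 t
    · exact h1 ⟨q, Finset.mem_insert_of_mem (Finset.mem_erase.2 ⟨hqp, hq⟩)⟩ t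
  · rintro ⟨q, hq⟩ hne t ht
    simp only at hne ht ⊢
    set m := (q.map (ev x)).natDegree with hm
    have hm1 : 1 ≤ m := by
      by_contra hcon
      have h0 : (q.map (ev x)).natDegree = 0 := by omega
      rw [Polynomial.eq_C_of_natDegree_eq_zero h0, eval_C] at ht
      apply hne
      rw [Polynomial.eq_C_of_natDegree_eq_zero h0, ht, C_0]
    have hmN : m < N := lt_of_le_of_lt Polynomial.natDegree_map_le (hGN q hq)
    have hx0 : ∀ i, m < i → ev x (q.coeff i) = 0 := by
      intro i hi
      rw [← coeff_map]
      exact Polynomial.coeff_eq_zero_of_natDegree_lt hi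
    have hqmem : q ∈ insert p G := Finset.mem_insert_of_mem hq
    have hy0 : ∀ i, m < i → ev y (q.coeff i) = 0 := by
      intro i hi
      by_cases hiN : i < N
      · have := hcoef q hqmem i hiN
        rw [hx0 i hi, sign_zero] at this
        exact sign_eq_zero_iff.1 this.symm
      · rw [Polynomial.coeff_eq_zero_of_natDegree_lt (lt_of_lt_of_le (hGN q hq) (not_lt.1 hiN)),
          map_zero]
    have hxm : ev x (q.coeff m) ≠ 0 := by
      rw [← coeff_map, hm]
      exact (Polynomial.leadingCoeff_ne_zero).2 hne
    have hym : ev y (q.coeff m) ≠ 0 := by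
      intro h0
      have := hcoef q hqmem m hmN
      rw [h0, sign_zero] at this
      exact hxm (sign_eq_zero_iff.1 this)
    have hqm : q.coeff m ≠ 0 := fun h0 => hxm (by rw [h0, map_zero])
    have htx := tail_map_eq (ev x) q m hx0
    have hty := tail_map_eq (ev y) q m hy0
    have hqy : (q.map (ev y)).eval (φ t) = 0 := by
      have := hφ q (hmemG q hq) t
      rw [ht, sign_zero] at this
      exact sign_eq_zero_iff.1 this.symm
    obtain ⟨k, a, hka⟩ := prem_spec p (tail q m) (by rw [natDegree_tail q m hqm]; exact hm1)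
    rw [leadingCoeff_tail q m hqm] at hka
    have ex : (ev x (q.coeff m)) ^ (2 * k) * (p.map (ev x)).eval t =
        ((prem p (tail q m)).map (ev x)).eval t := by
      have := congrArg (fun r => (r.map (ev x)).eval t) hka
      simp only [Polynomial.map_mul, Polynomial.map_add, map_C, eval_mul, eval_add, eval_C, htx,
        ht, mul_zero, zero_add, map_pow, Polynomial.map_pow, eval_pow] at this
      exact this
    have ey : (ev y (q.coeff m)) ^ (2 * k) * (p.map (ev y)).eval (φ t) =
        ((prem p (tail q m)).map (ev y)).eval (φ t) := by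
      have := congrArg (fun r => (r.map (ev y)).eval (φ t)) hka
      simp only [Polynomial.map_mul, Polynomial.map_add, map_C, eval_mul, eval_add, eval_C, hty,
        hqy, mul_zero, zero_add, map_pow, Polynomial.map_pow, eval_pow] at this
      exact this
    have h3 := hφ _ (hmemP q hq m hmN) t
    rw [← ex, ← ey, sign_mul_pow_even k hxm, sign_mul_pow_even k hym] at h3
    exact h3
  · intro _
    rw [coeff_map, coeff_map]
    exact hcoef p (Finset.mem_insert_self _ _) 0 (by omega)

/-- **Elimination of one variable**: the sign diagram of a finite family of polynomials with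
coefficients in `A` is determined by the signs of finitely many elements of `A`. -/
theorem exists_elim (F : Finset A[X]) : ∃ W : Finset A, ∀ x y : X,
    (∀ a ∈ W, SignType.sign (ev x a) = SignType.sign (ev y a)) → Sim ev F x y := by
  classical
  have main : ∀ n k : ℕ, ∀ F : Finset A[X], (∀ p ∈ F, p.natDegree ≤ n) →
      (F.filter fun p => p.natDegree = n).card ≤ k → ∃ W : Finset A, ∀ x y : X,
      (∀ a ∈ W, SignType.sign (ev x a) = SignType.sign (ev y a)) → Sim ev F x y := by
    intro n
    induction n with
    | zero =>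
      intro k F hF _
      refine ⟨F.image fun p => p.coeff 0, fun x y h => ⟨OrderIso.refl ℝ, fun p hp t => ?_⟩⟩
      have h0 : p.natDegree = 0 := Nat.le_zero.1 (hF p hp)
      have := h _ (Finset.mem_image_of_mem _ hp)
      rw [Polynomial.eq_C_of_natDegree_eq_zero h0]
      simpa using this
    | succ n ihn =>
      intro k
      have fallback : ∀ F : Finset A[X], (∀ p ∈ F, p.natDegree ≤ n + 1) →
          (F.filter fun p => p.natDegree = n + 1) = ∅ → ∃ W : Finset A, ∀ x y : X,
          (∀ a ∈ W, SignType.sign (ev x a) = SignType.sign (ev y a)) → Sim ev F x y := by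
        intro F hF hF0
        refine ihn F.card F (fun p hp => ?_) (Finset.card_filter_le _ _)
        have h1 := hF p hp
        have h2 : p.natDegree ≠ n + 1 := fun h3 => by
          have : p ∈ F.filter fun p => p.natDegree = n + 1 := Finset.mem_filter.2 ⟨hp, h3⟩
          rw [hF0] at this
          simp at this
        omega
      induction k with
      | zero =>
        intro F hF hk
        exact fallback F hF (Finset.card_eq_zero.1 (Nat.le_zero.1 hk))
      | succ k ihk =>
        intro F hF hk
        rcases (F.filter fun p => p.natDegree = n + 1).eq_empty_or_nonempty with h0 | ⟨p, hp⟩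
        · exact fallback F hF h0
        · rw [Finset.mem_filter] at hp
          obtain ⟨hpF, hpn⟩ := hp
          have hdeg : ∀ q ∈ derived F p (n + 2), q.natDegree ≤ n ∨ q ∈ F.erase p := by
            intro q hq
            simp only [derived, Finset.mem_union, Finset.mem_image, Finset.mem_insert,
              Finset.mem_product, Finset.mem_range] at hq
            rcases hq with ((rfl | hq) | ⟨⟨q', j⟩, ⟨_, hj⟩, rfl⟩) | ⟨⟨q', j⟩, ⟨_, hj⟩, rfl⟩
            · left
              have := Polynomial.natDegree_derivative_le p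
              omega
            · exact Or.inr hq
            · left
              have h1 := natDegree_prem p (tail q' j)
              have h2 := natDegree_tail_le q' j
              simp only at hj h1 h2 ⊢
              omega
            · left
              simp
          obtain ⟨W, hW⟩ := ihk (derived F p (n + 2)) (fun q hq => by
              rcases hdeg q hq with h1 | h1
              · omega
              · exact hF q (Finset.mem_of_mem_erase h1)) (by
              have hsub : ((derived F p (n + 2)).filter fun q => q.natDegree = n + 1) ⊆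
                  (F.filter fun q => q.natDegree = n + 1).erase p := by
                intro q hq
                rw [Finset.mem_filter] at hq
                rcases hdeg q hq.1 with h1 | h1
                · omega
                · rw [Finset.mem_erase] at h1 ⊢
                  exact ⟨h1.1, Finset.mem_filter.2 ⟨h1.2, hq.2⟩⟩
              have h2 := Finset.card_le_card hsub
              rw [Finset.card_erase_of_mem (Finset.mem_filter.2 ⟨hpF, hpn⟩)] at h2
              omega)
          refine ⟨W, fun x y hxy => ?_⟩
          exact Sim.of_derived ev (fun q hq => by have := hF q hq; omega) (by omega) (hW x y hxy)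
  exact main (F.sup Polynomial.natDegree) F.card F
    (fun p hp => Finset.le_sup (f := Polynomial.natDegree) hp) (Finset.card_filter_le _ _)

end Elim

/-! ### Projections -/

section Projection

variable {ι : Type*}

/-- evaluation of a polynomial in `Option ι` variables -/
lemma eval_option (x : ι → ℝ) (t : ℝ) (p : MvPolynomial (Option ι) ℝ) :
    MvPolynomial.eval (fun o : Option ι => o.elim t x) p =
      ((MvPolynomial.optionEquivLeft ℝ ι p).map (MvPolynomial.eval x)).eval t := by
  induction p using MvPolynomial.induction_on with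
  | C a => simp
  | add p q hp hq => simp [hp, hq]
  | mul_X p i hp =>
    rw [map_mul, map_mul, hp, Polynomial.map_mul, eval_mul, MvPolynomial.eval_X]
    cases i with
    | none => simp
    | some i => simp

/-- the strong form of Tarski-Seidenberg -/
theorem exists_iso (F : Finset (MvPolynomial (Option ι) ℝ)) :
    ∃ W : Finset (MvPolynomial ι ℝ), ∀ x y : ι → ℝ, SameSign W x y →
      ∃ φ : ℝ ≃o ℝ, ∀ t, SameSign F (fun o : Option ι => o.elim t x)
        (fun o : Option ι => o.elim (φ t) y) := by
  classical
  obtain ⟨W, hW⟩ := exists_elim (A := MvPolynomial ι ℝ) (fun x : ι → ℝ => MvPolynomial.eval x)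
    (F.image (MvPolynomial.optionEquivLeft ℝ ι))
  refine ⟨W, fun x y hxy => ?_⟩
  obtain ⟨φ, hφ⟩ := hW x y hxy
  refine ⟨φ, fun t p hp => ?_⟩
  rw [eval_option, eval_option]
  exact hφ _ (Finset.mem_image_of_mem _ hp) t

/-- the fibres of an SA set over points with the same signs correspond to each other by an order
isomorphism of the line -/
theorem SA.exists_iso {s : Set (Option ι → ℝ)} (hs : SA s) :
    ∃ W : Finset (MvPolynomial ι ℝ), ∀ x y : ι → ℝ, SameSign W x y →
      ∃ φ : ℝ ≃o ℝ, ∀ t, ((fun o : Option ι => o.elim t x) ∈ s ↔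
        (fun o : Option ι => o.elim (φ t) y) ∈ s) := by
  obtain ⟨F, hF⟩ := hs
  obtain ⟨W, hW⟩ := TS.exists_iso F
  refine ⟨W, fun x y hxy => ?_⟩
  obtain ⟨φ, hφ⟩ := hW x y hxy
  exact ⟨φ, fun t => hF _ _ (hφ t)⟩

/-- **Tarski-Seidenberg**, one variable (see `SA.ex_option` in `TSProj`) -/
theorem SA.exOpt' {s : Set (Option ι → ℝ)} (hs : SA s) :
    SA {x : ι → ℝ | ∃ t : ℝ, (fun o : Option ι => o.elim t x) ∈ s} := by
  obtain ⟨W, hW⟩ := hs.exists_iso
  refine SA.of_imp W fun x y hxy hx => ?_
  obtain ⟨t, ht⟩ := hx
  obtain ⟨φ, hφ⟩ := hW x y hxy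
  exact ⟨φ t, (hφ t).1 ht⟩

end Projection

end Crest.Agent.R264.TS
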