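import Crest.Agent.R264.TSGlue

/-!
# Tarski-Seidenberg core: sign determination (row 264, helper235)
-/

set_option autoImplicit false

namespace Crest.Agent.R264.TSCore

open Polynomial SignType Crest.Agent.R264.TSGlue

variable {A X : Type*} [CommRing A] (ev : X → A →+* ℝ)

/-- the value of `P` at `(x, t)` -/
noncomputable def val (P : A[X]) (x : X) (t : ℝ) : ℝ := (P.map (ev x)).eval t

theorem pow_pos_of_ne {a : ℝ} (h : a ≠ 0) : 0 < a ^ 2 := by positivity

/-- pseudo-remainder with respect to the formal leading coefficient of degree `e`. -/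
theorem exists_rem (Q : A[X]) (e : ℕ) (he : e ≠ 0) (hQ : Q.natDegree ≤ e) :
    ∀ (n : ℕ) (P : A[X]), P.natDegree ≤ n → ∃ G : A[X], G.natDegree < e ∧
      ∀ x z, ev x (Q.coeff e) ≠ 0 → val ev Q x z = 0 →
        sign (val ev P x z) = sign (val ev G x z) := by
  intro n
  induction n with
  | zero =>
    intro P hP
    exact ⟨P, by omega, fun _ _ _ _ => rfl⟩
  | succ n ih =>
    intro P hP
    by_cases hlt : P.natDegree < e
    · exact ⟨P, hlt, fun _ _ _ _ => rfl⟩
    · push Not at hlt
      set b := Q.coeff e with hb
      set P1 : A[X] := C (b ^ 2) * P - C (b * P.coeff (n + 1)) * Polynomial.X ^ (n + 1 - e) * Q with hP1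
      by_cases hlt2 : P.natDegree ≤ n
      · exact ih P hlt2
      · have hPn : P.natDegree = n + 1 := by omega
        have hen : e ≤ n + 1 := by omega
        have hdeg : P1.natDegree ≤ n := by
          rw [natDegree_le_iff_coeff_eq_zero]
          intro m hm
          rw [hP1, coeff_sub, coeff_C_mul, mul_assoc, coeff_C_mul, coeff_X_pow_mul']
          have hle : n + 1 - e ≤ m := by omega
          rw [if_pos hle]
          rcases eq_or_lt_of_le (Nat.succ_le_of_lt hm) with h1 | h1
          · have h1' : m = n + 1 := by omega
            subst h1'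
            have : n + 1 - (n + 1 - e) = e := by omega
            rw [this, ← hb]
            ring
          · have h2 : P.coeff m = 0 := coeff_eq_zero_of_natDegree_lt (by omega)
            have h3 : Q.coeff (m - (n + 1 - e)) = 0 := coeff_eq_zero_of_natDegree_lt (by omega)
            rw [h2, h3]; simp
        obtain ⟨G, hG, hG'⟩ := ih P1 hdeg
        refine ⟨G, hG, fun x z hx hz => ?_⟩
        rw [← hG' x z hx hz]
        have h1 : val ev P1 x z = (ev x b) ^ 2 * val ev P x z := by
          simp only [val] at hz ⊢
          rw [hP1]
          simp [hz]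
        rw [h1, sign_mul, sign_pos (pow_pos_of_ne hx), one_mul]

/-- the sign equivalence of a family at two points -/
def Sim (F : Multiset A[X]) (x y : X) : Prop :=
  ∃ ψ : ℝ ≃o ℝ, ∀ P ∈ F, ∀ t, sign (val ev P x t) = sign (val ev P y (ψ t))

theorem exists_sign_determination (F : Multiset A[X]) :
    ∃ W : Finset A, ∀ x y : X, (∀ a ∈ W, sign (ev x a) = sign (ev y a)) → Sim ev F x y := by
  classical
  have hwf : WellFounded (Relation.CutExpand (fun P Q : A[X] => P.natDegree < Q.natDegree)) :=
    WellFounded.cutExpand (measure (fun P : A[X] => P.natDegree)).wf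
  induction F using hwf.induction with
  | h F ih =>
  by_cases hconst : ∀ P ∈ F, P.natDegree = 0
  · refine ⟨F.toFinset.image (fun P => P.coeff 0), fun x y hxy => ⟨OrderIso.refl ℝ, ?_⟩⟩
    intro P hP t
    have h1 : P = C (P.coeff 0) := eq_C_of_natDegree_eq_zero (hconst P hP)
    have h2 : ∀ x t, val ev P x t = ev x (P.coeff 0) := by
      intro x t
      rw [val, h1]; simp
    rw [h2, h2]
    exact hxy _ (Finset.mem_image.2 ⟨P, by simpa using hP, rfl⟩)
  · push Not at hconst
    -- replacing Q by its eraseLead
    have hE : ∀ Q : A[X], ∃ W : Finset A, Q ∈ F → Q.natDegree ≠ 0 → ∀ x y : X,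
        (∀ a ∈ W, sign (ev x a) = sign (ev y a)) → Sim ev (F.erase Q + {Q.eraseLead}) x y := by
      intro Q
      by_cases hQ : Q ∈ F ∧ Q.natDegree ≠ 0
      · have hcut : Relation.CutExpand (fun P Q : A[X] => P.natDegree < Q.natDegree)
            (F.erase Q + {Q.eraseLead}) F := by
          refine ⟨{Q.eraseLead}, Q, ?_, ?_⟩
          · intro a ha
            rw [Multiset.mem_singleton] at ha
            subst ha
            have := eraseLead_natDegree_le Q
            have := hQ.2
            omega
          · conv_rhs => rw [← Multiset.cons_erase hQ.1]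
            rw [← Multiset.singleton_add]
            abel
        obtain ⟨W, hW⟩ := ih _ hcut
        exact ⟨W, fun _ _ => hW⟩
      · exact ⟨∅, fun h1 h2 => absurd ⟨h1, h2⟩ hQ⟩
    choose WE hWE using hE
    -- the polynomial of maximal degree
    obtain ⟨P, hPF, hPmax⟩ : ∃ P ∈ F, ∀ Q ∈ F, Q.natDegree ≤ P.natDegree := by
      obtain ⟨P0, hP0, _⟩ := hconst
      obtain ⟨P, hP, hmax⟩ := F.toFinset.exists_max_image (fun Q => Q.natDegree)
        ⟨P0, by simpa using hP0⟩
      exact ⟨P, by simpa using hP, fun Q hQ => hmax Q (by simpa using hQ)⟩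
    have hd : P.natDegree ≠ 0 := by
      obtain ⟨P0, hP0, hP0'⟩ := hconst
      have := hPmax P0 hP0
      omega
    set d := P.natDegree with hddef
    have hrem : ∀ Q : A[X], ∃ G : A[X], Q.natDegree ≤ d → (G.natDegree < d ∧
        (Q.natDegree ≠ 0 → ∀ x z, ev x Q.leadingCoeff ≠ 0 → val ev Q x z = 0 →
          sign (val ev P x z) = sign (val ev G x z))) := by
      intro Q
      by_cases hQ0 : Q.natDegree = 0
      · exact ⟨0, fun _ => ⟨by simp; omega, fun h => absurd hQ0 h⟩⟩
      · obtain ⟨G, hG, hG'⟩ := exists_rem ev Q Q.natDegree hQ0 le_rfl P.natDegree P le_rfl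
        exact ⟨G, fun hle => ⟨by omega, fun _ => hG'⟩⟩
    choose g hg using hrem
    have hrem' : ∃ G : A[X], G.natDegree < d ∧ (d - 1 ≠ 0 → ∀ x z,
        ev x (P.derivative.coeff (d - 1)) ≠ 0 → val ev P.derivative x z = 0 →
          sign (val ev P x z) = sign (val ev G x z)) := by
      by_cases hd1 : d - 1 = 0
      · exact ⟨0, by simp; omega, fun h => absurd hd1 h⟩
      · obtain ⟨G, hG, hG'⟩ := exists_rem ev P.derivative (d - 1) hd1
          (natDegree_derivative_le P) P.natDegree P le_rfl
        exact ⟨G, by omega, fun _ => hG'⟩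
    obtain ⟨G', hG'd, hG'⟩ := hrem'
    set F0 := F.erase P with hF0
    have hFP : F = P ::ₘ F0 := (Multiset.cons_erase hPF).symm
    set T : Multiset A[X] := F0.map g + {P.derivative} + {G'} with hT
    have hcut : Relation.CutExpand (fun P Q : A[X] => P.natDegree < Q.natDegree) (F0 + T) F := by
      refine ⟨T, P, ?_, ?_⟩
      · intro a ha
        rw [hT, Multiset.mem_add, Multiset.mem_add, Multiset.mem_singleton,
          Multiset.mem_singleton, Multiset.mem_map] at ha
        rcases ha with (⟨Q, hQ, rfl⟩ | rfl) | rfl
        · exact (hg Q (hPmax Q (Multiset.mem_of_mem_erase hQ))).1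
        · exact natDegree_derivative_lt hd
        · exact hG'd
      · rw [hFP, ← Multiset.singleton_add]
        abel
    obtain ⟨W', hW'⟩ := ih _ hcut
    refine ⟨F.toFinset.image (fun Q => Q.leadingCoeff) ∪ F.toFinset.biUnion WE ∪ W',
      fun x y hxy => ?_⟩
    have hlc : ∀ Q ∈ F, sign (ev x Q.leadingCoeff) = sign (ev y Q.leadingCoeff) := by
      intro Q hQ
      apply hxy
      simp only [Finset.mem_union, Finset.mem_image, Multiset.mem_toFinset]
      exact Or.inl (Or.inl ⟨Q, hQ, rfl⟩)
    by_cases hvan : ∃ Q ∈ F, Q.natDegree ≠ 0 ∧ ev x Q.leadingCoeff = 0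
    · obtain ⟨Q, hQF, hQd, hQx⟩ := hvan
      have hQy : ev y Q.leadingCoeff = 0 := by
        have := hlc Q hQF
        rw [hQx, sign_zero] at this
        exact sign_eq_zero_iff.1 this.symm
      have hsim : Sim ev (F.erase Q + {Q.eraseLead}) x y := by
        apply hWE Q hQF hQd x y
        intro a ha
        apply hxy
        simp only [Finset.mem_union, Finset.mem_biUnion, Multiset.mem_toFinset]
        exact Or.inl (Or.inr ⟨Q, hQF, ha⟩)
      obtain ⟨ψ, hψ⟩ := hsim
      refine ⟨ψ, fun R hR t => ?_⟩
      by_cases hRQ : R = Q
      · subst hRQ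
        have hval : ∀ w, ev w R.leadingCoeff = 0 → ∀ t, val ev R w t = val ev R.eraseLead w t := by
          intro w hw t
          have h1 := eraseLead_add_C_mul_X_pow R
          have h2 : R.map (ev w) = R.eraseLead.map (ev w) := by
            conv_lhs => rw [← h1]
            rw [Polynomial.map_add, Polynomial.map_mul, map_C, hw, C_0, zero_mul, add_zero]
          rw [val, val, h2]
        rw [hval x hQx, hval y hQy]
        exact hψ _ (by simp) t
      · exact hψ R (Multiset.mem_add.2 (Or.inl ((Multiset.mem_erase_of_ne hRQ).2 hR))) t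
    · push Not at hvan
      have hvany : ∀ Q ∈ F, Q.natDegree ≠ 0 → ev y Q.leadingCoeff ≠ 0 := by
        intro Q hQ hQd h0
        have := hlc Q hQ
        rw [h0, sign_zero, sign_eq_zero_iff] at this
        exact hvan Q hQ hQd this
      have hsim : Sim ev (F0 + T) x y := by
        apply hW' x y
        intro a ha
        apply hxy
        simp only [Finset.mem_union]
        exact Or.inr ha
      obtain ⟨φ, hφ⟩ := hsim
      have hPx : ev x P.leadingCoeff ≠ 0 := hvan P hPF hd
      have hPy : ev y P.leadingCoeff ≠ 0 := hvany P hPF hd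
      have hder : ∀ w t, val ev P.derivative w t = (P.map (ev w)).derivative.eval t := by
        intro w t
        rw [val, derivative_map]
      have hcoeff : P.derivative.coeff (d - 1) = P.leadingCoeff * (d : A) := by
        rw [coeff_derivative]
        have : d - 1 + 1 = d := by omega
        rw [this]
        have h2 : ((d - 1 : ℕ) : A) + 1 = (d : A) := by
          have h3 : (((d - 1 + 1 : ℕ)) : A) = (d : A) := by rw [this]
          simpa using h3
        rw [h2]
        rfl
      have hcoeffne : ∀ w, ev w P.leadingCoeff ≠ 0 → ev w (P.derivative.coeff (d - 1)) ≠ 0 := by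
        intro w hw
        rw [hcoeff, map_mul, map_natCast]
        exact mul_ne_zero hw (by exact_mod_cast hd)
      have hmap : ∀ w, ev w P.leadingCoeff ≠ 0 → (P.map (ev w)).derivative ≠ 0 := by
        intro w hw h0
        have h1 := hcoeffne w hw
        have h2 : ((P.map (ev w)).derivative).coeff (d - 1) = ev w (P.derivative.coeff (d - 1)) := by
          rw [derivative_map, coeff_map]
        rw [h0, coeff_zero] at h2
        exact h1 h2.symm
      have hQsign : ∀ Q ∈ F0, ∀ t, sign (val ev Q x t) = sign (val ev Q y (φ t)) :=
        fun Q hQ t => hφ Q (Multiset.mem_add.2 (Or.inl hQ)) t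
      have hTsign : ∀ Q ∈ T, ∀ t, sign (val ev Q x t) = sign (val ev Q y (φ t)) :=
        fun Q hQ t => hφ Q (Multiset.mem_add.2 (Or.inr hQ)) t
      have hderT : P.derivative ∈ T := by simp [hT]
      have hG'T : G' ∈ T := by simp [hT]
      have hgT : ∀ Q ∈ F0, g Q ∈ T := fun Q hQ => by
        rw [hT, Multiset.mem_add, Multiset.mem_add, Multiset.mem_map]
        exact Or.inl (Or.inl ⟨Q, hQ, rfl⟩)
      -- the finite set Z
      set Z : Finset ℝ := (F0.toFinset.biUnion (fun Q => (Q.map (ev x)).roots.toFinset)) ∪
        ((P.map (ev x)).derivative).roots.toFinset with hZ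
      have hstep : Step (P.map (ev x)) (P.map (ev y)) φ Z := by
        refine ⟨fun t => ?_, fun t ht => ?_, fun z hz => ?_⟩
        · rw [← hder, ← hder]
          exact hTsign _ hderT t
        · rw [hZ]
          refine Finset.mem_union_right _ ?_
          rw [Multiset.mem_toFinset, mem_roots (hmap x hPx)]
          exact ht
        · rcases Finset.mem_union.1 hz with h | h
          · obtain ⟨Q, hQ, hQz⟩ := Finset.mem_biUnion.1 h
            rw [Multiset.mem_toFinset] at hQ
            rw [Multiset.mem_toFinset] at hQz
            have hQF : Q ∈ F := Multiset.mem_of_mem_erase hQ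
            have hQne : Q.map (ev x) ≠ 0 := (mem_roots'.1 hQz).1
            have hQ0 : val ev Q x z = 0 := (mem_roots'.1 hQz).2
            have hQd : Q.natDegree ≠ 0 := by
              intro h0
              have h1 : Q = C (Q.coeff 0) := eq_C_of_natDegree_eq_zero h0
              rw [h1] at hQne hQ0
              simp only [val, map_C, eval_C] at hQ0
              apply hQne
              simp [hQ0]
            have hQy0 : val ev Q y (φ z) = 0 := by
              have := hQsign Q hQ z
              rw [hQ0, sign_zero] at this
              exact sign_eq_zero_iff.1 this.symm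
            have h3 := (hg Q (hPmax Q hQF)).2 hQd x z (hvan Q hQF hQd) hQ0
            have h4 := (hg Q (hPmax Q hQF)).2 hQd y (φ z) (hvany Q hQF hQd) hQy0
            change sign (val ev P x z) = sign (val ev P y (φ z))
            rw [h3, h4]
            exact hTsign _ (hgT Q hQ) z
          · rw [Multiset.mem_toFinset, mem_roots (hmap x hPx), IsRoot.def, ← hder] at h
            have hy : val ev P.derivative y (φ z) = 0 := by
              have := hTsign _ hderT z
              rw [h, sign_zero] at this
              exact sign_eq_zero_iff.1 this.symm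
            change sign (val ev P x z) = sign (val ev P y (φ z))
            by_cases hd1 : d - 1 = 0
            · exfalso
              have h1 : (P.derivative).natDegree = 0 := by
                have := natDegree_derivative_le P
                omega
              have h2 : P.derivative = C (P.derivative.coeff 0) := eq_C_of_natDegree_eq_zero h1
              have h3 := hcoeffne x hPx
              rw [hd1] at h3
              rw [val, h2] at h
              simp only [map_C, eval_C] at h
              exact h3 h
            · rw [hG' hd1 x z (hcoeffne x hPx) h, hG' hd1 y (φ z) (hcoeffne y hPy) hy]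
              exact hTsign _ hG'T z
      obtain ⟨ψ, hψZ, hψ⟩ := hstep.glue
      refine ⟨ψ, fun Q hQ t => ?_⟩
      rw [hFP, Multiset.mem_cons] at hQ
      rcases hQ with rfl | hQ
      · exact hψ t
      · by_cases hQx : Q.map (ev x) = 0
        · have h1 : ∀ s, val ev Q x s = 0 := fun s => by simp [val, hQx]
          have h2 : val ev Q y (ψ t) = 0 := by
            have := hQsign Q hQ (φ.symm (ψ t))
            rw [h1, OrderIso.apply_symm_apply, sign_zero] at this
            exact sign_eq_zero_iff.1 this.symm
          rw [h1, h2]
        · exact sign_transfer (f := Q.map (ev x)) (h := Q.map (ev y)) (φ := φ) (ψ := ψ) (Z := Z)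
            (fun s hs => by
              rw [hZ]
              refine Finset.mem_union_left _ (Finset.mem_biUnion.2 ⟨Q, by simpa using hQ, ?_⟩)
              rw [Multiset.mem_toFinset, mem_roots hQx]
              exact hs)
            (hQsign Q hQ) hψZ t

end Crest.Agent.R264.TSCore
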