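import Crest.Agent.R264.TSDefs
import Crest.Agent.R264.TSCore

/-!
# Projection of semialgebraic sets (row 264, helper235), from `TSCore.exists_sign_determination`
-/

set_option autoImplicit false

open Set

namespace Crest.Agent.R264.TS

open Crest.Agent.R264.TSCore

variable {ι κ : Type*}

theorem eval_optionEquivLeft (x : ι → ℝ) (t : ℝ) (p : MvPolynomial (Option ι) ℝ) :
    val (fun x : ι → ℝ => MvPolynomial.eval x) (MvPolynomial.optionEquivLeft ℝ ι p) x t =
      MvPolynomial.eval (fun o : Option ι => o.elim t x) p := by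
  unfold val
  induction p using MvPolynomial.induction_on with
  | C a => simp
  | add p q hp hq => simp only [map_add, Polynomial.map_add, Polynomial.eval_add, hp, hq]
  | mul_X p i hp =>
    rw [map_mul, Polynomial.map_mul, Polynomial.eval_mul, hp, map_mul]
    congr 1
    cases i <;> simp

theorem SA.ex_option {s : Set (Option ι → ℝ)} (hs : SA s) :
    SA {x : ι → ℝ | ∃ t : ℝ, (fun o : Option ι => o.elim t x) ∈ s} := by
  classical
  obtain ⟨W, hW⟩ := hs
  obtain ⟨W', hW'⟩ := exists_sign_determination (fun x : ι → ℝ => MvPolynomial.eval x)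
    (W.val.map (MvPolynomial.optionEquivLeft ℝ ι))
  refine SA.of_imp W' fun x y hxy hx => ?_
  obtain ⟨t, ht⟩ := hx
  obtain ⟨ψ, hψ⟩ := hW' x y hxy
  refine ⟨ψ t, (hW _ _ fun p hp => ?_).1 ht⟩
  have := hψ _ (Multiset.mem_map_of_mem _ hp) t
  rwa [eval_optionEquivLeft, eval_optionEquivLeft] at this

theorem SA.all_option {s : Set (Option ι → ℝ)} (hs : SA s) :
    SA {x : ι → ℝ | ∀ t : ℝ, (fun o : Option ι => o.elim t x) ∈ s} := by
  have := (hs.compl.ex_option).compl
  convert this using 1
  ext x
  simp

theorem SA.ex_fin (n : ℕ) : ∀ {ι : Type*} {s : Set (ι ⊕ Fin n → ℝ)}, SA s →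
    SA {x : ι → ℝ | ∃ y : Fin n → ℝ, Sum.elim x y ∈ s} := by
  induction n with
  | zero =>
    intro ι s hs
    have h := hs.preimage (ι := ι) (fun k => Sum.elim (fun i => MvPolynomial.X i)
      (fun i : Fin 0 => i.elim0) k)
    convert h using 1
    ext x
    constructor
    · rintro ⟨y, hy⟩
      have : (fun k : ι ⊕ Fin 0 => MvPolynomial.eval x (Sum.elim (fun i => MvPolynomial.X i)
        (fun i : Fin 0 => i.elim0) k)) = Sum.elim x y := by
        funext k
        rcases k with k | k
        · simp
        · exact k.elim0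
      rw [mem_setOf_eq, this]
      exact hy
    · intro hx
      refine ⟨fun i => i.elim0, ?_⟩
      have : (fun k : ι ⊕ Fin 0 => MvPolynomial.eval x (Sum.elim (fun i => MvPolynomial.X i)
        (fun i : Fin 0 => i.elim0) k)) = Sum.elim x (fun i => i.elim0) := by
        funext k
        rcases k with k | k
        · simp
        · exact k.elim0
      rw [mem_setOf_eq, this] at hx
      exact hx
  | succ n ih =>
    intro ι s hs
    -- s' ⊆ (ι ⊕ Fin n → ℝ) by projecting the last coordinate
    let f : ι ⊕ Fin (n + 1) → Option (ι ⊕ Fin n) := fun k => match k with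
      | Sum.inl i => some (Sum.inl i)
      | Sum.inr j => Fin.lastCases (motive := fun _ => Option (ι ⊕ Fin n)) none
          (fun j => some (Sum.inr j)) j
    have h1 := (hs.reindex f).ex_option
    have h2 := ih h1
    convert h2 using 1
    ext x
    constructor
    · rintro ⟨y, hy⟩
      refine ⟨fun j => y j.castSucc, y (Fin.last n), ?_⟩
      have : (fun k => (fun o : Option (ι ⊕ Fin n) => o.elim (y (Fin.last n))
          (Sum.elim x fun j => y j.castSucc)) (f k)) = Sum.elim x y := by
        funext k
        rcases k with k | k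
        · rfl
        · refine Fin.lastCases ?_ (fun j => ?_) k
          · simp [f]
          · simp [f]
      simp only [mem_setOf_eq] at this ⊢
      rw [this]
      exact hy
    · rintro ⟨y, t, hy⟩
      refine ⟨Fin.snoc (α := fun _ => ℝ) y t, ?_⟩
      have : (fun k => (fun o : Option (ι ⊕ Fin n) => o.elim t (Sum.elim x y)) (f k)) =
          Sum.elim x (Fin.snoc (α := fun _ => ℝ) y t) := by
        funext k
        rcases k with k | k
        · rfl
        · refine Fin.lastCases ?_ (fun j => ?_) k
          · simp [f]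
          · simp [f]
      simp only [mem_setOf_eq] at this hy
      rw [this] at hy
      exact hy

theorem SA.ex [Finite κ] {s : Set (ι ⊕ κ → ℝ)} (hs : SA s) :
    SA {x : ι → ℝ | ∃ y : κ → ℝ, Sum.elim x y ∈ s} := by
  obtain ⟨n, ⟨e⟩⟩ := Finite.exists_equiv_fin κ
  have h1 := hs.reindex (ι := ι ⊕ Fin n) (Sum.map id e)
  have h2 := SA.ex_fin n h1
  convert h2 using 1
  ext x
  constructor
  · rintro ⟨y, hy⟩
    refine ⟨fun j => y (e.symm j), ?_⟩
    have : (fun k => Sum.elim x (fun j => y (e.symm j)) (Sum.map id e k)) = Sum.elim x y := by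
      funext k
      rcases k with k | k <;> simp
    rw [mem_setOf_eq, this]
    exact hy
  · rintro ⟨y, hy⟩
    refine ⟨fun k => y (e k), ?_⟩
    have : (fun k => Sum.elim x y (Sum.map id e k)) = Sum.elim x (fun k => y (e k)) := by
      funext k
      rcases k with k | k <;> simp
    rw [mem_setOf_eq, this] at hy
    exact hy

theorem SA.all [Finite κ] {s : Set (ι ⊕ κ → ℝ)} (hs : SA s) :
    SA {x : ι → ℝ | ∀ y : κ → ℝ, Sum.elim x y ∈ s} := by
  have := (hs.compl.ex).compl
  convert this using 1
  ext x
  simp

end Crest.Agent.R264.TS
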