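import Crest.Agent.R264.TS2
import Crest.Agent.R264.TSProj

/-!
Row 264, module TS (Tarski-Seidenberg), part 3: quantifiers over `ℝ` and over `κ → ℝ`.
-/

set_option autoImplicit false

open Set

namespace Crest.Agent.R264.TS

universe u v

/-! ### predicate versions -/

section Pred

variable {ι : Type v} {κ : Type u}

/-- `∃ y : κ → ℝ`, predicate version -/
theorem SA.exists_fun [Finite κ] {P : (ι → ℝ) → (κ → ℝ) → Prop}
    (h : SA {z : ι ⊕ κ → ℝ | P (fun i => z (.inl i)) (fun k => z (.inr k))}) :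
    SA {x : ι → ℝ | ∃ y, P x y} := h.ex

/-- `∀ y : κ → ℝ`, predicate version -/
theorem SA.forall_fun [Finite κ] {P : (ι → ℝ) → (κ → ℝ) → Prop}
    (h : SA {z : ι ⊕ κ → ℝ | P (fun i => z (.inl i)) (fun k => z (.inr k))}) :
    SA {x : ι → ℝ | ∀ y, P x y} := h.all

/-- `∃ t : ℝ`, predicate version -/
theorem SA.exists_real {P : (ι → ℝ) → ℝ → Prop}
    (h : SA {z : Option ι → ℝ | P (fun i => z (some i)) (z none)}) :
    SA {x : ι → ℝ | ∃ t, P x t} := h.ex_option

/-- `∀ t : ℝ`, predicate version -/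
theorem SA.forall_real {P : (ι → ℝ) → ℝ → Prop}
    (h : SA {z : Option ι → ℝ | P (fun i => z (some i)) (z none)}) :
    SA {x : ι → ℝ | ∀ t, P x t} := by
  have h1 := (SA.exists_real (P := fun x t => ¬ P x t) h.not).not
  convert h1 using 1
  ext x
  change (∀ t, P x t) ↔ ¬ ∃ t, ¬ P x t
  push Not
  rfl

/-- image of an SA set under a polynomial map -/
theorem SA.image [Finite ι] {s : Set (ι → ℝ)} (hs : SA s) [Finite κ]
    (P : κ → MvPolynomial ι ℝ) :
    SA {y : κ → ℝ | ∃ x ∈ s, (fun k => MvPolynomial.eval x (P k)) = y} := by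
  apply SA.exists_fun (P := fun y x => x ∈ s ∧ (fun k => MvPolynomial.eval x (P k)) = y)
  refine SA.and (hs.reindex (ι := κ ⊕ ι) Sum.inr) ?_
  have : ∀ k : κ, SA {z : κ ⊕ ι → ℝ | MvPolynomial.eval (fun i => z (.inr i)) (P k) =
      z (.inl k)} := by
    intro k
    have h1 := SA.eq (ι := κ ⊕ ι) (MvPolynomial.rename Sum.inr (P k)) (MvPolynomial.X (.inl k))
    simpa [MvPolynomial.eval_rename, Function.comp_def] using h1
  have h2 := SA.forall_finite this
  convert h2 using 1
  ext z
  exact funext_iff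

/-- image of an SA set under a coordinate projection -/
theorem SA.image_reindex [Finite ι] {s : Set (ι → ℝ)} (hs : SA s) [Finite κ] (f : κ → ι) :
    SA ((fun (x : ι → ℝ) k => x (f k)) '' s) := by
  have h := hs.image fun k => (MvPolynomial.X (f k) : MvPolynomial ι ℝ)
  simp only [MvPolynomial.eval_X] at h
  exact h

end Pred

end Crest.Agent.R264.TS
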