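import Crest.Agent.R264.TS3

/-!
# Calculus of semialgebraic sets and functions (row 264, helper235)

* `SAFunOn f W`: `f` has semialgebraic graph over `W`; `SAFun f := SAFunOn f univ`.
* substitution, composition, `+ * - / | | √ max min`, piecewise, `sSup`, `sInf`.
* eventual quantifiers, limits.
-/

set_option autoImplicit false

open Set Filter Topology

namespace Crest.Agent.R264.TS

variable {ι κ : Type*}

/-! ## semialgebraic functions -/

/-- `f` has a semialgebraic graph over `W` -/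
def SAFunOn (f : (ι → ℝ) → ℝ) (W : Set (ι → ℝ)) : Prop :=
  SA {z : Option ι → ℝ | (fun i => z (some i)) ∈ W ∧ z none = f (fun i => z (some i))}

/-- `f` has a semialgebraic graph -/
def SAFun (f : (ι → ℝ) → ℝ) : Prop := SAFunOn f univ

theorem SAFunOn.dom {f : (ι → ℝ) → ℝ} {W : Set (ι → ℝ)} (h : SAFunOn f W) : SA W := by
  have := SA.exists_real (P := fun x t => x ∈ W ∧ t = f x) h
  convert this using 1
  ext x
  simp

theorem SAFunOn.mono {f : (ι → ℝ) → ℝ} {W V : Set (ι → ℝ)} (h : SAFunOn f W) (hV : SA V)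
    (hVW : V ⊆ W) : SAFunOn f V := by
  have := h.inter (hV.reindex (some : ι → Option ι))
  refine cast ?_ this
  congr 1
  ext z
  constructor
  · rintro ⟨⟨_, h2⟩, h3⟩
    exact ⟨h3, h2⟩
  · rintro ⟨h2, h3⟩
    exact ⟨⟨hVW h2, h3⟩, h2⟩

theorem SAFun.on {f : (ι → ℝ) → ℝ} {W : Set (ι → ℝ)} (h : SAFun f) (hW : SA W) : SAFunOn f W :=
  SAFunOn.mono h hW (subset_univ _)

theorem SAFunOn.congr {f g : (ι → ℝ) → ℝ} {W : Set (ι → ℝ)} (h : SAFunOn f W)
    (hfg : ∀ x ∈ W, f x = g x) : SAFunOn g W := by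
  refine cast ?_ h
  unfold SAFunOn
  congr 1
  ext z
  constructor
  · rintro ⟨h1, h2⟩
    exact ⟨h1, by rw [h2, hfg _ h1]⟩
  · rintro ⟨h1, h2⟩
    exact ⟨h1, by rw [h2, hfg _ h1]⟩

/-- substitution of semialgebraic functions in a semialgebraic condition -/
theorem SAFunOn.preimage [Finite κ] {f : κ → (ι → ℝ) → ℝ} {W : Set (ι → ℝ)} (hW : SA W)
    (hf : ∀ k, SAFunOn (f k) W) {s : Set (κ → ℝ)} (hs : SA s) :
    SA {x : ι → ℝ | x ∈ W ∧ (fun k => f k x) ∈ s} := by
  have h1 : SA {x : ι → ℝ | ∃ y : κ → ℝ, (∀ k, x ∈ W ∧ y k = f k x) ∧ y ∈ s} := by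
    apply SA.exists_fun
    apply SA.and
    · apply SA.forall_finite
      intro k
      have := (hf k).reindex (κ := Option ι) (ι := ι ⊕ κ)
        (fun o => o.elim (Sum.inr k) Sum.inl)
      exact this
    · exact hs.reindex (ι := ι ⊕ κ) Sum.inr
  have h2 := hW.inter h1
  refine cast ?_ h2
  congr 1
  ext x
  constructor
  · rintro ⟨h1, y, h2, h3⟩
    have : y = fun k => f k x := funext fun k => (h2 k).2
    exact ⟨h1, this ▸ h3⟩
  · rintro ⟨h1, h2⟩
    exact ⟨h1, fun k => f k x, fun k => ⟨h1, rfl⟩, h2⟩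

theorem SAFun.preimage [Finite κ] {f : κ → (ι → ℝ) → ℝ}
    (hf : ∀ k, SAFun (f k)) {s : Set (κ → ℝ)} (hs : SA s) :
    SA {x : ι → ℝ | (fun k => f k x) ∈ s} := by
  have := SAFunOn.preimage SA.univ hf hs
  simpa using this

/-- a function given by a semialgebraic relation with other semialgebraic functions -/
theorem SAFunOn.of_rel [Finite κ] {f : κ → (ι → ℝ) → ℝ} {W : Set (ι → ℝ)} (hW : SA W)
    (hf : ∀ k, SAFunOn (f k) W) {s : Set (Option κ → ℝ)} (hs : SA s) {g : (ι → ℝ) → ℝ}
    (hg : ∀ x ∈ W, ∀ t, t = g x ↔ (fun o : Option κ => o.elim t (fun k => f k x)) ∈ s) :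
    SAFunOn g W := by
  have hW' : SA {z : Option ι → ℝ | (fun i => z (some i)) ∈ W} := hW.reindex some
  have hf' : ∀ o : Option κ, SAFunOn (fun z : Option ι → ℝ =>
      o.elim (z none) (fun k => f k (fun i => z (some i))))
      {z : Option ι → ℝ | (fun i => z (some i)) ∈ W} := by
    intro o
    cases o with
    | none =>
      unfold SAFunOn
      apply SA.and
      · exact hW'.reindex some
      · simpa using SA.eq (ι := Option (Option ι)) (MvPolynomial.X none)
          (MvPolynomial.X (some none))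
    | some k =>
      have := (hf k).reindex (ι := Option (Option ι)) (fun o => o.map some)
      exact this
  have := SAFunOn.preimage hW' hf' hs
  refine cast ?_ this
  unfold SAFunOn
  congr 1
  ext z
  constructor
  · rintro ⟨h1, h2⟩
    refine ⟨h1, (hg _ h1 _).2 ?_⟩
    convert h2 using 1
  · rintro ⟨h1, h2⟩
    refine ⟨h1, ?_⟩
    have := (hg _ h1 _).1 h2
    convert this using 1

theorem SAFunOn.comp [Finite κ] {f : κ → (ι → ℝ) → ℝ} {W : Set (ι → ℝ)} (hW : SA W)
    (hf : ∀ k, SAFunOn (f k) W) {g : (κ → ℝ) → ℝ} {V : Set (κ → ℝ)} (hg : SAFunOn g V)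
    (hV : ∀ x ∈ W, (fun k => f k x) ∈ V) : SAFunOn (fun x => g (fun k => f k x)) W := by
  refine SAFunOn.of_rel hW hf hg ?_
  intro x hx t
  constructor
  · intro h
    exact ⟨hV x hx, h⟩
  · intro h
    exact h.2

theorem SAFun.comp [Finite κ] {f : κ → (ι → ℝ) → ℝ} {g : (κ → ℝ) → ℝ} (hg : SAFun g)
    (hf : ∀ k, SAFun (f k)) : SAFun (fun x => g (fun k => f k x)) :=
  SAFunOn.comp SA.univ hf hg (fun _ _ => mem_univ _)

theorem SAFun.poly (p : MvPolynomial ι ℝ) : SAFun (fun x => MvPolynomial.eval x p) := by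
  have h := SA.eq (ι := Option ι) (MvPolynomial.X none) (MvPolynomial.rename some p)
  unfold SAFun SAFunOn
  convert h using 1
  ext z
  simp [MvPolynomial.eval_rename, Function.comp_def]

theorem SAFun.coord (i : ι) : SAFun (fun x : ι → ℝ => x i) := by
  simpa using SAFun.poly (MvPolynomial.X i)

theorem SAFun.const (c : ℝ) : SAFun (fun _ : ι → ℝ => c) := by
  simpa using SAFun.poly (ι := ι) (MvPolynomial.C c)

theorem SAFun.reindex {f : (ι → ℝ) → ℝ} (hf : SAFun f) (e : ι → κ) :
    SAFun (fun z : κ → ℝ => f (fun i => z (e i))) := by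
  have h := SA.reindex (κ := Option ι) (ι := Option κ) hf (Option.map e)
  unfold SAFun SAFunOn
  exact h

theorem SAFunOn.reindex {f : (ι → ℝ) → ℝ} {W : Set (ι → ℝ)} (hf : SAFunOn f W) (e : ι → κ) :
    SAFunOn (fun z : κ → ℝ => f (fun i => z (e i))) {z | (fun i => z (e i)) ∈ W} := by
  have h := SA.reindex (κ := Option ι) (ι := Option κ) hf (Option.map e)
  exact h

section ops

variable {f g : (ι → ℝ) → ℝ} {W : Set (ι → ℝ)}

/-- binary operation with semialgebraic graph -/
theorem SAFunOn.op₂ {F : ℝ → ℝ → ℝ}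
    (hF : SA {z : Option (Fin 2) → ℝ | z none = F (z (some 0)) (z (some 1))})
    (hf : SAFunOn f W) (hg : SAFunOn g W) : SAFunOn (fun x => F (f x) (g x)) W := by
  refine SAFunOn.of_rel hf.dom (f := ![f, g]) ?_ hF ?_
  · intro k
    fin_cases k
    · exact hf
    · exact hg
  · intro x hx t
    simp

theorem SAFunOn.op₁ {F : ℝ → ℝ}
    (hF : SA {z : Option (Fin 1) → ℝ | z none = F (z (some 0))})
    (hf : SAFunOn f W) : SAFunOn (fun x => F (f x)) W := by
  refine SAFunOn.of_rel hf.dom (f := ![f]) ?_ hF ?_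
  · intro k
    fin_cases k
    exact hf
  · intro x hx t
    simp

theorem SAFunOn.add (hf : SAFunOn f W) (hg : SAFunOn g W) : SAFunOn (fun x => f x + g x) W :=
  SAFunOn.op₂ (F := fun a b => a + b) (by
    have h := SA.eq (ι := Option (Fin 2)) (MvPolynomial.X none)
      (MvPolynomial.X (some 0) + MvPolynomial.X (some 1))
    simpa using h) hf hg

theorem SAFunOn.sub (hf : SAFunOn f W) (hg : SAFunOn g W) : SAFunOn (fun x => f x - g x) W :=
  SAFunOn.op₂ (F := fun a b => a - b) (by
    have h := SA.eq (ι := Option (Fin 2)) (MvPolynomial.X none)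
      (MvPolynomial.X (some 0) - MvPolynomial.X (some 1))
    simpa using h) hf hg

theorem SAFunOn.mul (hf : SAFunOn f W) (hg : SAFunOn g W) : SAFunOn (fun x => f x * g x) W :=
  SAFunOn.op₂ (F := fun a b => a * b) (by
    have h := SA.eq (ι := Option (Fin 2)) (MvPolynomial.X none)
      (MvPolynomial.X (some 0) * MvPolynomial.X (some 1))
    simpa using h) hf hg

theorem SAFunOn.neg (hf : SAFunOn f W) : SAFunOn (fun x => - f x) W :=
  SAFunOn.op₁ (F := fun a => - a) (by
    simpa using SA.eq (MvPolynomial.X none) (- MvPolynomial.X (some (0 : Fin 1)))) hf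

theorem SAFunOn.pow (hf : SAFunOn f W) (n : ℕ) : SAFunOn (fun x => f x ^ n) W :=
  SAFunOn.op₁ (F := fun a => a ^ n) (by
    simpa using SA.eq (MvPolynomial.X none) (MvPolynomial.X (some (0 : Fin 1)) ^ n)) hf

theorem SAFunOn.inv (hf : SAFunOn f W) : SAFunOn (fun x => (f x)⁻¹) W :=
  SAFunOn.op₁ (F := fun a => a⁻¹) (by
    have h1 := (SA.eq (ι := Option (Fin 1)) (MvPolynomial.X none * MvPolynomial.X (some 0))
      (MvPolynomial.C 1)).or ((SA.eq_zero (ι := Option (Fin 1)) (MvPolynomial.X (some 0))).and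
        (SA.eq_zero (ι := Option (Fin 1)) (MvPolynomial.X none)))
    refine cast ?_ h1
    congr 1
    ext z
    simp only [map_mul, MvPolynomial.eval_X, MvPolynomial.eval_C]
    constructor
    · rintro (h | ⟨h1, h2⟩)
      · exact eq_inv_of_mul_eq_one_left h
      · change z none = (z (some 0))⁻¹
        rw [h1, h2, inv_zero]
    · intro h
      change z none = (z (some 0))⁻¹ at h
      by_cases h0 : z (some 0) = 0
      · right
        exact ⟨h0, by rw [h, h0, inv_zero]⟩
      · left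
        rw [h, inv_mul_cancel₀ h0]) hf

theorem SAFunOn.div (hf : SAFunOn f W) (hg : SAFunOn g W) : SAFunOn (fun x => f x / g x) W := by
  simpa only [div_eq_mul_inv] using hf.mul hg.inv

theorem SAFunOn.max (hf : SAFunOn f W) (hg : SAFunOn g W) :
    SAFunOn (fun x => Max.max (f x) (g x)) W :=
  SAFunOn.op₂ (F := fun a b => Max.max a b) (by
    have h1 := ((SA.eq (ι := Option (Fin 2)) (MvPolynomial.X none) (MvPolynomial.X (some 0))).and
      (SA.le (ι := Option (Fin 2)) (MvPolynomial.X (some 1)) (MvPolynomial.X (some 0)))).or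
      ((SA.eq (ι := Option (Fin 2)) (MvPolynomial.X none) (MvPolynomial.X (some 1))).and
      (SA.le (ι := Option (Fin 2)) (MvPolynomial.X (some 0)) (MvPolynomial.X (some 1))))
    refine cast ?_ h1
    congr 1
    ext z
    simp only [MvPolynomial.eval_X]
    change (z none = z (some 0) ∧ z (some 1) ≤ z (some 0) ∨
      z none = z (some 1) ∧ z (some 0) ≤ z (some 1)) ↔ z none = Max.max (z (some 0)) (z (some 1))
    rcases le_total (z (some 0)) (z (some 1)) with h | h
    · rw [max_eq_right h]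
      constructor
      · rintro (⟨h1, h2⟩ | ⟨h1, _⟩)
        · rw [h1]; exact le_antisymm h h2
        · exact h1
      · exact fun h1 => Or.inr ⟨h1, h⟩
    · rw [max_eq_left h]
      constructor
      · rintro (⟨h1, _⟩ | ⟨h1, h2⟩)
        · exact h1
        · rw [h1]; exact le_antisymm h h2
      · exact fun h1 => Or.inl ⟨h1, h⟩) hf hg

theorem SAFunOn.min (hf : SAFunOn f W) (hg : SAFunOn g W) :
    SAFunOn (fun x => Min.min (f x) (g x)) W := by
  have := (hf.neg.max hg.neg).neg
  refine this.congr (fun x _ => ?_)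
  rw [max_neg_neg, neg_neg]

theorem SAFunOn.abs (hf : SAFunOn f W) : SAFunOn (fun x => |f x|) W := by
  have := hf.max hf.neg
  exact this

theorem SAFunOn.sqrt (hf : SAFunOn f W) : SAFunOn (fun x => Real.sqrt (f x)) W :=
  SAFunOn.op₁ (F := fun a => Real.sqrt a) (by
    have h1 := ((SA.nonneg (ι := Option (Fin 1)) (MvPolynomial.X none)).and
      (SA.eq (ι := Option (Fin 1)) (MvPolynomial.X none ^ 2) (MvPolynomial.X (some 0)))).or
      ((SA.neg (ι := Option (Fin 1)) (MvPolynomial.X (some 0))).and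
      (SA.eq_zero (ι := Option (Fin 1)) (MvPolynomial.X none)))
    refine cast ?_ h1
    congr 1
    ext z
    simp only [MvPolynomial.eval_X, map_pow]
    change (0 ≤ z none ∧ z none ^ 2 = z (some 0) ∨ z (some 0) < 0 ∧ z none = 0) ↔
      z none = Real.sqrt (z (some 0))
    constructor
    · rintro (⟨h1, h2⟩ | ⟨h1, h2⟩)
      · rw [← h2, Real.sqrt_sq h1]
      · rw [Real.sqrt_eq_zero'.2 h1.le, h2]
    · intro h
      rcases le_or_gt 0 (z (some 0)) with h0 | h0
      · left
        refine ⟨by rw [h]; exact Real.sqrt_nonneg _, by rw [h, Real.sq_sqrt h0]⟩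
      · right
        exact ⟨h0, by rw [h, Real.sqrt_eq_zero'.2 h0.le]⟩) hf

theorem SAFunOn.sum {α : Type*} (S : Finset α) {F : α → (ι → ℝ) → ℝ} (hW : SA W)
    (hF : ∀ a ∈ S, SAFunOn (F a) W) : SAFunOn (fun x => ∑ a ∈ S, F a x) W := by
  classical
  induction S using Finset.induction_on with
  | empty => simpa using (SAFun.const (ι := ι) 0).on hW
  | insert a S ha ih =>
    simp only [Finset.sum_insert ha]
    exact (hF a (by simp)).add (ih fun b hb => hF b (by simp [hb]))

theorem SAFunOn.prod {α : Type*} (S : Finset α) {F : α → (ι → ℝ) → ℝ} (hW : SA W)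
    (hF : ∀ a ∈ S, SAFunOn (F a) W) : SAFunOn (fun x => ∏ a ∈ S, F a x) W := by
  classical
  induction S using Finset.induction_on with
  | empty => simpa using (SAFun.const (ι := ι) 1).on hW
  | insert a S ha ih =>
    simp only [Finset.prod_insert ha]
    exact (hF a (by simp)).mul (ih fun b hb => hF b (by simp [hb]))

theorem SAFunOn.ite {V : Set (ι → ℝ)} [DecidablePred (· ∈ V)] (hV : SA V) (hf : SAFunOn f W)
    (hg : SAFunOn g W) : SAFunOn (fun x => if x ∈ V then f x else g x) W := by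
  have h1 := (SA.and (hV.reindex (some : ι → Option ι)) hf).or
    (SA.and ((hV.compl).reindex (some : ι → Option ι)) hg)
  refine cast ?_ h1
  unfold SAFunOn
  congr 1
  ext z
  by_cases hz : (fun i => z (some i)) ∈ V
  · simp [hz]
  · simp [hz]

/-! ### conditions on semialgebraic functions -/

theorem SAFunOn.setOf_rel {R : ℝ → ℝ → Prop} (hR : SA {z : Fin 2 → ℝ | R (z 0) (z 1)})
    (hf : SAFunOn f W) (hg : SAFunOn g W) : SA {x | x ∈ W ∧ R (f x) (g x)} := by
  have := SAFunOn.preimage hf.dom (f := ![f, g]) (by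
    intro k
    fin_cases k
    · exact hf
    · exact hg) hR
  simpa using this

theorem SAFunOn.lt (hf : SAFunOn f W) (hg : SAFunOn g W) : SA {x | x ∈ W ∧ f x < g x} :=
  SAFunOn.setOf_rel (R := fun a b => a < b)
    (by simpa using SA.lt (MvPolynomial.X (0 : Fin 2)) (MvPolynomial.X 1)) hf hg

theorem SAFunOn.le (hf : SAFunOn f W) (hg : SAFunOn g W) : SA {x | x ∈ W ∧ f x ≤ g x} :=
  SAFunOn.setOf_rel (R := fun a b => a ≤ b)
    (by simpa using SA.le (MvPolynomial.X (0 : Fin 2)) (MvPolynomial.X 1)) hf hg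

theorem SAFunOn.eq (hf : SAFunOn f W) (hg : SAFunOn g W) : SA {x | x ∈ W ∧ f x = g x} :=
  SAFunOn.setOf_rel (R := fun a b => a = b)
    (by simpa using SA.eq (MvPolynomial.X (0 : Fin 2)) (MvPolynomial.X 1)) hf hg

end ops

/-! ### total versions -/

section total

variable {f g : (ι → ℝ) → ℝ}

theorem SAFun.add (hf : SAFun f) (hg : SAFun g) : SAFun (fun x => f x + g x) :=
  SAFunOn.add (W := univ) hf hg
theorem SAFun.sub (hf : SAFun f) (hg : SAFun g) : SAFun (fun x => f x - g x) :=
  SAFunOn.sub (W := univ) hf hg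
theorem SAFun.mul (hf : SAFun f) (hg : SAFun g) : SAFun (fun x => f x * g x) :=
  SAFunOn.mul (W := univ) hf hg
theorem SAFun.div (hf : SAFun f) (hg : SAFun g) : SAFun (fun x => f x / g x) :=
  SAFunOn.div (W := univ) hf hg
theorem SAFun.neg (hf : SAFun f) : SAFun (fun x => - f x) := SAFunOn.neg (W := univ) hf
theorem SAFun.inv (hf : SAFun f) : SAFun (fun x => (f x)⁻¹) := SAFunOn.inv (W := univ) hf
theorem SAFun.pow (hf : SAFun f) (n : ℕ) : SAFun (fun x => f x ^ n) :=
  SAFunOn.pow (W := univ) hf n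
theorem SAFun.max (hf : SAFun f) (hg : SAFun g) : SAFun (fun x => Max.max (f x) (g x)) :=
  SAFunOn.max (W := univ) hf hg
theorem SAFun.min (hf : SAFun f) (hg : SAFun g) : SAFun (fun x => Min.min (f x) (g x)) :=
  SAFunOn.min (W := univ) hf hg
theorem SAFun.abs (hf : SAFun f) : SAFun (fun x => |f x|) := SAFunOn.abs (W := univ) hf
theorem SAFun.sqrt (hf : SAFun f) : SAFun (fun x => Real.sqrt (f x)) :=
  SAFunOn.sqrt (W := univ) hf
theorem SAFun.sum {α : Type*} (S : Finset α) {F : α → (ι → ℝ) → ℝ}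
    (hF : ∀ a ∈ S, SAFun (F a)) : SAFun (fun x => ∑ a ∈ S, F a x) :=
  SAFunOn.sum (W := univ) S SA.univ hF
theorem SAFun.prod {α : Type*} (S : Finset α) {F : α → (ι → ℝ) → ℝ}
    (hF : ∀ a ∈ S, SAFun (F a)) : SAFun (fun x => ∏ a ∈ S, F a x) :=
  SAFunOn.prod (W := univ) S SA.univ hF

theorem SA.lt_fun (hf : SAFun f) (hg : SAFun g) : SA {x | f x < g x} := by
  simpa using SAFunOn.lt (W := Set.univ) hf hg
theorem SA.le_fun (hf : SAFun f) (hg : SAFun g) : SA {x | f x ≤ g x} := by
  simpa using SAFunOn.le (W := Set.univ) hf hg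
theorem SA.eq_fun (hf : SAFun f) (hg : SAFun g) : SA {x | f x = g x} := by
  simpa using SAFunOn.eq (W := Set.univ) hf hg

/-- extension by a constant outside of the domain -/
theorem SAFunOn.indicator {W : Set (ι → ℝ)} (hf : SAFunOn f W) : SAFun (W.indicator f) := by
  have h1 : SA {z : Option ι → ℝ | (fun i => z (some i)) ∈ Wᶜ ∧ z none = 0} :=
    (hf.dom.compl.reindex (some : ι → Option ι)).and
      (by simpa using SA.eq_zero (ι := Option ι) (MvPolynomial.X none))
  have h2 := SA.union hf h1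
  refine cast ?_ h2
  unfold SAFun SAFunOn
  congr 1
  ext z
  by_cases hz : (fun i => z (some i)) ∈ W
  · simp [hz]
  · simp [hz]

theorem SAFunOn.of_indicator {W : Set (ι → ℝ)} (hW : SA W) (hf : SAFun (W.indicator f)) :
    SAFunOn f W :=
  (hf.on hW).congr (fun x hx => by simp [hx])

end total

end Crest.Agent.R264.TS
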