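import Mathlib

/-!
# Tarski-Seidenberg by sign determination (row 264, helper235)

For a commutative ring `A` with evaluations `ev : X → A →+* ℝ`, the sign pattern on the line of a
finite family of polynomials in `A[T]`, evaluated at `x`, is determined up to an increasing
bijection of `ℝ` by the signs of finitely many elements of `A` at `x`.
-/

set_option autoImplicit false

namespace Crest.Agent.R264.TSGlue

open Polynomial SignType

/-! ## increasing bijections of the line -/

theorem exists_orderIso_fix (c u v : ℝ) (hu : c < u) (hv : c < v) :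
    ∃ θ : ℝ ≃o ℝ, (∀ t ≤ c, θ t = t) ∧ θ u = v := by
  set k : ℝ := (v - c) / (u - c) with hk
  have hkpos : 0 < k := div_pos (sub_pos.2 hv) (sub_pos.2 hu)
  let f : ℝ → ℝ := fun t => if t ≤ c then t else c + (t - c) * k
  have hmono : StrictMono f := by
    intro a b hab
    simp only [f]
    split_ifs with h1 h2 h2
    · exact hab
    · have : 0 < (b - c) * k := mul_pos (by linarith [not_le.1 h2]) hkpos
      linarith
    · exact absurd (hab.le.trans h2) h1
    · have : (a - c) * k < (b - c) * k := mul_lt_mul_of_pos_right (by linarith) hkpos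
      linarith
  have hsurj : Function.Surjective f := by
    intro y
    by_cases hy : y ≤ c
    · exact ⟨y, by simp [f, hy]⟩
    · refine ⟨c + (y - c) / k, ?_⟩
      have hpos : 0 < (y - c) / k := div_pos (by linarith [not_le.1 hy]) hkpos
      have h1 : ¬ (c + (y - c) / k ≤ c) := by linarith
      simp only [f, if_neg h1]
      field_simp
      ring
  refine ⟨StrictMono.orderIsoOfSurjective f hmono hsurj, ?_, ?_⟩
  · intro t ht
    simp [f, ht]
  · have h1 : ¬ (u ≤ c) := not_le.2 hu
    simp only [StrictMono.coe_orderIsoOfSurjective, f, if_neg h1, hk]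
    have : u - c ≠ 0 := (sub_pos.2 hu).ne'
    field_simp
    ring

theorem exists_orderIso_extend (P : Finset ℝ) (β : ℝ → ℝ) (hβ : StrictMonoOn β (P : Set ℝ)) :
    ∃ ψ : ℝ ≃o ℝ, ∀ p ∈ P, ψ p = β p := by
  classical
  induction P using Finset.induction_on_max with
  | empty => exact ⟨OrderIso.refl ℝ, by simp⟩
  | insert a s hs ih =>
    obtain ⟨ψ0, hψ0⟩ := ih (hβ.mono (by simp))
    rcases s.eq_empty_or_nonempty with rfl | hne
    · refine ⟨OrderIso.addRight (β a - a), ?_⟩
      intro p hp
      simp at hp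
      subst hp
      simp
    · set m := s.max' hne with hm
      have hms : m ∈ s := s.max'_mem hne
      have hma : m < a := hs m hms
      have h1 : ψ0 m = β m := hψ0 m hms
      have h2 : β m < β a := hβ (by simp [hms]) (by simp) hma
      obtain ⟨θ, hθ, hθa⟩ := exists_orderIso_fix (ψ0 m) (ψ0 a) (β a)
        (ψ0.strictMono hma) (by rw [h1]; exact h2)
      refine ⟨ψ0.trans θ, ?_⟩
      intro p hp
      rcases Finset.mem_insert.1 hp with rfl | hp
      · simpa using hθa
      · have h3 : p ≤ m := s.le_max' p hp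
        rw [OrderIso.trans_apply, hθ _ (ψ0.monotone h3), hψ0 p hp]

/-! ## signs of real polynomials -/

theorem sign_eq_of_no_root (p : ℝ[X]) {a b : ℝ} (hab : a ≤ b)
    (h : ∀ t, a ≤ t → t ≤ b → p.eval t ≠ 0) : sign (p.eval a) = sign (p.eval b) := by
  by_contra hne
  have ha := h a le_rfl hab
  have hb := h b hab le_rfl
  have hcont : ContinuousOn (fun t => p.eval t) (Set.Icc a b) := p.continuous.continuousOn
  rcases lt_or_gt_of_ne ha with ha' | ha' <;> rcases lt_or_gt_of_ne hb with hb' | hb'
  · exact hne (by rw [sign_neg ha', sign_neg hb'])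
  · obtain ⟨t, ht, h0⟩ := intermediate_value_Icc hab hcont ⟨ha'.le, hb'.le⟩
    exact h t ht.1 ht.2 h0
  · obtain ⟨t, ht, h0⟩ := intermediate_value_Icc' hab hcont ⟨hb'.le, ha'.le⟩
    exact h t ht.1 ht.2 h0
  · exact hne (by rw [sign_pos ha', sign_pos hb'])

theorem strictMonoOn_of_deriv (p : ℝ[X]) {a b : ℝ}
    (h : ∀ t, a < t → t < b → 0 < p.derivative.eval t) :
    StrictMonoOn (fun t => p.eval t) (Set.Icc a b) := by
  apply strictMonoOn_of_deriv_pos (convex_Icc a b) p.continuous.continuousOn
  intro t ht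
  rw [interior_Icc] at ht
  rw [Polynomial.deriv]
  exact h t ht.1 ht.2

/-- sign of the derivative is constant when it has no root -/
theorem deriv_sign_const (p : ℝ[X]) {a b : ℝ} (hab : a ≤ b)
    (h : ∀ t, a ≤ t → t ≤ b → p.derivative.eval t ≠ 0) :
    sign (p.derivative.eval a) = sign (p.derivative.eval b) :=
  sign_eq_of_no_root _ hab h

theorem sign_after_root (p : ℝ[X]) {u t : ℝ} (hut : u < t) (hu : p.eval u = 0)
    (h : ∀ s, u < s → s ≤ t → p.derivative.eval s ≠ 0) :
    sign (p.eval t) = sign (p.derivative.eval t) := by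
  have key : ∀ q : ℝ[X], q.eval u = 0 → (∀ s, u < s → s ≤ t → q.derivative.eval s ≠ 0) →
      0 < q.derivative.eval t → 0 < q.eval t := by
    intro q hq hq' hpos
    have h1 : ∀ s, u < s → s < t → 0 < q.derivative.eval s := by
      intro s hs1 hs2
      have := sign_eq_of_no_root q.derivative hs2.le
        (fun r hr1 hr2 => hq' r (hs1.trans_le hr1) hr2)
      rw [sign_pos hpos] at this
      exact sign_eq_one_iff.1 this
    have := strictMonoOn_of_deriv q h1 ⟨le_rfl, hut.le⟩ ⟨hut.le, le_rfl⟩ hut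
    simpa [hq] using this
  rcases lt_or_gt_of_ne (h t hut le_rfl) with hn | hp
  · have := key (-p) (by simp [hu]) (fun s h1 h2 => by simpa using h s h1 h2) (by simpa using hn)
    rw [eval_neg, Left.neg_pos_iff] at this
    rw [sign_neg hn, sign_neg this]
  · rw [sign_pos hp, sign_pos (key p hu h hp)]

theorem sign_before_root (p : ℝ[X]) {u t : ℝ} (hut : t < u) (hu : p.eval u = 0)
    (h : ∀ s, t ≤ s → s < u → p.derivative.eval s ≠ 0) :
    sign (p.eval t) = - sign (p.derivative.eval t) := by
  have key : ∀ q : ℝ[X], q.eval u = 0 → (∀ s, t ≤ s → s < u → q.derivative.eval s ≠ 0) →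
      0 < q.derivative.eval t → q.eval t < 0 := by
    intro q hq hq' hpos
    have h1 : ∀ s, t < s → s < u → 0 < q.derivative.eval s := by
      intro s hs1 hs2
      have := sign_eq_of_no_root q.derivative hs1.le
        (fun r hr1 hr2 => hq' r hr1 (hr2.trans_lt hs2))
      rw [sign_pos hpos] at this
      exact sign_eq_one_iff.1 this.symm
    have := strictMonoOn_of_deriv q h1 ⟨le_rfl, hut.le⟩ ⟨hut.le, le_rfl⟩ hut
    simpa [hq] using this
  rcases lt_or_gt_of_ne (h t le_rfl hut) with hn | hp
  · have := key (-p) (by simp [hu]) (fun s h1 h2 => by simpa using h s h1 h2) (by simpa using hn)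
    rw [eval_neg, Left.neg_neg_iff] at this
    rw [sign_neg hn, sign_pos this]; rfl
  · rw [sign_pos hp, sign_neg (key p hu h hp)]

/-- end behaviour at `-∞` -/
theorem sign_atBot (p : ℝ[X]) {t : ℝ} (h : ∀ s ≤ t, p.derivative.eval s ≠ 0)
    (h0 : ∀ s ≤ t, p.eval s ≠ 0) : sign (p.eval t) = - sign (p.derivative.eval t) := by
  have key : ∀ q : ℝ[X], (∀ s ≤ t, q.derivative.eval s ≠ 0) → (∀ s ≤ t, q.eval s ≠ 0) →
      0 < q.derivative.eval t → q.eval t < 0 := by
    intro q hq hq0 hpos
    by_contra hcon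
    have hqt : 0 < q.eval t := lt_of_le_of_ne (not_lt.1 hcon) (Ne.symm (hq0 t le_rfl))
    have h1 : ∀ s ≤ t, 0 < q.derivative.eval s := by
      intro s hs
      have := sign_eq_of_no_root q.derivative hs (fun r _ hr2 => hq r hr2)
      rw [sign_pos hpos] at this
      exact sign_eq_one_iff.1 this
    have h2 : ∀ s ≤ t, 0 < q.eval s := by
      intro s hs
      have := sign_eq_of_no_root q hs (fun r _ hr2 => hq0 r hr2)
      rw [sign_pos hqt] at this
      exact sign_eq_one_iff.1 this
    have hdeg : 0 < (q.comp (-X)).degree := by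
      rw [← natDegree_pos_iff_degree_pos, natDegree_comp]
      simp only [natDegree_neg, natDegree_X, mul_one]
      by_contra hd
      have : q.natDegree = 0 := by omega
      rw [eq_C_of_natDegree_eq_zero this] at hpos
      simp at hpos
    have hlim := Polynomial.abs_tendsto_atTop (q.comp (-X)) hdeg
    obtain ⟨N, hN⟩ := (Filter.tendsto_atTop.1 hlim (q.eval t + 1)).exists_forall_of_atTop
    set M := max N (-t) with hM
    have h3 := hN M (le_max_left _ _)
    have h4 : -M ≤ t := by linarith [le_max_right N (-t)]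
    have h5 := h2 (-M) h4
    simp only [eval_comp, eval_neg, eval_X] at h3
    rw [abs_of_pos h5] at h3
    have h6 : StrictMonoOn (fun s => q.eval s) (Set.Icc (-M) t) :=
      strictMonoOn_of_deriv q (fun s _ hs => h1 s hs.le)
    have h7 : q.eval (-M) ≤ q.eval t := h6.monotoneOn ⟨le_rfl, h4⟩ ⟨h4, le_rfl⟩ h4
    linarith
  rcases lt_or_gt_of_ne (h t le_rfl) with hn | hp
  · have := key (-p) (fun s h1 => by simpa using h s h1) (fun s h1 => by simpa using h0 s h1)
      (by simpa using hn)
    rw [eval_neg, Left.neg_neg_iff] at this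
    rw [sign_neg hn, sign_pos this]; rfl
  · rw [sign_pos hp, sign_neg (key p h h0 hp)]

/-- end behaviour at `+∞` -/
theorem sign_atTop (p : ℝ[X]) {t : ℝ} (h : ∀ s, t ≤ s → p.derivative.eval s ≠ 0)
    (h0 : ∀ s, t ≤ s → p.eval s ≠ 0) : sign (p.eval t) = sign (p.derivative.eval t) := by
  have hd : ∀ s, (p.comp (-X)).derivative.eval s = - p.derivative.eval (-s) := by
    intro s
    rw [derivative_comp]
    simp
  have := sign_atBot (p.comp (-X)) (t := -t)
    (fun s hs => by rw [hd]; simpa using h (-s) (by linarith))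
    (fun s hs => by simpa using h0 (-s) (by linarith))
  rw [hd, Left.sign_neg, neg_neg] at this
  simpa using this

/-! ## the gluing step -/

/-- data of a step: `p`, `q` with matching signs of derivatives, and of values on `Z`. -/
structure Step (p q : ℝ[X]) (φ : ℝ ≃o ℝ) (Z : Finset ℝ) : Prop where
  h1 : ∀ t, sign (p.derivative.eval t) = sign (q.derivative.eval (φ t))
  h2 : ∀ t, p.derivative.eval t = 0 → t ∈ Z
  h3 : ∀ z ∈ Z, sign (p.eval z) = sign (q.eval (φ z))

theorem Step.neg {p q : ℝ[X]} {φ : ℝ ≃o ℝ} {Z : Finset ℝ} (H : Step p q φ Z) :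
    Step (-p) (-q) φ Z where
  h1 t := by simp [Left.sign_neg, H.h1 t]
  h2 t ht := H.h2 t (by simpa using ht)
  h3 z hz := by simp [Left.sign_neg, H.h3 z hz]

theorem Step.symm {p q : ℝ[X]} {φ : ℝ ≃o ℝ} {Z : Finset ℝ} (H : Step p q φ Z) :
    Step q p φ.symm (Z.map φ.toEquiv.toEmbedding) where
  h1 t := by rw [H.h1 (φ.symm t), OrderIso.apply_symm_apply]
  h2 t ht := by
    have h := H.h1 (φ.symm t)
    rw [OrderIso.apply_symm_apply, ht, sign_zero, sign_eq_zero_iff] at h
    exact Finset.mem_map.2 ⟨φ.symm t, H.h2 _ h, by simp⟩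
  h3 z hz := by
    obtain ⟨w, hw, rfl⟩ := Finset.mem_map.1 hz
    simpa using (H.h3 w hw).symm

theorem Step.rolle {p q : ℝ[X]} {φ : ℝ ≃o ℝ} {Z : Finset ℝ} (H : Step p q φ Z) {r s : ℝ}
    (hrs : r < s) (hr : p.eval r = 0) (hs : p.eval s = 0) : ∃ z ∈ Z, r < z ∧ z < s := by
  obtain ⟨c, hc, hc'⟩ := exists_deriv_eq_zero (f := fun t => p.eval t) hrs
    p.continuous.continuousOn (by simp [hr, hs])
  rw [Polynomial.deriv] at hc'
  exact ⟨c, H.h2 c hc', hc.1, hc.2⟩

theorem Step.claimA_pos {p q : ℝ[X]} {φ : ℝ ≃o ℝ} {Z : Finset ℝ} (H : Step p q φ Z) {r : ℝ}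
    (hr : p.eval r = 0) (hpos : 0 < p.derivative.eval r) (hrZ : r ∉ Z) :
    ∃ r', q.eval r' = 0 ∧ (∀ z ∈ Z, z < r → φ z < r') ∧ (∀ z ∈ Z, r < z → r' < φ z) := by
  classical
  have hqr : 0 < q.derivative.eval (φ r) := by
    have := H.h1 r
    rw [sign_pos hpos] at this
    exact sign_eq_one_iff.1 this.symm
  -- left point
  have left : ∃ a' ≤ φ r, (∀ z ∈ Z, z < r → φ z ≤ a') ∧ q.eval a' < 0 := by
    set Zl := Z.filter (· < r) with hZl
    rcases Zl.eq_empty_or_nonempty with he | hne
    · have hnone : ∀ z ∈ Z, ¬ z < r := by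
        intro z hz hlt
        have : z ∈ Zl := Finset.mem_filter.2 ⟨hz, hlt⟩
        rw [he] at this
        simp at this
      have hq' : ∀ s ≤ φ r, q.derivative.eval s ≠ 0 := by
        intro s hs h0
        have h := H.h1 (φ.symm s)
        rw [OrderIso.apply_symm_apply, h0, sign_zero, sign_eq_zero_iff] at h
        have hz := H.h2 _ h
        have hle : φ.symm s ≤ r := by
          rw [OrderIso.symm_apply_le]; exact hs
        rcases hle.lt_or_eq with hlt | heq
        · exact hnone _ hz hlt
        · exact hrZ (heq ▸ hz)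
      by_cases hroot : ∀ s ≤ φ r, q.eval s ≠ 0
      · have := sign_atBot q hq' hroot
        rw [sign_pos hqr] at this
        refine ⟨φ r, le_rfl, fun z hz hlt => absurd hlt (hnone z hz), ?_⟩
        exact sign_eq_neg_one_iff.1 this
      · push Not at hroot
        obtain ⟨s, hs, hs0⟩ := hroot
        refine ⟨s - 1, by linarith, fun z hz hlt => absurd hlt (hnone z hz), ?_⟩
        have := sign_before_root q (u := s) (t := s - 1) (by linarith) hs0
          (fun w hw1 hw2 => hq' w (by linarith))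
        have h3 : sign (q.derivative.eval (s - 1)) = 1 := by
          rw [sign_eq_of_no_root q.derivative (a := s - 1) (b := φ r) (by linarith)
            (fun w _ hw => hq' w hw), sign_pos hqr]
        rw [h3] at this
        exact sign_eq_neg_one_iff.1 this
    · set a := Zl.max' hne with ha
      have haZ : a ∈ Zl := Zl.max'_mem hne
      have haZ' := Finset.mem_filter.1 haZ
      have hmax : ∀ z ∈ Z, z < r → z ≤ a := fun z hz hlt =>
        Zl.le_max' z (Finset.mem_filter.2 ⟨hz, hlt⟩)
      refine ⟨φ a, (φ.strictMono haZ'.2).le, fun z hz hlt => φ.monotone (hmax z hz hlt), ?_⟩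
      have hmono : StrictMonoOn (fun s => p.eval s) (Set.Icc a r) := by
        apply strictMonoOn_of_deriv
        intro s hs1 hs2
        have hno : ∀ w, s ≤ w → w ≤ r → p.derivative.eval w ≠ 0 := by
          intro w hw1 hw2 h0
          have hwZ := H.h2 w h0
          rcases hw2.lt_or_eq with hlt | heq
          · exact absurd (hmax w hwZ hlt) (not_le.2 (hs1.trans_le hw1))
          · exact hrZ (heq ▸ hwZ)
        have := sign_eq_of_no_root p.derivative hs2.le hno
        rw [sign_pos hpos] at this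
        exact sign_eq_one_iff.1 this
      have hlt := hmono ⟨le_rfl, haZ'.2.le⟩ ⟨haZ'.2.le, le_rfl⟩ haZ'.2
      simp only [hr] at hlt
      have := H.h3 a haZ'.1
      rw [sign_neg hlt] at this
      exact sign_eq_neg_one_iff.1 this.symm
  have right : ∃ b', φ r ≤ b' ∧ (∀ z ∈ Z, r < z → b' ≤ φ z) ∧ 0 < q.eval b' := by
    set Zr := Z.filter (r < ·) with hZr
    rcases Zr.eq_empty_or_nonempty with he | hne
    · have hnone : ∀ z ∈ Z, ¬ r < z := by
        intro z hz hlt
        have : z ∈ Zr := Finset.mem_filter.2 ⟨hz, hlt⟩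
        rw [he] at this
        simp at this
      have hq' : ∀ s, φ r ≤ s → q.derivative.eval s ≠ 0 := by
        intro s hs h0
        have h := H.h1 (φ.symm s)
        rw [OrderIso.apply_symm_apply, h0, sign_zero, sign_eq_zero_iff] at h
        have hz := H.h2 _ h
        have hle : r ≤ φ.symm s := by
          rw [OrderIso.le_symm_apply]; exact hs
        rcases hle.lt_or_eq with hlt | heq
        · exact hnone _ hz hlt
        · exact hrZ (heq ▸ hz)
      by_cases hroot : ∀ s, φ r ≤ s → q.eval s ≠ 0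
      · have := sign_atTop q hq' hroot
        rw [sign_pos hqr] at this
        refine ⟨φ r, le_rfl, fun z hz hlt => absurd hlt (hnone z hz), ?_⟩
        exact sign_eq_one_iff.1 this
      · push Not at hroot
        obtain ⟨s, hs, hs0⟩ := hroot
        refine ⟨s + 1, by linarith, fun z hz hlt => absurd hlt (hnone z hz), ?_⟩
        have := sign_after_root q (u := s) (t := s + 1) (by linarith) hs0
          (fun w hw1 hw2 => hq' w (by linarith))
        have h3 : sign (q.derivative.eval (s + 1)) = 1 := by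
          rw [← sign_eq_of_no_root q.derivative (a := φ r) (b := s + 1) (by linarith)
            (fun w hw _ => hq' w hw), sign_pos hqr]
        rw [h3] at this
        exact sign_eq_one_iff.1 this
    · set b := Zr.min' hne with hb
      have hbZ : b ∈ Zr := Zr.min'_mem hne
      have hbZ' := Finset.mem_filter.1 hbZ
      have hmin : ∀ z ∈ Z, r < z → b ≤ z := fun z hz hlt =>
        Zr.min'_le z (Finset.mem_filter.2 ⟨hz, hlt⟩)
      refine ⟨φ b, (φ.strictMono hbZ'.2).le, fun z hz hlt => φ.monotone (hmin z hz hlt), ?_⟩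
      have hmono : StrictMonoOn (fun s => p.eval s) (Set.Icc r b) := by
        apply strictMonoOn_of_deriv
        intro s hs1 hs2
        have hno : ∀ w, r ≤ w → w ≤ s → p.derivative.eval w ≠ 0 := by
          intro w hw1 hw2 h0
          have hwZ := H.h2 w h0
          rcases hw1.lt_or_eq with hlt | heq
          · exact absurd (hmin w hwZ hlt) (not_le.2 (hw2.trans_lt hs2))
          · exact hrZ (heq ▸ hwZ)
        have := sign_eq_of_no_root p.derivative hs1.le hno
        rw [sign_pos hpos] at this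
        exact sign_eq_one_iff.1 this.symm
      have hlt := hmono ⟨le_rfl, hbZ'.2.le⟩ ⟨hbZ'.2.le, le_rfl⟩ hbZ'.2
      simp only [hr] at hlt
      have := H.h3 b hbZ'.1
      rw [sign_pos hlt] at this
      exact sign_eq_one_iff.1 this.symm
  obtain ⟨a', ha1, ha2, ha3⟩ := left
  obtain ⟨b', hb1, hb2, hb3⟩ := right
  have hab : a' ≤ b' := ha1.trans hb1
  obtain ⟨r', hr', hr0⟩ := intermediate_value_Ioo hab q.continuous.continuousOn
    (show (0 : ℝ) ∈ Set.Ioo (q.eval a') (q.eval b') from ⟨ha3, hb3⟩)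
  exact ⟨r', hr0, fun z hz hlt => (ha2 z hz hlt).trans_lt hr'.1,
    fun z hz hlt => hr'.2.trans_le (hb2 z hz hlt)⟩

theorem Step.claimA {p q : ℝ[X]} {φ : ℝ ≃o ℝ} {Z : Finset ℝ} (H : Step p q φ Z) {r : ℝ}
    (hr : p.eval r = 0) (hrZ : r ∉ Z) :
    ∃ r', q.eval r' = 0 ∧ (∀ z ∈ Z, z < r → φ z < r') ∧ (∀ z ∈ Z, r < z → r' < φ z) := by
  have hne : p.derivative.eval r ≠ 0 := fun h => hrZ (H.h2 r h)
  rcases lt_or_gt_of_ne hne with hn | hp
  · obtain ⟨r', h1, h2, h3⟩ := H.neg.claimA_pos (r := r) (by simp [hr]) (by simpa using hn) hrZ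
    exact ⟨r', by simpa using h1, h2, h3⟩
  · exact H.claimA_pos hr hp hrZ

/-- transfer of signs along two isomorphisms agreeing on the roots -/
theorem sign_transfer {f h : ℝ[X]} {φ ψ : ℝ ≃o ℝ} {Z : Finset ℝ}
    (hf : ∀ t, f.eval t = 0 → t ∈ Z)
    (hs : ∀ t, sign (f.eval t) = sign (h.eval (φ t))) (hψ : ∀ z ∈ Z, ψ z = φ z) (t : ℝ) :
    sign (f.eval t) = sign (h.eval (ψ t)) := by
  by_cases htZ : t ∈ Z
  · rw [hψ t htZ]; exact hs t
  · have hroot : ∀ s, h.eval s = 0 → ∃ s0 ∈ Z, φ s0 = s ∧ ψ s0 = s := by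
      intro s h0
      have h1 := hs (φ.symm s)
      rw [OrderIso.apply_symm_apply, h0, sign_zero, sign_eq_zero_iff] at h1
      have h2 := hf _ h1
      exact ⟨φ.symm s, h2, by simp, by rw [hψ _ h2]; simp⟩
    rw [hs t]
    rcases le_total (φ t) (ψ t) with hle | hle
    · apply sign_eq_of_no_root h hle
      intro s hs1 hs2 h0
      obtain ⟨s0, h3, h4, h5⟩ := hroot s h0
      have h6 : t ≤ s0 := φ.le_iff_le.1 (by rw [h4]; exact hs1)
      have h7 : s0 ≤ t := ψ.le_iff_le.1 (by rw [h5]; exact hs2)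
      exact htZ (le_antisymm h6 h7 ▸ h3)
    · symm
      apply sign_eq_of_no_root h hle
      intro s hs1 hs2 h0
      obtain ⟨s0, h3, h4, h5⟩ := hroot s h0
      have h6 : t ≤ s0 := ψ.le_iff_le.1 (by rw [h5]; exact hs1)
      have h7 : s0 ≤ t := φ.le_iff_le.1 (by rw [h4]; exact hs2)
      exact htZ (le_antisymm h6 h7 ▸ h3)

theorem Step.glue {p q : ℝ[X]} {φ : ℝ ≃o ℝ} {Z : Finset ℝ} (H : Step p q φ Z) :
    ∃ ψ : ℝ ≃o ℝ, (∀ z ∈ Z, ψ z = φ z) ∧ ∀ t, sign (p.eval t) = sign (q.eval (ψ t)) := by
  classical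
  have hp'0 : p.derivative ≠ 0 := by
    intro h0
    have hall : ∀ t : ℝ, t ∈ Z := fun t => H.h2 t (by simp [h0])
    exact Set.infinite_univ (Z.finite_toSet.subset (fun t _ => hall t))
  have hp0 : p ≠ 0 := fun h => hp'0 (by simp [h])
  have hA : ∀ r : ℝ, ∃ r' : ℝ, (p.eval r = 0 → r ∉ Z → q.eval r' = 0 ∧
      (∀ z ∈ Z, z < r → φ z < r') ∧ (∀ z ∈ Z, r < z → r' < φ z)) := by
    intro r
    by_cases h1 : p.eval r = 0 ∧ r ∉ Z
    · obtain ⟨r', h2⟩ := H.claimA h1.1 h1.2
      exact ⟨r', fun _ _ => h2⟩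
    · exact ⟨0, fun h2 h3 => absurd ⟨h2, h3⟩ h1⟩
  choose g hg using hA
  set P : Finset ℝ := Z ∪ p.roots.toFinset with hP
  have hroots : ∀ r, r ∈ p.roots.toFinset ↔ p.eval r = 0 := by
    intro r
    rw [Multiset.mem_toFinset, mem_roots hp0, IsRoot.def]
  let β : ℝ → ℝ := fun t => if t ∈ Z then φ t else g t
  have hβZ : ∀ z ∈ Z, β z = φ z := fun z hz => by simp [β, hz]
  have hβR : ∀ r ∉ Z, β r = g r := fun z hz => by simp [β, hz]
  have hmono : StrictMonoOn β (P : Set ℝ) := by
    intro a ha b hb hab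
    have ha' : a ∈ Z ∨ (p.eval a = 0 ∧ a ∉ Z) := by
      by_cases h : a ∈ Z
      · exact Or.inl h
      · rcases Finset.mem_union.1 (Finset.mem_coe.1 ha) with h1 | h1
        · exact absurd h1 h
        · exact Or.inr ⟨(hroots a).1 h1, h⟩
    have hb' : b ∈ Z ∨ (p.eval b = 0 ∧ b ∉ Z) := by
      by_cases h : b ∈ Z
      · exact Or.inl h
      · rcases Finset.mem_union.1 (Finset.mem_coe.1 hb) with h1 | h1
        · exact absurd h1 h
        · exact Or.inr ⟨(hroots b).1 h1, h⟩
    rcases ha' with ha1 | ⟨ha1, ha2⟩ <;> rcases hb' with hb1 | ⟨hb1, hb2⟩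
    · rw [hβZ a ha1, hβZ b hb1]; exact φ.strictMono hab
    · rw [hβZ a ha1, hβR b hb2]
      exact (hg b hb1 hb2).2.1 a ha1 hab
    · rw [hβR a ha2, hβZ b hb1]
      exact (hg a ha1 ha2).2.2 b hb1 hab
    · rw [hβR a ha2, hβR b hb2]
      obtain ⟨z, hz, hz1, hz2⟩ := H.rolle hab ha1 hb1
      exact ((hg a ha1 ha2).2.2 z hz hz1).trans ((hg b hb1 hb2).2.1 z hz hz2)
  obtain ⟨ψ, hψ⟩ := exists_orderIso_extend P β hmono
  have hψZ : ∀ z ∈ Z, ψ z = φ z := fun z hz => by
    rw [hψ z (Finset.mem_union_left _ hz), hβZ z hz]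
  have hPsign : ∀ t ∈ P, sign (p.eval t) = sign (q.eval (ψ t)) := by
    intro t ht
    by_cases htZ : t ∈ Z
    · rw [hψZ t htZ]; exact H.h3 t htZ
    · have h1 : p.eval t = 0 := by
        rcases Finset.mem_union.1 ht with h | h
        · exact absurd h htZ
        · exact (hroots t).1 h
      rw [hψ t ht, hβR t htZ, h1, (hg t h1 htZ).1]
  -- all roots of q are in ψ(P)
  have hB : ∀ s, q.eval s = 0 → ψ.symm s ∈ P := by
    intro s hs
    by_cases hsZ : s ∈ Z.map φ.toEquiv.toEmbedding
    · obtain ⟨z, hz, rfl⟩ := Finset.mem_map.1 hsZ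
      have : ψ.symm (φ z) = z := by rw [← hψZ z hz]; simp
      have h7 : ψ.symm (φ.toEquiv.toEmbedding z) = z := this
      rw [h7]
      exact Finset.mem_union_left _ hz
    · obtain ⟨r, hr0, hr1, hr2⟩ := H.symm.claimA hs hsZ
      have hne : ∀ z ∈ Z, φ z ≠ s := by
        intro z hz h
        exact hsZ (Finset.mem_map.2 ⟨z, hz, h⟩)
      have h1 : ∀ z ∈ Z, φ z < s → z < r := by
        intro z hz hlt
        have := hr1 (φ z) (Finset.mem_map.2 ⟨z, hz, rfl⟩) hlt
        simpa using this
      have h2 : ∀ z ∈ Z, s < φ z → r < z := by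
        intro z hz hlt
        have := hr2 (φ z) (Finset.mem_map.2 ⟨z, hz, rfl⟩) hlt
        simpa using this
      have hrZ : r ∉ Z := by
        intro hrZ
        rcases lt_or_gt_of_ne (hne r hrZ) with h | h
        · exact lt_irrefl _ (h1 r hrZ h)
        · exact lt_irrefl _ (h2 r hrZ h)
      have hrP : r ∈ P := Finset.mem_union_right _ ((hroots r).2 hr0)
      have hψr : ψ r = g r := by rw [hψ r hrP, hβR r hrZ]
      obtain ⟨hg0, hg1, hg2⟩ := hg r hr0 hrZ
      -- g r = s by uniqueness
      have : g r = s := by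
        by_contra hne'
        rcases lt_or_gt_of_ne hne' with hlt | hlt
        · obtain ⟨w, hw, hw1, hw2⟩ := H.symm.rolle hlt hg0 hs
          obtain ⟨z, hz, rfl⟩ := Finset.mem_map.1 hw
          simp only [Equiv.coe_toEmbedding, RelIso.coe_fn_toEquiv] at hw1 hw2
          have h3 := h1 z hz hw2
          have h4 := hg1 z hz h3
          linarith
        · obtain ⟨w, hw, hw1, hw2⟩ := H.symm.rolle hlt hs hg0
          obtain ⟨z, hz, rfl⟩ := Finset.mem_map.1 hw
          simp only [Equiv.coe_toEmbedding, RelIso.coe_fn_toEquiv] at hw1 hw2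
          have h3 := h2 z hz hw1
          have h4 := hg2 z hz h3
          linarith
      rw [← this, ← hψr, OrderIso.symm_apply_apply]
      exact hrP
  have hderiv : ∀ t, sign (p.derivative.eval t) = sign (q.derivative.eval (ψ t)) :=
    fun t => sign_transfer H.h2 H.h1 hψZ t
  have hqd : ∀ s, q.derivative.eval s = 0 → ψ.symm s ∈ P := by
    intro s h0
    have h := hderiv (ψ.symm s)
    rw [OrderIso.apply_symm_apply, h0, sign_zero, sign_eq_zero_iff] at h
    exact Finset.mem_union_left _ (H.h2 _ h)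
  refine ⟨ψ, hψZ, fun t => ?_⟩
  by_cases htP : t ∈ P
  · exact hPsign t htP
  · -- the largest point of P below t
    set Pl := P.filter (· < t) with hPl
    rcases Pl.eq_empty_or_nonempty with he | hne
    · have hnone : ∀ z ∈ P, ¬ z ≤ t := by
        intro z hz hle
        rcases hle.lt_or_eq with hlt | heq
        · have : z ∈ Pl := Finset.mem_filter.2 ⟨hz, hlt⟩
          rw [he] at this
          simp at this
        · exact htP (heq ▸ hz)
      rw [sign_atBot p (t := t)
        (fun s hs h0 => hnone s (Finset.mem_union_left _ (H.h2 s h0)) hs)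
        (fun s hs h0 => hnone s (Finset.mem_union_right _ ((hroots s).2 h0)) hs),
        sign_atBot q (t := ψ t)
        (fun s hs h0 => hnone _ (hqd s h0) (by rw [OrderIso.symm_apply_le]; exact hs))
        (fun s hs h0 => hnone _ (hB s h0) (by rw [OrderIso.symm_apply_le]; exact hs)),
        hderiv t]
    · set u := Pl.max' hne with hu
      have huP : u ∈ Pl := Pl.max'_mem hne
      have huP' := Finset.mem_filter.1 huP
      have hmax : ∀ z ∈ P, z ≤ t → z ≤ u := by
        intro z hz hle
        rcases hle.lt_or_eq with hlt | heq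
        · exact Pl.le_max' z (Finset.mem_filter.2 ⟨hz, hlt⟩)
        · exact absurd (heq ▸ hz) htP
      have hψu : ψ u < ψ t := ψ.strictMono huP'.2
      by_cases hpu : p.eval u = 0
      · have hqu : q.eval (ψ u) = 0 := by
          have := hPsign u huP'.1
          rw [hpu, sign_zero] at this
          exact sign_eq_zero_iff.1 this.symm
        rw [sign_after_root p huP'.2 hpu (fun s hs1 hs2 h0 =>
            absurd (hmax s (Finset.mem_union_left _ (H.h2 s h0)) hs2) (not_le.2 hs1)),
          sign_after_root q hψu hqu (fun s hs1 hs2 h0 => by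
            have h1 := hmax _ (hqd s h0) (by rw [OrderIso.symm_apply_le]; exact hs2)
            rw [OrderIso.symm_apply_le] at h1
            exact absurd h1 (not_le.2 hs1)),
          hderiv t]
      · have hqu : q.eval (ψ u) ≠ 0 := by
          intro h0
          have := hPsign u huP'.1
          rw [h0, sign_zero] at this
          exact hpu (sign_eq_zero_iff.1 this)
        rw [← sign_eq_of_no_root p huP'.2.le (fun s hs1 hs2 h0 => by
            have h1 := hmax s (Finset.mem_union_right _ ((hroots s).2 h0)) hs2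
            exact hpu (le_antisymm h1 hs1 ▸ h0)),
          ← sign_eq_of_no_root q hψu.le (fun s hs1 hs2 h0 => by
            have h1 := hmax _ (hB s h0) (by rw [OrderIso.symm_apply_le]; exact hs2)
            rw [OrderIso.symm_apply_le] at h1
            exact hqu (le_antisymm h1 hs1 ▸ h0)),
          hPsign u huP'.1]

end Crest.Agent.R264.TSGlue
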