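import Crest.Agent.R264.TSCalc

/-!
# One variable semialgebraic sets, eventual quantifiers, limits, suprema (row 264, helper235)
-/

set_option autoImplicit false

open Set Filter Topology

namespace Crest.Agent.R264.TS

variable {ι κ : Type*}

/-! ## subsets of the line -/

/-- semialgebraic subsets of the line: membership depends on the signs of finitely many polynomials -/
def SA1 (S : Set ℝ) : Prop :=
  ∃ W : Finset (Polynomial ℝ), ∀ s t, (∀ p ∈ W, SignType.sign (p.eval s) =
    SignType.sign (p.eval t)) → s ∈ S → t ∈ S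

theorem SA1.compl {S : Set ℝ} (h : SA1 S) : SA1 Sᶜ := by
  obtain ⟨W, hW⟩ := h
  exact ⟨W, fun s t hst hs ht => hs (hW t s (fun p hp => (hst p hp).symm) ht)⟩

/-- fibres of semialgebraic sets are semialgebraic subsets of the line -/
theorem SA.fibre {P : (ι → ℝ) → ℝ → Prop}
    (h : SA {z : Option ι → ℝ | P (fun i => z (some i)) (z none)}) (x : ι → ℝ) :
    SA1 {t : ℝ | P x t} := by
  classical
  obtain ⟨W, hW⟩ := h
  refine ⟨W.image (fun p => (MvPolynomial.optionEquivLeft ℝ ι p).map (MvPolynomial.eval x)),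
    fun s t hst hs => ?_⟩
  refine (hW (fun o => o.elim s x) (fun o => o.elim t x) fun p hp => ?_).1 hs
  have := hst _ (Finset.mem_image_of_mem _ hp)
  rw [← eval_optionEquivLeft, ← eval_optionEquivLeft]
  exact this

/-- a semialgebraic subset of `Unit → ℝ` is a semialgebraic subset of the line -/
theorem SA.toSA1 {S : Set ℝ} (h : SA {z : Unit → ℝ | z () ∈ S}) : SA1 S := by
  have h1 : SA {z : Option Empty → ℝ | z none ∈ S} := h.reindex (fun _ => none)
  exact SA.fibre (P := fun _ t => t ∈ S) h1 (fun e => e.elim)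

/-- breakpoints -/
theorem SA1.exists_breakpoints {S : Set ℝ} (h : SA1 S) :
    ∃ Z : Finset ℝ, ∀ s t, s ≤ t → (∀ z ∈ Z, ¬ (s ≤ z ∧ z ≤ t)) → (s ∈ S ↔ t ∈ S) := by
  classical
  obtain ⟨W, hW⟩ := h
  refine ⟨W.biUnion (fun p => p.roots.toFinset), fun s t hst hZ => ?_⟩
  have key : ∀ p ∈ W, SignType.sign (p.eval s) = SignType.sign (p.eval t) := by
    intro p hp
    by_cases hp0 : p = 0
    · simp [hp0]
    · apply TSGlue.sign_eq_of_no_root p hst
      intro r hr1 hr2 hr0
      refine hZ r (Finset.mem_biUnion.2 ⟨p, hp, ?_⟩) ⟨hr1, hr2⟩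
      rw [Multiset.mem_toFinset, Polynomial.mem_roots hp0]
      exact hr0
  exact ⟨hW s t key, hW t s (fun p hp => (key p hp).symm)⟩

theorem SA1.exists_const_right {S : Set ℝ} (h : SA1 S) (a : ℝ) :
    ∃ b > a, ∀ s ∈ Ioo a b, ∀ t ∈ Ioo a b, (s ∈ S ↔ t ∈ S) := by
  classical
  obtain ⟨Z, hZ⟩ := h.exists_breakpoints
  obtain ⟨b, hb, hb'⟩ : ∃ b > a, ∀ z ∈ Z, a < z → b ≤ z := by
    rcases (Z.filter (a < ·)).eq_empty_or_nonempty with he | hne
    · refine ⟨a + 1, by linarith, fun z hz hlt => ?_⟩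
      have : z ∈ Z.filter (a < ·) := Finset.mem_filter.2 ⟨hz, hlt⟩
      rw [he] at this
      simp at this
    · refine ⟨(Z.filter (a < ·)).min' hne, ?_, fun z hz hlt => ?_⟩
      · exact (Finset.mem_filter.1 ((Z.filter (a < ·)).min'_mem hne)).2
      · exact Finset.min'_le _ _ (Finset.mem_filter.2 ⟨hz, hlt⟩)
  refine ⟨b, hb, ?_⟩
  have key : ∀ s ∈ Ioo a b, ∀ t ∈ Ioo a b, s ≤ t → (s ∈ S ↔ t ∈ S) := by
    intro s hs t ht hst
    apply hZ s t hst
    rintro z hz ⟨h1, h2⟩
    have := hb' z hz (hs.1.trans_le h1)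
    exact absurd (h2.trans_lt ht.2) (not_lt.2 this)
  intro s hs t ht
  rcases le_total s t with hst | hst
  · exact key s hs t ht hst
  · exact (key t ht s hs hst).symm

theorem SA1.exists_const_left {S : Set ℝ} (h : SA1 S) (b : ℝ) :
    ∃ a < b, ∀ s ∈ Ioo a b, ∀ t ∈ Ioo a b, (s ∈ S ↔ t ∈ S) := by
  classical
  obtain ⟨Z, hZ⟩ := h.exists_breakpoints
  obtain ⟨a, ha, ha'⟩ : ∃ a < b, ∀ z ∈ Z, z < b → z ≤ a := by
    rcases (Z.filter (· < b)).eq_empty_or_nonempty with he | hne
    · refine ⟨b - 1, by linarith, fun z hz hlt => ?_⟩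
      have : z ∈ Z.filter (· < b) := Finset.mem_filter.2 ⟨hz, hlt⟩
      rw [he] at this
      simp at this
    · refine ⟨(Z.filter (· < b)).max' hne, ?_, fun z hz hlt => ?_⟩
      · exact (Finset.mem_filter.1 ((Z.filter (· < b)).max'_mem hne)).2
      · exact Finset.le_max' _ _ (Finset.mem_filter.2 ⟨hz, hlt⟩)
  refine ⟨a, ha, ?_⟩
  have key : ∀ s ∈ Ioo a b, ∀ t ∈ Ioo a b, s ≤ t → (s ∈ S ↔ t ∈ S) := by
    intro s hs t ht hst
    apply hZ s t hst
    rintro z hz ⟨h1, h2⟩
    have := ha' z hz (h2.trans_lt ht.2)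
    exact absurd (hs.1.trans_le h1) (not_lt.2 this)
  intro s hs t ht
  rcases le_total s t with hst | hst
  · exact key s hs t ht hst
  · exact (key t ht s hs hst).symm

theorem SA1.exists_const_atTop {S : Set ℝ} (h : SA1 S) :
    ∃ a : ℝ, ∀ s > a, ∀ t > a, (s ∈ S ↔ t ∈ S) := by
  classical
  obtain ⟨Z, hZ⟩ := h.exists_breakpoints
  obtain ⟨a, ha⟩ : ∃ a : ℝ, ∀ z ∈ Z, z ≤ a := Z.finite_toSet.bddAbove.imp fun a ha z hz => ha hz
  refine ⟨a, ?_⟩
  have key : ∀ s > a, ∀ t > a, s ≤ t → (s ∈ S ↔ t ∈ S) := by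
    intro s hs t ht hst
    apply hZ s t hst
    rintro z hz ⟨h1, h2⟩
    exact absurd (ha z hz) (not_le.2 (lt_of_lt_of_le hs h1))
  intro s hs t ht
  rcases le_total s t with hst | hst
  · exact key s hs t ht hst
  · exact (key t ht s hs hst).symm

theorem SA1.eventually_right {S : Set ℝ} (h : SA1 S) (a : ℝ) :
    (∀ᶠ t in 𝓝[>] a, t ∈ S) ∨ (∀ᶠ t in 𝓝[>] a, t ∉ S) := by
  obtain ⟨b, hb, hab⟩ := h.exists_const_right a
  have hm : (a + b) / 2 ∈ Ioo a b := ⟨by linarith, by linarith⟩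
  by_cases hS : (a + b) / 2 ∈ S
  · left
    filter_upwards [Ioo_mem_nhdsGT hb] with t ht
    exact (hab _ hm t ht).1 hS
  · right
    filter_upwards [Ioo_mem_nhdsGT hb] with t ht hts
    exact hS ((hab t ht _ hm).1 hts)

theorem SA1.eventually_left {S : Set ℝ} (h : SA1 S) (b : ℝ) :
    (∀ᶠ t in 𝓝[<] b, t ∈ S) ∨ (∀ᶠ t in 𝓝[<] b, t ∉ S) := by
  obtain ⟨a, ha, hab⟩ := h.exists_const_left b
  have hm : (a + b) / 2 ∈ Ioo a b := ⟨by linarith, by linarith⟩
  by_cases hS : (a + b) / 2 ∈ S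
  · left
    filter_upwards [Ioo_mem_nhdsLT ha] with t ht
    exact (hab _ hm t ht).1 hS
  · right
    filter_upwards [Ioo_mem_nhdsLT ha] with t ht hts
    exact hS ((hab t ht _ hm).1 hts)

theorem SA1.eventually_atTop {S : Set ℝ} (h : SA1 S) :
    (∀ᶠ t in atTop, t ∈ S) ∨ (∀ᶠ t in atTop, t ∉ S) := by
  obtain ⟨a, ha⟩ := h.exists_const_atTop
  have hm : a + 1 > a := by linarith
  by_cases hS : a + 1 ∈ S
  · left
    filter_upwards [eventually_gt_atTop a] with t ht
    exact (ha _ hm t ht).1 hS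
  · right
    filter_upwards [eventually_gt_atTop a] with t ht hts
    exact hS ((ha t ht _ hm).1 hts)

/-- an infinite semialgebraic subset of the line contains an interval -/
theorem SA1.exists_Ioo_of_infinite {S : Set ℝ} (h : SA1 S) (hinf : S.Infinite) :
    ∃ a b, a < b ∧ Ioo a b ⊆ S := by
  classical
  obtain ⟨Z, hZ⟩ := h.exists_breakpoints
  obtain ⟨s, hs, hsZ⟩ : ∃ s ∈ S, s ∉ Z := by
    by_contra hcon
    push Not at hcon
    exact hinf (Z.finite_toSet.subset hcon)
  -- a neighbourhood of s disjoint from Z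
  have hopen : IsOpen ((Z : Set ℝ)ᶜ) := Z.finite_toSet.isClosed.isOpen_compl
  obtain ⟨δ, hδ, hball⟩ := Metric.isOpen_iff.1 hopen s hsZ
  refine ⟨s - δ, s + δ, by linarith, fun t ht => ?_⟩
  have hno : ∀ z ∈ Z, ¬ (|z - s| < δ) := by
    intro z hz hlt
    exact hball (Metric.mem_ball.2 (by rwa [Real.dist_eq])) hz
  rcases le_total s t with hst | hst
  · refine (hZ s t hst ?_).1 hs
    rintro z hz ⟨h1, h2⟩
    exact hno z hz (by rw [abs_of_nonneg (by linarith)]; linarith [ht.2])
  · refine (hZ t s hst ?_).2 hs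
    rintro z hz ⟨h1, h2⟩
    exact hno z hz (by rw [abs_of_nonpos (by linarith)]; linarith [ht.1])

/-- existence of limits in `[-∞, ∞]` from the eventual dichotomy -/
theorem exists_tendsto_ereal {α : Type*} {l : Filter α} (g : α → EReal)
    (h : ∀ c : ℝ, (∀ᶠ t in l, (c : EReal) < g t) ∨ (∀ᶠ t in l, ¬ (c : EReal) < g t)) :
    ∃ L : EReal, Tendsto g l (𝓝 L) := by
  set A : Set EReal := {c | ∀ᶠ t in l, c < g t} with hA
  refine ⟨sSup A, ?_⟩
  rw [tendsto_order]
  constructor
  · intro c hc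
    obtain ⟨c', hc', hlt⟩ := lt_sSup_iff.1 hc
    filter_upwards [hc'] with t ht
    exact hlt.trans ht
  · intro c hc
    obtain ⟨r, hr1, hr2⟩ := EReal.lt_iff_exists_real_btwn.1 hc
    rcases h r with h1 | h1
    · exact absurd (le_sSup (show (r : EReal) ∈ A from h1)) (not_le.2 hr1)
    · filter_upwards [h1] with t ht
      exact (not_lt.1 ht).trans_lt hr2

/-- a bounded function with the eventual dichotomy has a limit -/
theorem exists_tendsto_real {α : Type*} {l : Filter α} [l.NeBot] (g : α → ℝ) {M : ℝ}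
    (hM : ∀ᶠ t in l, |g t| ≤ M)
    (h : ∀ c : ℝ, (∀ᶠ t in l, c < g t) ∨ (∀ᶠ t in l, ¬ c < g t)) :
    ∃ L : ℝ, Tendsto g l (𝓝 L) ∧ |L| ≤ M := by
  obtain ⟨L, hL⟩ := exists_tendsto_ereal (fun t => (g t : EReal)) (l := l) (fun c => by
    simpa only [EReal.coe_lt_coe_iff] using h c)
  have h1 : L ≤ (M : EReal) := le_of_tendsto hL (by
    filter_upwards [hM] with t ht
    exact EReal.coe_le_coe_iff.2 ((le_abs_self _).trans ht))
  have h2 : ((-M : ℝ) : EReal) ≤ L := ge_of_tendsto hL (by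
    filter_upwards [hM] with t ht
    exact EReal.coe_le_coe_iff.2 (neg_le_of_abs_le ht))
  have h3 : L ≠ ⊤ := fun h => by
    rw [h] at h1
    exact absurd h1 (not_le.2 (EReal.coe_lt_top M))
  have h4 : L ≠ ⊥ := fun h => by
    rw [h] at h2
    exact absurd h2 (not_le.2 (EReal.bot_lt_coe (-M)))
  lift L to ℝ using ⟨h3, h4⟩
  refine ⟨L, EReal.tendsto_coe.1 hL, ?_⟩
  rw [abs_le]
  exact ⟨EReal.coe_le_coe_iff.1 h2, EReal.coe_le_coe_iff.1 h1⟩

/-! ## functions of a parameter and a real variable -/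

section curried

variable {F : (ι → ℝ) → ℝ → ℝ}

/-- `F x t` semialgebraic in `(x, t)`: dichotomy at each side for each condition -/
theorem SAFun.dichotomy_right
    (hF : SAFun (fun z : Option ι → ℝ => F (fun i => z (some i)) (z none))) (x : ι → ℝ) (a c : ℝ) :
    (∀ᶠ t in 𝓝[>] a, c < F x t) ∨ (∀ᶠ t in 𝓝[>] a, ¬ c < F x t) := by
  have h := SA.lt_fun (SAFun.const (ι := Option ι) c) hF
  exact (SA.fibre (P := fun x t => c < F x t) h x).eventually_right a

theorem SAFun.exists_tendsto_ereal_right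
    (hF : SAFun (fun z : Option ι → ℝ => F (fun i => z (some i)) (z none))) (x : ι → ℝ) (a : ℝ) :
    ∃ L : EReal, Tendsto (fun t => (F x t : EReal)) (𝓝[>] a) (𝓝 L) :=
  exists_tendsto_ereal _ (fun c => by
    simpa only [EReal.coe_lt_coe_iff] using SAFun.dichotomy_right hF x a c)

theorem SAFun.exists_tendsto_right
    (hF : SAFun (fun z : Option ι → ℝ => F (fun i => z (some i)) (z none))) (x : ι → ℝ) (a : ℝ)
    {M : ℝ} (hM : ∀ᶠ t in 𝓝[>] a, |F x t| ≤ M) :
    ∃ L : ℝ, Tendsto (fun t => F x t) (𝓝[>] a) (𝓝 L) ∧ |L| ≤ M :=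
  exists_tendsto_real _ hM (SAFun.dichotomy_right hF x a)

end curried

/-! ## eventual quantifiers with parameters -/

/-- rewriting tool -/
theorem SA.of_setOf_iff {P Q : (ι → ℝ) → Prop} (h : SA {x | P x}) (hPQ : ∀ x, P x ↔ Q x) :
    SA {x | Q x} := by
  have : {x | Q x} = {x | P x} := by
    ext x; exact (hPQ x).symm
  rw [this]; exact h

theorem SA.eventually_right {P : (ι → ℝ) → ℝ → Prop}
    (h : SA {z : Option ι → ℝ | P (fun i => z (some i)) (z none)}) {g : (ι → ℝ) → ℝ}
    (hg : SAFun g) : SA {x : ι → ℝ | ∀ᶠ t in 𝓝[>] (g x), P x t} := by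
  have h1 : SA {x : ι → ℝ | ∃ b : ℝ, g x < b ∧ ∀ t : ℝ, g x < t → t < b → P x t} := by
    apply SA.exists_real (P := fun x b => g x < b ∧ ∀ t : ℝ, g x < t → t < b → P x t)
    apply SA.and
    · exact SA.lt_fun (hg.reindex some) (SAFun.coord none)
    · apply SA.forall_real (P := fun (z : Option ι → ℝ) t => g (fun i => z (some i)) < t →
        t < z none → P (fun i => z (some i)) t)
      apply SA.imp
      · exact SA.lt_fun ((hg.reindex some).reindex some) (SAFun.coord none)
      · apply SA.imp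
        · exact SA.lt_fun (SAFun.coord none) (SAFun.coord (some none))
        · exact h.reindex (fun o : Option ι => o.map some)
  refine h1.of_setOf_iff fun x => ?_
  rw [eventually_nhdsWithin_iff, ]
  constructor
  · rintro ⟨b, hb, hbP⟩
    rw [← eventually_nhdsWithin_iff]
    filter_upwards [Ioo_mem_nhdsGT hb] with t ht
    exact hbP t ht.1 ht.2
  · intro h2
    rw [← eventually_nhdsWithin_iff] at h2
    obtain ⟨b, hb, hbP⟩ := (mem_nhdsGT_iff_exists_Ioo_subset).1 h2
    exact ⟨b, hb, fun t h3 h4 => hbP ⟨h3, h4⟩⟩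

theorem SA.eventually_atTop {P : (ι → ℝ) → ℝ → Prop}
    (h : SA {z : Option ι → ℝ | P (fun i => z (some i)) (z none)}) :
    SA {x : ι → ℝ | ∀ᶠ t in atTop, P x t} := by
  have h1 : SA {x : ι → ℝ | ∃ b : ℝ, ∀ t : ℝ, b ≤ t → P x t} := by
    apply SA.exists_real (P := fun x b => ∀ t : ℝ, b ≤ t → P x t)
    apply SA.forall_real (P := fun (z : Option ι → ℝ) t => z none ≤ t →
        P (fun i => z (some i)) t)
    apply SA.imp
    · exact SA.le_fun (SAFun.coord (some none)) (SAFun.coord none)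
    · exact h.reindex (fun o : Option ι => o.map some)
  refine h1.of_setOf_iff fun x => ?_
  rw [Filter.eventually_atTop]

theorem eventually_nhds_pi_iff [Fintype κ] {y₀ : κ → ℝ} {P : (κ → ℝ) → Prop} :
    (∀ᶠ y in 𝓝 y₀, P y) ↔ ∃ δ : ℝ, 0 < δ ∧ ∀ y : κ → ℝ, (∀ k, |y k - y₀ k| < δ) → P y := by
  rw [Metric.eventually_nhds_iff]
  constructor
  · rintro ⟨δ, hδ, h⟩
    refine ⟨δ, hδ, fun y hy => h ?_⟩
    rw [dist_pi_lt_iff hδ]
    intro k
    rw [Real.dist_eq]
    exact hy k
  · rintro ⟨δ, hδ, h⟩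
    refine ⟨δ, hδ, fun y hy => h y fun k => ?_⟩
    rw [dist_pi_lt_iff hδ] at hy
    have := hy k
    rwa [Real.dist_eq] at this

theorem SA.eventually_nhds [Finite κ] {P : (ι → ℝ) → (κ → ℝ) → Prop}
    (h : SA {z : ι ⊕ κ → ℝ | P (fun i => z (Sum.inl i)) (fun k => z (Sum.inr k))})
    {g : κ → (ι → ℝ) → ℝ} (hg : ∀ k, SAFun (g k)) :
    SA {x : ι → ℝ | ∀ᶠ y in 𝓝 (fun k => g k x), P x y} := by
  have := Fintype.ofFinite κ
  have h1 : SA {x : ι → ℝ | ∃ δ : ℝ, 0 < δ ∧ ∀ y : κ → ℝ, (∀ k, |y k - g k x| < δ) → P x y} := by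
    apply SA.exists_real (P := fun x δ => 0 < δ ∧ ∀ y : κ → ℝ, (∀ k, |y k - g k x| < δ) → P x y)
    apply SA.and
    · exact SA.lt_fun (SAFun.const 0) (SAFun.coord none)
    · apply SA.forall_fun (P := fun (z : Option ι → ℝ) (y : κ → ℝ) =>
        (∀ k, |y k - g k (fun i => z (some i))| < z none) → P (fun i => z (some i)) y)
      apply SA.imp
      · apply SA.forall_finite
        intro k
        exact SA.lt_fun (((SAFun.coord (Sum.inr k)).sub
          (((hg k).reindex some).reindex Sum.inl)).abs) (SAFun.coord (Sum.inl none))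
      · exact h.reindex (fun s : ι ⊕ κ => s.elim (fun i => Sum.inl (some i)) Sum.inr)
  refine h1.of_setOf_iff fun x => ?_
  rw [eventually_nhds_pi_iff]

theorem SA.interior [Finite ι] {s : Set (ι → ℝ)} (hs : SA s) : SA (interior s) := by
  have h : SA {x : ι → ℝ | ∀ᶠ y in 𝓝 (fun i => x i), y ∈ s} :=
    SA.eventually_nhds (P := fun _ y => y ∈ s) (hs.reindex Sum.inr) (g := fun i x => x i)
      (fun i => SAFun.coord i)
  convert h using 1
  ext x
  rw [mem_interior_iff_mem_nhds]
  rfl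

theorem SA.closure [Finite ι] {s : Set (ι → ℝ)} (hs : SA s) : SA (closure s) := by
  have := hs.compl.interior.compl
  rwa [interior_compl, compl_compl] at this

theorem SA.frontier [Finite ι] {s : Set (ι → ℝ)} (hs : SA s) : SA (frontier s) :=
  hs.closure.diff hs.interior

/-! ## limits with parameters -/

theorem SA.tendsto_right {F : (ι → ℝ) → ℝ → ℝ}
    (hF : SAFun (fun z : Option ι → ℝ => F (fun i => z (some i)) (z none)))
    {g L : (ι → ℝ) → ℝ} (hg : SAFun g) (hL : SAFun L) :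
    SA {x : ι → ℝ | Tendsto (fun t => F x t) (𝓝[>] (g x)) (𝓝 (L x))} := by
  have h1 : SA {x : ι → ℝ | ∀ ε : ℝ, 0 < ε → ∀ᶠ t in 𝓝[>] (g x), |F x t - L x| < ε} := by
    apply SA.forall_real (P := fun x ε => 0 < ε → ∀ᶠ t in 𝓝[>] (g x), |F x t - L x| < ε)
    apply SA.imp
    · exact SA.lt_fun (SAFun.const 0) (SAFun.coord none)
    · apply SA.eventually_right (P := fun (z : Option ι → ℝ) t =>
        |F (fun i => z (some i)) t - L (fun i => z (some i))| < z none)
      · exact SA.lt_fun ((SAFun.sub (hF.reindex (fun o : Option ι => o.map some))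
          ((hL.reindex some).reindex some)).abs) (SAFun.coord (some none))
      · exact hg.reindex some
  refine h1.of_setOf_iff fun x => ?_
  rw [Metric.tendsto_nhds]
  simp only [Real.dist_eq, gt_iff_lt]

/-- the limit function of a semialgebraic function is semialgebraic -/
theorem SAFun.lim_right {F : (ι → ℝ) → ℝ → ℝ}
    (hF : SAFun (fun z : Option ι → ℝ => F (fun i => z (some i)) (z none)))
    {g L : (ι → ℝ) → ℝ} (hg : SAFun g)
    (hL : ∀ x, Tendsto (fun t => F x t) (𝓝[>] (g x)) (𝓝 (L x))) : SAFun L := by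
  have h := SA.tendsto_right (ι := Option ι) (F := fun z t => F (fun i => z (some i)) t)
    (g := fun z => g (fun i => z (some i))) (L := fun z => z none)
    (hF.reindex (fun o : Option ι => o.map some)) (hg.reindex some) (SAFun.coord none)
  unfold SAFun SAFunOn
  refine h.of_setOf_iff fun z => ?_
  constructor
  · intro h1
    exact ⟨mem_univ _, tendsto_nhds_unique h1 (hL _)⟩
  · rintro ⟨_, h1⟩
    rw [h1]
    exact hL _

/-- the limit function of a semialgebraic function over a semialgebraic domain -/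
theorem SAFunOn.lim_right {F : (ι → ℝ) → ℝ → ℝ}
    (hF : SAFun (fun z : Option ι → ℝ => F (fun i => z (some i)) (z none)))
    {g L : (ι → ℝ) → ℝ} (hg : SAFun g) {W : Set (ι → ℝ)} (hW : SA W)
    (hL : ∀ x ∈ W, Tendsto (fun t => F x t) (𝓝[>] (g x)) (𝓝 (L x))) : SAFunOn L W := by
  have h := SA.tendsto_right (ι := Option ι) (F := fun z t => F (fun i => z (some i)) t)
    (g := fun z => g (fun i => z (some i))) (L := fun z => z none)
    (hF.reindex (fun o : Option ι => o.map some)) (hg.reindex some) (SAFun.coord none)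
  have h2 := SA.and (hW.reindex (some : ι → Option ι)) h
  unfold SAFunOn
  refine h2.of_setOf_iff fun z => ?_
  constructor
  · rintro ⟨h0, h1⟩
    exact ⟨h0, tendsto_nhds_unique h1 (hL _ h0)⟩
  · rintro ⟨h0, h1⟩
    refine ⟨h0, ?_⟩
    rw [h1]
    exact hL _ h0

/-! ## suprema and infima -/

theorem SA.isLUB_fun {P : (ι → ℝ) → ℝ → Prop}
    (h : SA {z : Option ι → ℝ | P (fun i => z (some i)) (z none)}) {g : (ι → ℝ) → ℝ}
    (hg : SAFun g) : SA {x : ι → ℝ | IsLUB {t | P x t} (g x)} := by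
  have ub : SA {z : Option ι → ℝ | ∀ t : ℝ, P (fun i => z (some i)) t → t ≤ z none} := by
    apply SA.forall_real (P := fun (z : Option ι → ℝ) t => P (fun i => z (some i)) t → t ≤ z none)
    apply SA.imp
    · exact h.reindex (fun o : Option ι => o.map some)
    · exact SA.le_fun (SAFun.coord none) (SAFun.coord (some none))
  have h1 : SA {x : ι → ℝ | (∀ t, P x t → t ≤ g x) ∧
      ∀ b : ℝ, (∀ t, P x t → t ≤ b) → g x ≤ b} := by
    apply SA.and
    · apply SA.forall_real (P := fun (x : ι → ℝ) t => P x t → t ≤ g x)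
      exact SA.imp h (SA.le_fun (SAFun.coord none) (hg.reindex some))
    · apply SA.forall_real (P := fun (x : ι → ℝ) b => (∀ t, P x t → t ≤ b) → g x ≤ b)
      exact SA.imp ub (SA.le_fun (hg.reindex some) (SAFun.coord none))
  refine h1.of_setOf_iff fun x => ?_
  rfl

theorem SAFun.sSup {P : (ι → ℝ) → ℝ → Prop}
    (h : SA {z : Option ι → ℝ | P (fun i => z (some i)) (z none)}) :
    SAFun (fun x : ι → ℝ => sSup {t | P x t}) := by
  have hne : SA {x : ι → ℝ | ∃ t, P x t} := SA.exists_real h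
  have hbd : SA {x : ι → ℝ | ∃ b : ℝ, ∀ t, P x t → t ≤ b} := by
    apply SA.exists_real (P := fun (x : ι → ℝ) b => ∀ t, P x t → t ≤ b)
    apply SA.forall_real (P := fun (z : Option ι → ℝ) t => P (fun i => z (some i)) t → t ≤ z none)
    exact SA.imp (h.reindex (fun o : Option ι => o.map some))
      (SA.le_fun (SAFun.coord none) (SAFun.coord (some none)))
  have hlub : SA {z : Option ι → ℝ | IsLUB {t | P (fun i => z (some i)) t} (z none)} :=
    SA.isLUB_fun (ι := Option ι) (P := fun z t => P (fun i => z (some i)) t)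
      (h.reindex (fun o : Option ι => o.map some)) (SAFun.coord none)
  have hD : SA {z : Option ι → ℝ | (∃ t, P (fun i => z (some i)) t) ∧
      ∃ b : ℝ, ∀ t, P (fun i => z (some i)) t → t ≤ b} :=
    SA.and (hne.reindex some) (hbd.reindex some)
  have h2 := (hD.and hlub).or (hD.not.and (by
    simpa using SA.eq_zero (ι := Option ι) (MvPolynomial.X none)))
  unfold SAFun SAFunOn
  refine h2.of_setOf_iff fun z => ?_
  constructor
  · rintro (⟨⟨hne', _⟩, h3⟩ | ⟨h3, h4⟩)
    · refine ⟨mem_univ _, ?_⟩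
      exact (h3.csSup_eq hne').symm
    · refine ⟨mem_univ _, ?_⟩
      have h5 : z none = 0 := h4
      rw [h5]
      symm
      change SupSet.sSup {t | P (fun i => z (some i)) t} = 0
      by_cases hne' : ∃ t, P (fun i => z (some i)) t
      · apply Real.sSup_of_not_bddAbove
        rintro ⟨b, hb⟩
        exact h3 ⟨hne', b, fun t ht => hb ht⟩
      · have : {t | P (fun i => z (some i)) t} = ∅ := by
          rw [Set.eq_empty_iff_forall_notMem]
          exact fun t ht => hne' ⟨t, ht⟩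
        rw [this, Real.sSup_empty]
  · rintro ⟨_, h3⟩
    by_cases hcase : (∃ t, P (fun i => z (some i)) t) ∧
      ∃ b : ℝ, ∀ t, P (fun i => z (some i)) t → t ≤ b
    · left
      refine ⟨hcase, ?_⟩
      rw [h3]
      exact Real.isLUB_sSup hcase.1 (hcase.2.imp fun b hb t ht => hb t ht)
    · right
      refine ⟨hcase, ?_⟩
      rw [h3]
      change SupSet.sSup {t | P (fun i => z (some i)) t} = 0
      by_cases hne' : ∃ t, P (fun i => z (some i)) t
      · apply Real.sSup_of_not_bddAbove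
        rintro ⟨b, hb⟩
        exact hcase ⟨hne', b, fun t ht => hb ht⟩
      · have : {t | P (fun i => z (some i)) t} = ∅ := by
          rw [Set.eq_empty_iff_forall_notMem]
          exact fun t ht => hne' ⟨t, ht⟩
        rw [this, Real.sSup_empty]

theorem SAFun.sInf {P : (ι → ℝ) → ℝ → Prop}
    (h : SA {z : Option ι → ℝ | P (fun i => z (some i)) (z none)}) :
    SAFun (fun x : ι → ℝ => sInf {t | P x t}) := by
  have h1 : SA {z : Option ι → ℝ | P (fun i => z (some i)) (-(z none))} := by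
    have h0 := SA.preimage (ι := Option ι) (κ := Option ι) h
      (fun o => o.elim (-MvPolynomial.X none) (fun i => MvPolynomial.X (some i)))
    refine h0.of_setOf_iff fun z => ?_
    simp
  have h2 := (SAFun.sSup (P := fun x t => P x (-t)) h1).neg
  convert h2 using 2 with x
  rw [Real.sInf_def]
  congr 2

end Crest.Agent.R264.TS
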