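import Crest.Agent.R264.ThmDK
import Crest.Agent.R264.KMain

/-!
Row 264 (S0402), Part D: **Theorem D** (helper744; inputs: 310, 375, 587, 792, 938, 469, 868, 851,
551, 399, 420, 415 and 744).
-/

set_option autoImplicit false

namespace Crest.Agent.R264

/-- **THEOREM D.** -/
theorem thmD : ThmD :=
  thmD_of_lemmaK K.lemmaK

end Crest.Agent.R264
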