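import Crest.Agent.R264.GD3
import Crest.Agent.R264.AbI6
import Crest.Agent.R264.DAFin
import Crest.Agent.R264.D8Fin
import Crest.Agent.R264.Berg4

/-!
Row 264 (S0402), Part D: Theorem D from Lemma K (node D6) (helper744).
-/

set_option autoImplicit false

namespace Crest.Agent.R264

/-- **THEOREM D** from Lemma K. -/
theorem thmD_of_lemmaK (hK : ∀ n, K.LemmaK n) : ThmD :=
  thmD_of' d3Stmt (AbI.d7_of Berg.berg hK) dAlg

end Crest.Agent.R264
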