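import Crest.Agent.R264.TopAlg
import Crest.Agent.R264.CPDefs

/-!
Row 264 (S0402): final assembly (helper369):  `Part0A → ThmAA → PropC → ThmD → S0402`.
-/

set_option autoImplicit false

open Topology Filter Set

namespace Crest.Agent.R264

open Crest.AlgGeometry.Semialg

/-- THEOREM A (+ B) with the algebraic data of Part 0 as input. -/
def ThmAA : Prop :=
  ∀ (N : ℕ) (U : Set (Fin N → ℂ)) (Γ : Subgroup (Equiv.Perm U)), Setup N U Γ →
    ∀ V O : Set (Fin N → ℂ), IsAlgebraicSet V → IsOpen O → U = O ∩ V →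
    ∀ n : ℕ, 0 < n → IsSubmfd n U → AlgData n V U → Nonempty (PeakData U n)

/-- THEOREM C (pointwise in the peak data). -/
def PropC : Prop :=
  ∀ (N : ℕ) (U : Set (Fin N → ℂ)) (Γ : Subgroup (Equiv.Perm U)), Setup N U Γ →
    ∀ n : ℕ, 0 < n → IsSubmfd n U → PeakData U n →
    ∃ (D : Set (Fin n → ℂ)) (Ψ : U → (Fin n → ℂ)) (Θ : (Fin n → ℂ) → (Fin N → ℂ)),
      IsOpen D ∧ Bornology.IsBounded D ∧ Biholo U D Ψ Θ ∧ Spans D

theorem partABCA_of (hA : ThmAA) (hC : PropC) : PartABCA := by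
  intro N U Γ hS V O hV hO hUO n hn hU A
  obtain ⟨P⟩ := hA N U Γ hS V O hV hO hUO n hn hU A
  exact hC N U Γ hS n hn hU P

/-- S0402 from the four nodes. -/
theorem s0402_of (h0 : Part0A) (hA : ThmAA) (hC : PropC) (hD : ThmD)
    (N : ℕ) (V U : Set (Fin N → ℂ)) (hV : IsAlgebraicSet V)
    (hUV : ∃ O : Set (Fin N → ℂ), IsOpen O ∧ U = O ∩ V)
    (hconn : IsConnected U) (hsa : IsSemialgebraic U)
    (hbd : Bornology.IsBounded U) (Γ : Subgroup (Equiv.Perm U))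
    (hΓ : ∀ γ ∈ Γ, IsHolomorphicMap U (fun y : U => ((γ y : U) : Fin N → ℂ)))
    (hpd : ProperlyDiscontinuousSMul Γ U)
    (hcpt : CompactSpace (Quotient (MulAction.orbitRel Γ U))) :
    ∃ (m : ℕ) (D : Set (Fin m → ℂ)), IsBoundedSymmetricDomain D ∧
      ∃ (Ψ : U → (Fin m → ℂ)) (Θ : (Fin m → ℂ) → (Fin N → ℂ)),
        IsHolomorphicMap U Ψ ∧ DifferentiableOn ℂ Θ D ∧
        (∀ y : U, Ψ y ∈ D ∧ Θ (Ψ y) = (y : Fin N → ℂ)) ∧
        (∀ z ∈ D, ∃ y : U, (y : Fin N → ℂ) = Θ z ∧ Ψ y = z) :=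
  mainA_of h0 (partABCA_of hA hC) hD N V U hV hUV hconn hsa hbd Γ hΓ hpd hcpt

end Crest.Agent.R264
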